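import Crest.Agent.CHR.CHcl

/-!
# MODULE M3 (row 316): contexts

A function `F : W → ℕ → ℕ` is used in the form `CHN (fun z => F (fstB z) (val (sndB z)))`.
-/

set_option autoImplicit false

namespace Crest.Agent.CHR

open Crest.Complexity Crest.CountHier

@[simp] theorem fstB_pn (w : W) (i : ℕ) : fstB (pn w i) = w := by simp [pn]

@[simp] theorem sndB_pn (w : W) (i : ℕ) : sndB (pn w i) = Nat.bits i := by simp [pn]

/-- a CHN function of the first component -/
theorem CHN.fst {u : W → ℕ} (h : CHN u) : CHN (fun z => u (fstB z)) := h.comp CHF.fst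

theorem CHF.fstc {u : W → W} (h : CHF u) : CHF (fun z => u (fstB z)) := h.comp CHF.fst

theorem CHP.fst {u : W → Prop} (h : CHP u) : CHP (fun z => u (fstB z)) := h.comp CHF.fst

/-- the last variable -/
theorem CHN.var : CHN (fun z => val (sndB z)) := CHN.ofVal CHF.snd

theorem CHN.app2 {F : W → ℕ → ℕ} (hF : CHN (fun z => F (fstB z) (val (sndB z))))
    {f : W → W} {g : W → ℕ} (hf : CHF f) (hg : CHN g) : CHN (fun w => F (f w) (g w)) :=
  (hF.comp (CHF.pn hf hg)).congr (fun w => by simp)

theorem CHP.app2 {P : W → ℕ → Prop} (hP : CHP (fun z => P (fstB z) (val (sndB z))))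
    {f : W → W} {g : W → ℕ} (hf : CHF f) (hg : CHN g) : CHP (fun w => P (f w) (g w)) :=
  (hP.comp (CHF.pn hf hg)).congr (fun w => by simp)

theorem CHN.sum2 {N : W → ℕ} {F : W → ℕ → ℕ} (hN : CHN N)
    (hF : CHN (fun z => F (fstB z) (val (sndB z)))) :
    CHN (fun w => ∑ i ∈ Finset.range (N w), F w i) :=
  (CHN.sum hN hF).congr (fun w => by simp)

open Classical in
theorem CHN.card2 {N : W → ℕ} {P : W → ℕ → Prop} (hN : CHN N)
    (hP : CHP (fun z => P (fstB z) (val (sndB z)))) :
    CHN (fun w => ((Finset.range (N w)).filter (fun i => P w i)).card) :=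
  (CHN.card hN hP).congr (fun w => by simp)

theorem CHP.exN2 {N : W → ℕ} {P : W → ℕ → Prop} (hN : CHN N)
    (hP : CHP (fun z => P (fstB z) (val (sndB z)))) : CHP (fun w => ∃ i < N w, P w i) :=
  (CHP.exN hN hP).congr (fun w => by simp)

theorem CHP.allN2 {N : W → ℕ} {P : W → ℕ → Prop} (hN : CHN N)
    (hP : CHP (fun z => P (fstB z) (val (sndB z)))) : CHP (fun w => ∀ i < N w, P w i) :=
  (CHP.allN hN hP).congr (fun w => by simp)

open Classical in
theorem CHN.find2 {N : W → ℕ} {P : W → ℕ → Prop} (hN : CHN N)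
    (hP : CHP (fun z => P (fstB z) (val (sndB z)))) :
    CHN (fun w => if h : ∃ i, i < N w ∧ P w i then Nat.find h else N w) := by
  refine (CHN.find hN hP).congr (fun w => ?_)
  by_cases h : ∃ i, i < N w ∧ P w i
  · have h' : ∃ i, i < N w ∧ P (fstB (pn w i)) (val (sndB (pn w i))) := by simpa using h
    rw [dif_pos h, dif_pos h']
    refine (Nat.find_eq_iff h').2 ⟨?_, ?_⟩
    · simpa using Nat.find_spec h
    · intro n hn
      simpa using Nat.find_min h hn
  · have h' : ¬ ∃ i, i < N w ∧ P (fstB (pn w i)) (val (sndB (pn w i))) := by simpa using h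
    rw [dif_neg h, dif_neg h']

/-- `CHN.ite` with any decidability instance -/
theorem CHN.iteD {p : W → Prop} [∀ w, Decidable (p w)] {f g : W → ℕ} (hp : CHP p) (hf : CHN f)
    (hg : CHN g) : CHN (fun w => if p w then f w else g w) := by
  refine (CHN.ite hp hf hg).congr (fun w => ?_)
  by_cases h : p w <;> simp [h]

/-- `CHN.card2` with any decidability instance -/
theorem CHN.cardD {N : W → ℕ} {P : W → ℕ → Prop} [∀ w i, Decidable (P w i)] (hN : CHN N)
    (hP : CHP (fun z => P (fstB z) (val (sndB z)))) :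
    CHN (fun w => ((Finset.range (N w)).filter (fun i => P w i)).card) := by
  refine (CHN.card2 hN hP).congr (fun w => ?_)
  congr

/-- `CHN.find2` with any decidability instance -/
theorem CHN.findD {N : W → ℕ} {P : W → ℕ → Prop} [∀ w, DecidablePred (fun i => i < N w ∧ P w i)]
    [∀ w, Decidable (∃ i, i < N w ∧ P w i)] (hN : CHN N)
    (hP : CHP (fun z => P (fstB z) (val (sndB z)))) :
    CHN (fun w => if h : ∃ i, i < N w ∧ P w i then Nat.find h else N w) := by
  refine (CHN.find2 hN hP).congr (fun w => ?_)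
  by_cases h : ∃ i, i < N w ∧ P w i
  · rw [dif_pos h, dif_pos h]
    congr
  · rw [dif_neg h, dif_neg h]

theorem CHN.min {f g : W → ℕ} (hf : CHN f) (hg : CHN g) : CHN (fun w => Min.min (f w) (g w)) := by
  refine (CHN.iteD (CHN.le hf hg) hf hg).congr (fun w => ?_)
  split_ifs with h
  · exact (min_eq_left h).symm
  · exact (min_eq_right (not_le.1 h).le).symm

/-- three-variable substitution -/
theorem CHN.app3 {F : W → ℕ → ℕ → ℕ}
    (hF : CHN (fun z => F (fstB (fstB z)) (val (sndB (fstB z))) (val (sndB z))))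
    {f : W → W} {g h : W → ℕ} (hf : CHF f) (hg : CHN g) (hh : CHN h) :
    CHN (fun w => F (f w) (g w) (h w)) :=
  (hF.comp (CHF.pn (CHF.pn hf hg) hh)).congr (fun w => by simp)

/-! ## lengths and polynomials -/

theorem pmono (p : Polynomial ℕ) {a b : ℕ} (h : a ≤ b) : p.eval a ≤ p.eval b := by
  rw [Polynomial.eval_eq_sum, Polynomial.eval_eq_sum]
  exact Finset.sum_le_sum fun i _ => Nat.mul_le_mul_left _ (Nat.pow_le_pow_left h i)

theorem len_unpairB (z : W) :
    (unpairB z).1.length ≤ z.length ∧ (unpairB z).2.length ≤ z.length := by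
  induction z using unpairB.induct with
  | case1 b l ih =>
    simp only [unpairB, List.length_cons]
    omega
  | case2 l => simp [unpairB]
  | case3 l h1 h2 =>
    have : unpairB l = ([], []) := by
      rcases l with _ | ⟨b, _ | ⟨c, l⟩⟩
      · rfl
      · cases b with
        | true => rfl
        | false => exact absurd rfl (h2 [])
      · cases b with
        | true => exact absurd rfl (h1 c l)
        | false => exact absurd rfl (h2 (c :: l))
    rw [this]
    simp

theorem len_fstB_le (z : W) : (fstB z).length ≤ z.length := (len_unpairB z).1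

theorem len_sndB_le (z : W) : (sndB z).length ≤ z.length := (len_unpairB z).2

/-- value modulo `p` of an integer, as a natural number -/
def zmodN (F : ℤ) (p : ℕ) : ℕ := (F % (p : ℤ)).toNat

/-! ## powers of two with small exponents -/

/-- unary notation of a polynomially bounded CHN number -/
theorem CHF.replicate {n : W → ℕ} (hn : CHN n) (q : Polynomial ℕ)
    (hq : ∀ w, n w ≤ q.eval w.length) : CHF (fun w => List.replicate (n w) true) := by
  refine ⟨⟨q, fun w => by simpa using hq w⟩, ?_⟩
  have h1 : CHP (fun z => sndB z = List.replicate (sndB z).length true) := by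
    have := CHP.eqF CHF.snd (CHF.ofPT (PT.unary PT.snd Polynomial.X))
    simpa using this
  have h2 : CHP (fun z => n (fstB z) = (sndB z).length) := CHN.eq hn.fst (CHN.len.comp CHF.snd)
  refine (h1.and h2).congr (fun z => ?_)
  constructor
  · rintro ⟨e1, e2⟩
    show List.replicate (n (fstB z)) true = sndB z
    rw [e2, ← e1]
  · intro e
    have e' : List.replicate (n (fstB z)) true = sndB z := e
    have e2 : n (fstB z) = (sndB z).length := by rw [← e']; simp
    exact ⟨by rw [← e2, e'], e2⟩

theorem CHN.twoPowN {n : W → ℕ} (hn : CHN n) (q : Polynomial ℕ)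
    (hq : ∀ w, n w ≤ q.eval w.length) : CHN (fun w => 2 ^ n w) :=
  (CHN.twoPow (CHF.replicate hn q hq) Polynomial.X).congr (fun w => by simp)

end Crest.Agent.CHR
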