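import Mathlib

/-!
# MODULE M3 (row 316): the sign from the residues (pure number theory)
Chunk R316-ArCRT.
-/

set_option autoImplicit false

namespace Crest.Agent.CHR

/-- PROOF.  Let `M = ∏_{p∈P} p`, `M_p = ∏_{q ∈ P.erase p} q`, `M = p M_p`.
(1) For each `q ∈ P`: `∑_p a_p M_p ≡ a_q M_q ≡ G [ZMOD q]` (`q ∣ M_p` for `p ≠ q`), so (coprime primes,
`Finset.prod_dvd_of_coprime` or `Finset.prod_primes_dvd`) `∑_p a_p M_p = G + k M` for an integer `k`.
(2) `b_p = 2^K a_p / p`, `r_p = 2^K a_p % p < p`: `M b_p = M_p (2^K a_p - r_p)`; sum: `M S = 2^K (G + k M) - E` with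
`0 ≤ E = ∑ M_p r_p ≤ M |P|` (and `< M |P|`, or `E = 0`, if `P = ∅`), so `S' = S - 2^K k` satisfies `M S' = 2^K G - E`.
(3) `G > 0`: `2^K G ≥ 2^K ≥ M 2^t`, so `S' > 0` or `S' ≥ 0`; `M S' ≤ 2^K G ≤ 2^K M / 4`, so `S' < 2^(K-1)`; `S mod 2^K = S'`, its bit `K-1` is `0`.
`G < 0`: `-M S' = 2^K |G| + E ≤ 2^K M/4 + M 2^t`, `-S' > 0`, `-S' ≤ 2^(K-2) + 2^t ≤ 2^(K-1)` (from `h2`, `M ≥ 4`: `2^(t+2) ≤ 2^K`);
`S mod 2^K = 2^K + S' ∈ [2^(K-1), 2^K)`, its bit `K-1` is `1`. -/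
theorem crt_sign (P : Finset ℕ) (hP : ∀ p ∈ P, p.Prime) (t K : ℕ) (hPt : P.card ≤ 2 ^ t) (G : ℤ)
    (a : ℕ → ℕ) (hG : G ≠ 0) (h1 : 4 * |G| ≤ ∏ p ∈ P, (p : ℤ)) (h2 : (∏ p ∈ P, p) * 2 ^ t ≤ 2 ^ K)
    (ha : ∀ p ∈ P, a p < p)
    (ha' : ∀ p ∈ P, ((a p * ∏ q ∈ P.erase p, q : ℕ) : ℤ) ≡ G [ZMOD p]) :
    0 < G ↔ (∑ p ∈ P, 2 ^ K * a p / p).testBit (K - 1) = false := by
  classical
  set M : ℤ := ∏ p ∈ P, (p : ℤ) with hM
  have hMcast : ((∏ p ∈ P, p : ℕ) : ℤ) = M := by rw [hM]; push_cast; rfl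
  have hmul : ∀ p ∈ P, ((p : ℕ) : ℤ) * ((∏ q ∈ P.erase p, q : ℕ) : ℤ) = M := by
    intro p hp
    rw [← hMcast, ← Finset.mul_prod_erase P (fun x => x) hp]
    push_cast; rfl
  have habs : 1 ≤ |G| := Int.one_le_abs hG
  have hM4 : 4 ≤ M := le_trans (by linarith) h1
  have hMpos : 0 < M := by linarith
  -- (1)
  have hdvd : M ∣ (∑ p ∈ P, ((a p * ∏ q ∈ P.erase p, q : ℕ) : ℤ)) - G := by
    rw [hM]
    refine Finset.prod_dvd_of_coprime ?_ ?_
    · intro p hp q hq hpq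
      exact Nat.isCoprime_iff_coprime.mpr
        ((Nat.coprime_primes (hP p (by simpa using hp)) (hP q (by simpa using hq))).mpr hpq)
    · intro q hq
      rw [← Finset.add_sum_erase P _ hq]
      have hd1 : ((q : ℕ) : ℤ) ∣ ((a q * ∏ q' ∈ P.erase q, q' : ℕ) : ℤ) - G :=
        (Int.modEq_iff_dvd.mp (ha' q hq).symm)
      have hd2 : ((q : ℕ) : ℤ) ∣ ∑ p ∈ P.erase q, ((a p * ∏ q' ∈ P.erase p, q' : ℕ) : ℤ) := by
        refine Finset.dvd_sum fun p hp => ?_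
        rw [Finset.mem_erase] at hp
        rw [Int.natCast_dvd_natCast]
        refine Dvd.dvd.mul_left ?_ _
        exact Finset.dvd_prod_of_mem (fun x => x) (Finset.mem_erase.mpr ⟨fun h => hp.1 h.symm, hq⟩)
      have := dvd_add hd1 hd2
      convert this using 1
      ring
  obtain ⟨k, hk⟩ := hdvd
  -- (2)
  set S : ℕ := ∑ p ∈ P, 2 ^ K * a p / p with hS
  set E : ℤ := ∑ p ∈ P, ((∏ q ∈ P.erase p, q : ℕ) : ℤ) * (((2 ^ K * a p) % p : ℕ) : ℤ) with hE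
  have hMS : M * (S : ℤ) = 2 ^ K * (G + k * M) - E := by
    have hk' : (∑ p ∈ P, ((a p * ∏ q ∈ P.erase p, q : ℕ) : ℤ)) = G + k * M := by
      linarith [hk, mul_comm M k]
    rw [← hk', hS, hE]
    push_cast
    rw [Finset.mul_sum, Finset.mul_sum, ← Finset.sum_sub_distrib]
    refine Finset.sum_congr rfl fun p hp => ?_
    have h := hmul p hp
    push_cast at h
    have hdm := Nat.div_add_mod (2 ^ K * a p) p
    have hdm' : (p : ℤ) * ((2 ^ K * a p / p : ℕ) : ℤ) + (((2 ^ K * a p) % p : ℕ) : ℤ)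
        = 2 ^ K * (a p : ℤ) := by exact_mod_cast hdm
    push_cast at hdm'
    rw [← h]
    have : (p : ℤ) * (2 ^ K * (a p : ℤ) / (p : ℤ)) = 2 ^ K * (a p : ℤ) - (2 ^ K * (a p : ℤ)) % (p : ℤ) := by
      linarith
    calc (p : ℤ) * (∏ x ∈ P.erase p, (x : ℤ)) * (2 ^ K * (a p : ℤ) / (p : ℤ))
        = (∏ x ∈ P.erase p, (x : ℤ)) * ((p : ℤ) * (2 ^ K * (a p : ℤ) / (p : ℤ))) := by ring
      _ = _ := by rw [this]; ring
  have hE0 : 0 ≤ E := Finset.sum_nonneg fun p _ => by positivity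
  have hE1 : E ≤ M * 2 ^ t := by
    calc E ≤ ∑ p ∈ P, M := by
          refine Finset.sum_le_sum fun p hp => ?_
          rw [← hmul p hp, mul_comm]
          refine mul_le_mul_of_nonneg_right ?_ (by positivity)
          exact_mod_cast (Nat.mod_lt _ (hP p hp).pos).le
      _ = (P.card : ℤ) * M := by rw [Finset.sum_const, nsmul_eq_mul]
      _ ≤ 2 ^ t * M := by
          refine mul_le_mul_of_nonneg_right ?_ hMpos.le
          exact_mod_cast hPt
      _ = M * 2 ^ t := mul_comm _ _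
  have h2' : M * 2 ^ t ≤ 2 ^ K := by
    rw [← hMcast]; exact_mod_cast h2
  have ht1 : (1 : ℤ) ≤ 2 ^ t := one_le_pow₀ (by norm_num)
  have hK4 : (4 : ℤ) ≤ 2 ^ K := by nlinarith
  obtain ⟨K', rfl⟩ : ∃ K', K = K' + 1 := by
    rcases K with _ | K'
    · norm_num at hK4
    · exact ⟨K', rfl⟩
  set Q : ℤ := 2 ^ K' with hQ
  have hQpos : 0 < Q := by positivity
  have hQ2 : (2 : ℤ) ^ (K' + 1) = 2 * Q := by rw [hQ, pow_succ]; ring
  rw [hQ2] at hMS h2' hK4
  set S' : ℤ := (S : ℤ) - 2 * Q * k with hS'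
  have hMS' : M * S' = 2 * Q * G - E := by rw [hS', mul_sub, hMS]; ring
  have hbit : S.testBit (K' + 1 - 1) = decide (S / 2 ^ K' % 2 = 1) := by
    rw [Nat.add_sub_cancel, Nat.testBit_eq_decide_div_mod_eq]
  have hSdiv : ((S / 2 ^ K' : ℕ) : ℤ) = S' / Q + 2 * k := by
    have : (S : ℤ) = S' + (2 * k) * Q := by rw [hS']; ring
    push_cast
    rw [this, ← hQ, Int.add_mul_ediv_right _ _ hQpos.ne']
  have hmod : ((S / 2 ^ K' % 2 : ℕ) : ℤ) = (S' / Q) % 2 := by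
    rw [Int.natCast_mod, hSdiv]
    push_cast
    omega
  rw [hbit]
  constructor
  · intro hGpos
    have hGabs : |G| = G := abs_of_pos hGpos
    rw [hGabs] at h1
    have hS0 : 0 ≤ S' := by
      by_contra hneg
      push Not at hneg
      have : M * S' < 0 := mul_neg_of_pos_of_neg hMpos hneg
      nlinarith
    have hS1 : S' < Q := by
      by_contra hge
      push Not at hge
      have h3 : M * Q ≤ M * S' := mul_le_mul_of_nonneg_left hge hMpos.le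
      nlinarith
    have h0 : S' / Q = 0 := Int.ediv_eq_zero_of_lt hS0 hS1
    rw [h0] at hmod
    have : S / 2 ^ K' % 2 = 0 := by exact_mod_cast hmod
    simp [this]
  · intro hdec
    by_contra hGneg
    have hG0 : G < 0 := lt_of_le_of_ne (not_lt.mp hGneg) hG
    have hGabs : |G| = -G := abs_of_neg hG0
    rw [hGabs] at h1
    have hS0 : S' < 0 := by
      by_contra hge
      push Not at hge
      have : 0 ≤ M * S' := mul_nonneg hMpos.le hge
      nlinarith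
    have hS1 : -Q ≤ S' := by
      by_contra hlt
      push Not at hlt
      have h3 : M * S' < M * (-Q) := mul_lt_mul_of_pos_left hlt hMpos
      have h4 : 4 * (M * 2 ^ t) ≤ M * (2 * Q) := by
        have : 4 * (2 : ℤ) ^ t ≤ M * 2 ^ t := mul_le_mul_of_nonneg_right hM4 (by positivity)
        nlinarith
      have h5 : 2 * Q * (4 * -G) ≤ 2 * Q * M := mul_le_mul_of_nonneg_left h1 (by linarith)
      nlinarith
    have h0 : S' / Q = -1 := by
      rw [Int.ediv_eq_iff_of_pos hQpos]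
      constructor <;> linarith
    rw [h0] at hmod
    have : S / 2 ^ K' % 2 = 1 := by
      have : ((S / 2 ^ K' % 2 : ℕ) : ℤ) = 1 := by rw [hmod]; norm_num
      exact_mod_cast this
    simp [this] at hdec

/-- bits of `⌊2^K a / p⌋`: PROOF.  `⌊2^K a/p⌋ / 2^j = ⌊2^(K-j) a / p⌋`, and `⌊x/p⌋` is odd iff `x % (2p) ≥ p`. -/
theorem testBit_div (K a p j : ℕ) (hp : 0 < p) (hj : j ≤ K) :
    (2 ^ K * a / p).testBit j = true ↔ p ≤ 2 ^ (K - j) * a % (2 * p) := by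
  rw [Nat.testBit_eq_decide_div_mod_eq, decide_eq_true_iff]
  have h1 : 2 ^ K * a / p / 2 ^ j = 2 ^ (K - j) * a / p := by
    rw [Nat.div_div_eq_div_mul, mul_comm p, ← Nat.div_div_eq_div_mul]
    congr 1
    have : 2 ^ K = 2 ^ j * 2 ^ (K - j) := by rw [← pow_add]; congr 1; omega
    rw [this, mul_assoc, Nat.mul_div_cancel_left _ (by positivity)]
  rw [h1]
  set X := 2 ^ (K - j) * a
  rw [mul_comm 2 p, ← Nat.mod_mul_right_div_self]
  have hlt : X % (p * 2) < p * 2 := Nat.mod_lt _ (by positivity)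
  constructor
  · intro h
    have := (Nat.div_eq_iff hp).mp h
    omega
  · intro h
    rw [Nat.div_eq_iff hp]
    omega

end Crest.Agent.CHR
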