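import Mathlib

/-!
# MODULE M3 (row 316): bits of sums of exponentially many numbers (pure)
Chunk R316-ArCarry.
-/

set_option autoImplicit false

namespace Crest.Agent.CHR

theorem carry_look (x y k : ℕ) :
    (2 ^ k ≤ x % 2 ^ k + y % 2 ^ k) ↔ (∃ j < k, x.testBit j = true ∧ y.testBit j = true ∧
        ∀ i < k, j < i → (x.testBit i = true ∨ y.testBit i = true)) := by
  induction k with
  | zero => simp [Nat.mod_one]
  | succ k ih =>
    have hx : x % 2 ^ (k+1) = x % 2 ^ k + 2 ^ k * (x / 2 ^ k % 2) := Nat.mod_pow_succ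
    have hy : y % 2 ^ (k+1) = y % 2 ^ k + 2 ^ k * (y / 2 ^ k % 2) := Nat.mod_pow_succ
    have hx1 : x % 2 ^ k < 2 ^ k := Nat.mod_lt _ (by positivity)
    have hy1 : y % 2 ^ k < 2 ^ k := Nat.mod_lt _ (by positivity)
    have hrec : (2 ^ (k+1) ≤ x % 2 ^ (k+1) + y % 2 ^ (k+1)) ↔
        ((x.testBit k = true ∧ y.testBit k = true) ∨
          ((x.testBit k = true ∨ y.testBit k = true) ∧ 2 ^ k ≤ x % 2 ^ k + y % 2 ^ k)) := by
      rw [hx, hy, Nat.testBit_eq_decide_div_mod_eq, Nat.testBit_eq_decide_div_mod_eq, pow_succ]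
      simp only [decide_eq_true_eq]
      rcases Nat.mod_two_eq_zero_or_one (x / 2 ^ k) with h1 | h1 <;>
      rcases Nat.mod_two_eq_zero_or_one (y / 2 ^ k) with h2 | h2 <;>
      rw [h1, h2] <;> simp <;> omega
    rw [hrec, ih]
    constructor
    · rintro (⟨h1, h2⟩ | ⟨h1, j, hj, h2, h3, h4⟩)
      · exact ⟨k, Nat.lt_succ_self k, h1, h2, fun i hi hki => by omega⟩
      · refine ⟨j, by omega, h2, h3, fun i hi hji => ?_⟩
        rcases Nat.lt_succ_iff_lt_or_eq.mp hi with h | h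
        · exact h4 i h hji
        · subst h; exact h1
    · rintro ⟨j, hj, h1, h2, h3⟩
      rcases Nat.lt_succ_iff_lt_or_eq.mp hj with h | h
      · right
        refine ⟨h3 k (Nat.lt_succ_self k) h, j, h, h1, h2, fun i hi hji => h3 i (by omega) hji⟩
      · subst h; left; exact ⟨h1, h2⟩

/-- carry look-ahead for two numbers.
PROOF.  `carry_k := [2^k ≤ x % 2^k + y % 2^k]`; `(x+y)/2^k = x/2^k + y/2^k + carry_k`, so the bit `k` of `x+y` is the xor of the
three; `carry_{k+1} = (x_k ∧ y_k) ∨ ((x_k ∨ y_k) ∧ carry_k)`; induction on `k` gives the formula of the `decide`. -/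
theorem testBit_add_look (x y k : ℕ) :
    (x + y).testBit k = ((x.testBit k ^^ y.testBit k) ^^
      decide (∃ j < k, x.testBit j = true ∧ y.testBit j = true ∧
        ∀ i < k, j < i → (x.testBit i = true ∨ y.testBit i = true))) := by
  have h := carry_look x y k
  have : decide (∃ j < k, x.testBit j = true ∧ y.testBit j = true ∧
        ∀ i < k, j < i → (x.testBit i = true ∨ y.testBit i = true)) = decide (2 ^ k ≤ x % 2 ^ k + y % 2 ^ k) := by
    simp only [h]
  rw [this]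
  rw [Nat.testBit_eq_decide_div_mod_eq, Nat.testBit_eq_decide_div_mod_eq, Nat.testBit_eq_decide_div_mod_eq,
    Nat.add_div (by positivity : 0 < 2 ^ k)]
  rcases Nat.mod_two_eq_zero_or_one (x / 2 ^ k) with h1 | h1 <;>
  rcases Nat.mod_two_eq_zero_or_one (y / 2 ^ k) with h2 | h2 <;>
  by_cases h3 : 2 ^ k ≤ x % 2 ^ k + y % 2 ^ k <;>
  simp [h3, h1, h2, Nat.add_mod]

/-- PROOF.  `b = ∑_{j<K} [bit j of b] 2^j` for `b < 2^K` (induction on `K`), exchange the sums. -/
theorem sum_eq_bits {ι : Type} (P : Finset ι) (b : ι → ℕ) (K : ℕ) (hb : ∀ p ∈ P, b p < 2 ^ K) :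
    ∑ p ∈ P, b p =
      ∑ j ∈ Finset.range K, (P.filter (fun p => (b p).testBit j = true)).card * 2 ^ j := by
  have key : ∀ K n : ℕ, n % 2 ^ K = ∑ j ∈ Finset.range K, (if n.testBit j = true then 1 else 0) * 2 ^ j := by
    intro K n
    induction K with
    | zero => simp [Nat.mod_one]
    | succ K ih =>
      rw [Finset.sum_range_succ, ← ih, Nat.mod_pow_succ, Nat.testBit_eq_decide_div_mod_eq]
      rcases Nat.mod_two_eq_zero_or_one (n / 2 ^ K) with h1 | h1 <;> simp [h1]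
  have h1 : ∀ p ∈ P, b p = ∑ j ∈ Finset.range K, (if (b p).testBit j = true then 1 else 0) * 2 ^ j := by
    intro p hp
    rw [← key, Nat.mod_eq_of_lt (hb p hp)]
  rw [Finset.sum_congr rfl h1, Finset.sum_comm]
  refine Finset.sum_congr rfl fun j _ => ?_
  rw [← Finset.sum_mul, Finset.card_filter]

/-- block number `r` of the sequence `c` (block length `t+1`) -/
def DDc (t : ℕ) (c : ℕ → ℕ) (r : ℕ) : ℕ := ∑ i ∈ Finset.range (t + 1), c ((t + 1) * r + i) * 2 ^ i

/-- bits of the number made of the even blocks -/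
def ebit (t : ℕ) (c : ℕ → ℕ) (i : ℕ) : Prop :=
  (DDc t c (2 * (i / (2 * (t + 1))))) / 2 ^ (i % (2 * (t + 1))) % 2 = 1

/-- bits of the number made of the odd blocks (shifted by `t+1`) -/
def obit (t : ℕ) (c : ℕ → ℕ) (i : ℕ) : Prop :=
  t + 1 ≤ i ∧
    (DDc t c (2 * ((i - (t + 1)) / (2 * (t + 1))) + 1)) / 2 ^ ((i - (t + 1)) % (2 * (t + 1))) % 2 = 1

theorem DDc_lt (t : ℕ) (c : ℕ → ℕ) (hc : ∀ j, c j ≤ 2 ^ t) (r : ℕ) : DDc t c r < 2 ^ (2 * (t + 1)) := by
  have h1 : DDc t c r ≤ ∑ i ∈ Finset.range (t + 1), 2 ^ t * 2 ^ i :=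
    Finset.sum_le_sum fun i _ => Nat.mul_le_mul_right _ (hc _)
  rw [← Finset.mul_sum] at h1
  have h2 : ∑ i ∈ Finset.range (t + 1), 2 ^ i < 2 ^ (t + 1) := by
    have := Nat.geomSum_eq (le_refl 2) (t+1)
    rw [this]
    have : 0 < 2 ^ (t+1) := by positivity
    omega
  calc DDc t c r ≤ _ := h1
    _ < 2 ^ t * 2 ^ (t+1) := Nat.mul_lt_mul_of_pos_left h2 (by positivity)
    _ ≤ 2 ^ (2 * (t+1)) := by
      rw [← pow_add]; exact Nat.pow_le_pow_right (by norm_num) (by omega)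

/-- digits of a number in base `2^w` -/
theorem digit_testBit (w : ℕ) (hw : 0 < w) (d : ℕ → ℕ) (hd : ∀ r, d r < 2 ^ w) (R : ℕ) (hR : ∀ r, R ≤ r → d r = 0) (i : ℕ) :
    (∑ r ∈ Finset.range R, d r * 2 ^ (w * r)).testBit i = true ↔ d (i / w) / 2 ^ (i % w) % 2 = 1 := by
  induction R generalizing d i with
  | zero =>
    simp [hR]
  | succ R ih =>
    rw [Finset.sum_range_succ']
    have h1 : ∑ r ∈ Finset.range R, d (r + 1) * 2 ^ (w * (r + 1)) + d 0 * 2 ^ (w * 0)
        = 2 ^ w * (∑ r ∈ Finset.range R, d (r + 1) * 2 ^ (w * r)) + d 0 := by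
      rw [Finset.mul_sum]
      congr 1
      · refine Finset.sum_congr rfl fun r _ => ?_
        rw [Nat.mul_succ, pow_add]; ring
      · simp
    rw [h1, Nat.testBit_two_pow_mul_add _ (hd 0)]
    by_cases hi : i < w
    · rw [if_pos hi, Nat.div_eq_of_lt hi, Nat.mod_eq_of_lt hi, Nat.testBit_eq_decide_div_mod_eq]
      simp
    · rw [if_neg hi]
      have h2 := ih (fun r => d (r+1)) (fun r => hd _) (fun r hr => hR _ (by omega)) (i - w)
      rw [h2]
      have h3 : i / w = (i - w) / w + 1 := by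
        rw [Nat.div_eq_sub_div hw (by omega)]
      have h4 : i % w = (i - w) % w := by
        rw [Nat.mod_eq_sub_mod (by omega)]
      rw [h3, h4]

/-- PROOF.  `τ = t+1`, `β = 2^(2τ)`, `D_r = DDc t c r ≤ 2^t (2^τ - 1) < β`.  Choose `R` with `2 τ R ≥ K`.  `∑_{j<K} c_j 2^j = A + A'`,
`A = ∑_{r<R} D_{2r} β^r`, `A' = 2^τ ∑_{r<R} D_{2r+1} β^r` (`c_j = 0` for `j ≥ K`).  Digits of `A`, `A'` in base `β` are the `D`'s, so
bit `i` of `A` is `ebit`, bit `i` of `A'` is `obit` (`Nat.testBit` of `n` at `i` is `n / 2^i % 2 = 1`).  Then `testBit_add_look`. -/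
theorem sum_bits (t K : ℕ) (c : ℕ → ℕ) (hc : ∀ j, c j ≤ 2 ^ t) (hK : ∀ j, K ≤ j → c j = 0) (k : ℕ) :
    (∑ j ∈ Finset.range K, c j * 2 ^ j).testBit k = true ↔
      ((ebit t c k ↔ obit t c k) ↔
        (∃ j < k, ebit t c j ∧ obit t c j ∧ ∀ i < k, j < i → (ebit t c i ∨ obit t c i))) := by
  have hDD0 : ∀ r, K ≤ r → DDc t c r = 0 := by
    intro r hr
    unfold DDc
    refine Finset.sum_eq_zero fun i _ => ?_
    rw [hK _ (by nlinarith [Nat.zero_le i, Nat.zero_le t, Nat.zero_le r, Nat.zero_le (t * r)]), zero_mul]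
  set w := 2 * (t + 1) with hw
  set A := ∑ r ∈ Finset.range K, DDc t c (2 * r) * 2 ^ (w * r) with hA
  set A0 := ∑ r ∈ Finset.range K, DDc t c (2 * r + 1) * 2 ^ (w * r) with hA0
  -- sum over blocks
  have hblock : ∀ R, ∑ j ∈ Finset.range ((t + 1) * R), c j * 2 ^ j
      = ∑ r ∈ Finset.range R, DDc t c r * 2 ^ ((t + 1) * r) := by
    intro R
    induction R with
    | zero => simp
    | succ R ih =>
      rw [Nat.mul_succ, Finset.sum_range_add, ih, Finset.sum_range_succ (fun r => DDc t c r * 2 ^ ((t + 1) * r)) R]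
      congr 1
      unfold DDc
      rw [Finset.sum_mul]
      refine Finset.sum_congr rfl fun i _ => ?_
      rw [pow_add]; ring
  have hparity : ∀ R, ∑ r ∈ Finset.range (2 * R), DDc t c r * 2 ^ ((t + 1) * r)
      = (∑ r ∈ Finset.range R, DDc t c (2 * r) * 2 ^ (w * r)) +
        2 ^ (t + 1) * (∑ r ∈ Finset.range R, DDc t c (2 * r + 1) * 2 ^ (w * r)) := by
    intro R
    induction R with
    | zero => simp
    | succ R ih =>
      rw [show 2 * (R + 1) = 2 * R + 1 + 1 by ring, Finset.sum_range_succ, Finset.sum_range_succ, ih,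
        Finset.sum_range_succ, Finset.sum_range_succ]
      have h1 : (2:ℕ) ^ ((t + 1) * (2 * R)) = 2 ^ (w * R) := by congr 1; rw [hw]; ring
      have h2 : (2:ℕ) ^ ((t + 1) * (2 * R + 1)) = 2 ^ (t+1) * 2 ^ (w * R) := by
        rw [← pow_add]; congr 1; rw [hw]; ring
      rw [h1, h2]; ring
  have htot : ∑ j ∈ Finset.range K, c j * 2 ^ j = A + 2 ^ (t + 1) * A0 := by
    rw [hA, hA0, ← hparity K, ← hblock (2 * K)]
    refine Finset.sum_subset ?_ ?_
    · intro j hj
      rw [Finset.mem_range] at *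
      nlinarith [Nat.zero_le t, Nat.zero_le K, Nat.zero_le (t * K)]
    · intro j _ hj
      rw [Finset.mem_range, not_lt] at hj
      rw [hK j hj, zero_mul]
  have hw0 : 0 < w := by omega
  have hAbit : ∀ i, (A.testBit i = true ↔ ebit t c i) := by
    intro i
    rw [hA, digit_testBit w hw0 (fun r => DDc t c (2 * r)) (fun r => DDc_lt t c hc _) K
      (fun r hr => hDD0 _ (by omega)) i]
    rfl
  have hA0bit : ∀ i, ((2 ^ (t + 1) * A0).testBit i = true ↔ obit t c i) := by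
    intro i
    rw [Nat.testBit_two_pow_mul]
    unfold obit
    rw [Bool.and_eq_true, decide_eq_true_eq]
    have h := digit_testBit w hw0 (fun r => DDc t c (2 * r + 1)) (fun r => DDc_lt t c hc _) K
      (fun r hr => hDD0 _ (by omega)) (i - (t+1))
    rw [← hA0] at h
    rw [h]
  rw [htot, testBit_add_look]
  have hb : ∀ (a b : Bool) (p : Prop) [Decidable p], (((a ^^ b) ^^ decide p) = true) ↔
      (((a = true) ↔ (b = true)) ↔ p) := by
    intro a b p _
    by_cases hp : p <;> cases a <;> cases b <;> simp [hp]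
  rw [hb, hAbit, hA0bit]
  simp only [hAbit, hA0bit]

end Crest.Agent.CHR
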