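import Mathlib

/-!
# MODULE M3 (row 316): many primes (pure number theory)
Chunk R316-ArCheb.
-/

set_option autoImplicit false

namespace Crest.Agent.CHR

theorem lin_lt_two_pow (u : ℕ) (hu : 10 ≤ u) : 22 * u < 2 ^ u := by
  induction u, hu using Nat.le_induction with
  | base => norm_num
  | succ n hn ih => rw [pow_succ]; omega

/-- the product of the primes in `(2^s, 2^t]` is large.
PROOF.  `Chebyshev.two_pow_le_mul_lcmUpto` and `lcmUpto_eq_prod_pow_log`/`Nat.pow_log_le_self` (in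
`Mathlib.NumberTheory.Chebyshev`): `2^n ≤ (n+1) n^(π n)`; `n = 2^t`: `2^t ≤ t + 1 + t π(2^t)`, so
`#{primes in (2^s,2^t]} ≥ (2^t - t - 1)/t - 2^s`; this is `> 2^(s+3)` for `t ≥ 2s+10` (`t (2^(s+3) + 2^s + 2) ≤ 2^t`),
and every prime is `≥ 2`. -/
theorem prod_primes_large (s t : ℕ) (hst : 2 * s + 10 ≤ t) :
    2 ^ (2 ^ (s + 3)) < ∏ p ∈ (Finset.Ioc (2 ^ s) (2 ^ t)).filter Nat.Prime, p := by
  set P : Finset ℕ := (Finset.Ioc (2 ^ s) (2 ^ t)).filter Nat.Prime with hP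
  -- the key inequality
  have h1 : 2 ^ (2 ^ t) ≤ (2 ^ t + 1) * Nat.lcmUpto (2 ^ t) :=
    Chebyshev.two_pow_le_mul_lcmUpto (2 ^ t)
  have h2 : Nat.lcmUpto (2 ^ t) ≤ (2 ^ t) ^ (Nat.primesLE (2 ^ t)).card := by
    rw [Nat.lcmUpto_eq_prod_pow_log, ← Finset.prod_const]
    refine Finset.prod_le_prod' fun p _ => ?_
    exact Nat.pow_log_le_self p (by positivity)
  have h3 : (Nat.primesLE (2 ^ t)).card ≤ 2 ^ s + P.card := by
    have hsub : Nat.primesLE (2 ^ t) ⊆ Finset.Icc 1 (2 ^ s) ∪ P := by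
      intro p hp
      rw [Nat.mem_primesLE] at hp
      rw [Finset.mem_union, Finset.mem_Icc, hP, Finset.mem_filter, Finset.mem_Ioc]
      have := hp.2.one_lt
      rcases le_or_gt p (2 ^ s) with h | h
      · left; exact ⟨this.le, h⟩
      · right; exact ⟨⟨h, hp.1⟩, hp.2⟩
    calc (Nat.primesLE (2 ^ t)).card ≤ (Finset.Icc 1 (2 ^ s) ∪ P).card := Finset.card_le_card hsub
      _ ≤ (Finset.Icc 1 (2 ^ s)).card + P.card := Finset.card_union_le _ _
      _ = 2 ^ s + P.card := by rw [Nat.card_Icc, Nat.add_sub_cancel]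
  have h4 : 2 ^ (2 ^ t) ≤ 2 ^ (t + 1 + t * (2 ^ s + P.card)) := by
    calc 2 ^ (2 ^ t) ≤ (2 ^ t + 1) * Nat.lcmUpto (2 ^ t) := h1
      _ ≤ 2 ^ (t + 1) * (2 ^ t) ^ (2 ^ s + P.card) := by
          apply Nat.mul_le_mul
          · rw [pow_succ]
            have : 1 ≤ 2 ^ t := Nat.one_le_two_pow
            omega
          · exact h2.trans (Nat.pow_le_pow_right (by positivity) h3)
      _ = 2 ^ (t + 1 + t * (2 ^ s + P.card)) := by rw [← pow_mul, ← pow_add]
  have h5 : 2 ^ t ≤ t + 1 + t * (2 ^ s + P.card) := (Nat.pow_le_pow_iff_right (by norm_num)).1 h4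
  have h6 : 2 ^ (s + 3) < P.card := by
    by_contra hcon
    push Not at hcon
    obtain ⟨u, rfl⟩ : ∃ u, t = s + u := ⟨t - s, by omega⟩
    have hu : 22 * u < 2 ^ u := lin_lt_two_pow u (by omega)
    have hs1 : 1 ≤ 2 ^ s := Nat.one_le_two_pow
    have e1 : (s + u) * (2 ^ s + P.card) ≤ (s + u) * (9 * 2 ^ s) := by
      apply Nat.mul_le_mul_left
      rw [pow_add] at hcon
      omega
    have e2 : 2 ^ (s + u) = 2 ^ s * 2 ^ u := pow_add _ _ _
    have e3 : (s + u) * (9 * 2 ^ s) + (s + u) + 1 ≤ (s + u) * (11 * 2 ^ s) := by nlinarith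
    have e4 : (s + u) * (11 * 2 ^ s) ≤ 2 ^ s * (22 * u) := by nlinarith
    have e5 : 2 ^ s * (22 * u) < 2 ^ s * 2 ^ u := Nat.mul_lt_mul_of_pos_left hu (by omega)
    omega
  calc 2 ^ (2 ^ (s + 3)) < 2 ^ P.card := Nat.pow_lt_pow_right (by norm_num) h6
    _ = ∏ p ∈ P, 2 := by rw [Finset.prod_const]
    _ ≤ ∏ p ∈ P, p := by
        refine Finset.prod_le_prod' fun p hp => ?_
        rw [hP, Finset.mem_filter] at hp
        exact hp.2.two_le

/-- upper bound.  PROOF.  It divides / is at most the primorial of `2^t`: `primorial_le_four_pow`. -/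
theorem prod_primes_small (s t : ℕ) :
    ∏ p ∈ (Finset.Ioc (2 ^ s) (2 ^ t)).filter Nat.Prime, p ≤ 2 ^ (2 ^ (t + 1)) := by
  have h1 : ∏ p ∈ (Finset.Ioc (2 ^ s) (2 ^ t)).filter Nat.Prime, p ≤ primorial (2 ^ t) := by
    unfold primorial
    refine Finset.prod_le_prod_of_subset_of_one_le' ?_ ?_
    · intro p hp
      rw [Finset.mem_filter, Finset.mem_Ioc] at hp
      rw [Finset.mem_filter, Finset.mem_range]
      exact ⟨by omega, hp.2⟩
    · intro p hp _
      rw [Finset.mem_filter] at hp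
      exact hp.2.one_lt.le
  refine h1.trans ((primorial_le_four_pow _).trans (le_of_eq ?_))
  rw [pow_succ 2 t, mul_comm (2 ^ t) 2, pow_mul]; norm_num

end Crest.Agent.CHR
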