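import Crest.Agent.CHR.Ar0

/-!
# MODULE M3 (row 316): recursion with polynomially many steps, modular powers
Chunk R316-ArPow.
-/

set_option autoImplicit false

namespace Crest.Agent.CHR

open Crest.Complexity Crest.CountHier

/-- Pure arithmetic: digits of a number in base `2^l`. -/
def dgt (l Y k : ℕ) : ℕ := Y / 2 ^ (l * k) % 2 ^ l

/-- Every sequence of digits `< 2^l` is realised. -/
theorem exists_dgt (l n : ℕ) (x : ℕ → ℕ) (hx : ∀ k < n, x k < 2 ^ l) :
    ∃ Y < 2 ^ (l * n), ∀ k < n, dgt l Y k = x k := by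
  induction n with
  | zero => exact ⟨0, by simp, by simp⟩
  | succ n ih =>
    obtain ⟨Y, hY, h⟩ := ih (fun k hk => hx k (by omega))
    refine ⟨Y + x n * 2 ^ (l * n), ?_, ?_⟩
    · have := hx n (by omega)
      calc Y + x n * 2 ^ (l * n) < 2 ^ (l * n) + x n * 2 ^ (l * n) := by omega
        _ = (x n + 1) * 2 ^ (l * n) := by ring
        _ ≤ 2 ^ l * 2 ^ (l * n) := Nat.mul_le_mul_right _ this
        _ = 2 ^ (l * (n + 1)) := by rw [← pow_add]; ring_nf
    · intro k hk
      rcases Nat.lt_succ_iff_lt_or_eq.1 hk with h1 | h1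
      · rw [← h k h1, dgt, dgt]
        obtain ⟨m, rfl⟩ : ∃ m, n = k + 1 + m := ⟨n - (k + 1), by omega⟩
        have e : x (k + 1 + m) * 2 ^ (l * (k + 1 + m)) =
            2 ^ (l * k) * (2 ^ l * (x (k + 1 + m) * 2 ^ (l * m))) := by
          have : l * (k + 1 + m) = l * k + (l + l * m) := by ring
          rw [this, pow_add, pow_add]
          ring
        rw [e, Nat.add_mul_div_left _ _ (by positivity), Nat.add_mul_mod_self_left]
      · subst h1
        rw [dgt, Nat.add_mul_div_right _ _ (by positivity), Nat.div_eq_of_lt hY, zero_add,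
          Nat.mod_eq_of_lt (hx k (by omega))]

/-- BOUNDED RECURSION.  `s` is given with context `z = pn (pn w k) x`. -/
theorem CHN.rec' {i L : W → ℕ} {s : W → ℕ → ℕ → ℕ} (hi : CHN i) (hL : CHN L)
    (hs : CHN (fun z => s (fstB (fstB z)) (val (sndB (fstB z))) (val (sndB z))))
    (q r : Polynomial ℕ) (hLq : ∀ w, L w ≤ q.eval w.length)
    (R : W → ℕ → ℕ) (h0 : ∀ w, R w 0 = i w)
    (hS : ∀ w k, k < L w → R w (k + 1) = s w k (R w k))
    (hb : ∀ w k, k ≤ L w → R w k < 2 ^ (r.eval w.length)) :
    CHN (fun w => R w (L w)) := by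
  have hl : CHN (fun w : W => r.eval w.length) := CHN.polyLen CHF.id r
  -- the digits
  have hD : CHN (fun z => dgt (r.eval (fstB (fstB z)).length) (val (sndB (fstB z)))
      (Min.min (val (sndB z)) (L (fstB (fstB z))))) := by
    have e1 : CHN (fun z => r.eval (fstB (fstB z)).length *
        Min.min (val (sndB z)) (L (fstB (fstB z)))) :=
      hl.fst.fst.mul (CHN.var.min hL.fst.fst)
    have e2 : CHN (fun z => 2 ^ (r.eval (fstB (fstB z)).length *
        Min.min (val (sndB z)) (L (fstB (fstB z))))) := by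
      refine CHN.twoPowN e1 (r * q) (fun z => ?_)
      rw [Polynomial.eval_mul]
      have hlen : (fstB (fstB z)).length ≤ z.length := (len_fstB_le _).trans (len_fstB_le _)
      exact Nat.mul_le_mul (pmono r hlen)
        ((min_le_right _ _).trans ((hLq _).trans (pmono q hlen)))
    have e3 : CHN (fun z => 2 ^ (r.eval (fstB (fstB z)).length)) := by
      refine CHN.twoPowN hl.fst.fst r (fun z => pmono r ((len_fstB_le _).trans (len_fstB_le _)))
    exact (CHN.var.fst.div e2).mod e3
  have hN : CHN (fun w : W => 2 ^ (r.eval w.length * (L w + 1))) := by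
    refine CHN.twoPowN (hl.mul (hL.add (CHN.const 1))) (r * (q + 1)) (fun w => ?_)
    rw [Polynomial.eval_mul, Polynomial.eval_add, Polynomial.eval_one]
    exact Nat.mul_le_mul_left _ (Nat.add_le_add_right (hLq w) 1)
  refine CHN.intro r (fun w => hb w _ le_rfl) ?_
  have hP : CHP (fun z => ∃ Y < 2 ^ (r.eval (fstB z).length * (L (fstB z) + 1)),
      (dgt (r.eval (fstB z).length) Y (Min.min 0 (L (fstB z))) = i (fstB z) ∧
      (∀ k < L (fstB z), dgt (r.eval (fstB z).length) Y (Min.min (k + 1) (L (fstB z))) =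
        s (fstB z) k (dgt (r.eval (fstB z).length) Y (Min.min k (L (fstB z)))))) ∧
      dgt (r.eval (fstB z).length) Y (Min.min (L (fstB z)) (L (fstB z))) = val (sndB z)) := by
    refine CHP.exN2 (N := fun z => 2 ^ (r.eval (fstB z).length * (L (fstB z) + 1)))
      (P := fun z Y => (dgt (r.eval (fstB z).length) Y (Min.min 0 (L (fstB z))) = i (fstB z) ∧
      (∀ k < L (fstB z), dgt (r.eval (fstB z).length) Y (Min.min (k + 1) (L (fstB z))) =
        s (fstB z) k (dgt (r.eval (fstB z).length) Y (Min.min k (L (fstB z)))))) ∧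
      dgt (r.eval (fstB z).length) Y (Min.min (L (fstB z)) (L (fstB z))) = val (sndB z))
      hN.fst ((CHP.and ?_ ?_).and ?_)
    · exact CHN.eq (CHN.app3 (F := fun w Y k => dgt (r.eval w.length) Y (Min.min k (L w))) hD
        (CHF.fst.comp CHF.fst) CHN.var (CHN.const 0)) hi.fst.fst
    · refine CHP.allN2 (N := fun z' => L (fstB (fstB z')))
        (P := fun z' k => dgt (r.eval (fstB (fstB z')).length) (val (sndB z'))
            (Min.min (k + 1) (L (fstB (fstB z')))) =
          s (fstB (fstB z')) k (dgt (r.eval (fstB (fstB z')).length) (val (sndB z'))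
            (Min.min k (L (fstB (fstB z')))))) hL.fst.fst ?_
      have d1 := CHN.app3 (F := fun w Y k => dgt (r.eval w.length) Y (Min.min k (L w))) hD
        (CHF.fst.comp (CHF.fst.comp CHF.fst)) CHN.var.fst (CHN.var.add (CHN.const 1))
      have d2 := CHN.app3 (F := fun w Y k => dgt (r.eval w.length) Y (Min.min k (L w))) hD
        (CHF.fst.comp (CHF.fst.comp CHF.fst)) CHN.var.fst CHN.var
      exact CHN.eq d1 (CHN.app3 hs (CHF.fst.comp (CHF.fst.comp CHF.fst)) CHN.var d2)
    · exact CHN.eq (CHN.app3 (F := fun w Y k => dgt (r.eval w.length) Y (Min.min k (L w))) hD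
        (CHF.fst.comp CHF.fst) CHN.var hL.fst.fst) CHN.var.fst
  refine hP.congr (fun z => ?_)
  constructor
  · rintro ⟨Y, hY, ⟨a1, a2⟩, a3⟩
    have key : ∀ k, k ≤ L (fstB z) →
        dgt (r.eval (fstB z).length) Y (Min.min k (L (fstB z))) = R (fstB z) k := by
      intro k
      induction k with
      | zero => intro _; rw [a1, h0]
      | succ k ih =>
        intro hk
        rw [a2 k (by omega), ih (by omega), hS _ _ (by omega)]
    rw [← a3, key _ le_rfl]
  · intro hz
    obtain ⟨Y, hY, h⟩ := exists_dgt (r.eval (fstB z).length) (L (fstB z) + 1) (R (fstB z))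
      (fun k hk => hb _ _ (by omega))
    have key : ∀ k, k ≤ L (fstB z) →
        dgt (r.eval (fstB z).length) Y (Min.min k (L (fstB z))) = R (fstB z) k := by
      intro k hk
      rw [min_eq_left hk, h k (by omega)]
    refine ⟨Y, hY, ⟨?_, ?_⟩, ?_⟩
    · rw [key 0 (by omega), h0]
    · intro k hk
      rw [key (k + 1) (by omega), key k (by omega), hS _ _ hk]
    · rw [key _ le_rfl, hz]

/-- MODULAR POWERS. -/
theorem CHN.powMod {a e m : W → ℕ} (ha : CHN a) (he : CHN e) (hm : CHN m)
    (hm0 : ∀ w, 0 < m w) : CHN (fun w => a w ^ e w % m w) := by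
  classical
  obtain ⟨p, hp⟩ := he.bound
  obtain ⟨r, hr⟩ := hm.bound
  have hL : CHN (fun w : W => p.eval w.length) := CHN.polyLen CHF.id p
  set R : W → ℕ → ℕ := fun w k => a w ^ (e w / 2 ^ (p.eval w.length - k)) % m w with hR
  have hs : CHN (fun z => (val (sndB z) * val (sndB z) *
      (if e (fstB (fstB z)) /
        2 ^ (p.eval (fstB (fstB z)).length - val (sndB (fstB z)) - 1) % 2 = 1
        then a (fstB (fstB z)) else 1)) % m (fstB (fstB z))) := by
    have e1 : CHN (fun z => p.eval (fstB (fstB z)).length - val (sndB (fstB z)) - 1) :=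
      (hL.fst.fst.sub CHN.var.fst).sub (CHN.const 1)
    have e2 : CHN (fun z => 2 ^ (p.eval (fstB (fstB z)).length - val (sndB (fstB z)) - 1)) :=
      CHN.twoPowN e1 p (fun z => by
        have := pmono p ((len_fstB_le (fstB z)).trans (len_fstB_le z))
        omega)
    exact ((CHN.var.mul CHN.var).mul
      (CHN.iteD (CHN.eq ((he.fst.fst.div e2).mod (CHN.const 2)) (CHN.const 1))
        ha.fst.fst (CHN.const 1))).mod hm.fst.fst
  have h := CHN.rec' (i := fun w => 1 % m w) (L := fun w => p.eval w.length)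
    (s := fun w k x => (x * x * (if e w / 2 ^ (p.eval w.length - k - 1) % 2 = 1
        then a w else 1)) % m w) ((CHN.const 1).mod hm) hL hs p r (fun w => le_rfl) R
    (fun w => by
      simp only [hR, Nat.sub_zero]
      rw [Nat.div_eq_of_lt (hp w), pow_zero])
    (fun w k hk => by
      simp only [hR]
      have e1 : p.eval w.length - k = (p.eval w.length - k - 1) + 1 := by omega
      have e2 : p.eval w.length - (k + 1) = p.eval w.length - k - 1 := by omega
      rw [e2, e1, Nat.add_sub_cancel]
      set c := p.eval w.length - k - 1 with hc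
      have e3 : e w / 2 ^ (c + 1) = e w / 2 ^ c / 2 := by
        rw [pow_succ, Nat.div_div_eq_div_mul]
      rw [e3]
      set n := e w / 2 ^ c with hn
      have e4 : n = n / 2 + n / 2 + n % 2 := by omega
      have e5 : a w ^ n = a w ^ (n / 2) * a w ^ (n / 2) * (if n % 2 = 1 then a w else 1) := by
        conv_lhs => rw [e4]
        rw [pow_add, pow_add]
        congr 1
        split_ifs with h
        · rw [h, pow_one]
        · have : n % 2 = 0 := by omega
          rw [this, pow_zero]
      rw [e5]
      have : ∀ x y c' M : ℕ, x * x * c' % M = (x % M) * (x % M) * c' % M := by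
        intro x _ c' M
        rw [Nat.mul_mod (x * x), Nat.mul_mod x x, ← Nat.mul_mod]
      exact this _ 0 _ _)
    (fun w k _ => (Nat.mod_lt _ (hm0 w)).trans (hr w))
  refine h.congr (fun w => ?_)
  simp only [hR, Nat.sub_self, pow_zero, Nat.div_one]

theorem CHN.powMod0 {a e m : W → ℕ} (ha : CHN a) (he : CHN e) (hm : CHN m) :
    CHN (fun w => if m w = 0 then 0 else a w ^ e w % m w) := by
  have h : CHN (fun w => if m w = 0 then 1 else m w) := by
    classical
    refine (CHN.ite (CHN.eq hm (CHN.const 0)) (CHN.const 1) hm).congr (fun w => ?_)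
    by_cases h : m w = 0 <;> simp [h]
  refine (CHN.powMod ha he h (fun w => ?_)).congr (fun w => ?_)
  · split_ifs with h
    · exact Nat.one_pos
    · exact Nat.pos_of_ne_zero h
  · by_cases h : m w = 0 <;> simp [h, Nat.mod_one]

end Crest.Agent.CHR
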