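import Crest.Agent.CHR.ArPow

/-!
# MODULE M3 (row 316): primality, products and inverses modulo a prime
Chunk R316-ArPrime.
-/

set_option autoImplicit false

namespace Crest.Agent.CHR

open Crest.Complexity Crest.CountHier

/-- PROOF.  `n` is prime iff `2 ≤ n` and for all `d < n`: `2 ≤ d → n % d ≠ 0` (`Nat.prime_def_lt'`); `CHP.allN2` with `N = f`,
`CHN.mod hf.fst CHN.var`. -/
theorem CHP.prime {f : W → ℕ} (hf : CHN f) : CHP (fun w => (f w).Prime) := by
  have h : CHP (fun w => 2 ≤ f w ∧ ∀ d < f w, 2 ≤ d → ¬ f w % d = 0) := by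
    refine ((CHN.const 2).le hf).and (CHP.allN2 (P := fun w d => 2 ≤ d → ¬ f w % d = 0) hf ?_)
    exact ((CHN.const 2).le CHN.var).imp ((hf.fst.mod CHN.var).eq (CHN.const 0)).not
  refine h.congr (fun w => ?_)
  rw [Nat.prime_def_lt']
  refine and_congr_right fun _ => ?_
  constructor
  · intro h m hm1 hm2 hd
    exact h m hm2 hm1 (Nat.mod_eq_zero_of_dvd hd)
  · intro h d hd1 hd2 hd
    exact h d hd2 hd1 (Nat.dvd_of_mod_eq_zero hd)

/-- least primitive root (as a number), `0` if there is none -/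
noncomputable def prt (p : ℕ) : ℕ := by
  classical
  exact if h : ∃ g, g < p ∧ ∀ a < p, 0 < a → ∃ k < p, g ^ k % p = a then Nat.find h else p

/-- least discrete logarithm -/
noncomputable def dlg (p a : ℕ) : ℕ := by
  classical
  exact if h : ∃ k, k < p ∧ prt p ^ k % p = a then Nat.find h else p

private theorem exists_prt {p : ℕ} (hp : p.Prime) :
    ∃ g, g < p ∧ ∀ a < p, 0 < a → ∃ k < p, g ^ k % p = a := by
  have := Fact.mk hp
  obtain ⟨u, hu⟩ := IsCyclic.exists_generator (α := (ZMod p)ˣ)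
  refine ⟨(u : ZMod p).val, ZMod.val_lt _, ?_⟩
  intro a ha ha0
  have ha1 : (a : ZMod p) ≠ 0 := by
    intro h
    rw [ZMod.natCast_eq_zero_iff] at h
    exact absurd (Nat.le_of_dvd ha0 h) (by omega)
  obtain ⟨k, hk, hk2⟩ : ∃ k < orderOf u, u ^ k = Units.mk0 (a : ZMod p) ha1 := by
    have h1 : Units.mk0 (a : ZMod p) ha1 ∈ Submonoid.powers u := by
      rw [mem_powers_iff_mem_zpowers]
      exact hu _
    obtain ⟨n, hn⟩ := h1
    refine ⟨n % orderOf u, Nat.mod_lt _ (orderOf_pos u), ?_⟩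
    rw [pow_mod_orderOf]
    exact hn
  have hord : orderOf u ≤ p - 1 := by
    have := orderOf_le_card_univ (x := u)
    rwa [ZMod.card_units] at this
  refine ⟨k, by have := hp.pos; omega, ?_⟩
  have h2 : ((((u : ZMod p).val ^ k : ℕ)) : ZMod p) = (a : ZMod p) := by
    rw [Nat.cast_pow, ZMod.natCast_zmod_val]
    have := congrArg (Units.val) hk2
    simpa using this
  rw [ZMod.natCast_eq_natCast_iff'] at h2
  rw [h2, Nat.mod_eq_of_lt ha]

/-- The unit group of `ZMod p` is cyclic. -/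
theorem prt_spec {p : ℕ} (hp : p.Prime) :
    prt p < p ∧ ∀ a < p, 0 < a → ∃ k < p, prt p ^ k % p = a := by
  classical
  have h := exists_prt hp
  have e : prt p = Nat.find h := by
    unfold prt
    rw [dif_pos h]
  rw [e]
  exact Nat.find_spec h

theorem dlg_spec {p a : ℕ} (hp : p.Prime) (ha : a < p) (ha0 : 0 < a) :
    prt p ^ dlg p a % p = a := by
  classical
  have h : ∃ k, k < p ∧ prt p ^ k % p = a := (prt_spec hp).2 a ha ha0
  have e : dlg p a = Nat.find h := by
    unfold dlg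
    rw [dif_pos h]
  rw [e]
  exact (Nat.find_spec h).2

/-- PROOF.  `CHN.find2` with `N = f`, `CHP.allN2`, `CHP.exN2`, `CHN.powMod0` (if `p = 0` nothing has to be
checked since `g < 0` is impossible). -/
theorem CHN_prt {f : W → ℕ} (hf : CHN f) : CHN (fun w => prt (f w)) := by
  classical
  have h1 : CHP (fun z => ∀ a < f (fstB z), 0 < a → ∃ k < f (fstB z),
      (if f (fstB z) = 0 then 0 else val (sndB z) ^ k % f (fstB z)) = a) := by
    refine CHP.allN2 (N := fun z => f (fstB z)) (P := fun z a => 0 < a → ∃ k < f (fstB z),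
      (if f (fstB z) = 0 then 0 else val (sndB z) ^ k % f (fstB z)) = a) hf.fst ?_
    refine ((CHN.const 0).lt CHN.var).imp ?_
    refine CHP.exN2 (N := fun z => f (fstB (fstB z))) (P := fun z k =>
      (if f (fstB (fstB z)) = 0 then 0 else val (sndB (fstB z)) ^ k % f (fstB (fstB z))) =
        val (sndB z)) hf.fst.fst ?_
    exact (CHN.powMod0 CHN.var.fst.fst CHN.var hf.fst.fst.fst).eq CHN.var.fst
  refine (CHN.find2 (P := fun w g => ∀ a < f w, 0 < a → ∃ k < f w,
      (if f w = 0 then 0 else g ^ k % f w) = a) hf h1).congr (fun w => ?_)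
  unfold prt
  by_cases h0 : f w = 0
  · rw [h0]
    simp
  · simp only [h0, if_false]

theorem CHN_dlg {f a : W → ℕ} (hf : CHN f) (ha : CHN a) : CHN (fun w => dlg (f w) (a w)) := by
  classical
  have h1 : CHP (fun z => (if f (fstB z) = 0 then 0 else
      prt (f (fstB z)) ^ val (sndB z) % f (fstB z)) = a (fstB z)) :=
    (CHN.powMod0 (CHN_prt hf.fst) CHN.var hf.fst).eq ha.fst
  refine (CHN.find2 (P := fun w k => (if f w = 0 then 0 else prt (f w) ^ k % f w) = a w)
    hf h1).congr (fun w => ?_)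
  unfold dlg
  by_cases h0 : f w = 0
  · rw [h0]
    simp
  · simp only [h0, if_false]

/-- If no factor is divisible by `p` then `∏ x_i = g^(∑ dlg x_i)` mod `p`. -/
theorem prod_mod_eq {p : ℕ} (hp : p.Prime) (n : ℕ) (x : ℕ → ℕ) :
    (∏ i ∈ Finset.range n, x i) % p =
      if ∃ i < n, x i % p = 0 then 0
      else prt p ^ (∑ i ∈ Finset.range n, dlg p (x i % p)) % p := by
  by_cases h : ∃ i < n, x i % p = 0
  · rw [if_pos h]
    obtain ⟨i, hi, hx⟩ := h
    refine Nat.mod_eq_zero_of_dvd ?_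
    exact dvd_trans (Nat.dvd_of_mod_eq_zero hx)
      (Finset.dvd_prod_of_mem x (Finset.mem_range.2 hi))
  · rw [if_neg h]
    push Not at h
    rw [← Finset.prod_pow_eq_pow_sum]
    have e1 : (∏ i ∈ Finset.range n, x i) ≡ ∏ i ∈ Finset.range n, prt p ^ dlg p (x i % p) [MOD p] := by
      rw [← ZMod.natCast_eq_natCast_iff, Nat.cast_prod, Nat.cast_prod]
      refine Finset.prod_congr rfl fun i hi => ?_
      rw [ZMod.natCast_eq_natCast_iff']
      have h1 := h i (Finset.mem_range.1 hi)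
      rw [dlg_spec hp (Nat.mod_lt _ hp.pos) (Nat.pos_of_ne_zero h1)]
    exact e1

open Classical in
/-- products of exponentially many factors modulo a prime (discrete logarithms).
PROOF.  `prod_mod_eq`, `CHN.sum2`, `CHP.exN2`, `CHN_dlg`, `CHN_prt`, `CHN.powMod0`, `CHP.prime`. -/
theorem CHN.prodMod {N f m : W → ℕ} (hN : CHN N) (hf : CHN f) (hm : CHN m) :
    CHN (fun w => if (m w).Prime then
      (∏ i ∈ Finset.range (N w), f (Crest.Agent.CHR.pn w i)) % m w else 0) := by
  have hfz : CHN (fun z => f (Crest.Agent.CHR.pn (fstB z) (val (sndB z)))) :=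
    hf.comp (CHF.pn CHF.fst CHN.var)
  have hS : CHN (fun w => ∑ i ∈ Finset.range (N w),
      dlg (m w) (f (Crest.Agent.CHR.pn w i) % m w)) :=
    CHN.sum2 (F := fun w i => dlg (m w) (f (Crest.Agent.CHR.pn w i) % m w)) hN
      (CHN_dlg hm.fst (hfz.mod hm.fst))
  have hE : CHP (fun w => ∃ i < N w, f (Crest.Agent.CHR.pn w i) % m w = 0) :=
    CHP.exN2 (P := fun w i => f (Crest.Agent.CHR.pn w i) % m w = 0) hN
      ((hfz.mod hm.fst).eq (CHN.const 0))
  have hP := CHN.powMod0 (CHN_prt hm) hS hm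
  refine (CHN.ite (CHP.prime hm) (CHN.ite hE (CHN.const 0) hP) (CHN.const 0)).congr (fun w => ?_)
  by_cases hp : (m w).Prime
  · rw [if_pos hp, if_pos hp, prod_mod_eq hp]
    have h0 : m w ≠ 0 := hp.ne_zero
    by_cases hh : ∃ i < N w, f (Crest.Agent.CHR.pn w i) % m w = 0
    · rw [if_pos hh, if_pos hh]
    · rw [if_neg hh, if_neg hh, if_neg h0]
  · rw [if_neg hp, if_neg hp]

/-- convenient form: for `m w` prime and `a w % m w ≠ 0`, a number `b < m w` with `a w * b % m w = 1` -/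
noncomputable def mnv (a p : ℕ) : ℕ := by
  classical
  exact if h : ∃ b, b < p ∧ a * b % p = 1 then Nat.find h else p

theorem CHN_mnv {a m : W → ℕ} (ha : CHN a) (hm : CHN m) : CHN (fun w => mnv (a w) (m w)) := by
  classical
  have h1 : CHP (fun z => a (fstB z) * val (sndB z) % m (fstB z) = 1) :=
    (((ha.fst).mul CHN.var).mod hm.fst).eq (CHN.const 1)
  refine (CHN.find2 (P := fun w b => a w * b % m w = 1) hm h1).congr (fun w => ?_)
  unfold mnv
  by_cases h : ∃ b, b < m w ∧ a w * b % m w = 1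
  · rw [dif_pos h, dif_pos h]
    congr!
  · rw [dif_neg h, dif_neg h]

private theorem inv_aux {a p : ℕ} (hp : p.Prime) (ha : ¬ p ∣ a) :
    haveI := Fact.mk hp
    a * ((a : ZMod p)⁻¹).val % p = 1 := by
  have := Fact.mk hp
  have ha1 : (a : ZMod p) ≠ 0 := by
    intro h
    rw [ZMod.natCast_eq_zero_iff] at h
    exact ha h
  have h2 : ((a * ((a : ZMod p)⁻¹).val : ℕ) : ZMod p) = ((1 : ℕ) : ZMod p) := by
    rw [Nat.cast_mul, ZMod.natCast_zmod_val, mul_inv_cancel₀ ha1, Nat.cast_one]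
  rw [ZMod.natCast_eq_natCast_iff'] at h2
  rw [h2, Nat.mod_eq_of_lt hp.one_lt]

theorem mnv_spec {a p : ℕ} (hp : p.Prime) (ha : ¬ p ∣ a) : mnv a p < p ∧ a * mnv a p % p = 1 := by
  classical
  have := Fact.mk hp
  have h : ∃ b, b < p ∧ a * b % p = 1 := ⟨((a : ZMod p)⁻¹).val, ZMod.val_lt _, inv_aux hp ha⟩
  have e : mnv a p = Nat.find h := by
    unfold mnv
    rw [dif_pos h]
  rw [e]
  exact Nat.find_spec h

private theorem mnv_eq {a p : ℕ} (hp : p.Prime) (ha : ¬ p ∣ a) :
    haveI := Fact.mk hp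
    mnv a p = ((a : ZMod p)⁻¹).val := by
  have := Fact.mk hp
  obtain ⟨h1, h2⟩ := mnv_spec hp ha
  have h3 := inv_aux hp ha
  have ha1 : (a : ZMod p) ≠ 0 := by
    intro h
    rw [ZMod.natCast_eq_zero_iff] at h
    exact ha h
  have h4 : (a : ZMod p) * ((mnv a p : ℕ) : ZMod p) = 1 := by
    have h5 : ((a * mnv a p : ℕ) : ZMod p) = ((1 : ℕ) : ZMod p) := by
      rw [ZMod.natCast_eq_natCast_iff', h2, Nat.mod_eq_of_lt hp.one_lt]
    simpa using h5
  have h6 : ((mnv a p : ℕ) : ZMod p) = (a : ZMod p)⁻¹ := eq_inv_of_mul_eq_one_right h4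
  rw [← h6, ZMod.val_natCast, Nat.mod_eq_of_lt h1]

open Classical in
/-- inverses modulo a prime.
PROOF.  The value is `0` if `m w` is not prime or `a w % m w = 0`, else the least (the only) `b < m w` with `a w * b % m w = 1`
(`CHN.find2`). -/
theorem CHN.invMod {a m : W → ℕ} (ha : CHN a) (hm : CHN m) :
    CHN (fun w => if h : (m w).Prime then
      (haveI := Fact.mk h; (((a w : ZMod (m w)))⁻¹).val) else 0) := by
  refine (CHN.ite ((CHP.prime hm).and (((ha.mod hm).eq (CHN.const 0)).not))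
    (CHN_mnv ha hm) (CHN.const 0)).congr (fun w => ?_)
  by_cases hp : (m w).Prime
  · rw [dif_pos hp]
    by_cases h0 : a w % m w = 0
    · rw [if_neg (fun h => h.2 h0)]
      have := Fact.mk hp
      have h1 : (a w : ZMod (m w)) = 0 := by
        rw [ZMod.natCast_eq_zero_iff]
        exact Nat.dvd_of_mod_eq_zero h0
      rw [h1, inv_zero, ZMod.val_zero]
    · rw [if_pos ⟨hp, h0⟩]
      exact mnv_eq hp (fun h => h0 (Nat.mod_eq_zero_of_dvd h))
  · rw [dif_neg hp, if_neg (fun h => hp h.1)]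

end Crest.Agent.CHR
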