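import Crest.Agent.CHR.ArPrime
import Crest.Agent.CHR.ArCheb
import Crest.Agent.CHR.ArCRT
import Crest.Agent.CHR.ArCarry

/-!
# MODULE M3 (row 316): the sign theorem, pure part
Chunk R316-ArSignA.
-/

set_option autoImplicit false

namespace Crest.Agent.CHR

def tt (B : ℕ) : ℕ := 2 * B + 10

def KK (B : ℕ) : ℕ := 2 ^ (tt B + 2)

/-- the primes that are used -/
def inP (B p : ℕ) : Prop := p.Prime ∧ 2 ^ B < p ∧ p ≤ 2 ^ tt B

def PP (B : ℕ) : Finset ℕ := (Finset.Ioc (2 ^ B) (2 ^ tt B)).filter Nat.Prime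

theorem mem_PP (B p : ℕ) : p ∈ PP B ↔ inP B p := by
  simp [PP, inP]
  tauto

/-- residue of `2 F - 1` modulo `p` -/
def Gr (F : ℤ) (p : ℕ) : ℕ := (2 * zmodN F p + p - 1) % p

open Classical in
/-- product of the other primes modulo `p` -/
noncomputable def cof (B p : ℕ) : ℕ :=
  (∏ i ∈ Finset.range (2 ^ tt B + 1), if inP B i ∧ i ≠ p then i else 1) % p

noncomputable def av (F : ℤ) (B p : ℕ) : ℕ := Gr F p * mnv (cof B p) p % p

open Classical in
noncomputable def cc (F : ℤ) (B j : ℕ) : ℕ :=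
  if j < KK B then
    ((Finset.range (2 ^ tt B + 1)).filter
      (fun p => inP B p ∧ p ≤ 2 ^ (KK B - j) * av F B p % (2 * p))).card
  else 0

theorem cof_eq (B p : ℕ) : cof B p = (∏ q ∈ (PP B).erase p, q) % p := by
  classical
  unfold cof
  rw [← Finset.prod_filter]
  congr 1
  apply Finset.prod_congr _ (fun _ _ => rfl)
  ext i
  simp only [Finset.mem_filter, Finset.mem_range, Finset.mem_erase, mem_PP]
  constructor
  · rintro ⟨_, h1, h2⟩; exact ⟨h2, h1⟩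
  · rintro ⟨h2, h1⟩; exact ⟨by have := h1.2.2; omega, h1, h2⟩

theorem not_dvd_cof (B p : ℕ) (hp : p ∈ PP B) : ¬ p ∣ cof B p := by
  rw [cof_eq]
  have hpp : p.Prime := ((mem_PP B p).1 hp).1
  intro h
  have h2 : p ∣ ∏ q ∈ (PP B).erase p, q := by
    rw [Nat.dvd_mod_iff (dvd_refl p)] at h
    exact h
  rw [hpp.prime.dvd_finsetProd_iff] at h2
  obtain ⟨q, hq, hpq⟩ := h2
  rw [Finset.mem_erase, mem_PP] at hq
  exact hq.1 ((Nat.prime_dvd_prime_iff_eq hpp hq.2.1).1 hpq).symm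

/-- PROOF.  `Gr F p ≡ 2F - 1`, `cof B p = (∏ q ∈ (PP B).erase p, q) % p` (the factors outside are `1`:
`Finset.prod_filter` / `Finset.prod_ite`), `p ∤ cof` (distinct primes, `Prime.dvd_finset_prod_iff`), `mnv_spec`. -/
theorem av_spec (F : ℤ) (B p : ℕ) (hp : p ∈ PP B) :
    av F B p < p ∧
      ((av F B p * ∏ q ∈ (PP B).erase p, q : ℕ) : ℤ) ≡ 2 * F - 1 [ZMOD p] := by
  have hpp : p.Prime := ((mem_PP B p).1 hp).1
  have hp0 : 0 < p := hpp.pos
  obtain ⟨h1, h2⟩ := mnv_spec hpp (not_dvd_cof B p hp)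
  refine ⟨Nat.mod_lt _ hp0, ?_⟩
  have hcof : ((∏ q ∈ (PP B).erase p, q : ℕ) : ℤ) ≡ (cof B p : ℤ) [ZMOD p] := by
    rw [cof_eq, Int.natCast_mod]
    exact (Int.mod_modEq _ _).symm
  have hav : (av F B p : ℤ) ≡ (Gr F p : ℤ) * (mnv (cof B p) p : ℤ) [ZMOD p] := by
    unfold av
    rw [Int.natCast_mod]
    refine (Int.mod_modEq _ _).trans ?_
    push_cast
    exact Int.ModEq.refl _
  have hmn : (cof B p : ℤ) * (mnv (cof B p) p : ℤ) ≡ 1 [ZMOD p] := by
    have h3 : ((cof B p * mnv (cof B p) p % p : ℕ) : ℤ) = 1 := by rw [h2]; rfl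
    rw [Int.natCast_mod] at h3
    have h4 : (((cof B p * mnv (cof B p) p : ℕ) : ℤ) % (p:ℤ)) ≡ ((cof B p * mnv (cof B p) p : ℕ) : ℤ) [ZMOD p] :=
      Int.mod_modEq _ _
    rw [h3] at h4
    push_cast at h4
    exact h4.symm
  have hz : (zmodN F p : ℤ) ≡ F [ZMOD p] := by
    unfold zmodN
    rw [Int.toNat_of_nonneg (Int.emod_nonneg _ (by exact_mod_cast hp0.ne'))]
    exact Int.mod_modEq _ _
  have hGr : (Gr F p : ℤ) ≡ 2 * F - 1 [ZMOD p] := by
    unfold Gr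
    rw [Int.natCast_mod]
    refine (Int.mod_modEq _ _).trans ?_
    have h5 : ((2 * zmodN F p + p - 1 : ℕ) : ℤ) = 2 * (zmodN F p : ℤ) + p - 1 := by
      rw [Nat.cast_sub (by omega)]
      push_cast
      ring
    rw [h5]
    have h6 : 2 * (zmodN F p : ℤ) + p - 1 ≡ 2 * F + 0 - 1 [ZMOD p] := by
      refine Int.ModEq.sub (Int.ModEq.add (Int.ModEq.mul_left 2 hz) ?_) (Int.ModEq.refl _)
      exact (Int.modEq_zero_iff_dvd).2 (dvd_refl _)
    simpa using h6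
  push_cast
  push_cast at hcof
  calc (av F B p : ℤ) * ∏ q ∈ (PP B).erase p, (q:ℤ)
      ≡ ((Gr F p : ℤ) * (mnv (cof B p) p : ℤ)) * (cof B p : ℤ) [ZMOD p] := Int.ModEq.mul hav hcof
    _ = (Gr F p : ℤ) * ((cof B p : ℤ) * (mnv (cof B p) p : ℤ)) := by ring
    _ ≡ (Gr F p : ℤ) * 1 [ZMOD p] := Int.ModEq.mul_left _ hmn
    _ = (Gr F p : ℤ) := by ring
    _ ≡ 2 * F - 1 [ZMOD p] := hGr

theorem card_PP (B : ℕ) : (PP B).card ≤ 2 ^ tt B := by
  unfold PP
  refine (Finset.card_filter_le _ _).trans ?_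
  rw [Nat.card_Ioc]
  exact Nat.sub_le _ _

theorem cc_le (F : ℤ) (B j : ℕ) : cc F B j ≤ 2 ^ tt B := by
  classical
  unfold cc
  split_ifs with h
  · refine le_trans (Finset.card_le_card (t := PP B) ?_) (card_PP B)
    intro p hp
    rw [Finset.mem_filter] at hp
    exact (mem_PP B p).2 hp.2.1
  · exact Nat.zero_le _

theorem cc_eq_filter (F : ℤ) (B j : ℕ) (hj : j < KK B) :
    cc F B j = ((PP B).filter
      (fun p => (2 ^ KK B * av F B p / p).testBit j = true)).card := by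
  classical
  unfold cc
  rw [if_pos hj]
  congr 1
  ext p
  simp only [Finset.mem_filter, Finset.mem_range, mem_PP]
  constructor
  · rintro ⟨_, h1, h2⟩
    exact ⟨h1, (testBit_div _ _ _ _ h1.1.pos hj.le).2 h2⟩
  · rintro ⟨h1, h2⟩
    exact ⟨by have := h1.2.2; omega, h1, (testBit_div _ _ _ _ h1.1.pos hj.le).1 h2⟩

/-- PROOF.  `G = 2F - 1` is odd, `0 < F ↔ 0 < G`; `4 |G| ≤ 2^(2^B + 4) ≤ 2^(2^(B+3)) < ∏ p` (`prod_primes_large B (tt B)`),
`(∏ p) 2^t ≤ 2^(2^(t+1) + t) ≤ 2^K` (`prod_primes_small`), `(PP B).card ≤ 2^t`.  `crt_sign` with `a p = av F B p`.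
`b_p = 2^K a_p / p < 2^K`; `sum_eq_bits`; the coefficient of `2^j`, `j < K`, is `cc F B j` (`testBit_div`, `mem_PP`);
`cc F B j ≤ 2^t`; `sum_bits` with `k = K - 1`. -/
theorem sign_pure (F : ℤ) (B : ℕ) (hF : |F| ≤ 2 ^ (2 ^ B)) :
    0 < F ↔ ¬ ((ebit (tt B) (cc F B) (KK B - 1) ↔ obit (tt B) (cc F B) (KK B - 1)) ↔
      ∃ j < KK B - 1, ebit (tt B) (cc F B) j ∧ obit (tt B) (cc F B) j ∧
        ∀ i < KK B - 1, j < i → (ebit (tt B) (cc F B) i ∨ obit (tt B) (cc F B) i)) := by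
  have hsum : ∑ p ∈ PP B, 2 ^ KK B * av F B p / p
      = ∑ j ∈ Finset.range (KK B), cc F B j * 2 ^ j := by
    rw [sum_eq_bits (PP B) (fun p => 2 ^ KK B * av F B p / p) (KK B)]
    · apply Finset.sum_congr rfl
      intro j hj
      rw [Finset.mem_range] at hj
      rw [cc_eq_filter F B j hj]
    · intro p hp
      have hpp : p.Prime := ((mem_PP B p).1 hp).1
      rw [Nat.div_lt_iff_lt_mul hpp.pos]
      exact Nat.mul_lt_mul_of_pos_left (av_spec F B p hp).1 (by positivity)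
  have hbit := sum_bits (tt B) (KK B) (cc F B) (cc_le F B)
    (by intro j hj; unfold cc; rw [if_neg (by omega)]) (KK B - 1)
  rw [← hbit, ← hsum, Bool.not_eq_true]
  have hG : (0 < F) ↔ 0 < 2 * F - 1 := by omega
  rw [hG]
  have hprod := prod_primes_large B (tt B) (by unfold tt; omega)
  have hprod2 := prod_primes_small B (tt B)
  apply crt_sign (PP B) (fun p hp => ((mem_PP B p).1 hp).1) (tt B) (KK B) (card_PP B) (2 * F - 1)
    (av F B) (by omega) ?_ ?_ (fun p hp => (av_spec F B p hp).1) (fun p hp => (av_spec F B p hp).2)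
  · have h1 : |2 * F - 1| ≤ 2 * |F| + 1 := by
      calc |2 * F - 1| ≤ |2 * F| + |1| := abs_sub _ _
        _ = 2 * |F| + 1 := by rw [abs_mul]; simp
    have h2 : (4 : ℤ) * |2 * F - 1| ≤ 2 ^ (2 ^ B + 4) := by
      have h3 : (1 : ℤ) ≤ 2 ^ (2 ^ B) := one_le_pow₀ (by norm_num)
      calc (4 : ℤ) * |2 * F - 1| ≤ 4 * (2 * |F| + 1) := by linarith
        _ ≤ 16 * 2 ^ (2 ^ B) := by linarith
        _ = 2 ^ (2 ^ B + 4) := by rw [pow_add]; ring
    have h3 : 2 ^ B + 4 ≤ 2 ^ (B + 3) := by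
      have : 1 ≤ 2 ^ B := Nat.one_le_two_pow
      rw [pow_add]; omega
    have h4 : (2 : ℤ) ^ (2 ^ B + 4) ≤ 2 ^ (2 ^ (B + 3)) := pow_le_pow_right₀ (by norm_num) h3
    have h5 : ((2 ^ (2 ^ (B + 3)) : ℕ) : ℤ) < ((∏ p ∈ PP B, p : ℕ) : ℤ) := by
      exact_mod_cast hprod
    push_cast at h5
    linarith
  · calc (∏ p ∈ PP B, p) * 2 ^ tt B ≤ 2 ^ (2 ^ (tt B + 1)) * 2 ^ tt B :=
          Nat.mul_le_mul_right _ hprod2
      _ = 2 ^ (2 ^ (tt B + 1) + tt B) := by rw [← pow_add]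
      _ ≤ 2 ^ KK B := by
          apply Nat.pow_le_pow_right (by norm_num)
          unfold KK
          have h1 : tt B < 2 ^ tt B := Nat.lt_two_pow_self
          rw [pow_add, pow_add]
          omega

end Crest.Agent.CHR
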