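import Crest.Agent.CHR.ArSignA

/-!
# MODULE M3 (row 316): the sign theorem, the coefficients are in the counting hierarchy
Chunk R316-ArSignB.   Notation: `z = pn w p`, `w = fstB z`, `p = val (sndB z)`, `B = b.eval w.length`.
Use `CHN.app2`, `CHP.app2` for substitutions, `CHF.fst.comp CHF.fst` etc. for deeper contexts.
-/

set_option autoImplicit false

namespace Crest.Agent.CHR

open Crest.Complexity Crest.CountHier

variable (b : Polynomial ℕ)

theorem CHN_tt : CHN (fun w => tt (b.eval w.length)) := by
  refine (CHN.polyLen CHF.id (2 * b + 10)).congr (fun w => ?_)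
  simp [tt]

/-- PROOF.  `CHN.twoPow CHF.id (2 * b + 12)`. -/
theorem CHN_KK : CHN (fun w => KK (b.eval w.length)) := by
  refine (CHN.twoPow CHF.id (2 * b + 12)).congr (fun w => ?_)
  simp [tt, KK]

theorem CHN_top : CHN (fun w => 2 ^ tt (b.eval w.length) + 1) := by
  refine ((CHN.twoPow CHF.id (2 * b + 10)).add (CHN.const 1)).congr (fun w => ?_)
  simp [tt]

theorem CHP_inP : CHP (fun z => inP (b.eval (fstB z).length) (val (sndB z))) := by
  have h1 : CHP (fun z => (val (sndB z)).Prime) := CHP.prime CHN.var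
  have h2 : CHP (fun z => 2 ^ (b.eval (fstB z).length) < val (sndB z)) :=
    (CHN.twoPow CHF.fst b).lt CHN.var
  have h3 : CHP (fun z => val (sndB z) ≤ 2 ^ ((2 * b + 10).eval (fstB z).length)) :=
    CHN.var.le (CHN.twoPow CHF.fst (2 * b + 10))
  refine (h1.and (h2.and h3)).congr (fun z => ?_)
  simp [inP, tt]

private theorem CHP_inP2 : CHP (fun z => inP (b.eval (fstB (fstB z)).length) (val (sndB z))) :=
  CHP.app2 (P := fun w p => inP (b.eval w.length) p) (CHP_inP b) (CHF.fst.comp CHF.fst) CHN.var

open Classical in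
/-- PROOF.  `CHN.prodMod` with `N z = 2^t + 1`, `m z = val (sndB z)`,
`f z' = if inP (b (fstB (fstB z')).length) (val (sndB z')) ∧ val (sndB z') ≠ val (sndB (fstB z')) then val (sndB z') else 1`. -/
theorem CHN_cof : CHN (fun z => if (val (sndB z)).Prime then
    cof (b.eval (fstB z).length) (val (sndB z)) else 0) := by
  have hv : CHN (fun z => val (sndB (fstB z))) := CHN.var.fst
  have hP : CHP (fun z => inP (b.eval (fstB (fstB z)).length) (val (sndB z)) ∧
      val (sndB z) ≠ val (sndB (fstB z))) := (CHP_inP2 b).and (CHN.var.eq hv).not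
  have hf := CHN.ite hP CHN.var (CHN.const 1)
  refine (CHN.prodMod (CHN_top b).fst hf CHN.var).congr (fun z => ?_)
  by_cases hp : (val (sndB z)).Prime
  · rw [if_pos hp, if_pos hp]
    unfold cof
    congr 1
    refine Finset.prod_congr rfl (fun i _ => ?_)
    simp
  · rw [if_neg hp, if_neg hp]

open Classical in
/-- PROOF.  `hres`, `CHN_cof`, `CHN_mnv`, arithmetic. -/
theorem CHN_av (F : W → ℤ)
    (hres : CHN (fun z => if (val (sndB z)).Prime ∧ 2 ^ (b.eval (fstB z).length) < val (sndB z)
      then zmodN (F (fstB z)) (val (sndB z)) else 0)) :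
    CHN (fun z => if inP (b.eval (fstB z).length) (val (sndB z)) then
      av (F (fstB z)) (b.eval (fstB z).length) (val (sndB z)) else 0) := by
  have hgr := ((((CHN.const 2).mul hres).add CHN.var).sub (CHN.const 1)).mod CHN.var
  have hm := CHN_mnv (CHN_cof b) CHN.var
  refine (CHN.ite (CHP_inP b) ((hgr.mul hm).mod CHN.var) (CHN.const 0)).congr (fun z => ?_)
  by_cases hp : inP (b.eval (fstB z).length) (val (sndB z))
  · rw [if_pos hp, if_pos hp, if_pos hp.1, if_pos ⟨hp.1, hp.2.1⟩]
    rfl
  · rw [if_neg hp, if_neg hp]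

open Classical in
/-- PROOF.  `CHN.card2` (context `z = pn w j`, then `pn z p`), `CHN.powMod0` with base `2`, exponent `K - j`, modulus `2p`
(`2^(K-j) * a % (2p) = (2^(K-j) % (2p)) * a % (2p)`), `CHN_av` with `CHN.app2`. -/
theorem CHN_cc (F : W → ℤ)
    (hres : CHN (fun z => if (val (sndB z)).Prime ∧ 2 ^ (b.eval (fstB z).length) < val (sndB z)
      then zmodN (F (fstB z)) (val (sndB z)) else 0)) :
    CHN (fun z => cc (F (fstB z)) (b.eval (fstB z).length) (val (sndB z))) := by
  have hff : CHF (fun z => fstB (fstB z)) := CHF.fst.comp CHF.fst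
  have hj : CHN (fun z => val (sndB (fstB z))) := CHN.var.fst
  have hK2 : CHN (fun z => KK (b.eval (fstB (fstB z)).length)) := (CHN_KK b).comp hff
  have hav : CHN (fun z => if inP (b.eval (fstB (fstB z)).length) (val (sndB z)) then
      av (F (fstB (fstB z))) (b.eval (fstB (fstB z)).length) (val (sndB z)) else 0) :=
    CHN.app2 (F := fun w p => if inP (b.eval w.length) p then av (F w) (b.eval w.length) p else 0)
      (CHN_av b F hres) hff CHN.var
  have h2p : CHN (fun z => 2 * val (sndB z)) := (CHN.const 2).mul CHN.var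
  have hpow := CHN.powMod0 (CHN.const 2) (hK2.sub hj) h2p
  have hQ := CHN.var.le ((hpow.mul hav).mod h2p)
  have hP : CHP (fun z => inP (b.eval (fstB (fstB z)).length) (val (sndB z)) ∧
      val (sndB z) ≤ 2 ^ (KK (b.eval (fstB (fstB z)).length) - val (sndB (fstB z))) *
        av (F (fstB (fstB z))) (b.eval (fstB (fstB z)).length) (val (sndB z)) %
          (2 * val (sndB z))) := by
    refine ((CHP_inP2 b).and hQ).congr (fun z => ?_)
    refine and_congr_right (fun hp => ?_)
    have hp0 : 2 * val (sndB z) ≠ 0 := by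
      have := hp.1.pos
      omega
    rw [if_neg hp0, if_pos hp]
    simp [Nat.mul_mod]
  have hcard := CHN.card2 (N := fun z => 2 ^ tt (b.eval (fstB z).length) + 1)
    (P := fun z p => inP (b.eval (fstB z).length) p ∧
      p ≤ 2 ^ (KK (b.eval (fstB z).length) - val (sndB z)) *
        av (F (fstB z)) (b.eval (fstB z).length) p % (2 * p)) (CHN_top b).fst hP
  have hlt : CHP (fun z => val (sndB z) < KK (b.eval (fstB z).length)) :=
    CHN.var.lt (CHN_KK b).fst
  refine (CHN.ite hlt hcard (CHN.const 0)).congr (fun z => ?_)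
  unfold cc
  by_cases h : val (sndB z) < KK (b.eval (fstB z).length)
  · rw [if_pos h, if_pos h]
    congr
  · rw [if_neg h, if_neg h]

end Crest.Agent.CHR
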