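import Crest.Agent.CHR.ArSignA

/-!
# MODULE M3 (row 316): the sign theorem, bits of the sum in the counting hierarchy
Chunk R316-ArSignC.   Here `c w j` is any CHN function.
-/

set_option autoImplicit false

namespace Crest.Agent.CHR

open Crest.Complexity Crest.CountHier

theorem tt_eval (b : Polynomial ℕ) (n : ℕ) : tt (b.eval n) = (2 * b + 10).eval n := by
  simp [tt]

theorem CHN_ttC (b : Polynomial ℕ) : CHN (fun w => tt (b.eval w.length)) :=
  (CHN.polyLen CHF.id (2 * b + 10)).congr (fun _ => (tt_eval b _).symm)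

theorem CHN_DD (b : Polynomial ℕ) (c : W → ℕ → ℕ)
    (hc : CHN (fun z => c (fstB z) (val (sndB z)))) :
    CHN (fun z => DDc (tt (b.eval (fstB z).length)) (c (fstB z)) (val (sndB z))) := by
  have ht := CHN_ttC b
  have ht1 : CHN (fun w : W => tt (b.eval w.length) + 1) := ht.add (CHN.const 1)
  refine (CHN.sum2 (N := fun z => tt (b.eval (fstB z).length) + 1)
    (F := fun z i => c (fstB z) ((tt (b.eval (fstB z).length) + 1) * val (sndB z) + i) *
      2 ^ (Min.min i (tt (b.eval (fstB z).length)))) ht1.fst ?_).congr (fun z => ?_)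
  · refine CHN.mul ?_ ?_
    · exact CHN.app2 (F := c) hc (CHF.fst.comp CHF.fst)
        ((ht1.fst.fst.mul CHN.var.fst).add CHN.var)
    · refine CHN.twoPowN (CHN.var.min ht.fst.fst) (2 * b + 10) (fun z => ?_)
      refine (min_le_right _ _).trans ?_
      rw [tt_eval]
      exact pmono _ ((len_fstB_le _).trans (len_fstB_le _))
  · refine Finset.sum_congr rfl (fun i hi => ?_)
    rw [Finset.mem_range] at hi
    rw [min_eq_left (by omega)]

theorem CHP_bitDD (b : Polynomial ℕ) (c : W → ℕ → ℕ)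
    (hc : CHN (fun z => c (fstB z) (val (sndB z)))) {x : W → W} {f g : W → ℕ} (hx : CHF x)
    (hlx : ∀ w, (x w).length ≤ w.length) (hf : CHN f) (hg : CHN g) :
    CHP (fun w => DDc (tt (b.eval (x w).length)) (c (x w)) (f w) /
      2 ^ (g w % (2 * (tt (b.eval (x w).length) + 1))) % 2 = 1) := by
  have ht := CHN_ttC b
  have ht1 : CHN (fun w : W => tt (b.eval w.length) + 1) := ht.add (CHN.const 1)
  have h1 : CHN (fun w => DDc (tt (b.eval (x w).length)) (c (x w)) (f w)) :=
    CHN.app2 (F := fun w r => DDc (tt (b.eval w.length)) (c w) r) (CHN_DD b c hc) hx hf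
  have h2 : CHN (fun w => g w % (2 * (tt (b.eval (x w).length) + 1))) :=
    hg.mod ((CHN.const 2).mul (ht1.comp hx))
  have h3 : CHN (fun w => 2 ^ (g w % (2 * (tt (b.eval (x w).length) + 1)))) := by
    refine CHN.twoPowN h2 (2 * ((2 * b + 10) + 1)) (fun w => ?_)
    refine (Nat.mod_lt _ (by positivity)).le.trans ?_
    rw [tt_eval, Polynomial.eval_mul, Polynomial.eval_add (p := 2 * b + 10), Polynomial.eval_one,
      Polynomial.eval_ofNat]
    exact Nat.mul_le_mul_left _ (Nat.add_le_add_right (pmono _ (hlx w)) 1)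
  exact CHN.eq ((h1.div h3).mod (CHN.const 2)) (CHN.const 1)

theorem CHP_ebit (b : Polynomial ℕ) (c : W → ℕ → ℕ)
    (hc : CHN (fun z => c (fstB z) (val (sndB z)))) :
    CHP (fun z => ebit (tt (b.eval (fstB z).length)) (c (fstB z)) (val (sndB z))) := by
  have ht := CHN_ttC b
  have ht1 : CHN (fun w : W => tt (b.eval w.length) + 1) := ht.add (CHN.const 1)
  exact CHP_bitDD b c hc CHF.fst len_fstB_le
    ((CHN.const 2).mul (CHN.var.div ((CHN.const 2).mul ht1.fst))) CHN.var

theorem CHP_obit (b : Polynomial ℕ) (c : W → ℕ → ℕ)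
    (hc : CHN (fun z => c (fstB z) (val (sndB z)))) :
    CHP (fun z => obit (tt (b.eval (fstB z).length)) (c (fstB z)) (val (sndB z))) := by
  have ht := CHN_ttC b
  have ht1 : CHN (fun w : W => tt (b.eval w.length) + 1) := ht.add (CHN.const 1)
  have hs : CHN (fun z => val (sndB z) - (tt (b.eval (fstB z).length) + 1)) :=
    CHN.var.sub ht1.fst
  exact (CHN.le ht1.fst CHN.var).and (CHP_bitDD b c hc CHF.fst len_fstB_le
    (((CHN.const 2).mul (hs.div ((CHN.const 2).mul ht1.fst))).add (CHN.const 1)) hs)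

theorem CHP_look (E O : W → ℕ → Prop) (N : W → ℕ) (hN : CHN N)
    (hE : CHP (fun z => E (fstB z) (val (sndB z)))) (hO : CHP (fun z => O (fstB z) (val (sndB z)))) :
    CHP (fun w => ((E w (N w) ↔ O w (N w)) ↔
      ∃ j < N w, E w j ∧ O w j ∧ ∀ i < N w, j < i → (E w i ∨ O w i))) := by
  refine CHP.iff (CHP.iff (CHP.app2 (P := E) hE CHF.id hN) (CHP.app2 (P := O) hO CHF.id hN)) ?_
  refine CHP.exN2 (N := N)
    (P := fun w j => E w j ∧ O w j ∧ ∀ i < N w, j < i → (E w i ∨ O w i)) hN ?_
  refine hE.and (hO.and ?_)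
  refine CHP.allN2 (N := fun z => N (fstB z))
    (P := fun z i => val (sndB z) < i → (E (fstB z) i ∨ O (fstB z) i)) hN.fst ?_
  exact (CHN.lt CHN.var.fst CHN.var).imp
    ((CHP.app2 (P := E) hE (CHF.fst.comp CHF.fst) CHN.var).or
      (CHP.app2 (P := O) hO (CHF.fst.comp CHF.fst) CHN.var))

end Crest.Agent.CHR
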