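import Crest.Agent.CHR.ArSignB
import Crest.Agent.CHR.ArSignC

/-!
# MODULE M3 (row 316): modular arithmetic and the sign theorem
Interface; M2 (`CHcl.lean`) is a black box.  Paper proof: idea row 316, parts A2, A3.

The statements are in `Ar0.lean` (contexts, `zmodN`), `ArPow.lean` (`CHN.rec'`, `CHN.powMod`, `CHN.powMod0`),
`ArPrime.lean` (`CHP.prime`, `CHN.prodMod`, `CHN.invMod`, `mnv`), `ArCheb.lean` (`prod_primes_large`).
-/

set_option autoImplicit false

namespace Crest.Agent.CHR

open Crest.Complexity Crest.CountHier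

theorem CHN.sumMod {N f m : W → ℕ} (hN : CHN N) (hf : CHN f) (hm : CHN m) :
    CHN (fun w => (∑ i ∈ Finset.range (N w), f (Crest.Agent.CHR.pn w i)) % m w) :=
  (hN.sum hf).mod hm

open Classical in
/-- SIGN THEOREM -/
theorem sign_CH (F : W → ℤ) (b : Polynomial ℕ)
    (hF : ∀ w, |F w| ≤ 2 ^ (2 ^ (b.eval w.length)))
    (hres : CHN (fun z => if (val (sndB z)).Prime ∧ 2 ^ (b.eval (fstB z).length) < val (sndB z)
      then zmodN (F (fstB z)) (val (sndB z)) else 0)) :
    CHP (fun w => 0 < F w) := by
  have hc := CHN_cc b F hres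
  have hE := CHP_ebit b (fun w => cc (F w) (b.eval w.length)) hc
  have hO := CHP_obit b (fun w => cc (F w) (b.eval w.length)) hc
  have h := CHP_look
    (fun w => ebit (tt (b.eval w.length)) (cc (F w) (b.eval w.length)))
    (fun w => obit (tt (b.eval w.length)) (cc (F w) (b.eval w.length)))
    (fun w => KK (b.eval w.length) - 1) ((CHN_KK b).sub (CHN.const 1)) hE hO
  exact h.not.congr (fun w => (sign_pure (F w) _ (hF w)).symm)

end Crest.Agent.CHR
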