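import Crest.Agent.CHR.FamDefs

/-!
CHUNK R316-FAMINT (easy/medium): denominators.
PROOF HINTS. `IntD.iff`: (→) coefficients of `map`, `coeff_C_mul`; (←) `G = ∑ m ∈ f.support, monomial m (choice)`.
All closure properties from the existence of `G`: e.g. `mul`: `G₁ * G₂`; `mono`: `D' = D * e`, `C e * G`; `prod`: induction.
`coefS`: use `IntD.iff` and: every coefficient of `coefS S a f` is `0` or a coefficient of `f`
(`coeff m' (coefS S a f) = if m' vanishes on S then coeff (m' + a on S) f else 0`; or write `coefS` of the integer polynomial).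
`dnB_dvd`: `(2^B)! ∣ (2^B')!` (`Nat.factorial_dvd_factorial`), `pow_dvd_pow`.  `dnB_pow_dvd`: `dnB B ^ N = ((2^B)!)^(2^B*N)`,
`2^B*N ≤ 2^(B+k)`.  `dnB_not_dvd`: `Nat.Prime.dvd_factorial`, `Nat.Prime.dvd_of_dvd_pow`.
-/

set_option autoImplicit false

namespace Crest.Agent.CHR

open MvPolynomial Finset

/-- `D` is a common denominator of the coefficients of `f` -/
def IntD (D : ℕ) (f : P) : Prop :=
  ∃ G : MvPolynomial ℕ ℤ, map (Int.castRingHom ℚ) G = C (D : ℚ) * f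

/-- the standard denominator -/
def dnB (B : ℕ) : ℕ := (2 ^ B).factorial ^ (2 ^ B)

theorem dnB_pos (B : ℕ) : 0 < dnB B := by
  unfold dnB
  exact pow_pos (Nat.factorial_pos _) _

theorem dnB_dvd {B B' : ℕ} (h : B ≤ B') : dnB B ∣ dnB B' := by
  unfold dnB
  have h2 : 2 ^ B ≤ 2 ^ B' := Nat.pow_le_pow_right (by norm_num) h
  exact (pow_dvd_pow_of_dvd (Nat.factorial_dvd_factorial h2) _).trans (pow_dvd_pow _ h2)

theorem dnB_pow_dvd {B k N : ℕ} (h : N ≤ 2 ^ k) : dnB B ^ N ∣ dnB (B + k) := by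
  unfold dnB
  have h2 : 2 ^ B ≤ 2 ^ (B + k) := Nat.pow_le_pow_right (by norm_num) (Nat.le_add_right _ _)
  rw [← pow_mul]
  have h3 : 2 ^ B * N ≤ 2 ^ (B + k) := by
    rw [pow_add]
    exact Nat.mul_le_mul_left _ h
  exact (pow_dvd_pow_of_dvd (Nat.factorial_dvd_factorial h2) _).trans (pow_dvd_pow _ h3)

theorem dvd_dnB {B b : ℕ} (hb : 0 < b) (h : b ≤ 2 ^ B) : b ∣ dnB B := by
  unfold dnB
  exact (Nat.dvd_factorial hb h).trans (dvd_pow_self _ (by positivity))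

theorem dnB_not_dvd {p B : ℕ} (hp : p.Prime) (h : 2 ^ B < p) : ¬ p ∣ dnB B := by
  unfold dnB
  intro hd
  have h1 := hp.dvd_of_dvd_pow hd
  rw [hp.dvd_factorial] at h1
  omega

/-- crude size -/
theorem dnB_le (B : ℕ) : dnB B ≤ 2 ^ (2 ^ (3 * B)) := by
  unfold dnB
  have h1 : (2 ^ B).factorial ≤ (2 ^ B) ^ (2 ^ B) := Nat.factorial_le_pow _
  calc (2 ^ B).factorial ^ (2 ^ B) ≤ ((2 ^ B) ^ (2 ^ B)) ^ (2 ^ B) := Nat.pow_le_pow_left h1 _
    _ = 2 ^ (B * 2 ^ B * 2 ^ B) := by rw [← pow_mul, ← pow_mul, mul_assoc]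
    _ ≤ 2 ^ (2 ^ (3 * B)) := by
      apply Nat.pow_le_pow_right (by norm_num)
      have h2 : B ≤ 2 ^ B := (Nat.lt_two_pow_self).le
      calc B * 2 ^ B * 2 ^ B ≤ 2 ^ B * 2 ^ B * 2 ^ B := by gcongr
        _ = 2 ^ (3 * B) := by ring

theorem IntD.iff {D : ℕ} {f : P} : IntD D f ↔ ∀ m, ∃ k : ℤ, (D : ℚ) * coeff m f = k := by
  constructor
  · rintro ⟨G, hG⟩ m
    refine ⟨coeff m G, ?_⟩
    have := congrArg (coeff m) hG
    rw [coeff_map, coeff_C_mul] at this
    simpa using this.symm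
  · intro h
    choose k hk using h
    refine ⟨∑ m ∈ f.support, monomial m (k m), ?_⟩
    ext m
    rw [coeff_C_mul, coeff_map, coeff_sum]
    simp only [coeff_monomial]
    rw [Finset.sum_ite_eq' f.support m k, hk m]
    split_ifs with hm
    · simp
    · have h0 : coeff m f = 0 := by simpa using hm
      have h1 := hk m
      rw [h0, mul_zero] at h1
      rw [← h1]
      simp

theorem IntD.mono {D D' : ℕ} {f : P} (h : IntD D f) (hd : D ∣ D') : IntD D' f := by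
  obtain ⟨G, hG⟩ := h
  obtain ⟨e, rfl⟩ := hd
  refine ⟨MvPolynomial.C (e : ℤ) * G, ?_⟩
  rw [map_mul, hG, map_C, Nat.cast_mul, map_mul]
  simp only [eq_intCast, Int.cast_natCast]
  ring

theorem IntD.zero (D : ℕ) : IntD D 0 := ⟨0, by simp⟩

theorem IntD.C {D : ℕ} {a : ℚ} (h : ∃ k : ℤ, (D : ℚ) * a = k) : IntD D (MvPolynomial.C a) := by
  obtain ⟨k, hk⟩ := h
  refine ⟨MvPolynomial.C k, ?_⟩
  rw [map_C, ← map_mul, hk]
  simp

theorem IntD.X (j : ℕ) : IntD 1 (MvPolynomial.X j) := by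
  refine ⟨MvPolynomial.X j, ?_⟩
  simp

theorem IntD.neg {D : ℕ} {f : P} (h : IntD D f) : IntD D (-f) := by
  obtain ⟨G, hG⟩ := h
  refine ⟨-G, ?_⟩
  rw [map_neg, hG, mul_neg]

theorem IntD.add {D : ℕ} {f g : P} (hf : IntD D f) (hg : IntD D g) : IntD D (f + g) := by
  obtain ⟨G, hG⟩ := hf
  obtain ⟨H, hH⟩ := hg
  refine ⟨G + H, ?_⟩
  rw [map_add, hG, hH, mul_add]

theorem IntD.mul {D E : ℕ} {f g : P} (hf : IntD D f) (hg : IntD E g) : IntD (D * E) (f * g) := by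
  obtain ⟨G, hG⟩ := hf
  obtain ⟨H, hH⟩ := hg
  refine ⟨G * H, ?_⟩
  rw [map_mul, hG, hH, Nat.cast_mul, map_mul]
  ring

theorem IntD.sum {ι : Type*} {D : ℕ} (s : Finset ι) {f : ι → P} (h : ∀ i ∈ s, IntD D (f i)) :
    IntD D (∑ i ∈ s, f i) := by
  classical
  induction s using Finset.induction_on with
  | empty => simpa using IntD.zero D
  | insert a s ha ih =>
    rw [Finset.sum_insert ha]
    exact (h a (Finset.mem_insert_self _ _)).add
      (ih (fun i hi => h i (Finset.mem_insert_of_mem hi)))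

theorem IntD.one (D : ℕ) : IntD D 1 := by
  refine ⟨MvPolynomial.C (D : ℤ), ?_⟩
  rw [map_C, mul_one]
  simp

theorem IntD.prod' {ι : Type*} (s : Finset ι) {D : ι → ℕ} {f : ι → P}
    (h : ∀ i ∈ s, IntD (D i) (f i)) : IntD (∏ i ∈ s, D i) (∏ i ∈ s, f i) := by
  classical
  induction s using Finset.induction_on with
  | empty => simpa using IntD.one 1
  | insert a s ha ih =>
    rw [Finset.prod_insert ha, Finset.prod_insert ha]
    exact (h a (Finset.mem_insert_self _ _)).mul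
      (ih (fun i hi => h i (Finset.mem_insert_of_mem hi)))

theorem IntD.prod {ι : Type*} {D : ℕ} (s : Finset ι) {f : ι → P} (h : ∀ i ∈ s, IntD D (f i)) :
    IntD (D ^ s.card) (∏ i ∈ s, f i) := by
  have := IntD.prod' s (D := fun _ => D) h
  simpa using this

theorem IntD.pow {D : ℕ} {f : P} (h : IntD D f) (n : ℕ) : IntD (D ^ n) (f ^ n) := by
  have := IntD.prod (Finset.range n) (f := fun _ => f) (D := D) (fun _ _ => h)
  simpa using this

theorem IntD.coefS {D : ℕ} {f : P} (h : IntD D f) (S : Finset ℕ) (a : ℕ → ℕ) :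
    IntD D (Crest.Agent.CHR.coefS S a f) := by
  classical
  unfold Crest.Agent.CHR.coefS
  refine IntD.sum _ (fun m _ => ?_)
  rw [IntD.iff]
  intro m'
  rw [coeff_monomial]
  split_ifs
  · exact (IntD.iff.1 h) m
  · exact ⟨0, by simp⟩

/-- substitution: `E` a common denominator of the `g j`, `d` a bound of the degree -/
theorem IntD.bind {D E d : ℕ} {f : P} {g : ℕ → P} (hf : IntD D f) (hd : f.totalDegree ≤ d)
    (hg : ∀ j ∈ f.vars, IntD E (g j)) : IntD (D * E ^ d) (bind₁ g f) := by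
  classical
  have hb : bind₁ g f = ∑ m ∈ f.support, MvPolynomial.C (coeff m f) * ∏ j ∈ m.support, g j ^ m j := by
    conv_lhs => rw [f.as_sum]
    rw [map_sum]
    refine Finset.sum_congr rfl (fun m _ => ?_)
    rw [bind₁_monomial]
  rw [hb]
  refine IntD.sum _ (fun m hm => ?_)
  refine IntD.mul (IntD.C ((IntD.iff.1 hf) m)) ?_
  have h1 : IntD (∏ j ∈ m.support, E ^ m j) (∏ j ∈ m.support, g j ^ m j) := by
    refine IntD.prod' _ (fun j hj => ?_)
    refine (hg j ?_).pow _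
    rw [mem_vars_iff_mem_support]
    exact ⟨m, hm, hj⟩
  refine h1.mono ?_
  rw [Finset.prod_pow_eq_pow_sum]
  exact pow_dvd_pow _ ((le_totalDegree hm).trans hd)

theorem Bnd.intD {B : ℕ} {f : P} (h : Bnd B f) : IntD (dnB B) f := by
  obtain ⟨G, hG⟩ := h.int
  refine ⟨G, ?_⟩
  rw [hG]
  simp [dnB]

theorem Bnd.of {B : ℕ} {f : P} (hv : ∀ j ∈ f.vars, j < B) (hd : f.totalDegree ≤ 2 ^ B)
    (hi : IntD (dnB B) f) (hl : l1q f ≤ 2 ^ (2 ^ B)) : Bnd B f := by
  refine ⟨hv, hd, ?_, hl⟩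
  obtain ⟨G, hG⟩ := hi
  refine ⟨G, ?_⟩
  rw [hG]
  simp [dnB]

end Crest.Agent.CHR
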