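import Crest.Agent.CHR.FamL1
import Crest.Agent.CHR.FamInt

/-!
CHUNK R316-FAMBND (easy/medium): closure properties of `Bnd` (`FamL1`, `FamInt` are black boxes).
PROOF HINTS.  Use `Bnd.of`.  Sizes: `2^(2^B) + 2^(2^B) ≤ 2^(2^(B+1))`, `(2^(2^B))^2 = 2^(2^(B+1))`;
`sum` of `N ≤ 2^k` terms: `2^k * 2^(2^B) = 2^(k + 2^B) ≤ 2^(2^(B+k))` since `k + 2^B ≤ 2^(B+k)` (`2^B (2^k - 1) ≥ 2^k - 1 ≥ k`);
`prod` of `N ≤ 2^k` factors: degree `≤ N 2^B`, denominators `DD B ^ N ∣ DD (B+k)`, L1 norm `≤ (2^(2^B))^N`.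
`bind`: `bind₁ g f = ∑ m ∈ f.support, C (coeff m f) * ∏ j ∈ m.support, g j ^ m j` (`bind₁` = `aeval`, `aeval_def`, `eval₂_eq`),
each product has degree `≤ 2^B 2^B'`, L1 norm `≤ (2^(2^B'))^(2^B)`; vars `⊆ ⋃ vars (g j)` (`vars_bind₁`).
-/

set_option autoImplicit false

namespace Crest.Agent.CHR

open MvPolynomial Finset

/-! ### sizes -/

theorem fbtp_mono {B B' : ℕ} (h : B ≤ B') : (2 : ℚ) ^ (2 ^ B) ≤ 2 ^ (2 ^ B') :=
  pow_le_pow_right₀ (by norm_num) (Nat.pow_le_pow_right (by norm_num) h)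

theorem fb_one_le_tp (B : ℕ) : (1 : ℚ) ≤ 2 ^ (2 ^ B) := one_le_pow₀ (by norm_num)

theorem fbtp_sq (B : ℕ) : (2 : ℚ) ^ (2 ^ B) * 2 ^ (2 ^ B) = 2 ^ (2 ^ (B + 1)) := by
  rw [← pow_add]; congr 1; rw [pow_succ]; ring

theorem fbtp_add (B : ℕ) : (2 : ℚ) ^ (2 ^ B) + 2 ^ (2 ^ B) ≤ 2 ^ (2 ^ (B + 1)) := by
  rw [← fbtp_sq]
  have h2 : (2 : ℚ) ≤ 2 ^ (2 ^ B) := by
    calc (2 : ℚ) = 2 ^ 1 := by norm_num
      _ ≤ 2 ^ (2 ^ B) := pow_le_pow_right₀ (by norm_num) Nat.one_le_two_pow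
  nlinarith

theorem fb_two_pow_mul_tp {B N k : ℕ} (hN : N ≤ 2 ^ k) : (N : ℚ) * 2 ^ (2 ^ B) ≤ 2 ^ (2 ^ (B + k)) := by
  have h1 : (N : ℚ) ≤ 2 ^ k := by exact_mod_cast hN
  have h2 : k + 2 ^ B ≤ 2 ^ (B + k) := by
    have hk : k + 1 ≤ 2 ^ k := Nat.lt_two_pow_self
    have hB : 1 ≤ 2 ^ B := Nat.one_le_two_pow
    rw [pow_add]
    nlinarith
  calc (N : ℚ) * 2 ^ (2 ^ B) ≤ 2 ^ k * 2 ^ (2 ^ B) := by
        apply mul_le_mul_of_nonneg_right h1 (by positivity)
    _ = 2 ^ (k + 2 ^ B) := by rw [pow_add]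
    _ ≤ 2 ^ (2 ^ (B + k)) := pow_le_pow_right₀ (by norm_num) h2

theorem fbtp_pow {B N k : ℕ} (hN : N ≤ 2 ^ k) : ((2 : ℚ) ^ (2 ^ B)) ^ N ≤ 2 ^ (2 ^ (B + k)) := by
  rw [← pow_mul, pow_add]
  exact pow_le_pow_right₀ (by norm_num) (Nat.mul_le_mul_left _ hN)

theorem Bnd.mono {B B' : ℕ} {f : P} (h : Bnd B f) (hB : B ≤ B') : Bnd B' f :=
  Bnd.of (fun j hj => (h.vars j hj).trans_le hB)
    (h.deg.trans (Nat.pow_le_pow_right (by norm_num) hB)) (h.intD.mono (dnB_dvd hB))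
    (h.l1.trans (fbtp_mono hB))

theorem Bnd.zero (B : ℕ) : Bnd B (0 : P) := by
  refine Bnd.of (by simp) (by simp) (IntD.zero _) ?_
  have : l1q (0 : P) = 0 := by simp [l1q]
  rw [this]; positivity

/-- a quotient of two numbers `≤ 2^B` -/
theorem Bnd.const {B a b : ℕ} (ha : a ≤ 2 ^ (2 ^ B)) (hb : b ≤ 2 ^ B) (hb0 : 0 < b) :
    Bnd B (C ((a : ℚ) / (b : ℚ))) := by
  refine Bnd.of (by simp) (by simp) (IntD.C ?_) ?_
  · obtain ⟨c, hc⟩ := dvd_dnB hb0 hb
    refine ⟨(c * a : ℕ), ?_⟩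
    rw [hc]
    have : (b : ℚ) ≠ 0 := by exact_mod_cast hb0.ne'
    push_cast
    field_simp
  · rw [l1q_C, abs_of_nonneg (by positivity)]
    calc (a : ℚ) / b ≤ a := by
          apply div_le_self (by positivity)
          exact_mod_cast hb0
      _ ≤ 2 ^ (2 ^ B) := by exact_mod_cast ha

theorem Bnd.var {B j : ℕ} (h : j < B) : Bnd B (X j) := by
  refine Bnd.of ?_ ?_ ((IntD.X j).mono (one_dvd _)) ?_
  · intro i hi
    rw [vars_X, mem_singleton] at hi
    omega
  · rw [totalDegree_X]; exact Nat.one_le_two_pow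
  · rw [l1q_X]; exact fb_one_le_tp B

theorem Bnd.neg {B : ℕ} {f : P} (h : Bnd B f) : Bnd B (-f) := by
  refine Bnd.of ?_ ?_ h.intD.neg ?_
  · rw [vars_neg]; exact h.vars
  · rw [totalDegree_neg]; exact h.deg
  · rw [l1q_neg]; exact h.l1

theorem Bnd.add {B : ℕ} {f g : P} (hf : Bnd B f) (hg : Bnd B g) : Bnd (B + 1) (f + g) := by
  classical
  refine Bnd.of ?_ ?_ ((hf.intD.add hg.intD).mono (dnB_dvd (Nat.le_succ B))) ?_
  · intro j hj
    rcases mem_union.1 (vars_add_subset _ _ hj) with h | h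
    · exact (hf.vars j h).trans (Nat.lt_succ_self B)
    · exact (hg.vars j h).trans (Nat.lt_succ_self B)
  · exact ((totalDegree_add f g).trans (max_le hf.deg hg.deg)).trans
      (Nat.pow_le_pow_right (by norm_num) (Nat.le_succ B))
  · exact ((l1q_add_le f g).trans (add_le_add hf.l1 hg.l1)).trans (fbtp_add B)

theorem Bnd.mul {B : ℕ} {f g : P} (hf : Bnd B f) (hg : Bnd B g) : Bnd (B + 1) (f * g) := by
  classical
  refine Bnd.of ?_ ?_ ((hf.intD.mul hg.intD).mono ?_) ?_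
  · intro j hj
    rcases mem_union.1 (vars_mul _ _ hj) with h | h
    · exact (hf.vars j h).trans (Nat.lt_succ_self B)
    · exact (hg.vars j h).trans (Nat.lt_succ_self B)
  · refine (totalDegree_mul f g).trans ((add_le_add hf.deg hg.deg).trans ?_)
    rw [pow_succ]; omega
  · rw [← sq]; exact dnB_pow_dvd (k := 1) (by norm_num)
  · refine (l1q_mul_le f g).trans ?_
    rw [← fbtp_sq]
    exact mul_le_mul hf.l1 hg.l1 (l1q_nonneg g) (by positivity)

theorem Bnd.sum {B N k : ℕ} {f : ℕ → P} (h : ∀ i < N, Bnd B (f i)) (hN : N ≤ 2 ^ k) :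
    Bnd (B + k) (∑ i ∈ range N, f i) := by
  classical
  refine Bnd.of ?_ ?_
    ((IntD.sum (range N) (fun i hi => (h i (mem_range.1 hi)).intD)).mono
      (dnB_dvd (Nat.le_add_right B k))) ?_
  · intro j hj
    obtain ⟨i, hi, hj⟩ := mem_biUnion.1 (vars_sum_subset _ _ hj)
    exact ((h i (mem_range.1 hi)).vars j hj).trans_le (Nat.le_add_right B k)
  · refine totalDegree_finsetSum_le (fun i hi => ?_)
    exact (h i (mem_range.1 hi)).deg.trans
      (Nat.pow_le_pow_right (by norm_num) (Nat.le_add_right B k))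
  · refine (l1q_sum_le _ _).trans ((sum_le_sum (fun i hi => (h i (mem_range.1 hi)).l1)).trans ?_)
    rw [sum_const, card_range, nsmul_eq_mul]
    exact fb_two_pow_mul_tp hN

theorem Bnd.prod {B N k : ℕ} {f : ℕ → P} (h : ∀ i < N, Bnd B (f i)) (hN : N ≤ 2 ^ k) :
    Bnd (B + k) (∏ i ∈ range N, f i) := by
  classical
  refine Bnd.of ?_ ?_
    ((IntD.prod (range N) (fun i hi => (h i (mem_range.1 hi)).intD)).mono ?_) ?_
  · intro j hj
    obtain ⟨i, hi, hj⟩ := mem_biUnion.1 (vars_prod _ hj)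
    exact ((h i (mem_range.1 hi)).vars j hj).trans_le (Nat.le_add_right B k)
  · refine (totalDegree_finsetProd _ _).trans
      ((sum_le_sum (fun i hi => (h i (mem_range.1 hi)).deg)).trans ?_)
    rw [sum_const, card_range, smul_eq_mul, pow_add, mul_comm]
    exact Nat.mul_le_mul_left _ hN
  · rw [card_range]; exact dnB_pow_dvd hN
  · refine (l1q_prod_le _ _ (c := 2 ^ (2 ^ B)) (by positivity)
      (fun i hi => (h i (mem_range.1 hi)).l1)).trans ?_
    rw [card_range]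
    exact fbtp_pow hN

theorem Bnd.coefS {B : ℕ} {f : P} (h : Bnd B f) (S : Finset ℕ) (a : ℕ → ℕ) :
    Bnd B (Crest.Agent.CHR.coefS S a f) := by
  classical
  refine Bnd.of ?_ ?_ (h.intD.coefS S a) ((l1q_coefS_le S a f).trans h.l1)
  · intro j hj
    obtain ⟨m, hm, hj⟩ := mem_biUnion.1 (vars_sum_subset _ _ hj)
    have hm' := (mem_filter.1 hm).1
    rw [vars_monomial (mem_support_iff.1 hm')] at hj
    have : j ∈ m.support := by
      rw [Finsupp.support_filter] at hj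
      exact (mem_filter.1 hj).1
    exact h.vars j (support_subset_vars_of_mem_support hm' this)
  · refine totalDegree_finsetSum_le (fun m hm => ?_)
    have hm' := (mem_filter.1 hm).1
    refine le_trans (totalDegree_monomial_le _ _) ?_
    refine le_trans ?_ ((le_totalDegree hm').trans h.deg)
    rw [Finsupp.sum, Finsupp.sum, Finsupp.support_filter]
    calc ∑ x ∈ m.support.filter (fun i => i ∉ S), (Finsupp.filter (fun i => i ∉ S) m) x
        = ∑ x ∈ m.support.filter (fun i => i ∉ S), m x :=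
          sum_congr rfl (fun x hx => Finsupp.filter_apply_pos _ _ (mem_filter.1 hx).2)
      _ ≤ ∑ x ∈ m.support, m x := sum_le_sum_of_subset (filter_subset _ _)

theorem fb_bind₁_eq_sum (f : P) (g : ℕ → P) :
    bind₁ g f = ∑ m ∈ f.support, C (coeff m f) * ∏ j ∈ m.support, g j ^ m j := rfl

theorem Bnd.bind {B B' : ℕ} {f : P} {g : ℕ → P} (hf : Bnd B f) (hg : ∀ j < B, Bnd B' (g j)) :
    Bnd (B + B' + 1) (bind₁ g f) := by
  classical
  have hg' : ∀ j ∈ f.vars, Bnd B' (g j) := fun j hj => hg j (hf.vars j hj)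
  have hm : ∀ m ∈ f.support, ∀ j ∈ m.support, Bnd B' (g j) := fun m hm j hj =>
    hg' j (support_subset_vars_of_mem_support hm hj)
  have hdeg : ∀ m ∈ f.support, ∑ j ∈ m.support, m j ≤ 2 ^ B := fun m hm =>
    (le_totalDegree hm).trans hf.deg
  refine Bnd.of ?_ ?_ ((IntD.bind hf.intD hf.deg (fun j hj => (hg' j hj).intD)).mono ?_) ?_
  · intro j hj
    obtain ⟨i, hi, hj⟩ := mem_biUnion.1 (vars_bind₁ _ _ hj)
    exact ((hg' i hi).vars j hj).trans_le (by omega)
  · rw [fb_bind₁_eq_sum]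
    refine totalDegree_finsetSum_le (fun m hm' => ?_)
    refine (totalDegree_mul _ _).trans ?_
    rw [totalDegree_C, zero_add]
    refine (totalDegree_finsetProd _ _).trans ?_
    calc ∑ j ∈ m.support, (g j ^ m j).totalDegree
        ≤ ∑ j ∈ m.support, m j * 2 ^ B' := by
          refine sum_le_sum (fun j hj => (totalDegree_pow _ _).trans ?_)
          exact Nat.mul_le_mul_left _ (hm m hm' j hj).deg
      _ = (∑ j ∈ m.support, m j) * 2 ^ B' := by rw [sum_mul]
      _ ≤ 2 ^ B * 2 ^ B' := Nat.mul_le_mul_right _ (hdeg m hm')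
      _ = 2 ^ (B + B') := by rw [pow_add]
      _ ≤ 2 ^ (B + B' + 1) := Nat.pow_le_pow_right (by norm_num) (by omega)
  · have h1 : dnB B ∣ dnB (B + B') := dnB_dvd (by omega)
    have h2 : dnB B' ^ (2 ^ B) ∣ dnB (B + B') := by
      have := dnB_pow_dvd (B := B') (k := B) (N := 2 ^ B) le_rfl
      rwa [add_comm B' B] at this
    refine (mul_dvd_mul h1 h2).trans ?_
    rw [← sq]
    exact dnB_pow_dvd (k := 1) (by norm_num)
  · rw [fb_bind₁_eq_sum]
    refine (l1q_sum_le _ _).trans ?_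
    have hterm : ∀ m ∈ f.support, l1q (C (coeff m f) * ∏ j ∈ m.support, g j ^ m j)
        ≤ |coeff m f| * 2 ^ (2 ^ (B + B')) := by
      intro m hm'
      refine (l1q_mul_le _ _).trans ?_
      rw [l1q_C]
      refine mul_le_mul_of_nonneg_left ?_ (abs_nonneg _)
      have key : ∀ s : Finset ℕ, s ⊆ m.support →
          l1q (∏ j ∈ s, g j ^ m j) ≤ (2 ^ (2 ^ B')) ^ (∑ j ∈ s, m j) := by
        intro s
        induction s using Finset.induction_on with
        | empty =>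
          intro _
          rw [prod_empty, sum_empty, pow_zero, ← C_1, l1q_C, abs_one]
        | insert a s ha ih =>
          intro hs
          rw [prod_insert ha, sum_insert ha, pow_add]
          refine (l1q_mul_le _ _).trans ?_
          refine mul_le_mul ((l1q_pow_le _ _).trans ?_)
            (ih (fun x hx => hs (mem_insert_of_mem hx))) (l1q_nonneg _) (by positivity)
          exact pow_le_pow_left₀ (l1q_nonneg _) (hm m hm' a (hs (mem_insert_self a s))).l1 _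
      refine (key _ subset_rfl).trans ?_
      rw [add_comm B B']
      exact fbtp_pow (hdeg m hm')
    refine (sum_le_sum hterm).trans ?_
    rw [← sum_mul]
    calc (∑ m ∈ f.support, |coeff m f|) * 2 ^ (2 ^ (B + B'))
        ≤ 2 ^ (2 ^ (B + B')) * 2 ^ (2 ^ (B + B')) := by
          refine mul_le_mul_of_nonneg_right ?_ (by positivity)
          exact hf.l1.trans (fbtp_mono (by omega))
      _ = 2 ^ (2 ^ (B + B' + 1)) := fbtp_sq _

/-- only the variables that occur matter -/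
theorem bind₁_congr' {f : P} {g g' : ℕ → P} (h : ∀ j ∈ f.vars, g j = g' j) :
    bind₁ g f = bind₁ g' f :=
  eval₂Hom_congr' rfl (fun i hi _ => h i hi) rfl

end Crest.Agent.CHR
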