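import Crest.Agent.CHR.AsmDefs
import Crest.Agent.CHR.FamBnd

/-!
CHUNK R316-ASMA1 (easy/medium): coefficient extraction, variables and degrees.
PROOF HINTS.  Everything about `coefS` by writing `f = ∑ m ∈ f.support, monomial m (coeff m f)`:
`coefS S a f` is a sum of monomials `monomial (m.filter (· ∉ S)) (coeff m f)`, `m ∈ f.support` with `m i = a i` on `S`.
`coefS_sum1`, `coefS_sum2`: expand both sides as sums over `f.support`; for `m` the only nonzero term is `j = m k`
(`m k ≤ degreeOf k f`, `m k ≤ totalDegree f`).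
`nrS_vars`: `vars_coefS`, `vars_sum_subset`, `vars_pow`, `vars_mul`, `vars_C`, determinant = `Matrix.det_apply` (sum over
permutations of products), `vars_pderiv`-like lemma: `(pderiv j f).vars ⊆ f.vars` (monomials).
`sdeg_*`: `sdeg S f ≤ d ↔ ∀ m ∈ f.support, ∑ i ∈ S, m i ≤ d`.
-/

set_option autoImplicit false

namespace Crest.Agent.CHR

open MvPolynomial Finset

theorem coefS_vars {S : Finset ℕ} {b : ℕ → ℕ} {f : P} {j : ℕ} (h : j ∈ (coefS S b f).vars) :
    j ∈ f.vars ∧ j ∉ S := by
  classical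
  obtain ⟨m, hm, hj⟩ := mem_biUnion.1 (vars_sum_subset _ _ h)
  have hm' := (mem_filter.1 hm).1
  rw [vars_monomial (mem_support_iff.1 hm'), Finsupp.support_filter, mem_filter] at hj
  exact ⟨support_subset_vars_of_mem_support hm' hj.1, hj.2⟩

theorem coefS_deg (S : Finset ℕ) (b : ℕ → ℕ) (f : P) : (coefS S b f).totalDegree ≤ f.totalDegree := by
  classical
  refine totalDegree_finsetSum_le (fun m hm => ?_)
  have hm' := (mem_filter.1 hm).1
  refine le_trans (totalDegree_monomial_le _ _) ?_
  refine le_trans ?_ (le_totalDegree hm')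
  rw [Finsupp.sum, Finsupp.sum, Finsupp.support_filter]
  calc ∑ x ∈ m.support.filter (fun i => i ∉ S), (Finsupp.filter (fun i => i ∉ S) m) x
      = ∑ x ∈ m.support.filter (fun i => i ∉ S), m x :=
        sum_congr rfl (fun x hx => Finsupp.filter_apply_pos _ _ (mem_filter.1 hx).2)
    _ ≤ ∑ x ∈ m.support, m x := sum_le_sum_of_subset (filter_subset _ _)

private theorem AsmA_prod {R : Type*} [CommRing R] (S : Finset ℕ) (m : ℕ →₀ ℕ) (v : ℕ → R) :
    (m.prod fun i e => v i ^ e) =
      ((m.filter (fun i => i ∉ S)).prod fun i e => v i ^ e) * ∏ i ∈ S, v i ^ m i := by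
  classical
  rw [← Finsupp.prod_filter_mul_prod_filter_not (fun i => i ∉ S) m]
  congr 1
  rw [Finsupp.prod_of_support_subset (s := S)]
  · refine prod_congr rfl fun i hi => ?_
    rw [Finsupp.filter_apply_pos _ _ (by simpa using hi)]
  · intro i hi
    rw [Finsupp.support_filter, mem_filter] at hi
    simpa using hi.2
  · intro i _
    exact pow_zero _

private theorem AsmA_aeval {R : Type*} [CommRing R] [Algebra ℚ R] (f : P) (v : ℕ → R) :
    aeval v f = ∑ m ∈ f.support, aeval v (monomial m (coeff m f)) := by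
  conv_lhs => rw [← support_sum_monomial_coeff f]
  rw [map_sum]

private theorem AsmA_coefS {R : Type*} [CommRing R] [Algebra ℚ R] (S : Finset ℕ) (b : ℕ → ℕ) (f : P)
    (v : ℕ → R) :
    aeval v (coefS S b f) * ∏ i ∈ S, v i ^ b i =
      ∑ m ∈ f.support.filter (fun m => ∀ i ∈ S, m i = b i), aeval v (monomial m (coeff m f)) := by
  classical
  unfold coefS
  rw [map_sum, sum_mul]
  refine sum_congr rfl fun m hm => ?_
  have hb := (mem_filter.1 hm).2
  rw [aeval_monomial, aeval_monomial, AsmA_prod S m v, mul_assoc]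
  congr 2
  exact prod_congr rfl fun i hi => by rw [hb i hi]

private theorem AsmA_coeff (S : Finset ℕ) (b : ℕ → ℕ) (f : P) {m : ℕ →₀ ℕ} (hm : m ∈ f.support)
    (hb : ∀ i ∈ S, m i = b i) :
    coeff (Finsupp.filter (fun i => i ∉ S) m) (coefS S b f) = coeff m f := by
  classical
  unfold coefS
  rw [coeff_sum, sum_eq_single_of_mem m (mem_filter.2 ⟨hm, hb⟩)]
  · rw [coeff_monomial, if_pos rfl]
  · intro m' hm' hne
    rw [coeff_monomial, if_neg]
    intro h
    apply hne
    ext i
    by_cases hi : i ∈ S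
    · rw [(mem_filter.1 hm').2 i hi, hb i hi]
    · have := DFunLike.congr_fun h i
      rwa [Finsupp.filter_apply_pos (fun i => i ∉ S) m' hi,
        Finsupp.filter_apply_pos (fun i => i ∉ S) m hi] at this

/-- reconstruction of a polynomial from its coefficients, one variable -/
theorem coefS_sum1 {R : Type*} [CommRing R] [Algebra ℚ R] (f : P) (k J : ℕ) (hJ : degreeOf k f < J)
    (v : ℕ → R) :
    aeval v f = ∑ j ∈ range J, aeval v (coefS {k} (fun _ => j) f) * v k ^ j := by
  classical
  have h1 : ∀ j, aeval v (coefS {k} (fun _ => j) f) * v k ^ j =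
      ∑ m ∈ f.support.filter (fun m => m k = j), aeval v (monomial m (coeff m f)) := by
    intro j
    have := AsmA_coefS {k} (fun _ => j) f v
    rw [prod_singleton] at this
    rw [this]
    refine sum_congr (filter_congr fun m _ => ?_) fun _ _ => rfl
    simp
  simp only [h1]
  rw [AsmA_aeval, sum_fiberwise_of_maps_to]
  intro m hm
  rw [mem_range]
  refine lt_of_le_of_lt ?_ hJ
  rw [degreeOf_eq_sup]
  exact le_sup (f := fun m : ℕ →₀ ℕ => m k) hm

/-- two variables -/
theorem coefS_sum2 {R : Type*} [CommRing R] [Algebra ℚ R] (f : P) (k J : ℕ) (hJ : f.totalDegree < J)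
    (v : ℕ → R) :
    aeval v f = ∑ i ∈ range J, ∑ j ∈ range J,
      aeval v (coefS (Ico k (k + 2)) (fun l => if l = k then i else j) f) * v k ^ i * v (k + 1) ^ j := by
  classical
  have hS : Ico k (k + 2) = {k, k + 1} := by
    ext l
    simp only [mem_Ico, mem_insert, mem_singleton]
    omega
  have h1 : ∀ i j, aeval v (coefS (Ico k (k + 2)) (fun l => if l = k then i else j) f) *
      v k ^ i * v (k + 1) ^ j =
      ∑ m ∈ f.support.filter (fun m => (m k, m (k + 1)) = (i, j)),
        aeval v (monomial m (coeff m f)) := by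
    intro i j
    have := AsmA_coefS (Ico k (k + 2)) (fun l => if l = k then i else j) f v
    have hp : ∏ l ∈ Ico k (k + 2), v l ^ (if l = k then i else j) = v k ^ i * v (k + 1) ^ j := by
      rw [hS, prod_pair (by omega)]
      simp
    rw [hp, ← mul_assoc] at this
    rw [this]
    refine sum_congr (filter_congr fun m _ => ?_) fun _ _ => rfl
    rw [hS]
    simp
  simp only [h1]
  rw [← sum_product', AsmA_aeval]
  symm
  refine sum_fiberwise_of_maps_to (g := fun m : ℕ →₀ ℕ => (m k, m (k + 1))) (fun m hm => ?_) _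
  have h2 : ∀ l, m l ≤ f.totalDegree := fun l => by
    refine le_trans ?_ (le_totalDegree hm)
    by_cases hl : l ∈ m.support
    · exact single_le_sum (f := fun i => m i) (fun _ _ => Nat.zero_le _) hl
    · rw [Finsupp.notMem_support_iff.1 hl]
      exact Nat.zero_le _
  rw [mem_product, mem_range, mem_range]
  exact ⟨(h2 _).trans_lt hJ, (h2 _).trans_lt hJ⟩

/-- the leading coefficient with respect to the variable `k` is not zero -/
theorem coefS_lead_ne {f : P} (hf : f ≠ 0) (k : ℕ) : coefS {k} (fun _ => degreeOf k f) f ≠ 0 := by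
  classical
  obtain ⟨m, hm, hmk⟩ := exists_mem_eq_sup f.support (support_nonempty.2 hf)
    (fun m : ℕ →₀ ℕ => m k)
  rw [← degreeOf_eq_sup] at hmk
  intro h
  have := AsmA_coeff {k} (fun _ => degreeOf k f) f hm (fun i hi => by
    rw [mem_singleton] at hi; rw [hi, hmk])
  rw [h, coeff_zero] at this
  exact (mem_support_iff.1 hm) this.symm

/-- some coefficient with respect to a block of variables is not zero -/
theorem exists_coefS_ne {f : P} (hf : f ≠ 0) (S : Finset ℕ) : ∃ b, coefS S b f ≠ 0 := by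
  obtain ⟨m, hm⟩ := support_nonempty.2 hf
  refine ⟨fun i => m i, fun h => ?_⟩
  have := AsmA_coeff S (fun i => m i) f hm (fun i _ => rfl)
  rw [h, coeff_zero] at this
  exact (mem_support_iff.1 hm) this.symm

private theorem AsmA_pderiv {f : P} {j : ℕ} {m : ℕ →₀ ℕ} (hm : m ∈ (pderiv j f).support) :
    m + Finsupp.single j 1 ∈ f.support := by
  rw [mem_support_iff, coeff_pderiv] at hm
  rw [mem_support_iff]
  exact left_ne_zero_of_mul hm

theorem vars_pderiv_sub (f : P) (j : ℕ) : (pderiv j f).vars ⊆ f.vars := by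
  intro k hk
  obtain ⟨m, hm, hkm⟩ := (mem_vars_iff_mem_support k).1 hk
  refine (mem_vars_iff_mem_support k).2 ⟨_, AsmA_pderiv hm, ?_⟩
  rw [Finsupp.mem_support_iff] at hkm ⊢
  rw [Finsupp.add_apply]
  omega

theorem totalDegree_pderiv_le' (f : P) (j : ℕ) : (pderiv j f).totalDegree ≤ f.totalDegree - 1 := by
  unfold totalDegree
  rw [Finset.sup_le_iff]
  intro m hm
  have h1 : ((m + Finsupp.single j 1).sum fun _ e => e) ≤
      f.support.sup fun s => s.sum fun _ e => e :=
    le_sup (f := fun s : ℕ →₀ ℕ => s.sum fun _ e => e) (AsmA_pderiv hm)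
  rw [Finsupp.sum_add_index' (fun _ => rfl) (fun _ _ _ => rfl), Finsupp.sum_single_index rfl] at h1
  exact Nat.le_sub_of_add_le h1

theorem nrS_vars {S : Finset ℕ} {m : ℕ → ℕ} {q : ℕ → P} {y K N : ℕ} {g : P} {j : ℕ}
    (h : j ∈ (nrS S m q y K N g).vars) : j ∉ S ∧ j ≠ y ∧ (j ∈ g.vars ∨ ∃ i ∈ S, j ∈ (q i).vars) := by
  classical
  set T : Set ℕ := {j | j ∈ g.vars ∨ ∃ i ∈ S, j ∈ (q i).vars} with hT
  set U : Set ℕ := T ∪ (S : Set ℕ) with hU
  have hg : g ∈ supported ℚ U := mem_supported.2 fun k hk => Or.inl (Or.inl hk)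
  have hX : ∀ i ∈ S, (X i : P) ∈ supported ℚ U := fun i hi => mem_supported.2 fun k hk => by
    rw [mem_coe, vars_X, mem_singleton] at hk
    rw [hk]; exact Or.inr hi
  have hq : ∀ i ∈ S, q i ∈ supported ℚ U := fun i hi =>
    mem_supported.2 fun k hk => Or.inl (Or.inr ⟨i, hi, hk⟩)
  have hp : ∀ (k : ℕ) (p : P), p ∈ supported ℚ U → pderiv k p ∈ supported ℚ U := fun k p hp =>
    mem_supported.2 (Set.Subset.trans (by exact_mod_cast vars_pderiv_sub p k) (mem_supported.1 hp))
  have hjac : jacS S m q ∈ supported ℚ U := by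
    have e : jacS S m q = ∑ σ : Equiv.Perm S, Equiv.Perm.sign σ •
        ∏ i : S, pderiv (i : ℕ) (X ((σ i : S) : ℕ) ^ m (σ i) - q (σ i)) := Matrix.det_apply _
    rw [e]
    refine sum_mem fun σ _ => ?_
    have h1 : ∏ i : S, pderiv (i : ℕ) (X ((σ i : S) : ℕ) ^ m (σ i) - q (σ i)) ∈ supported ℚ U :=
      prod_mem fun i _ => hp _ _ (sub_mem (pow_mem (hX _ (σ i).2) _) (hq _ (σ i).2))
    rcases Int.units_eq_one_or (Equiv.Perm.sign σ) with h2 | h2
    · rw [h2, one_smul]; exact h1
    · rw [h2, Units.smul_def, Units.val_neg, Units.val_one, neg_smul, one_smul]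
      exact neg_mem h1
  have hden : denS S m q K ∈ supported ℚ U := by
    unfold denS
    exact prod_mem fun i hi => sum_mem fun k _ =>
      mul_mem (pow_mem (hq i hi) _) (pow_mem (hX i hi) _)
  have htr : ∀ l, trS S m q K (g ^ l) ∈ supported ℚ (T \ (S : Set ℕ)) := by
    intro l
    rw [mem_supported]
    intro k hk
    unfold trS resS at hk
    obtain ⟨h1, h2⟩ := coefS_vars hk
    have h3 : g ^ l * jacS S m q * denS S m q K ∈ supported ℚ U :=
      mul_mem (mul_mem (pow_mem hg l) hjac) hden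
    have h4 := mem_supported.1 h3 h1
    rcases h4 with h4 | h4
    · exact ⟨h4, h2⟩
    · exact absurd h4 h2
  set V : Set ℕ := (T \ (S : Set ℕ)) ∪ {y} with hV
  have htr' : ∀ l, trS S m q K (g ^ l) ∈ supported ℚ V := fun l =>
    mem_supported.2 ((mem_supported.1 (htr l)).trans Set.subset_union_left)
  have hC : ∀ c : ℚ, (C c : P) ∈ supported ℚ V := fun c => mem_supported.2 (by simp)
  have hy : (X y : P) ∈ supported ℚ V := mem_supported.2 fun k hk => by
    rw [mem_coe, vars_X, mem_singleton] at hk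
    rw [hk]; exact Or.inr rfl
  unfold nrS at h
  obtain ⟨h1, h2⟩ := coefS_vars h
  have h3 : (∑ k ∈ range (N + 1), C (1 / (k.factorial : ℚ)) *
      (∑ l ∈ Icc 1 N, C ((-1 : ℚ) ^ (l - 1) / (l : ℚ)) * trS S m q K (g ^ l) * X y ^ l) ^ k) ∈
      supported ℚ V :=
    sum_mem fun k _ => mul_mem (hC _) (pow_mem (sum_mem fun l _ =>
      mul_mem (mul_mem (hC _) (htr' l)) (pow_mem hy _)) _)
  have h4 := mem_supported.1 h3 h1
  have h5 : j ≠ y := by
    intro h6
    exact h2 (by rw [mem_singleton]; exact h6)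
  rcases h4 with h4 | h4
  · exact ⟨h4.2, h5, h4.1⟩
  · exact absurd h4 h5

/-- values only depend on the variables that occur -/
theorem aeval_congr_vars {R : Type*} [CommRing R] [Algebra ℚ R] {f : P} {v w : ℕ → R}
    (h : ∀ j ∈ f.vars, v j = w j) : aeval v f = aeval w f := by
  rw [AsmA_aeval, AsmA_aeval]
  refine sum_congr rfl fun m hm => ?_
  rw [aeval_monomial, aeval_monomial]
  congr 1
  exact prod_congr rfl fun i hi => by
    change v i ^ m i = w i ^ m i
    rw [h i (support_subset_vars_of_mem_support hm hi)]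

private theorem AsmA_sdeg_iff (S : Finset ℕ) (f : P) (d : ℕ) :
    sdeg S f ≤ d ↔ ∀ e ∈ f.support, ∑ i ∈ S, e i ≤ d := by
  rw [sdeg, Finset.sup_le_iff]

theorem sdeg_le_td (S : Finset ℕ) (f : P) : sdeg S f ≤ f.totalDegree := by
  classical
  rw [AsmA_sdeg_iff]
  intro e he
  refine le_trans ?_ (le_totalDegree he)
  rw [Finsupp.sum]
  calc ∑ i ∈ S, e i = ∑ i ∈ S.filter (fun i => i ∈ e.support), e i := by
        rw [sum_filter]
        refine sum_congr rfl fun i _ => ?_
        by_cases hi : i ∈ e.support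
        · rw [if_pos hi]
        · rw [if_neg hi]; exact Finsupp.notMem_support_iff.1 hi
    _ ≤ ∑ i ∈ e.support, e i := sum_le_sum_of_subset fun i hi => (mem_filter.1 hi).2

theorem sdeg_zero_of_vars {S : Finset ℕ} {f : P} (h : ∀ j ∈ f.vars, j ∉ S) : sdeg S f = 0 := by
  rw [← Nat.le_zero, AsmA_sdeg_iff]
  intro e he
  rw [Nat.le_zero]
  refine sum_eq_zero fun i hi => ?_
  by_contra hne
  exact h i (support_subset_vars_of_mem_support he (Finsupp.mem_support_iff.2 hne)) hi

theorem sdeg_add' (S : Finset ℕ) (f g : P) : sdeg S (f + g) ≤ max (sdeg S f) (sdeg S g) := by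
  classical
  rw [AsmA_sdeg_iff]
  intro e he
  rcases mem_union.1 (support_add he) with h | h
  · exact ((AsmA_sdeg_iff S f _).1 le_rfl e h).trans (le_max_left _ _)
  · exact ((AsmA_sdeg_iff S g _).1 le_rfl e h).trans (le_max_right _ _)

theorem sdeg_sub' (S : Finset ℕ) (f g : P) : sdeg S (f - g) ≤ max (sdeg S f) (sdeg S g) := by
  have h : sdeg S (-g) = sdeg S g := by
    unfold sdeg
    rw [support_neg]
  rw [sub_eq_add_neg, ← h]
  exact sdeg_add' S f (-g)

theorem sdeg_mul' (S : Finset ℕ) (f g : P) : sdeg S (f * g) ≤ sdeg S f + sdeg S g := by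
  classical
  rw [AsmA_sdeg_iff]
  intro e he
  obtain ⟨a, ha, b, hb, rfl⟩ := Finset.mem_add.1 (support_mul f g he)
  simp only [Finsupp.add_apply, Finset.sum_add_distrib]
  exact add_le_add ((AsmA_sdeg_iff S f _).1 le_rfl a ha) ((AsmA_sdeg_iff S g _).1 le_rfl b hb)

end Crest.Agent.CHR
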