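import Crest.Agent.CHR.PhamDefs

/-!
CHUNK R316-ASMA2 (medium): three analytic facts about polynomial functions.
PROOF HINTS.
`hasDerivAt_aeval`: induction on `f` (`MvPolynomial.induction_on`): constants, sums, products with `X i`
(`pderiv_mul`, `pderiv_X`), `HasDerivAt.mul`.
`coefS_open`: let `g : MvPolynomial (Fin n) ℝ` be the polynomial `f` with `X j ↦ X ⟨j,_⟩` for `j < n` and `X j ↦ C (v j)` for the
other `j` (`aeval`/`eval₂Hom`).  `g` vanishes on a nonempty open set, hence on a product of intervals around a point, hence
`g = 0` (`MvPolynomial.funext_set`, the sets `Set.Ioo ..` are infinite; if that lemma is missing: induction on `n`).  The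
coefficient of `g` at `(b i)_i` is `aeval v (coefS (range n) b f)` (expand `f` as a sum of monomials).
`cauchy_bound`: `|B_J| κ^J = |∑_{j<J} B_j κ^j| ≤ κ^(J-1) ∑ |B_j|` for `κ ≥ 1`, `J ≥ 1`; for `J = 0` the hypothesis gives
`B_0 = 0`, contradiction; `κ < 1` is trivial.
-/

set_option autoImplicit false

namespace Crest.Agent.CHR

open MvPolynomial Finset

/-- the derivative of a polynomial function in the direction of a coordinate -/
theorem hasDerivAt_aeval (f : P) (z : ℕ → ℝ) (j : ℕ) :
    HasDerivAt (fun t => aeval (Function.update z j t) f) (aeval z (pderiv j f)) (z j) := by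
  induction f using MvPolynomial.induction_on with
  | C a =>
    have e : (fun t : ℝ => aeval (Function.update z j t) (C a : P)) =
        fun _ => algebraMap ℚ ℝ a := by
      funext t; rw [aeval_C]
    rw [e, pderiv_C, map_zero]
    exact hasDerivAt_const _ _
  | add p q hp hq =>
    have e : (fun t : ℝ => aeval (Function.update z j t) (p + q)) =
        fun t => aeval (Function.update z j t) p + aeval (Function.update z j t) q := by
      funext t; rw [map_add]
    rw [e, map_add, map_add]
    exact hp.add hq
  | mul_X p i hp =>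
    have e : (fun t : ℝ => aeval (Function.update z j t) (p * X i)) =
        fun t => aeval (Function.update z j t) p * Function.update z j t i := by
      funext t; rw [map_mul, aeval_X]
    have h1 : HasDerivAt (fun t : ℝ => Function.update z j t i) (if i = j then 1 else 0) (z j) := by
      by_cases hij : i = j
      · subst hij
        simp only [Function.update_self, if_true]
        exact hasDerivAt_id _
      · simp only [Function.update_of_ne hij, if_neg hij]
        exact hasDerivAt_const _ _
    have h2 := hp.mul h1
    have hv : aeval z (pderiv j p) * Function.update z j (z j) i +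
        aeval (Function.update z j (z j)) p * (if i = j then 1 else 0) =
          aeval z (pderiv j (p * X i)) := by
      rw [Function.update_eq_self, pderiv_mul, map_add, map_mul, map_mul, aeval_X, pderiv_X]
      by_cases hij : i = j
      · subst hij
        simp
      · simp [hij, Pi.single_apply]
    rw [e, ← hv]
    exact h2

/-- if `z j` is a local minimum of `t ↦ f(update z j t)` then the partial derivative vanishes -/
theorem aeval_pderiv_eq_zero (f : P) (z : ℕ → ℝ) (j : ℕ)
    (h : ∀ᶠ t in nhds (z j), aeval z f ≤ aeval (Function.update z j t) f) :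
    aeval z (pderiv j f) = 0 := by
  refine IsLocalMin.hasDerivAt_eq_zero (f := fun t => aeval (Function.update z j t) f) (a := z j) ?_
    (hasDerivAt_aeval f z j)
  show ∀ᶠ t in nhds (z j), aeval (Function.update z j (z j)) f ≤ aeval (Function.update z j t) f
  rw [Function.update_eq_self]
  exact h

/-- polynomial functions are continuous (only finitely many variables matter) -/
theorem continuous_aeval' {X : Type*} [TopologicalSpace X] (f : P) (v : X → ℕ → ℝ)
    (h : ∀ j ∈ f.vars, Continuous (fun x => v x j)) : Continuous (fun x => aeval (v x) f) := by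
  have e : (fun x => aeval (v x) f) = fun x => ∑ m ∈ f.support,
      algebraMap ℚ ℝ (coeff m f) * ∏ i ∈ m.support, v x i ^ m i := by
    funext x
    rw [aeval_def, eval₂_eq]
  rw [e]
  refine continuous_finsetSum _ (fun m hm => continuous_const.mul ?_)
  refine continuous_finsetProd _ (fun i hi => Continuous.pow (h i ?_) _)
  exact (mem_vars_iff_mem_support i).2 ⟨m, hm, hi⟩

/-- a polynomial function vanishing on a nonempty open set of `x` vanishes identically in `x`: all
its coefficients (with respect to the `x`-variables) vanish at the parameter point `v` -/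
theorem coefS_open {n : ℕ} (f : P) (v : ℕ → ℝ) (O : Set (Fin n → ℝ)) (hO : IsOpen O) (hne : O.Nonempty)
    (h : ∀ x ∈ O, aeval (fun j => if hj : j < n then x ⟨j, hj⟩ else v j) f = 0) (b : ℕ → ℕ) :
    aeval v (coefS (range n) b f) = 0 := by
  classical
  -- the part of the monomial `m` in the parameters
  set pr : (ℕ →₀ ℕ) → ℝ := fun m => ∏ j ∈ m.support.filter (fun j => j ∉ range n), v j ^ m j with hpr
  set re : (ℕ →₀ ℕ) → (Fin n →₀ ℕ) := fun m => Finsupp.equivFunOnFinite.symm (fun i => m i) with hre
  set g : MvPolynomial (Fin n) ℝ :=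
    ∑ m ∈ f.support, monomial (re m) (((coeff m f : ℚ) : ℝ) * pr m) with hg
  have heval : ∀ x : Fin n → ℝ, eval x g =
      aeval (fun j => if hj : j < n then x ⟨j, hj⟩ else v j) f := by
    intro x
    rw [aeval_def, eval₂_eq, hg, map_sum]
    refine sum_congr rfl (fun m _ => ?_)
    rw [eval_monomial, mul_assoc]
    congr 1
    rw [← prod_filter_mul_prod_filter_not m.support (fun j => j ∉ range n)]
    congr 1
    · refine prod_congr rfl (fun j hj => ?_)
      have hjn : ¬ j < n := by simpa using (mem_filter.1 hj).2
      rw [dif_neg hjn]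
    · rw [Finsupp.prod_fintype _ _ (fun i => pow_zero _)]
      have h1 : ∏ i : Fin n, x i ^ (re m) i =
          ∏ j ∈ range n, (if hj : j < n then x ⟨j, hj⟩ else v j) ^ m j := by
        rw [← Fin.prod_univ_eq_prod_range
          (fun j => (if hj : j < n then x ⟨j, hj⟩ else v j) ^ m j) n]
        refine prod_congr rfl (fun i _ => ?_)
        simp [hre]
      rw [h1]
      symm
      refine prod_subset (fun j hj => ?_) (fun j hj hj' => ?_)
      · have := (mem_filter.1 hj).2
        simpa using this
      · have : m j = 0 := by
          by_contra h0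
          exact hj' (mem_filter.2 ⟨Finsupp.mem_support_iff.2 h0, by simpa using hj⟩)
        rw [this, pow_zero]
  have hg0 : g = 0 := by
    obtain ⟨x₀, hx₀⟩ := hne
    obtain ⟨ε, hε, hball⟩ := Metric.isOpen_iff.1 hO x₀ hx₀
    refine funext_set (fun i => Metric.ball (x₀ i) ε) (fun i => ?_) (fun x hx => ?_)
    · rw [Real.ball_eq_Ioo]
      exact Set.Ioo_infinite (by linarith)
    · rw [heval, map_zero]
      refine h x (hball ?_)
      rw [ball_pi _ hε]
      exact hx
  have hc : coeff (Finsupp.equivFunOnFinite.symm (fun i : Fin n => b i)) g = 0 := by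
    rw [hg0, coeff_zero]
  rw [hg, coeff_sum] at hc
  rw [coefS, map_sum, sum_filter]
  refine Eq.trans (sum_congr rfl (fun m _ => ?_)) hc
  rw [coeff_monomial]
  have hiff : (∀ i ∈ range n, m i = b i) ↔
      re m = Finsupp.equivFunOnFinite.symm (fun i : Fin n => b i) := by
    constructor
    · intro hh
      ext i
      simp only [hre, Finsupp.equivFunOnFinite_symm_apply_apply]
      exact hh i (mem_range.2 i.2)
    · intro hh i hi
      have := DFunLike.congr_fun hh ⟨i, mem_range.1 hi⟩
      simpa [hre] using this
  by_cases hh : ∀ i ∈ range n, m i = b i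
  · rw [if_pos hh, if_pos (hiff.1 hh), aeval_monomial]
    congr 1
    rw [hpr, Finsupp.prod]
    have hsupp : (Finsupp.filter (fun i => i ∉ range n) m).support =
        m.support.filter (fun j => j ∉ range n) := Finsupp.support_filter _ _
    rw [hsupp]
    refine prod_congr rfl (fun j hj => ?_)
    rw [Finsupp.filter_apply_pos (fun i => i ∉ range n) m (mem_filter.1 hj).2]
  · rw [if_neg hh, if_neg (fun h' => hh (hiff.2 h'))]

theorem cauchy_bound (J : ℕ) (b : ℕ → ℝ) (hJ : b J ≠ 0) {κ : ℝ} (hκ : 0 < κ)
    (h : ∑ j ∈ range (J + 1), b j * κ ^ j = 0) :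
    κ ≤ 1 + (∑ j ∈ range J, |b j|) / |b J| := by
  have hbJ : 0 < |b J| := abs_pos.2 hJ
  have hS : 0 ≤ ∑ j ∈ range J, |b j| := sum_nonneg (fun _ _ => abs_nonneg _)
  by_cases hκ1 : κ ≤ 1
  · have : 0 ≤ (∑ j ∈ range J, |b j|) / |b J| := div_nonneg hS hbJ.le
    linarith
  · push Not at hκ1
    rw [sum_range_succ] at h
    rcases Nat.eq_zero_or_pos J with h0 | hpos
    · subst h0
      simp at h
      exact absurd h hJ
    · have h1 : |b J| * κ ^ J ≤ (∑ j ∈ range J, |b j|) * κ ^ (J - 1) := by
        have e : b J * κ ^ J = - ∑ j ∈ range J, b j * κ ^ j := by linarith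
        calc |b J| * κ ^ J = |b J * κ ^ J| := by
              rw [abs_mul, abs_of_pos (pow_pos hκ J)]
          _ = |∑ j ∈ range J, b j * κ ^ j| := by rw [e, abs_neg]
          _ ≤ ∑ j ∈ range J, |b j * κ ^ j| := abs_sum_le_sum_abs _ _
          _ ≤ ∑ j ∈ range J, |b j| * κ ^ (J - 1) := by
              refine sum_le_sum (fun j hj => ?_)
              rw [abs_mul, abs_of_pos (pow_pos hκ j)]
              refine mul_le_mul_of_nonneg_left ?_ (abs_nonneg _)
              exact pow_le_pow_right₀ hκ1.le (by have := mem_range.1 hj; omega)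
          _ = _ := by rw [sum_mul]
      have h2 : κ ^ J = κ * κ ^ (J - 1) := by
        rw [← pow_succ']
        congr 1
        omega
      rw [h2, ← mul_assoc] at h1
      have h3 : |b J| * κ ≤ ∑ j ∈ range J, |b j| := le_of_mul_le_mul_right h1 (pow_pos hκ _)
      have h4 : κ ≤ (∑ j ∈ range J, |b j|) / |b J| := by
        rw [le_div_iff₀ hbJ]
        linarith
      linarith

end Crest.Agent.CHR
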