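import Crest.Agent.CHR.AsmA
import Crest.Agent.CHR.AsmA2

/-!
CHUNK R316-ASMB1 (easy/medium): variables of the polynomials of `AsmDefs.lean`, Pham conditions.
PROOF HINTS.  `chi_vars`: `nrS_vars` (the block `SY = [n, tt)` and `vy` are removed; `q j`: variables of `Q` and `vt`).
`h_vars`: `coefS_vars` removes `vt, vT`.  Sums and products: `vars_sum_subset`, `vars_prod`, `vars_mul`, `vars_pow`,
`vars_add_subset`, `vars_sub_subset`, `vars_X`, `vars_C`.
`isPham_inner`: `sdeg S (C * th * pderiv j Q) ≤ 0 + 0 + totalDegree (pderiv j Q) ≤ 3 < 5`.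
`isPham_outer`: `totalDegree (pderiv i (H^2)) ≤ 2 * totalDegree H - 1 < 2 D - 1` (`D ≥ 1`; if `totalDegree H = 0`
then `pderiv i (H^2)` has degree `≤ 0 < 2D-1`).
-/

set_option autoImplicit false

namespace Crest.Agent.CHR

open MvPolynomial Finset

/-- all variables of `f` satisfy `p` -/
def AsmB1V (p : ℕ → Prop) (f : P) : Prop := ∀ j ∈ f.vars, p j

namespace AsmB1V
variable {p q : ℕ → Prop} {f g : P}

theorem mono (h : AsmB1V p f) (hpq : ∀ j, p j → q j) : AsmB1V q f := fun j hj => hpq j (h j hj)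

theorem add (hf : AsmB1V p f) (hg : AsmB1V p g) : AsmB1V p (f + g) := fun j hj =>
  (Finset.mem_union.1 (vars_add_subset f g hj)).elim (hf j) (hg j)

theorem sub (hf : AsmB1V p f) (hg : AsmB1V p g) : AsmB1V p (f - g) := fun j hj =>
  (Finset.mem_union.1 (vars_sub_subset f hj)).elim (hf j) (hg j)

theorem mul (hf : AsmB1V p f) (hg : AsmB1V p g) : AsmB1V p (f * g) := fun j hj =>
  (Finset.mem_union.1 (vars_mul f g hj)).elim (hf j) (hg j)

theorem pow (hf : AsmB1V p f) (k : ℕ) : AsmB1V p (f ^ k) := fun j hj => hf j (vars_pow f k hj)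

theorem const (c : ℚ) : AsmB1V p (C c : P) := fun j hj => by simp at hj

theorem one : AsmB1V p (1 : P) := fun j hj => by simp at hj

theorem var {j : ℕ} (h : p j) : AsmB1V p (X j : P) := fun k hk => by
  rw [vars_X, Finset.mem_singleton] at hk; rwa [hk]

theorem sum {ι : Type*} (s : Finset ι) {F : ι → P} (h : ∀ i ∈ s, AsmB1V p (F i)) :
    AsmB1V p (∑ i ∈ s, F i) := fun j hj => by
  classical
  have := vars_sum_subset s F hj
  rw [Finset.mem_biUnion] at this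
  obtain ⟨i, hi, hij⟩ := this
  exact h i hi j hij

theorem prod {ι : Type*} (s : Finset ι) {F : ι → P} (h : ∀ i ∈ s, AsmB1V p (F i)) :
    AsmB1V p (∏ i ∈ s, F i) := fun j hj => by
  classical
  have := vars_prod (s := s) F hj
  rw [Finset.mem_biUnion] at this
  obtain ⟨i, hi, hij⟩ := this
  exact h i hi j hij

theorem pd (hf : AsmB1V p f) (k : ℕ) : AsmB1V p (pderiv k f) := fun j hj =>
  hf j (vars_pderiv_sub f k hj)

theorem sdeg0 {S : Finset ℕ} (h : AsmB1V (fun j => j ∉ S) f) : sdeg S f = 0 := sdeg_zero_of_vars h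

end AsmB1V

namespace Asm
variable {a : Asm} {B : ℕ}

theorem chi_vars (hok : a.Ok B) : ∀ j ∈ a.chi.vars, j < a.n ∨ j = a.vt ∨ j = a.vT := by
  intro j hj
  obtain ⟨h1, -, h3⟩ := nrS_vars hj
  have hQ : AsmB1V (fun j => j < a.tt ∨ j = a.vt ∨ j = a.vT) a.Q := fun j hj => Or.inl (hok.Qv j hj)
  have hG : AsmB1V (fun j => j < a.tt ∨ j = a.vt ∨ j = a.vT) a.GY := by
    refine AsmB1V.one.add (AsmB1V.sum _ fun i hi => (AsmB1V.var (Or.inl ?_)).pow 6)
    exact (Finset.mem_Ico.1 hi).2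
  have hX1 : AsmB1V (fun j => j < a.tt ∨ j = a.vt ∨ j = a.vT) (X a.vt : P) :=
    AsmB1V.var (Or.inr (Or.inl rfl))
  have hX2 : AsmB1V (fun j => j < a.tt ∨ j = a.vt ∨ j = a.vT) (X a.vT : P) :=
    AsmB1V.var (Or.inr (Or.inr rfl))
  have key : j < a.tt ∨ j = a.vt ∨ j = a.vT := by
    rcases h3 with h3 | ⟨i, -, h3⟩
    · exact (hX2.sub ((hX1.mul hQ).add hG)) j h3
    · exact (((AsmB1V.const _).mul hX1).mul (hQ.pd i)) j h3
  rcases key with h | h
  · left
    by_contra hn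
    exact h1 (Finset.mem_Ico.2 ⟨not_lt.1 hn, h⟩)
  · exact Or.inr h

theorem h_vars (hok : a.Ok B) (i j : ℕ) : ∀ k ∈ (a.h i j).vars, k < a.n := by
  intro k hk
  obtain ⟨h1, h2⟩ := coefS_vars hk
  rcases chi_vars hok k h1 with h | h | h
  · exact h
  · exact absurd (Finset.mem_Ico.2 ⟨h.ge, by rw [h]; exact Nat.lt_add_of_pos_right two_pos⟩) h2
  · exact absurd (Finset.mem_Ico.2 ⟨by rw [h]; unfold vT vt; omega, by rw [h]; unfold vT vt; omega⟩) h2

theorem AsmB1_h (hok : a.Ok B) (i j : ℕ) : AsmB1V (fun k => k < a.n) (a.h i j) := h_vars hok i j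

theorem chiR_vars (hok : a.Ok B) : ∀ j ∈ a.chiR.vars, j < a.n ∨ j = a.vTh ∨ j = a.vR := by
  refine AsmB1V.sum _ fun i _ => AsmB1V.sum _ fun j _ => ?_
  exact (((AsmB1_h hok i j).mono fun k hk => Or.inl hk).mul
    ((AsmB1V.var (Or.inr (Or.inl rfl))).pow i)).mul ((AsmB1V.var (Or.inr (Or.inr rfl))).pow j)

theorem H_vars (hok : a.Ok B) : ∀ j ∈ a.H.vars, j < a.n ∨ (a.vDl ≤ j ∧ j < a.vDl + 4) := by
  have hD : AsmB1V (fun j => j < a.n ∨ (a.vDl ≤ j ∧ j < a.vDl + 4)) (X a.vDl : P) :=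
    AsmB1V.var (Or.inr ⟨le_rfl, by omega⟩)
  have hE : AsmB1V (fun j => j < a.n ∨ (a.vDl ≤ j ∧ j < a.vDl + 4)) (X a.vE : P) :=
    AsmB1V.var (Or.inr ⟨by unfold vE vDl; omega, by unfold vE vDl; omega⟩)
  have hh : ∀ i j, AsmB1V (fun j => j < a.n ∨ (a.vDl ≤ j ∧ j < a.vDl + 4)) (a.h i j) :=
    fun i j => (AsmB1_h hok i j).mono fun k hk => Or.inl hk
  refine AsmB1V.mul (AsmB1V.mul ((hD.pow 2).sub (AsmB1V.sum _ fun i hi =>
    (AsmB1V.var (Or.inl (Finset.mem_range.1 hi))).pow 2)) (AsmB1V.prod _ fun i _ =>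
      AsmB1V.prod _ fun j _ => ?_)) ?_
  · exact (AsmB1V.one.sub ((hE.pow 2).mul ((hh i j).pow 2))).mul
      (((hD.pow 2).mul ((hh i j).pow 2)).sub AsmB1V.one)
  · intro j hj
    rcases chiR_vars hok j hj with h | h | h
    · exact Or.inl h
    · exact Or.inr ⟨by rw [h]; unfold vTh vDl; omega, by rw [h]; unfold vTh vDl; omega⟩
    · exact Or.inr ⟨by rw [h]; unfold vR vDl; omega, by rw [h]; unfold vR vDl; omega⟩

theorem Rt_vars (hok : a.Ok B) : ∀ j ∈ a.Rt.vars, a.vDl ≤ j ∧ j < a.vDl + 5 := by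
  intro j hj
  obtain ⟨h1, -, h3⟩ := nrS_vars hj
  have hH : AsmB1V (fun j => j < a.n ∨ (a.vDl ≤ j ∧ j < a.vDl + 5)) a.H := by
    intro k hk
    rcases H_vars hok k hk with h | h
    · exact Or.inl h
    · exact Or.inr ⟨h.1, by omega⟩
  have hK : AsmB1V (fun j => j < a.n ∨ (a.vDl ≤ j ∧ j < a.vDl + 5)) (X a.vK : P) :=
    AsmB1V.var (Or.inr ⟨by unfold vK vDl; omega, by unfold vK vDl; omega⟩)
  have hG : AsmB1V (fun j => j < a.n ∨ (a.vDl ≤ j ∧ j < a.vDl + 5)) a.GD :=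
    AsmB1V.one.add (AsmB1V.sum _ fun i hi => (AsmB1V.var (Or.inl (Finset.mem_range.1 hi))).pow _)
  have key : j < a.n ∨ (a.vDl ≤ j ∧ j < a.vDl + 5) := by
    rcases h3 with h3 | ⟨i, -, h3⟩
    · exact (hG.sub (hK.mul (hH.pow 2))) j h3
    · exact (((AsmB1V.const _).mul hK).mul ((hH.pow 2).pd i)) j h3
  rcases key with h | h
  · exact absurd (Finset.mem_range.2 h) h1
  · exact h

theorem Bk_vars (hok : a.Ok B) (k : ℕ) : ∀ j ∈ (a.Bk k).vars, a.vDl ≤ j ∧ j < a.vDl + 4 := by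
  intro j hj
  obtain ⟨h1, h2⟩ := coefS_vars hj
  obtain ⟨h3, h4⟩ := Rt_vars hok j h1
  refine ⟨h3, ?_⟩
  have h5 : j ≠ a.vK := fun h => h2 (Finset.mem_singleton.2 h)
  unfold vK at h5
  unfold vDl at h4 ⊢
  omega

theorem AsmB1_pc (p : ℕ → Prop) (k : ℕ) : AsmB1V p (a.pc k) := (AsmB1V.const 2).pow _

theorem H0_vars (hok : a.Ok B) : ∀ j ∈ a.H0.vars, j < a.n := by
  classical
  intro j hj
  have h1 := vars_bind₁ a.sub0 a.H hj
  rw [Finset.mem_biUnion] at h1
  obtain ⟨i, hi, hij⟩ := h1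
  have hpc : ∀ k, j ∉ (a.pc k).vars := fun k hk => AsmB1_pc (a := a) (fun _ => False) k j hk
  unfold sub0 at hij
  split_ifs at hij with e1 e2 e3 e4
  · exact absurd hij (hpc 1)
  · exact absurd hij (hpc 2)
  · exact absurd hij (hpc 3)
  · exact absurd hij (hpc 4)
  · rw [vars_X, Finset.mem_singleton] at hij
    rw [hij]
    rcases H_vars hok i hi with h | ⟨h, h'⟩
    · exact h
    · exfalso
      unfold vR at e2
      unfold vTh at e3
      unfold vE at e4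
      unfold vDl at e1 h h'
      omega

theorem AsmB1_n_le (a : Asm) : a.n ≤ a.tt := Nat.le_add_right _ _

theorem qJ_vars (hok : a.Ok B) : ∀ j < a.tt, ∀ k ∈ (a.qJ j).vars, k < a.tt := by
  intro j _
  have hn := AsmB1_n_le a
  have hH : AsmB1V (fun k => k < a.tt) a.H0 := fun k hk => (H0_vars hok k hk).trans_le hn
  have hQ : AsmB1V (fun k => k < a.tt) a.Q := hok.Qv
  unfold qJ
  split_ifs with h
  · exact ((AsmB1V.const _).mul (AsmB1_pc _ 5)).mul ((hH.pow 2).pd j)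
  · exact ((AsmB1V.const _).mul (AsmB1_pc _ 3)).mul (hQ.pd j)

theorem t0_vars (hok : a.Ok B) : ∀ j ∈ a.t0.vars, j < a.tt := by
  have hn := AsmB1_n_le a
  exact ((AsmB1_pc _ 1).pow 2).sub (AsmB1V.sum _ fun i hi =>
    (AsmB1V.var (p := fun j => j < a.tt) ((Finset.mem_range.1 hi).trans_le hn)).pow 2)

theorem tu_vars (hok : a.Ok B) (k : ℕ) : ∀ j ∈ (a.tu k).vars, j < a.tt := by
  have hn := AsmB1_n_le a
  exact AsmB1V.one.sub (((AsmB1_pc _ 4).pow 2).mul
    (((AsmB1_h hok _ _).mono fun j hj => lt_of_lt_of_le hj hn).pow 2))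

theorem tv_vars (hok : a.Ok B) (k : ℕ) : ∀ j ∈ (a.tv k).vars, j < a.tt := by
  have hn := AsmB1_n_le a
  exact (((AsmB1_pc _ 1).pow 2).mul
    (((AsmB1_h hok _ _).mono fun j hj => lt_of_lt_of_le hj hn).pow 2)).sub AsmB1V.one

theorem tb_vars (hok : a.Ok B) : ∀ j ∈ a.tb.vars, j < a.tt := by
  have hQ : AsmB1V (fun k => k < a.tt) a.Q := hok.Qv
  have hG : AsmB1V (fun k => k < a.tt) a.GY :=
    AsmB1V.one.add (AsmB1V.sum _ fun i hi =>
      (AsmB1V.var (p := fun j => j < a.tt) (Finset.mem_Ico.1 hi).2).pow 6)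
  exact (((AsmB1_pc _ 3).mul hQ).add hG).sub (AsmB1_pc _ 2)

theorem AsmB1_sdeg_inner (hok : a.Ok B) (S : Finset ℕ) (th : P) (hth : ∀ j ∈ th.vars, j ∉ S)
    (j : ℕ) : sdeg S (a.qY th j) < 5 := by
  have h1 : sdeg S (C (-1 / 6) : P) = 0 := (AsmB1V.const _).sdeg0
  have h2 : sdeg S th = 0 := sdeg_zero_of_vars hth
  have h3 := sdeg_mul' S (C (-1 / 6) * th) (pderiv j a.Q)
  have h4 := sdeg_mul' S (C (-1 / 6) : P) th
  have h5 := sdeg_le_td S (pderiv j a.Q)
  have h6 := totalDegree_pderiv_le' a.Q j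
  have h7 := hok.Qd
  show sdeg S (C (-1 / 6) * th * pderiv j a.Q) < 5
  omega

/-- the inner system is a Pham system -/
theorem isPham_inner (hok : a.Ok B) (th : P) (hth : ∀ j ∈ th.vars, j ∉ a.SY) :
    IsPham a.SY (fun _ => 5) (a.qY th) := fun j _ =>
  ⟨by norm_num, AsmB1_sdeg_inner hok a.SY th hth j⟩

theorem AsmB1_sdeg_outer (hok : a.Ok B) (S : Finset ℕ) (ka Hp : P) (hka : ∀ j ∈ ka.vars, j ∉ S)
    (hH : Hp.totalDegree ≤ a.H.totalDegree) (i : ℕ) : sdeg S (a.qX ka Hp i) < 2 * a.D - 1 := by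
  have h1 : sdeg S (C (1 / (2 * (a.D : ℚ))) : P) = 0 := (AsmB1V.const _).sdeg0
  have h2 : sdeg S ka = 0 := sdeg_zero_of_vars hka
  have h3 := sdeg_mul' S (C (1 / (2 * (a.D : ℚ))) * ka) (pderiv i (Hp ^ 2))
  have h4 := sdeg_mul' S (C (1 / (2 * (a.D : ℚ))) : P) ka
  have h5 := sdeg_le_td S (pderiv i (Hp ^ 2))
  have h6 := totalDegree_pderiv_le' (Hp ^ 2) i
  have h7 := totalDegree_pow Hp 2
  have h8 := hok.D
  show sdeg S (C (1 / (2 * (a.D : ℚ))) * ka * pderiv i (Hp ^ 2)) < 2 * a.D - 1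
  omega

/-- the outer system is a Pham system -/
theorem isPham_outer (hok : a.Ok B) :
    IsPham (range a.n) (fun _ => 2 * a.D - 1) (a.qX (X a.vK) a.H) := fun i _ => by
  have h8 := hok.D
  refine ⟨by show 0 < 2 * a.D - 1; omega, AsmB1_sdeg_outer hok _ _ _ ?_ le_rfl i⟩
  intro j hj
  rw [vars_X, Finset.mem_singleton] at hj
  rw [hj, Finset.mem_range]
  unfold vK tt
  omega

theorem AsmB1_H0_deg (a : Asm) : a.H0.totalDegree ≤ a.H.totalDegree := by
  have hs : ∀ i, (a.sub0 i).totalDegree ≤ 1 := by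
    intro i
    have hpc : ∀ k, (a.pc k).totalDegree ≤ 1 := by
      intro k
      have := totalDegree_pow (C 2 : P) (2 ^ (k * a.c))
      rw [totalDegree_C, mul_zero] at this
      exact this.trans zero_le_one
    unfold sub0
    split_ifs
    · exact hpc 1
    · exact hpc 2
    · exact hpc 3
    · exact hpc 4
    · exact (totalDegree_X (R := ℚ) i).le
  have h1 : a.H0 = ∑ d ∈ a.H.support, C (coeff d a.H) * ∏ i ∈ d.support, a.sub0 i ^ d i := by
    unfold H0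
    rw [bind₁, aeval_def, eval₂_eq]
    rfl
  rw [h1]
  refine totalDegree_finsetSum_le fun d hd => ?_
  refine (totalDegree_mul _ _).trans ?_
  rw [totalDegree_C, zero_add]
  refine (totalDegree_finsetProd _ _).trans ?_
  refine le_trans (Finset.sum_le_sum fun i _ => ?_) (le_totalDegree hd)
  refine (totalDegree_pow _ _).trans ?_
  calc d i * (a.sub0 i).totalDegree ≤ d i * 1 := Nat.mul_le_mul_left _ (hs i)
    _ = d i := mul_one _

/-- the joint system is a Pham system -/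
theorem isPham_joint (hok : a.Ok B) : IsPham (range a.tt) a.mJ a.qJ := by
  intro j _
  have h8 := hok.D
  unfold mJ qJ
  split_ifs with h
  · exact ⟨by omega, AsmB1_sdeg_outer hok _ _ _ (AsmB1_pc _ 5) (AsmB1_H0_deg a) j⟩
  · exact ⟨by norm_num, AsmB1_sdeg_inner hok _ _ (AsmB1_pc _ 3) j⟩

/-- the number of solutions of the joint system -/
theorem prod_mJ : ∏ j ∈ range a.tt, a.mJ j = a.N1 * a.N2 := by
  unfold tt
  rw [Finset.prod_range_add]
  congr 1
  · rw [Finset.prod_congr rfl (g := fun _ => 2 * a.D - 1)]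
    · rw [Finset.prod_const, Finset.card_range]; rfl
    · intro j hj
      unfold mJ
      rw [if_pos (Finset.mem_range.1 hj)]
  · rw [Finset.prod_congr rfl (g := fun _ => 5)]
    · rw [Finset.prod_const, Finset.card_range]; rfl
    · intro j _
      unfold mJ
      rw [if_neg (by omega)]

end Asm

end Crest.Agent.CHR
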