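import Crest.Agent.CHR.AsmB1

/-!
CHUNK R316-ASMB2 (medium, DONE): the inner system.  Idea 447, part B2.
PROOF.
`chi_prod`: `exists_sol (isPham_inner ..) v` (reindex `∏ j ∈ SY, 5 = N2`), then `Sol.norm` with
`g = X vT - (X vt * Q + GY)` (`sdeg SY g ≤ 6`, `6 * N2 ≤ K2`); `aeval (Z i) g = v vT - (v vt * aeval (Z i) Q + aeval (Z i) GY)`
because `Z i = v` off `SY` (`Sol.off`).
`chi_sum`: `coefS_sum2` with `k = vt`.
`crit_inner`: `aeval_pderiv_eq_zero` for the polynomial `C`-free function: apply `hasDerivAt_aeval` to `Q` and to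
`GY` separately, or to `f = X vt * Q + GY` at the point `z = jn x Y` with `z vt = θ`;
`Function.update (jn x Y) j t = jn x (Function.update Y ⟨j - n, _⟩ t)`;
`pderiv j (X vt * Q + GY) = X vt * pderiv j Q + 6 X_j^5`.
`root`: for a minimiser `Y` of `θ Q + 1 + ∑ Y^6` (same proof as `RedData.uth_attained`, which needs a `RedData`;
`uth_attained` only uses the fields `Q, cont, nonneg`: apply it to the RedData with `h a b x = if a = 0 ∧ b = 0 then ...`
or better: use `minimizer` below, stated for `Qr`), the complex point `z = (x, Y, θ at vt, T at vT)` is a solution of the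
inner system over `v = (x, θ, T)`, so `Z i = z` for some `i` (`Sol.all`), and the factor `i` of `chi_prod` vanishes for
`T = uth Qr θ x = θ Q(x,Y) + G(Y)`.  So `∑∑ h_ij(x) θ^i T^j = 0` in `ℂ`, hence in `ℝ` (`Complex.ofReal` of the real sum:
`aeval (fun j => ((v j : ℝ) : ℂ)) f = ((aeval v f : ℝ) : ℂ)`, lemma `aeval_ofReal` below).
`nz`: if all `h_ij(x) = 0` then by `chi_sum` `aeval v chi = 0` for all `v` extending `x`; by `chi_prod` (the solutions `Z i` for
`vt = 0`, `vT = T`: choose `T` real larger than all `‖G(Z i)‖`; note that the solutions over `v` with different `vT` are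
the same up to the coordinate `vT`; with `θ = 0` all solutions have `Y = 0`, `G = 1`, so `T = 2` gives the product `1 ≠ 0`).
-/

set_option autoImplicit false

namespace Crest.Agent.CHR

open MvPolynomial Finset

theorem aeval_ofReal (v : ℕ → ℝ) (f : P) :
    aeval (fun j => ((v j : ℝ) : ℂ)) f = ((aeval v f : ℝ) : ℂ) := by
  induction f using MvPolynomial.induction_on with
  | C r =>
    rw [MvPolynomial.aeval_C, MvPolynomial.aeval_C]
    simp
  | add p q hp hq => rw [map_add, map_add, hp, hq]; push_cast; rfl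
  | mul_X p i hp => rw [map_mul, map_mul, hp, aeval_X, aeval_X]; push_cast; rfl

namespace Asm
variable {a : Asm} {B : ℕ}

theorem mem_SY {j : ℕ} : j ∈ a.SY ↔ a.n ≤ j ∧ j < a.tt := by
  unfold SY; exact Finset.mem_Ico

theorem GY_vars : ∀ j ∈ a.GY.vars, j ∈ a.SY := by
  intro j hj
  have h1 : a.GY.vars ⊆ (1 : P).vars ∪ (∑ j ∈ a.SY, (X j : P) ^ 6).vars := vars_add_subset _ _
  rcases Finset.mem_union.1 (h1 hj) with h | h
  · rw [vars_one] at h; exact absurd h (Finset.notMem_empty _)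
  · have h2 := vars_sum_subset a.SY (fun j => (X j : P) ^ 6) h
    obtain ⟨k, hk, hk'⟩ := Finset.mem_biUnion.1 h2
    have h3 := vars_pow (X k : P) 6 hk'
    rw [vars_X, Finset.mem_singleton] at h3
    rw [h3]; exact hk

theorem qY_vars {th : P} {j k : ℕ} (h : k ∈ (a.qY th j).vars) : k ∈ th.vars ∨ k ∈ a.Q.vars := by
  unfold qY at h
  rcases Finset.mem_union.1 (vars_mul _ _ h) with h1 | h1
  · rcases Finset.mem_union.1 (vars_mul _ _ h1) with h2 | h2
    · rw [vars_C] at h2; exact absurd h2 (Finset.notMem_empty _)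
    · exact Or.inl h2
  · exact Or.inr (vars_pderiv_sub _ _ h1)

theorem GY_deg : a.GY.totalDegree ≤ 6 := by
  unfold GY
  refine (totalDegree_add _ _).trans (max_le ?_ ?_)
  · rw [totalDegree_one]; norm_num
  · refine (totalDegree_finsetSum _ _).trans (Finset.sup_le fun j _ => ?_)
    refine (totalDegree_pow _ _).trans ?_
    rw [totalDegree_X]

theorem aeval_GY {R : Type*} [CommRing R] [Algebra ℚ R] (z : ℕ → R) :
    aeval z a.GY = 1 + ∑ j ∈ a.SY, z j ^ 6 := by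
  unfold GY
  rw [map_add, map_one, map_sum]
  simp

theorem chi_prod (hok : a.Ok B) (v : ℕ → ℂ) :
    ∃ Z : Fin a.N2 → ℕ → ℂ, Sol a.SY (fun _ => 5) (a.qY (X a.vt)) v Z ∧
      aeval v a.chi = ∏ i, (v a.vT - (v a.vt * aeval (Z i) a.Q + aeval (Z i) a.GY)) := by
  have hvt : a.vt ∉ a.SY := by rw [mem_SY]; unfold vt; omega
  have hvT : a.vT ∉ a.SY := by rw [mem_SY]; unfold vT; omega
  have hvy : a.vy ∉ a.SY := by rw [mem_SY]; unfold vy; omega
  have hP : IsPham a.SY (fun _ => 5) (a.qY (X a.vt)) := by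
    refine isPham_inner hok _ fun j hj => ?_
    rw [vars_X, Finset.mem_singleton] at hj
    rw [hj]; exact hvt
  have e : ∏ j ∈ a.SY, 5 = a.N2 := by
    rw [Finset.prod_const]
    unfold SY N2 tt
    rw [Nat.card_Ico]
    congr 1; omega
  obtain ⟨Z, hZ⟩ : ∃ Z : Fin a.N2 → ℕ → ℂ, Sol a.SY (fun _ => 5) (a.qY (X a.vt)) v Z := by
    rw [← e]; exact exists_sol hP v
  refine ⟨Z, hZ, ?_⟩
  have hn := hZ.norm (X a.vT - (X a.vt * a.Q + a.GY)) (y := a.vy) (K := a.K2) hvy ?_ ?_ ?_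
  · unfold chi
    rw [← hn]
    refine Finset.prod_congr rfl fun i _ => ?_
    rw [map_sub, map_add, map_mul, aeval_X, aeval_X, hZ.off i _ hvt, hZ.off i _ hvT]
  · intro j hj h
    rcases qY_vars h with h1 | h1
    · rw [vars_X, Finset.mem_singleton] at h1
      unfold vy vt at h1; omega
    · have := hok.Qv _ h1
      unfold vy at this; omega
  · intro h
    rcases Finset.mem_union.1 (vars_sub_subset _ h) with h1 | h1
    · rw [vars_X, Finset.mem_singleton] at h1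
      unfold vy vT at h1; omega
    · rcases Finset.mem_union.1 (vars_add_subset _ _ h1) with h2 | h2
      · rcases Finset.mem_union.1 (vars_mul _ _ h2) with h3 | h3
        · rw [vars_X, Finset.mem_singleton] at h3
          unfold vy vt at h3; omega
        · have := hok.Qv _ h3
          unfold vy at this; omega
      · exact hvy (GY_vars _ h2)
  · refine le_trans (Nat.mul_le_mul_right _ ?_) hok.K2
    refine (sdeg_sub' _ _ _).trans (max_le ?_ ((sdeg_add' _ _ _).trans (max_le ?_ ?_)))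
    · rw [sdeg_zero_of_vars]
      · exact Nat.zero_le _
      · intro j hj
        rw [vars_X, Finset.mem_singleton] at hj
        rw [hj]; exact hvT
    · refine (sdeg_mul' _ _ _).trans ?_
      have h1 : sdeg a.SY (X a.vt) = 0 := by
        refine sdeg_zero_of_vars fun j hj => ?_
        rw [vars_X, Finset.mem_singleton] at hj
        rw [hj]; exact hvt
      have h2 := (sdeg_le_td a.SY a.Q).trans hok.Qd
      omega
    · exact (sdeg_le_td _ _).trans GY_deg

theorem chi_sum (hok : a.Ok B) {R : Type*} [CommRing R] [Algebra ℚ R] (v : ℕ → R) :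
    aeval v a.chi =
      ∑ i ∈ range a.nb, ∑ j ∈ range a.nb, aeval v (a.h i j) * v a.vt ^ i * v a.vT ^ j :=
  coefS_sum2 a.chi a.vt a.nb hok.nb v

theorem Qr_cont (hok : a.Ok B) :
    Continuous (fun p : (Fin a.n → ℝ) × (Fin a.m → ℝ) => a.Qr p.1 p.2) := by
  have _ := hok
  unfold Qr
  refine continuous_aeval' a.Q (fun p : (Fin a.n → ℝ) × (Fin a.m → ℝ) => a.jn p.1 p.2)
    fun j _ => ?_
  unfold jn
  split_ifs with h1 h2
  · exact (continuous_apply _).comp continuous_fst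
  · exact (continuous_apply _).comp continuous_snd
  · exact continuous_const

theorem Qr_nonneg (hok : a.Ok B) (x : Fin a.n → ℝ) (Y : Fin a.m → ℝ) : 0 ≤ a.Qr x Y :=
  hok.Qn _

theorem hr_cont (hok : a.Ok B) (i j : ℕ) : Continuous (a.hr i j) := by
  have _ := hok
  unfold hr
  refine continuous_aeval' (a.h i j) (fun x => a.ext x) fun k _ => ?_
  unfold ext
  split_ifs with h1
  · exact continuous_apply _
  · exact continuous_const

theorem minimizer_aux {m : ℕ} (Q : (Fin m → ℝ) → ℝ) (hQ : Continuous Q) (hn : ∀ Y, 0 ≤ Q Y)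
    {θ : ℝ} (hθ : 0 < θ) :
    ∃ Y : Fin m → ℝ, (⨅ Y : Fin m → ℝ, (θ * Q Y + (1 + ∑ j, Y j ^ 6))) =
        θ * Q Y + (1 + ∑ j, Y j ^ 6) ∧
      ∀ Y', θ * Q Y + (1 + ∑ j, Y j ^ 6) ≤ θ * Q Y' + (1 + ∑ j, Y' j ^ 6) := by
  have h1le : ∀ Y : Fin m → ℝ, 1 ≤ θ * Q Y + (1 + ∑ j, Y j ^ 6) := by
    intro Y
    have h1 := mul_nonneg hθ.le (hn Y)
    have h2 : 0 ≤ ∑ j, Y j ^ 6 := Finset.sum_nonneg fun j _ => by positivity
    linarith
  have hbdd : BddBelow (Set.range fun Y : Fin m → ℝ => θ * Q Y + (1 + ∑ j, Y j ^ 6)) :=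
    ⟨1, by rintro _ ⟨Y, rfl⟩; exact h1le Y⟩
  have hc : Continuous fun Y : Fin m → ℝ => θ * Q Y + (1 + ∑ j, Y j ^ 6) := by
    fun_prop
  obtain ⟨Y, hY⟩ : ∃ Y : Fin m → ℝ, ∀ Z : Fin m → ℝ,
      θ * Q Y + (1 + ∑ j, Y j ^ 6) ≤ θ * Q Z + (1 + ∑ j, Z j ^ 6) := by
    refine hc.exists_forall_le' (fun _ => 0) ?_
    rw [Filter.eventually_iff, Filter.mem_cocompact]
    set C : ℝ := θ * Q (fun _ => 0) + (1 + ∑ j : Fin m, (0 : ℝ) ^ 6) with hC
    have hC1 : 1 ≤ C := h1le (fun _ => 0)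
    refine ⟨Metric.closedBall 0 C, isCompact_closedBall _ _, ?_⟩
    intro Z hZ
    simp only [Set.mem_compl_iff, Metric.mem_closedBall, dist_zero_right, not_le] at hZ
    obtain ⟨j, hj⟩ : ∃ j, C < ‖Z j‖ := by
      by_contra hcon
      push Not at hcon
      exact absurd ((pi_norm_le_iff_of_nonneg (by linarith)).2 hcon) (not_le.2 hZ)
    have h1 : C ≤ Z j ^ 6 := by
      have h2 : C ≤ C ^ 6 := le_self_pow₀ hC1 (by norm_num)
      have h3 : C ^ 6 ≤ ‖Z j‖ ^ 6 := pow_le_pow_left₀ (by linarith) hj.le 6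
      have h4 : ‖Z j‖ ^ 6 = Z j ^ 6 := by
        rw [Real.norm_eq_abs]; exact Even.pow_abs (by decide) _
      linarith
    have h5 : Z j ^ 6 ≤ ∑ j, Z j ^ 6 :=
      Finset.single_le_sum (f := fun j => Z j ^ 6) (fun i _ => by positivity) (Finset.mem_univ j)
    have h6 := mul_nonneg hθ.le (hn Z)
    change C ≤ θ * Q Z + (1 + ∑ j, Z j ^ 6)
    linarith
  exact ⟨Y, le_antisymm (ciInf_le hbdd Y) (le_ciInf hY), hY⟩

/-- a minimiser -/
theorem minimizer (hok : a.Ok B) (x : Fin a.n → ℝ) {θ : ℝ} (hθ : 0 < θ) :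
    ∃ Y : Fin a.m → ℝ, uth a.Qr θ x = θ * a.Qr x Y + (1 + ∑ j, Y j ^ 6) ∧
      ∀ Y', θ * a.Qr x Y + (1 + ∑ j, Y j ^ 6) ≤ θ * a.Qr x Y' + (1 + ∑ j, Y' j ^ 6) := by
  have hQ : Continuous (a.Qr x) := by
    unfold Qr
    refine continuous_aeval' a.Q (fun Y : Fin a.m → ℝ => a.jn x Y) fun j _ => ?_
    unfold jn
    split_ifs with h1 h2
    · exact continuous_const
    · exact continuous_apply _
    · exact continuous_const
  have h := minimizer_aux (a.Qr x) hQ (Qr_nonneg hok x) hθ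
  unfold uth
  exact h

/-- the point with coordinates `x`, `Y`, `θ` at `vt`, `T` at `vT` -/
noncomputable def zz (x : Fin a.n → ℝ) (Y : Fin a.m → ℝ) (θ T : ℝ) : ℕ → ℝ := fun j =>
  if j = a.vt then θ else if j = a.vT then T else a.jn x Y j

theorem jn_lt {x : Fin a.n → ℝ} {Y : Fin a.m → ℝ} {j : ℕ} (h : j < a.n) :
    a.jn x Y j = x ⟨j, h⟩ := by
  unfold jn; rw [dif_pos h]

theorem jn_ge {x : Fin a.n → ℝ} {Y : Fin a.m → ℝ} {j : ℕ} (h : ¬ j < a.n) (h' : j - a.n < a.m) :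
    a.jn x Y j = Y ⟨j - a.n, h'⟩ := by
  unfold jn; rw [dif_neg h, dif_pos h']

theorem zz_lt {x : Fin a.n → ℝ} {Y : Fin a.m → ℝ} {θ T : ℝ} {j : ℕ} (h : j < a.tt) :
    zz x Y θ T j = a.jn x Y j := by
  unfold zz
  rw [if_neg, if_neg]
  · unfold vT; omega
  · unfold vt; omega

theorem zz_vt {x : Fin a.n → ℝ} {Y : Fin a.m → ℝ} {θ T : ℝ} : zz x Y θ T a.vt = θ := by
  unfold zz; rw [if_pos rfl]

theorem zz_vT {x : Fin a.n → ℝ} {Y : Fin a.m → ℝ} {θ T : ℝ} : zz x Y θ T a.vT = T := by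
  unfold zz
  rw [if_neg, if_pos rfl]
  unfold vT vt; omega

theorem sum_jn (x : Fin a.n → ℝ) (Y : Fin a.m → ℝ) :
    ∑ j ∈ a.SY, a.jn x Y j ^ 6 = ∑ j, Y j ^ 6 := by
  unfold SY tt
  rw [Finset.sum_Ico_eq_sum_range, Nat.add_sub_cancel_left, ← Fin.sum_univ_eq_sum_range
    (fun k => a.jn x Y (a.n + k) ^ 6)]
  refine Finset.sum_congr rfl fun k _ => ?_
  have h1 : ¬ a.n + (k : ℕ) < a.n := by omega
  have h2 : a.n + (k : ℕ) - a.n < a.m := by have := k.2; omega
  rw [jn_ge h1 h2]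
  congr 2
  exact Fin.ext (by simp)

theorem aeval_zz_Q (hok : a.Ok B) (x : Fin a.n → ℝ) (Y : Fin a.m → ℝ) (θ T : ℝ) :
    aeval (zz x Y θ T) a.Q = a.Qr x Y :=
  aeval_congr_vars fun _ hj => zz_lt (hok.Qv _ hj)

theorem aeval_zz_GY (x : Fin a.n → ℝ) (Y : Fin a.m → ℝ) (θ T : ℝ) :
    aeval (zz x Y θ T) a.GY = 1 + ∑ j, Y j ^ 6 := by
  rw [aeval_GY, ← sum_jn x Y]
  congr 1
  refine Finset.sum_congr rfl fun j hj => ?_
  rw [zz_lt (mem_SY.1 hj).2]

theorem update_zz (x : Fin a.n → ℝ) (Y : Fin a.m → ℝ) (θ T : ℝ) {j : ℕ} (hj : j ∈ a.SY)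
    (h' : j - a.n < a.m) (t : ℝ) :
    Function.update (zz x Y θ T) j t = zz x (Function.update Y ⟨j - a.n, h'⟩ t) θ T := by
  have hj' := mem_SY.1 hj
  funext k
  by_cases hk : k = j
  · subst hk
    rw [Function.update_self, zz_lt hj'.2, jn_ge (by omega) h', Function.update_self]
  · rw [Function.update_of_ne hk]
    unfold zz
    split_ifs with h1 h2
    · rfl
    · rfl
    · unfold jn
      split_ifs with h3 h4
      · rfl
      · rw [Function.update_of_ne]
        intro h5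
        apply hk
        have := congrArg Fin.val h5
        simp only at this
        omega
      · rfl

theorem crit_zz (hok : a.Ok B) (x : Fin a.n → ℝ) (Y : Fin a.m → ℝ) {θ : ℝ} (T : ℝ)
    (h : ∀ Y', θ * a.Qr x Y + (1 + ∑ j, Y j ^ 6) ≤ θ * a.Qr x Y' + (1 + ∑ j, Y' j ^ 6))
    (j : ℕ) (hj : j ∈ a.SY) :
    (zz x Y θ T j) ^ 5 = (-1 / 6) * θ * aeval (zz x Y θ T) (pderiv j a.Q) := by
  have hj' := mem_SY.1 hj
  have hm : j - a.n < a.m := by have := hj'.2; unfold tt at this; omega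
  have hval : ∀ Y' : Fin a.m → ℝ, aeval (zz x Y' θ T) (X a.vt * a.Q + a.GY) =
      θ * a.Qr x Y' + (1 + ∑ j, Y' j ^ 6) := by
    intro Y'
    rw [map_add, map_mul, aeval_X, zz_vt, aeval_zz_Q hok, aeval_zz_GY]
  have h0 := aeval_pderiv_eq_zero (X a.vt * a.Q + a.GY) (zz x Y θ T) j
    (Filter.Eventually.of_forall fun t => by
      rw [update_zz x Y θ T hj hm, hval, hval]; exact h _)
  have hne : j ≠ a.vt := by unfold vt; omega
  have hG : pderiv j a.GY = C (6 : ℚ) * X j ^ 5 := by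
    unfold GY
    rw [map_add, map_sum]
    have h1 : pderiv j (1 : P) = 0 := by
      rw [← C_1]; exact pderiv_C
    rw [h1, zero_add, Finset.sum_eq_single_of_mem j hj]
    · rw [pderiv_pow, pderiv_X_self, mul_one, map_ofNat]
      norm_num
    · intro k _ hk
      rw [pderiv_pow, pderiv_X_of_ne hk, mul_zero]
  rw [map_add, pderiv_mul, pderiv_X_of_ne hne.symm, zero_mul, zero_add, hG, map_add, map_mul,
    map_mul, aeval_X, zz_vt, map_pow, aeval_X] at h0
  have h6 : aeval (zz x Y θ T) (C (6 : ℚ)) = (6 : ℝ) := by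
    rw [MvPolynomial.aeval_C]; simp
  rw [h6] at h0
  linarith

/-- a minimum point is a critical point -/
theorem crit_inner (hok : a.Ok B) (x : Fin a.n → ℝ) (Y : Fin a.m → ℝ) {θ : ℝ}
    (h : ∀ Y', θ * a.Qr x Y + (1 + ∑ j, Y j ^ 6) ≤ θ * a.Qr x Y' + (1 + ∑ j, Y' j ^ 6))
    (j : ℕ) (hj : j ∈ a.SY) :
    (a.jn x Y j) ^ 5 = (-1 / 6) * θ * aeval (a.jn x Y) (pderiv j a.Q) := by
  have h1 := crit_zz hok x Y 0 h j hj
  rw [zz_lt (mem_SY.1 hj).2] at h1
  rw [h1]
  congr 1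
  refine aeval_congr_vars fun k hk => zz_lt (hok.Qv _ (vars_pderiv_sub _ _ hk))

/-- the parameter point -/
noncomputable def ww (x : Fin a.n → ℝ) (θ T : ℝ) : ℕ → ℝ := fun j =>
  if j = a.vt then θ else if j = a.vT then T else a.ext x j

theorem ww_vt {x : Fin a.n → ℝ} {θ T : ℝ} : ww x θ T a.vt = θ := by
  unfold ww; rw [if_pos rfl]

theorem ww_vT {x : Fin a.n → ℝ} {θ T : ℝ} : ww x θ T a.vT = T := by
  unfold ww
  rw [if_neg, if_pos rfl]
  unfold vT vt; omega

theorem zz_off {x : Fin a.n → ℝ} {Y : Fin a.m → ℝ} {θ T : ℝ} {j : ℕ} (h : j ∉ a.SY) :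
    zz x Y θ T j = ww x θ T j := by
  rw [mem_SY] at h
  unfold zz ww
  split_ifs with h1 h2
  · rfl
  · rfl
  · unfold jn ext
    split_ifs with h3 h4
    · rfl
    · exfalso; apply h; unfold tt; omega
    · rfl

theorem chi_ww (hok : a.Ok B) (x : Fin a.n → ℝ) (θ T : ℝ) :
    aeval (ww x θ T) a.chi =
      ∑ i ∈ range a.nb, ∑ j ∈ range a.nb, a.hr i j x * θ ^ i * T ^ j := by
  rw [chi_sum hok]
  refine Finset.sum_congr rfl fun i _ => Finset.sum_congr rfl fun j _ => ?_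
  rw [ww_vt, ww_vT]
  congr 2
  refine aeval_congr_vars fun k hk => ?_
  have hk' := h_vars hok i j k hk
  unfold ww
  rw [if_neg, if_neg]
  · unfold vT tt; omega
  · unfold vt tt; omega

theorem root (hok : a.Ok B) (x : Fin a.n → ℝ) (θ : ℝ) (hθ : 0 < θ) :
    ∑ i ∈ range a.nb, ∑ j ∈ range a.nb, a.hr i j x * θ ^ i * (uth a.Qr θ x) ^ j = 0 := by
  obtain ⟨Y, hY, hmin⟩ := minimizer hok x hθ
  set T := uth a.Qr θ x with hT
  rw [← chi_ww hok]
  obtain ⟨Z, hZ, hprod⟩ := chi_prod hok (fun j => ((ww x θ T j : ℝ) : ℂ))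
  rw [aeval_ofReal, ww_vt, ww_vT] at hprod
  obtain ⟨i, hi⟩ := hZ.all (fun j => ((zz x Y θ T j : ℝ) : ℂ))
    (fun j hj => by rw [zz_off hj])
    (fun j hj => by
      rw [aeval_ofReal, ← Complex.ofReal_pow, crit_zz hok x Y T hmin j hj]
      congr 1
      unfold qY
      rw [map_mul, map_mul, aeval_X, zz_vt, MvPolynomial.aeval_C]
      simp)
  have h0 : ((aeval (ww x θ T) a.chi : ℝ) : ℂ) = 0 := by
    rw [hprod]
    refine Finset.prod_eq_zero (Finset.mem_univ i) ?_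
    rw [hi, aeval_ofReal, aeval_ofReal, aeval_zz_Q hok, aeval_zz_GY, hY]
    push_cast
    ring
  exact_mod_cast h0

theorem nz (hok : a.Ok B) (x : Fin a.n → ℝ) : ∃ i < a.nb, ∃ j < a.nb, a.hr i j x ≠ 0 := by
  by_contra hcon
  push Not at hcon
  have h0 : aeval (ww x 0 2) a.chi = 0 := by
    rw [chi_ww hok]
    refine Finset.sum_eq_zero fun i hi => Finset.sum_eq_zero fun j hj => ?_
    rw [hcon i (Finset.mem_range.1 hi) j (Finset.mem_range.1 hj), zero_mul, zero_mul]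
  obtain ⟨Z, hZ, hprod⟩ := chi_prod hok (fun j => ((ww x 0 2 j : ℝ) : ℂ))
  rw [aeval_ofReal, ww_vt, ww_vT, h0] at hprod
  have hvt : a.vt ∉ a.SY := by rw [mem_SY]; unfold vt; omega
  obtain ⟨i, _, hi⟩ := Finset.prod_eq_zero_iff.1 (by rw [← hprod]; simp :
    ∏ i, (((2 : ℝ) : ℂ) - (((0 : ℝ) : ℂ) * aeval (Z i) a.Q + aeval (Z i) a.GY)) = 0)
  have hz : ∀ j ∈ a.SY, Z i j = 0 := by
    intro j hj
    have h1 := hZ.sol i j hj
    unfold qY at h1
    rw [map_mul, map_mul, aeval_X, hZ.off i _ hvt, ww_vt] at h1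
    simpa using h1
  rw [aeval_GY, Finset.sum_eq_zero (fun j hj => by rw [hz j hj]; norm_num)] at hi
  norm_num at hi

/-- the data for module M6 -/
noncomputable def red (hok : a.Ok B) : RedData a.n a.m where
  Q := a.Qr
  cont := Qr_cont hok
  nonneg := Qr_nonneg hok
  na := a.nb
  nb := a.nb
  h := a.hr
  hcont := hr_cont hok
  root := root hok
  nz := nz hok

/-- the set `O(e)` -/
def OO (hok : a.Ok B) (e : ℝ × ℝ × ℝ × ℝ) : Set (Fin a.n → ℝ) :=
  (a.red hok).O e.1 e.2.1 e.2.2.1 e.2.2.2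

end Asm

end Crest.Agent.CHR
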