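import Crest.Agent.CHR.AsmB2

/-!
CHUNK R316-ASMC (medium): topology of the sets `O(e)`.
PROOF HINTS.  `Hr_eq`: `aeval` of a product; `aeval (pt x e 0) (h i j) = hr i j x` (`h_vars`, `aeval_congr_vars`:
`pt x e 0 k = ext x k` for `k < n`).
`OO_open`: `|x|² < Δ²`, `E² h² < 1 ∨ 1 < Δ² h²` are open conditions in `(x,e)` (finite intersections: `Filter.eventually_all_finset`,
continuity of `hr`), `R < uth Qr θ x` is open at points with `θ > 0` (`uth_cont` of RedB: continuity on `{θ > 0}`, open set).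
`OO_bdry`: let `(x,e)` be a limit of points of the set; the closed conditions `|x|² ≤ Δ²`, `E² h² ≤ 1 ∨ 1 ≤ Δ² h²`,
`R ≤ uth Qr θ x` hold.  If `x ∉ O(e)` one strict condition fails: `|x|² = Δ²`, or for some `i, j`: `E² h² ≥ 1` and `Δ² h² ≤ 1`,
so `E² h² = 1` or `Δ² h² = 1`, or `R = uth Qr θ x`, and then the last factor of `Hr_eq` is `0` by `root`.
For `e ∈ Reg c` all coordinates are positive (`Reg_pos` in RedPath).
-/

set_option autoImplicit false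

namespace Crest.Agent.CHR

open MvPolynomial Finset

namespace Asm
variable {a : Asm} {B : ℕ}

private theorem AsmC_pt_lt (x : Fin a.n → ℝ) (e : ℝ × ℝ × ℝ × ℝ) (ka : ℝ) {k : ℕ}
    (hk : k < a.n) : a.pt x e ka k = a.ext x k := by
  have htt : a.tt = a.n + a.m := rfl
  unfold pt vDl vR vTh vE vK
  rw [if_neg (by omega), if_neg (by omega), if_neg (by omega), if_neg (by omega),
    if_neg (by omega)]

private theorem AsmC_ext (x : Fin a.n → ℝ) (i : Fin a.n) : a.ext x i = x i := by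
  unfold ext
  rw [dif_pos i.2]

private theorem AsmC_h (hok : a.Ok B) (x : Fin a.n → ℝ) (e : ℝ × ℝ × ℝ × ℝ) (ka : ℝ) (i j : ℕ) :
    aeval (a.pt x e ka) (a.h i j) = a.hr i j x := by
  unfold hr
  exact aeval_congr_vars fun k hk => AsmC_pt_lt x e ka (h_vars hok i j k hk)

theorem Hr_eq (hok : a.Ok B) (x : Fin a.n → ℝ) (e : ℝ × ℝ × ℝ × ℝ) :
    a.Hr x e = (e.1 ^ 2 - ∑ i, x i ^ 2) *
      (∏ i ∈ range a.nb, ∏ j ∈ range a.nb,
        ((1 - e.2.2.2 ^ 2 * a.hr i j x ^ 2) * (e.1 ^ 2 * a.hr i j x ^ 2 - 1))) *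
      ∑ i ∈ range a.nb, ∑ j ∈ range a.nb, a.hr i j x * e.2.2.1 ^ i * e.2.1 ^ j := by
  have hDl : a.pt x e 0 a.vDl = e.1 := by unfold pt; rw [if_pos rfl]
  have hR : a.pt x e 0 a.vR = e.2.1 := by
    unfold pt vDl vR; rw [if_neg (by omega), if_pos rfl]
  have hTh : a.pt x e 0 a.vTh = e.2.2.1 := by
    unfold pt vDl vR vTh; rw [if_neg (by omega), if_neg (by omega), if_pos rfl]
  have hE : a.pt x e 0 a.vE = e.2.2.2 := by
    unfold pt vDl vR vTh vE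
    rw [if_neg (by omega), if_neg (by omega), if_neg (by omega), if_pos rfl]
  have hsum : ∑ i ∈ range a.n, a.pt x e 0 i ^ 2 = ∑ i, x i ^ 2 := by
    rw [Finset.sum_range]
    refine Finset.sum_congr rfl fun i _ => ?_
    rw [AsmC_pt_lt x e 0 i.2, AsmC_ext]
  unfold Hr H chiR
  simp only [map_mul, map_sub, map_prod, map_sum, map_pow, aeval_X, map_one, hDl, hR, hTh, hE,
    hsum, AsmC_h hok]

theorem Hr_cont (hok : a.Ok B) :
    Continuous (fun p : (Fin a.n → ℝ) × (ℝ × ℝ × ℝ × ℝ) => a.Hr p.1 p.2) := by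
  have hh : ∀ i j, Continuous (a.hr i j) := fun i j => hr_cont hok i j
  have e1 : (fun p : (Fin a.n → ℝ) × (ℝ × ℝ × ℝ × ℝ) => a.Hr p.1 p.2) = fun p =>
      (p.2.1 ^ 2 - ∑ i, p.1 i ^ 2) *
      (∏ i ∈ range a.nb, ∏ j ∈ range a.nb,
        ((1 - p.2.2.2.2 ^ 2 * a.hr i j p.1 ^ 2) * (p.2.1 ^ 2 * a.hr i j p.1 ^ 2 - 1))) *
      ∑ i ∈ range a.nb, ∑ j ∈ range a.nb, a.hr i j p.1 * p.2.2.2.1 ^ i * p.2.2.1 ^ j :=
    funext fun p => Hr_eq hok p.1 p.2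
  rw [e1]
  fun_prop

theorem GDr_cont : Continuous a.GDr := by
  unfold GDr
  fun_prop

theorem one_le_GDr (x : Fin a.n → ℝ) : 1 ≤ a.GDr x := by
  unfold GDr
  have : 0 ≤ ∑ i, x i ^ (2 * a.D) := Finset.sum_nonneg fun i _ => by
    rw [pow_mul]; exact pow_nonneg (sq_nonneg _) _
  linarith

private theorem AsmC_mem (hok : a.Ok B) (e : ℝ × ℝ × ℝ × ℝ) (x : Fin a.n → ℝ) :
    x ∈ OO hok e ↔ ∑ i, x i ^ 2 < e.1 ^ 2 ∧
      (∀ i < a.nb, ∀ j < a.nb, e.2.2.2 ^ 2 * a.hr i j x ^ 2 < 1 ∨ 1 < e.1 ^ 2 * a.hr i j x ^ 2) ∧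
      e.2.1 < uth a.Qr e.2.2.1 x := Iff.rfl

private theorem AsmC_uth (hok : a.Ok B) (x : Fin a.n → ℝ) {e : ℝ × ℝ × ℝ × ℝ}
    (h : 0 < e.2.2.1) :
    ContinuousAt (fun p : (Fin a.n → ℝ) × (ℝ × ℝ × ℝ × ℝ) => uth a.Qr p.2.2.2.1 p.1) (x, e) := by
  have h0 : ContinuousOn (fun p : (Fin a.n → ℝ) × ℝ => uth a.Qr p.2 p.1) {p | 0 < p.2} :=
    (a.red hok).uth_cont
  have ho : IsOpen {p : (Fin a.n → ℝ) × ℝ | 0 < p.2} := isOpen_lt continuous_const continuous_snd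
  have hm : (x, e.2.2.1) ∈ {p : (Fin a.n → ℝ) × ℝ | 0 < p.2} := h
  have h1 : ContinuousAt (fun p : (Fin a.n → ℝ) × ℝ => uth a.Qr p.2 p.1) (x, e.2.2.1) :=
    h0.continuousAt (ho.mem_nhds hm)
  generalize uth a.Qr = U at h1 ⊢
  have h2 : Filter.Tendsto (fun p : (Fin a.n → ℝ) × (ℝ × ℝ × ℝ × ℝ) => (p.1, p.2.2.2.1))
      (nhds (x, e)) (nhds (x, e.2.2.1)) :=
    Continuous.tendsto' (by fun_prop) _ _ rfl
  exact Filter.Tendsto.comp h1 h2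

private theorem AsmC_open (hok : a.Ok B) {e : ℝ × ℝ × ℝ × ℝ} (h : 0 < e.2.2.1)
    {x : Fin a.n → ℝ} (hx : x ∈ OO hok e) : ∀ᶠ p in nhds (x, e), p.1 ∈ OO hok p.2 := by
  have hh : ∀ i j, Continuous (a.hr i j) := fun i j => hr_cont hok i j
  obtain ⟨h1, h2, h3⟩ := (AsmC_mem hok e x).1 hx
  have c1 : ∀ᶠ p : (Fin a.n → ℝ) × (ℝ × ℝ × ℝ × ℝ) in nhds (x, e),
      ∑ i, p.1 i ^ 2 < p.2.1 ^ 2 :=
    (isOpen_lt (by fun_prop) (by fun_prop)).mem_nhds h1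
  have c2 : ∀ᶠ p : (Fin a.n → ℝ) × (ℝ × ℝ × ℝ × ℝ) in nhds (x, e),
      ∀ i ∈ range a.nb, ∀ j ∈ range a.nb,
        p.2.2.2.2 ^ 2 * a.hr i j p.1 ^ 2 < 1 ∨ 1 < p.2.1 ^ 2 * a.hr i j p.1 ^ 2 := by
    rw [Filter.eventually_all_finset]
    intro i hi
    rw [Filter.eventually_all_finset]
    intro j hj
    have o1 : IsOpen {p : (Fin a.n → ℝ) × (ℝ × ℝ × ℝ × ℝ) |
        p.2.2.2.2 ^ 2 * a.hr i j p.1 ^ 2 < 1} := isOpen_lt (by fun_prop) (by fun_prop)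
    have o2 : IsOpen {p : (Fin a.n → ℝ) × (ℝ × ℝ × ℝ × ℝ) |
        1 < p.2.1 ^ 2 * a.hr i j p.1 ^ 2} := isOpen_lt (by fun_prop) (by fun_prop)
    exact (o1.union o2).mem_nhds (h2 i (mem_range.1 hi) j (mem_range.1 hj))
  have c3 : ∀ᶠ p : (Fin a.n → ℝ) × (ℝ × ℝ × ℝ × ℝ) in nhds (x, e),
      p.2.2.1 < uth a.Qr p.2.2.2.1 p.1 :=
    ContinuousAt.eventually_lt (by fun_prop) (AsmC_uth hok x h) h3
  filter_upwards [c1, c2, c3] with p p1 p2 p3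
  exact (AsmC_mem hok p.2 p.1).2
    ⟨p1, fun i hi j hj => p2 i (mem_range.2 hi) j (mem_range.2 hj), p3⟩

theorem OO_open (hok : a.Ok B) {c : ℕ} : ∀ e ∈ Reg c, ∀ x ∈ OO hok e,
    ∀ᶠ p in nhds (x, e), p.1 ∈ OO hok p.2 ∨ p.2 ∉ Reg c := by
  intro e he x hx
  filter_upwards [AsmC_open hok (Reg_pos he).2.2.1 hx] with p hp
  exact Or.inl hp

theorem OO_bdry (hok : a.Ok B) {c : ℕ} : ∀ e ∈ Reg c, ∀ x,
    (∃ᶠ p in nhds (x, e), p.1 ∈ OO hok p.2 ∧ p.2 ∈ Reg c) → x ∉ OO hok e → a.Hr x e = 0 := by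
  intro e he x hfr hx
  by_contra hne
  have hh : ∀ i j, Continuous (a.hr i j) := fun i j => hr_cont hok i j
  have hθ : 0 < e.2.2.1 := (Reg_pos he).2.2.1
  rw [Hr_eq hok] at hne
  have hne1 : e.1 ^ 2 - ∑ i, x i ^ 2 ≠ 0 := fun h0 => hne (by rw [h0]; ring)
  have hne2 : ∀ i < a.nb, ∀ j < a.nb,
      (1 - e.2.2.2 ^ 2 * a.hr i j x ^ 2) * (e.1 ^ 2 * a.hr i j x ^ 2 - 1) ≠ 0 := by
    intro i hi j hj h0
    apply hne
    rw [Finset.prod_eq_zero (mem_range.2 hi) (Finset.prod_eq_zero (mem_range.2 hj) h0)]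
    ring
  have hne3 : e.2.1 ≠ uth a.Qr e.2.2.1 x := by
    intro h0
    apply hne
    have h1 := root hok x e.2.2.1 hθ
    rw [← h0] at h1
    rw [h1, mul_zero]
  have key : ∀ᶠ p : (Fin a.n → ℝ) × (ℝ × ℝ × ℝ × ℝ) in nhds (x, e), p.1 ∉ OO hok p.2 := by
    rw [AsmC_mem] at hx
    by_cases h1 : ∑ i, x i ^ 2 < e.1 ^ 2
    · by_cases h2 : ∀ i < a.nb, ∀ j < a.nb,
          e.2.2.2 ^ 2 * a.hr i j x ^ 2 < 1 ∨ 1 < e.1 ^ 2 * a.hr i j x ^ 2
      · have h3 : uth a.Qr e.2.2.1 x < e.2.1 := by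
          rcases lt_trichotomy e.2.1 (uth a.Qr e.2.2.1 x) with h | h | h
          · exact absurd ⟨h1, h2, h⟩ hx
          · exact absurd h hne3
          · exact h
        have c3 : ∀ᶠ p : (Fin a.n → ℝ) × (ℝ × ℝ × ℝ × ℝ) in nhds (x, e),
            uth a.Qr p.2.2.2.1 p.1 < p.2.2.1 :=
          ContinuousAt.eventually_lt (AsmC_uth hok x hθ) (by fun_prop) h3
        filter_upwards [c3] with p hp hmem
        exact absurd ((AsmC_mem hok p.2 p.1).1 hmem).2.2 (not_lt.2 hp.le)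
      · push Not at h2
        obtain ⟨i, hi, j, hj, hE, hD⟩ := h2
        have hn := hne2 i hi j hj
        have hE' : 1 < e.2.2.2 ^ 2 * a.hr i j x ^ 2 :=
          lt_of_le_of_ne hE fun h0 => hn (by rw [← h0]; ring)
        have hD' : e.1 ^ 2 * a.hr i j x ^ 2 < 1 :=
          lt_of_le_of_ne hD fun h0 => hn (by rw [h0]; ring)
        have o1 : IsOpen {p : (Fin a.n → ℝ) × (ℝ × ℝ × ℝ × ℝ) |
            1 < p.2.2.2.2 ^ 2 * a.hr i j p.1 ^ 2} := isOpen_lt (by fun_prop) (by fun_prop)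
        have o2 : IsOpen {p : (Fin a.n → ℝ) × (ℝ × ℝ × ℝ × ℝ) |
            p.2.1 ^ 2 * a.hr i j p.1 ^ 2 < 1} := isOpen_lt (by fun_prop) (by fun_prop)
        have m1 := o1.mem_nhds (x := (x, e)) hE'
        have m2 := o2.mem_nhds (x := (x, e)) hD'
        filter_upwards [m1, m2] with p hp1 hp2 hmem
        rcases ((AsmC_mem hok p.2 p.1).1 hmem).2.1 i hi j hj with h | h
        · exact absurd h (not_lt.2 (le_of_lt hp1))
        · exact absurd h (not_lt.2 (le_of_lt hp2))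
    · have h1' : e.1 ^ 2 < ∑ i, x i ^ 2 :=
        lt_of_le_of_ne (not_lt.1 h1) fun h0 => hne1 (by rw [h0, sub_self])
      have c1 : ∀ᶠ p : (Fin a.n → ℝ) × (ℝ × ℝ × ℝ × ℝ) in nhds (x, e),
          p.2.1 ^ 2 < ∑ i, p.1 i ^ 2 :=
        (isOpen_lt (by fun_prop) (by fun_prop)).mem_nhds h1'
      filter_upwards [c1] with p hp hmem
      exact absurd ((AsmC_mem hok p.2 p.1).1 hmem).1 (not_lt.2 hp.le)
  exact hfr (key.mono fun p hp h => hp h.1)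

theorem OO_bdd (hok : a.Ok B) (e : ℝ × ℝ × ℝ × ℝ) : ∀ x ∈ OO hok e, ∑ i, x i ^ 2 ≤ e.1 ^ 2 :=
  fun x hx => ((AsmC_mem hok e x).1 hx).1.le

theorem OO_isOpen (hok : a.Ok B) {e : ℝ × ℝ × ℝ × ℝ} (h : 0 < e.2.2.1) : IsOpen (OO hok e) := by
  rw [isOpen_iff_mem_nhds]
  intro x hx
  have h1 := AsmC_open hok h hx
  have h2 : Filter.Tendsto (fun y : Fin a.n → ℝ => (y, e)) (nhds x) (nhds (x, e)) :=
    Continuous.tendsto (by fun_prop) x
  exact h2.eventually h1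

theorem OO_bounded (hok : a.Ok B) (e : ℝ × ℝ × ℝ × ℝ) : Bornology.IsBounded (OO hok e) := by
  rw [isBounded_iff_forall_norm_le]
  refine ⟨|e.1|, fun x hx => ?_⟩
  rw [pi_norm_le_iff_of_nonneg (abs_nonneg _)]
  intro i
  rw [Real.norm_eq_abs]
  refine sq_le_sq.1 ?_
  refine le_trans ?_ (OO_bdd hok e x hx)
  exact Finset.single_le_sum (f := fun i => x i ^ 2) (fun i _ => sq_nonneg _) (Finset.mem_univ i)

theorem OO_closure (hok : a.Ok B) {c : ℕ} {e : ℝ × ℝ × ℝ × ℝ} (he : e ∈ Reg c) :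
    ∀ x ∈ closure (OO hok e), x ∉ OO hok e → a.Hr x e = 0 := by
  intro x hx hx'
  refine OO_bdry hok e he x ?_ hx'
  have h1 := mem_closure_iff_frequently.1 hx
  have h2 : Filter.Tendsto (fun y : Fin a.n → ℝ => (y, e)) (nhds x) (nhds (x, e)) :=
    Continuous.tendsto (by fun_prop) x
  exact h2.frequently (h1.mono fun y hy => ⟨hy, he⟩)

end Asm

end Crest.Agent.CHR
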