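import Crest.Agent.CHR.AsmC

/-!
CHUNK R316-ASMD1 (medium): `H(·;e)` does not vanish identically on `O(e)`.  Idea 447, B5 (with the remark of the
lead: only the factor `χ(x;θ,R)` matters).
PROOF.  Suppose `Hr x e = 0` for all `x ∈ O(e)`, `O(e) ≠ ∅`, `e ∈ Reg c`, `c = a.c`.  On `O(e)` the first factor is `> 0`;
`E² h² < 1` implies `Δ² h² < 1` (`Δ ≤ E`) so both factors are nonzero; `1 < Δ² h²` implies `1 < E² h²`.  So
`∑∑ h_ij(x) θ^i R^j = aeval (pt x e 0) chiR = 0` on the open set `O(e)`; by `coefS_open` (with `v = pt 0 e 0`)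
all coefficients of `chiR` with respect to the block `range n` vanish at `e`.  But `chiR ≠ 0`
(`nz` gives `x, i, j` with `hr i j x ≠ 0`; if `chiR = 0` then the two-variable real polynomial `∑∑ hr i j x θ^i R^j` would vanish
for all real `θ, R`: contradiction, e.g. by `Polynomial.funext` twice), so some coefficient `f = coefS (range n) b chiR` is a
nonzero polynomial (`exists_coefS_ne`), `Bnd B f` (`Bnd.coefS`), with variables among `vTh, vR`, and
`Bnd.domination` (with `i0 = vDl`, `c ≥ 3B + 3`) gives `aeval (pt 0 e 0) f ≠ 0`.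
-/

set_option autoImplicit false

namespace Crest.Agent.CHR

open MvPolynomial Finset

namespace Asm
variable {a : Asm} {B : ℕ}

private theorem d1_pt_lt (x : Fin a.n → ℝ) (e : ℝ × ℝ × ℝ × ℝ) (ka : ℝ) {j : ℕ} (hj : j < a.n) :
    a.pt x e ka j = x ⟨j, hj⟩ := by
  have h1 : j ≠ a.vDl := by unfold vDl tt; omega
  have h2 : j ≠ a.vR := by unfold vR tt; omega
  have h3 : j ≠ a.vTh := by unfold vTh tt; omega
  have h4 : j ≠ a.vE := by unfold vE tt; omega
  have h5 : j ≠ a.vK := by unfold vK tt; omega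
  simp only [pt, if_neg h1, if_neg h2, if_neg h3, if_neg h4, if_neg h5, ext, dif_pos hj]

private theorem d1_pt_vTh (x : Fin a.n → ℝ) (e : ℝ × ℝ × ℝ × ℝ) (ka : ℝ) :
    a.pt x e ka a.vTh = e.2.2.1 := by
  have h1 : a.vTh ≠ a.vDl := by unfold vDl vTh; omega
  have h2 : a.vTh ≠ a.vR := by unfold vR vTh; omega
  simp only [pt, if_neg h1, if_neg h2, if_true]

private theorem d1_pt_vR (x : Fin a.n → ℝ) (e : ℝ × ℝ × ℝ × ℝ) (ka : ℝ) :
    a.pt x e ka a.vR = e.2.1 := by
  have h1 : a.vR ≠ a.vDl := by unfold vDl vR; omega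
  simp only [pt, if_neg h1, if_true]

private theorem d1_pt_vDl (x : Fin a.n → ℝ) (e : ℝ × ℝ × ℝ × ℝ) (ka : ℝ) :
    a.pt x e ka a.vDl = e.1 := by
  simp only [pt, if_true]

private theorem d1_pt_vE (x : Fin a.n → ℝ) (e : ℝ × ℝ × ℝ × ℝ) (ka : ℝ) :
    a.pt x e ka a.vE = e.2.2.2 := by
  have h1 : a.vE ≠ a.vDl := by unfold vDl vE; omega
  have h2 : a.vE ≠ a.vR := by unfold vR vE; omega
  have h3 : a.vE ≠ a.vTh := by unfold vTh vE; omega
  simp only [pt, if_neg h1, if_neg h2, if_neg h3, if_true]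

private theorem d1_h (hok : a.Ok B) (x : Fin a.n → ℝ) (e : ℝ × ℝ × ℝ × ℝ) (ka : ℝ) (i j : ℕ) :
    aeval (a.pt x e ka) (a.h i j) = a.hr i j x := by
  unfold hr
  apply aeval_congr_vars
  intro k hk
  have := h_vars hok i j k hk
  rw [d1_pt_lt x e ka this]
  simp only [ext, dif_pos this]

private theorem d1_chiR (hok : a.Ok B) (x : Fin a.n → ℝ) (e : ℝ × ℝ × ℝ × ℝ) (ka : ℝ) :
    aeval (a.pt x e ka) a.chiR =
      ∑ i ∈ range a.nb, ∑ j ∈ range a.nb, a.hr i j x * e.2.2.1 ^ i * e.2.1 ^ j := by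
  unfold chiR
  rw [map_sum]
  refine sum_congr rfl (fun i _ => ?_)
  rw [map_sum]
  refine sum_congr rfl (fun j _ => ?_)
  rw [map_mul, map_mul, map_pow, map_pow, aeval_X, aeval_X, d1_h hok, d1_pt_vTh, d1_pt_vR]

private theorem d1_poly {N : ℕ} (c : ℕ → ℝ) (h : ∀ t : ℝ, ∑ i ∈ range N, c i * t ^ i = 0) :
    ∀ i < N, c i = 0 := by
  intro i hi
  have hp : (∑ i ∈ range N, Polynomial.C (c i) * Polynomial.X ^ i : Polynomial ℝ) = 0 := by
    apply Polynomial.funext
    intro t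
    rw [Polynomial.eval_finsetSum, Polynomial.eval_zero, ← h t]
    refine sum_congr rfl (fun j _ => ?_)
    simp
  have := congrArg (fun p => Polynomial.coeff p i) hp
  simp only [Polynomial.finsetSum_coeff, Polynomial.coeff_C_mul, Polynomial.coeff_X_pow,
    Polynomial.coeff_zero] at this
  rw [Finset.sum_eq_single i] at this
  · simpa using this
  · intro b _ hb
    rw [if_neg (Ne.symm hb), mul_zero]
  · intro hn
    exact absurd (mem_range.2 hi) hn

theorem chiR_ne (hok : a.Ok B) : a.chiR ≠ 0 := by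
  intro h0
  obtain ⟨i, hi, j, hj, hne⟩ := nz hok (fun _ => 0)
  apply hne
  have hz : ∀ th R : ℝ, ∑ i ∈ range a.nb, ∑ j ∈ range a.nb, a.hr i j (fun _ => 0) * th ^ i * R ^ j = 0 := by
    intro th R
    have := d1_chiR hok (fun _ => 0) (0, R, th, 0) 0
    rw [h0, map_zero] at this
    exact this.symm
  have h1 : ∀ th : ℝ, ∀ j < a.nb, ∑ i ∈ range a.nb, a.hr i j (fun _ => 0) * th ^ i = 0 := by
    intro th
    apply d1_poly
    intro R
    refine Eq.trans ?_ (hz th R)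
    rw [sum_comm]
    refine sum_congr rfl (fun j _ => ?_)
    rw [sum_mul]
  exact d1_poly (fun i => a.hr i j (fun _ => 0)) (fun th => h1 th j hj) i hi

theorem Hr_ne (hok : a.Ok B) {e : ℝ × ℝ × ℝ × ℝ} (he : e ∈ Reg a.c) (hne : (OO hok e).Nonempty) :
    ∃ x ∈ OO hok e, a.Hr x e ≠ 0 := by
  by_contra hcon
  push Not at hcon
  obtain ⟨g1, g2, g3, g4⟩ := he
  have one_le_pc : (1 : ℝ) ≤ 2 ^ (2 ^ a.c) := one_le_pow₀ (by norm_num)
  have hc0 : 2 ^ a.c ≠ 0 := by positivity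
  have k1 : (1 : ℝ) ≤ e.1 := one_le_pc.trans g1
  have k2 : e.1 ≤ e.2.1 := (le_self_pow₀ k1 hc0).trans g2
  have k3 : e.2.1 ≤ e.2.2.1 := (le_self_pow₀ (k1.trans k2) hc0).trans g3
  have k4 : e.2.2.1 ≤ e.2.2.2 := (le_self_pow₀ ((k1.trans k2).trans k3) hc0).trans g4
  have kE : e.1 ≤ e.2.2.2 := (k2.trans k3).trans k4
  have hsq : e.1 ^ 2 ≤ e.2.2.2 ^ 2 := by gcongr
  have hchi : ∀ x ∈ OO hok e, aeval (a.pt x e 0) a.chiR = 0 := by
    intro x hx
    have hH := hcon x hx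
    rw [Hr_eq hok, ← d1_chiR hok x e 0] at hH
    obtain ⟨hx1, hx2, hx3⟩ := hx
    rcases mul_eq_zero.1 hH with h | h
    · exfalso
      rcases mul_eq_zero.1 h with h | h
      · have : (∑ i, x i ^ 2) < e.1 ^ 2 := hx1
        linarith
      · rw [prod_eq_zero_iff] at h
        obtain ⟨i, hi, h⟩ := h
        rw [prod_eq_zero_iff] at h
        obtain ⟨j, hj, h⟩ := h
        have hij : e.2.2.2 ^ 2 * a.hr i j x ^ 2 < 1 ∨ 1 < e.1 ^ 2 * a.hr i j x ^ 2 :=
          hx2 i (mem_range.1 hi) j (mem_range.1 hj)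
        have hle : e.1 ^ 2 * a.hr i j x ^ 2 ≤ e.2.2.2 ^ 2 * a.hr i j x ^ 2 :=
          mul_le_mul_of_nonneg_right hsq (sq_nonneg _)
        rcases mul_eq_zero.1 h with h | h
        · rcases hij with hij | hij <;> linarith
        · rcases hij with hij | hij <;> linarith
    · exact h
  have hopen : IsOpen (OO hok e) := OO_isOpen hok (by linarith)
  have hco : ∀ b, aeval (a.pt 0 e 0) (coefS (range a.n) b a.chiR) = 0 := by
    intro b
    refine coefS_open a.chiR (a.pt 0 e 0) (OO hok e) hopen hne ?_ b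
    intro x hx
    rw [← hchi x hx]
    apply aeval_congr_vars
    intro j hj
    rcases chiR_vars hok j hj with h | h | h
    · rw [dif_pos h, d1_pt_lt x e 0 h]
    · have : ¬ j < a.n := by rw [h]; unfold vTh tt; omega
      rw [dif_neg this, h, d1_pt_vTh, d1_pt_vTh]
    · have : ¬ j < a.n := by rw [h]; unfold vR tt; omega
      rw [dif_neg this, h, d1_pt_vR, d1_pt_vR]
  obtain ⟨b, hb⟩ := exists_coefS_ne (chiR_ne hok) (range a.n)
  have hB : Bnd B (coefS (range a.n) b a.chiR) := hok.bcR.coefS _ _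
  have hvars : ∀ j ∈ (coefS (range a.n) b a.chiR).vars, a.vDl ≤ j ∧ j < a.vDl + 4 := by
    intro j hj
    obtain ⟨h1, h2⟩ := coefS_vars hj
    rcases chiR_vars hok j h1 with h | h | h
    · exact absurd (mem_range.2 h) h2
    · rw [h]; unfold vDl vTh; omega
    · rw [h]; unfold vDl vR; omega
  have hc : 3 * B + 3 ≤ a.c := by have := hok.c; omega
  have hv1 : a.vDl + 1 = a.vR := rfl
  have hv2 : a.vDl + 2 = a.vTh := rfl
  have hv3 : a.vDl + 3 = a.vE := rfl
  have := hB.domination hb a.vDl hvars hc (a.pt 0 e 0)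
    (by rw [d1_pt_vDl]; exact g1)
    (by rw [d1_pt_vDl, hv1, d1_pt_vR]; exact g2)
    (by rw [hv1, hv2, d1_pt_vR, d1_pt_vTh]; exact g3)
    (by rw [hv2, hv3, d1_pt_vE, d1_pt_vTh]; exact g4)
  rw [hco b, abs_zero] at this
  have hpos : (0 : ℝ) < 1 / (2 * (((2 ^ B).factorial : ℝ) ^ (2 ^ B))) := by positivity
  linarith

end Asm

end Crest.Agent.CHR
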