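import Crest.Agent.CHR.AsmC

/-!
CHUNK R316-ASMD2 (medium): the resultant `Rt` and the root bound `Cb`.  Idea 447, B5.
PROOF.
`Rt_prod`: like `chi_prod`: `exists_sol (isPham_outer hok) v`, `Sol.norm` (`sdeg (range n) (GD - X vK * H^2) ≤ 2 D`,
`2 D N1 ≤ K1`).
`Rt_ne`: evaluate at `v = 0`: the solutions have `x_i^{2D-1} = 0`, so all coordinates `0`, the values of `GD - X vK * H^2` are `1`
(`D ≥ 1`, `v vK = 0`), so `aeval 0 Rt = 1`.
`Bkr_ge`: `Bk JJ ≠ 0` (`coefS_lead_ne`), `Bnd B (Bk JJ)` (`Bnd.coefS`), variables in `[vDl, vDl+4)` (`Bk_vars`), `Bnd.domination` with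
`i0 = vDl`; `pt 0 e 0` at `vDl, vR, vTh, vE` is `e`.
`Rt_root`: `aeval (pt 0 e κ) Rt = ∑_{j ≤ JJ} Bkr j e * κ^j` (`coefS_sum1`; `Bk_vars` and `aeval_congr_vars`), then
`cauchy_bound`.
`Cb_cont`: the `Bkr j` are continuous (`continuous_aeval'`), `Bkr JJ e ≠ 0` on the region.
`Cb_e0`: `|Bkr j e0| ≤ 2^(2^B) * (2^(2^(4c)))^(2^B)` (`Bnd.upper`; or a real version of it), `JJ ≤ 2^B`, lower bound
`1 / (2 ((2^B)!)^(2^B)) ≥ 1 / (2 * 2^(B 2^(2B)))`; so `Cb e0 ≤ 1 + 2^B 2^(2^B) 2^(2^(4c+B)) 2 2^(B 2^(2B)) < 2^(2^(5c))` since `c ≥ 4B+20`.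
-/

set_option autoImplicit false

namespace Crest.Agent.CHR

open MvPolynomial Finset

namespace Asm
variable {a : Asm} {B : ℕ}

/-! ### auxiliary -/

private theorem D_pos (hok : a.Ok B) : 0 < a.D := lt_of_le_of_lt (Nat.zero_le _) hok.D

private theorem pt_vDl (x : Fin a.n → ℝ) (e : ℝ × ℝ × ℝ × ℝ) (ka : ℝ) : a.pt x e ka a.vDl = e.1 := by
  simp [pt]

private theorem pt_vR (x : Fin a.n → ℝ) (e : ℝ × ℝ × ℝ × ℝ) (ka : ℝ) :
    a.pt x e ka (a.vDl + 1) = e.2.1 := by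
  simp [pt, vDl, vR]

private theorem pt_vTh (x : Fin a.n → ℝ) (e : ℝ × ℝ × ℝ × ℝ) (ka : ℝ) :
    a.pt x e ka (a.vDl + 2) = e.2.2.1 := by
  simp [pt, vDl, vR, vTh]

private theorem pt_vE (x : Fin a.n → ℝ) (e : ℝ × ℝ × ℝ × ℝ) (ka : ℝ) :
    a.pt x e ka (a.vDl + 3) = e.2.2.2 := by
  simp [pt, vDl, vR, vTh, vE]

private theorem pt_vK (x : Fin a.n → ℝ) (e : ℝ × ℝ × ℝ × ℝ) (ka : ℝ) :
    a.pt x e ka a.vK = ka := by
  simp [pt, vDl, vR, vTh, vE, vK]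

private theorem pt_indep (x : Fin a.n → ℝ) (e : ℝ × ℝ × ℝ × ℝ) (ka kb : ℝ) {j : ℕ}
    (hj : j ≠ a.vK) : a.pt x e ka j = a.pt x e kb j := by
  unfold pt
  simp only [if_neg hj]

private theorem four {j : ℕ} (h : a.vDl ≤ j ∧ j < a.vDl + 4) :
    j = a.vDl ∨ j = a.vDl + 1 ∨ j = a.vDl + 2 ∨ j = a.vDl + 3 := by omega

private theorem Rt_prod_aux (hok : a.Ok B) {v : ℕ → ℂ} {Z : Fin a.N1 → ℕ → ℂ}
    (hZ : Sol (range a.n) (fun _ => 2 * a.D - 1) (a.qX (X a.vK) a.H) v Z) :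
    aeval v a.Rt = ∏ i, aeval (Z i) (a.GD - X a.vK * a.H ^ 2) := by
  have hnt : a.n ≤ a.tt := Nat.le_add_right _ _
  have hHv : a.vy ∉ a.H.vars := by
    intro h
    rcases H_vars hok _ h with h1 | h1
    · unfold vy at h1; omega
    · unfold vy vDl at h1; omega
  have hH2 : a.vy ∉ (a.H ^ 2).vars := fun h => hHv (vars_pow _ _ h)
  have hvK : a.vy ∉ (X a.vK : P).vars := by
    rw [vars_X, mem_singleton]
    unfold vy vK; omega
  symm
  refine hZ.norm (a.GD - X a.vK * a.H ^ 2) (y := a.vy) (K := a.K1) ?_ ?_ ?_ ?_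
  · rw [mem_range]; unfold vy; omega
  · intro j _ h
    unfold qX at h
    rcases mem_union.1 (vars_mul _ _ h) with h1 | h1
    · rcases mem_union.1 (vars_mul _ _ h1) with h2 | h2
      · rw [vars_C] at h2; simp at h2
      · exact hvK h2
    · exact hH2 (vars_pderiv_sub _ _ h1)
  · intro h
    rcases mem_union.1 (vars_sub_subset _ h) with h1 | h1
    · unfold GD at h1
      rcases mem_union.1 (vars_add_subset _ _ h1) with h2 | h2
      · rw [vars_one] at h2; simp at h2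
      · obtain ⟨i, hi, h3⟩ := mem_biUnion.1 (vars_sum_subset _ _ h2)
        have h4 := vars_pow _ _ h3
        rw [vars_X, mem_singleton] at h4
        rw [mem_range] at hi
        unfold vy at h4
        omega
    · rcases mem_union.1 (vars_mul _ _ h1) with h2 | h2
      · exact hvK h2
      · exact hH2 h2
  · have hD := hok.D
    have h1 : sdeg (range a.n) (a.GD - X a.vK * a.H ^ 2) ≤ 2 * a.D := by
      refine (sdeg_sub' _ _ _).trans (max_le ?_ ?_)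
      · refine (sdeg_le_td _ _).trans ?_
        unfold GD
        refine (totalDegree_add _ _).trans (max_le ?_ ?_)
        · rw [totalDegree_one]; exact Nat.zero_le _
        · refine totalDegree_finsetSum_le (fun i _ => ?_)
          rw [totalDegree_X_pow]
      · refine (sdeg_mul' _ _ _).trans ?_
        have h2 : sdeg (range a.n) (X a.vK : P) = 0 := by
          refine sdeg_zero_of_vars (fun j hj => ?_)
          rw [vars_X, mem_singleton] at hj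
          rw [hj, mem_range]
          unfold vK; omega
        have h3 : sdeg (range a.n) (a.H ^ 2) ≤ 2 * a.H.totalDegree :=
          (sdeg_le_td _ _).trans (totalDegree_pow _ _)
        omega
    exact (Nat.mul_le_mul_right _ h1).trans hok.K1

theorem Rt_prod (hok : a.Ok B) (v : ℕ → ℂ) :
    ∃ Z : Fin a.N1 → ℕ → ℂ, Sol (range a.n) (fun _ => 2 * a.D - 1) (a.qX (X a.vK) a.H) v Z ∧
      aeval v a.Rt = ∏ i, aeval (Z i) (a.GD - X a.vK * a.H ^ 2) := by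
  have h := exists_sol (isPham_outer hok) v
  have hN : ∏ _j ∈ range a.n, (2 * a.D - 1) = a.N1 := by
    rw [prod_const, card_range]; rfl
  rw [hN] at h
  obtain ⟨Z, hZ⟩ := h
  exact ⟨Z, hZ, Rt_prod_aux hok hZ⟩

theorem Rt_ne (hok : a.Ok B) : a.Rt ≠ 0 := by
  intro h0
  obtain ⟨Z, hZ, hprod⟩ := Rt_prod hok (0 : ℕ → ℂ)
  rw [h0, map_zero] at hprod
  have hnt : a.n ≤ a.tt := Nat.le_add_right _ _
  have hD := D_pos hok
  have hZ0 : ∀ i j, Z i j = 0 := by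
    intro i j
    by_cases hj : j ∈ range a.n
    · have h1 := hZ.sol i j hj
      have hvK : Z i a.vK = 0 := by
        rw [hZ.off i a.vK (by rw [mem_range]; unfold vK; omega)]
        rfl
      have h2 : aeval (Z i) (a.qX (X a.vK) a.H j) = 0 := by
        unfold qX
        rw [map_mul, map_mul, aeval_X, hvK, mul_zero, zero_mul]
      rw [h2] at h1
      exact pow_eq_zero_iff (by omega) |>.1 h1
    · rw [hZ.off i j hj]; rfl
  have h1 : ∀ i, aeval (Z i) (a.GD - X a.vK * a.H ^ 2) = 1 := by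
    intro i
    rw [map_sub, map_mul, aeval_X, hZ0, zero_mul, sub_zero]
    unfold GD
    rw [map_add, map_one, map_sum]
    have h2 : ∀ k ∈ range a.n, aeval (Z i) ((X k : P) ^ (2 * a.D)) = 0 := by
      intro k _
      rw [map_pow, aeval_X, hZ0, zero_pow (by omega)]
    rw [sum_congr rfl h2, sum_const_zero, add_zero]
  rw [prod_congr rfl (fun i _ => h1 i), prod_const_one] at hprod
  exact zero_ne_one hprod

private theorem par0_pow (k : ℕ) : a.par0 k ^ (2 ^ a.c) = a.par0 (k + 1) := by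
  unfold par0
  rw [← pow_mul, ← pow_add]
  congr 2
  ring

theorem e0_mem : a.e0 ∈ Reg a.c := by
  refine ⟨?_, ?_, ?_, ?_⟩
  · change (2 : ℝ) ^ (2 ^ a.c) ≤ ((a.par0 1 : ℕ) : ℝ)
    unfold par0
    rw [one_mul]
    push_cast
    exact le_rfl
  · change ((a.par0 1 : ℕ) : ℝ) ^ (2 ^ a.c) ≤ ((a.par0 2 : ℕ) : ℝ)
    rw [← par0_pow 1]
    push_cast
    exact le_rfl
  · change ((a.par0 2 : ℕ) : ℝ) ^ (2 ^ a.c) ≤ ((a.par0 3 : ℕ) : ℝ)
    rw [← par0_pow 2]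
    push_cast
    exact le_rfl
  · change ((a.par0 3 : ℕ) : ℝ) ^ (2 ^ a.c) ≤ ((a.par0 4 : ℕ) : ℝ)
    rw [← par0_pow 3]
    push_cast
    exact le_rfl

theorem Bkr_ge (hok : a.Ok B) {e : ℝ × ℝ × ℝ × ℝ} (he : e ∈ Reg a.c) :
    1 / (2 * (((2 ^ B).factorial : ℝ) ^ (2 ^ B))) ≤ |a.Bkr a.JJ e| := by
  have hb : Bnd B (a.Bk a.JJ) := hok.bR.coefS _ _
  have hne : a.Bk a.JJ ≠ 0 := coefS_lead_ne (Rt_ne hok) a.vK
  have hc : 3 * B + 3 ≤ a.c := by
    have := hok.c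
    omega
  obtain ⟨h1, h2, h3, h4⟩ := he
  refine hb.domination hne a.vDl (Bk_vars hok a.JJ) hc (a.pt 0 e 0) ?_ ?_ ?_ ?_
  · rw [pt_vDl]; exact h1
  · rw [pt_vDl, pt_vR]; exact h2
  · rw [pt_vR, pt_vTh]; exact h3
  · rw [pt_vTh, pt_vE]; exact h4

theorem Bkr_ne (hok : a.Ok B) {e : ℝ × ℝ × ℝ × ℝ} (he : e ∈ Reg a.c) : a.Bkr a.JJ e ≠ 0 := by
  have h := Bkr_ge hok he
  intro h0
  rw [h0, abs_zero] at h
  have : 0 < 1 / (2 * (((2 ^ B).factorial : ℝ) ^ (2 ^ B))) := by positivity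
  linarith

theorem Rt_root (hok : a.Ok B) {e : ℝ × ℝ × ℝ × ℝ} (he : e ∈ Reg a.c) {κ : ℝ} (hκ : 0 < κ)
    (h : aeval (a.pt 0 e κ) a.Rt = 0) : κ ≤ a.Cb e := by
  have hs := coefS_sum1 (R := ℝ) a.Rt a.vK (a.JJ + 1) (Nat.lt_succ_self _) (a.pt 0 e κ)
  rw [h] at hs
  have hj : ∀ j, aeval (a.pt 0 e κ) (coefS {a.vK} (fun _ => j) a.Rt) = a.Bkr j e := by
    intro j
    unfold Bkr
    change aeval (a.pt 0 e κ) (a.Bk j) = aeval (a.pt 0 e 0) (a.Bk j)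
    refine aeval_congr_vars (fun k hk => pt_indep _ _ _ _ ?_)
    have := Bk_vars hok j k hk
    unfold vDl at this
    unfold vK
    omega
  simp only [hj, pt_vK] at hs
  exact cauchy_bound a.JJ (fun j => a.Bkr j e) (Bkr_ne hok he) hκ hs.symm

private theorem Bkr_cont (j : ℕ) : Continuous (a.Bkr j) := by
  unfold Bkr
  refine continuous_aeval' (a.Bk j) (fun e => a.pt 0 e 0) (fun k _ => ?_)
  unfold pt
  split_ifs <;> fun_prop

theorem Cb_cont (hok : a.Ok B) : ContinuousOn a.Cb (Reg a.c) := by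
  unfold Cb
  refine continuousOn_const.add (ContinuousOn.div ?_ ?_ ?_)
  · exact (continuous_finsetSum _ (fun j _ => (Bkr_cont j).abs)).continuousOn
  · exact (Bkr_cont a.JJ).abs.continuousOn
  · intro e he
    exact abs_ne_zero.2 (Bkr_ne hok he)

private theorem par0_mono {k l : ℕ} (h : k ≤ l) : a.par0 k ≤ a.par0 l := by
  unfold par0
  exact Nat.pow_le_pow_right (by norm_num)
    (Nat.pow_le_pow_right (by norm_num) (Nat.mul_le_mul_right _ h))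

private theorem Bkr_upper (hok : a.Ok B) (j : ℕ) :
    |a.Bkr j a.e0| ≤ 2 ^ (2 ^ B) * ((a.par0 4 : ℕ) : ℝ) ^ (2 ^ B) := by
  have hb : Bnd B (a.Bk j) := hok.bR.coefS _ _
  have h1 : (1 : ℝ) ≤ ((a.par0 4 : ℕ) : ℝ) := by
    have : 1 ≤ a.par0 4 := Nat.one_le_two_pow
    exact_mod_cast this
  have h2 := hb.upper (fun k => ((a.pt 0 a.e0 0 k : ℝ) : ℂ)) ((a.par0 4 : ℕ) : ℝ) h1 (by
    intro k hk
    rw [Complex.norm_real, Real.norm_eq_abs]
    have hm : ∀ l ≤ 4, |((a.par0 l : ℕ) : ℝ)| ≤ ((a.par0 4 : ℕ) : ℝ) := by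
      intro l hl
      rw [abs_of_nonneg (Nat.cast_nonneg _)]
      exact_mod_cast par0_mono hl
    rcases four (Bk_vars hok j k hk) with h | h | h | h
    · rw [h, pt_vDl]; exact hm 1 (by norm_num)
    · rw [h, pt_vR]; exact hm 2 (by norm_num)
    · rw [h, pt_vTh]; exact hm 3 (by norm_num)
    · rw [h, pt_vE]; exact hm 4 (by norm_num))
  rw [aeval_ofReal, Complex.norm_real, Real.norm_eq_abs] at h2
  exact h2

private theorem numeric {B c : ℕ} (hc : 4 * B + 20 ≤ c) :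
    B + 2 ^ B + 2 ^ (4 * c + B) + 1 + 2 ^ (3 * B) + 1 < 2 ^ (5 * c) := by
  have h1 : 2 ^ (4 * c + B) * 2 ^ 4 ≤ 2 ^ (5 * c) := by
    rw [← pow_add]
    exact Nat.pow_le_pow_right (by norm_num) (by omega)
  have h2 : 2 ^ (3 * B) ≤ 2 ^ (4 * c + B) := Nat.pow_le_pow_right (by norm_num) (by omega)
  have h3 : 2 ^ B ≤ 2 ^ (4 * c + B) := Nat.pow_le_pow_right (by norm_num) (by omega)
  have h4 : B < 2 ^ B := Nat.lt_two_pow_self
  have h5 : 1 ≤ 2 ^ (4 * c + B) := Nat.one_le_two_pow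
  omega

theorem Cb_e0 (hok : a.Ok B) : a.Cb a.e0 < (a.par0 5 : ℕ) := by
  have hlow := Bkr_ge hok (e0_mem (a := a))
  have hF1 : (((2 ^ B).factorial : ℝ) ^ (2 ^ B)) ≤ (2 : ℝ) ^ (2 ^ (3 * B)) := by
    have h := dnB_le B
    have h5 : ((dnB B : ℕ) : ℝ) ≤ ((2 ^ (2 ^ (3 * B)) : ℕ) : ℝ) := by exact_mod_cast h
    unfold dnB at h5
    push_cast at h5
    exact h5
  have hF0 : (0 : ℝ) < (((2 ^ B).factorial : ℝ) ^ (2 ^ B)) := by positivity
  have hJ : a.JJ ≤ 2 ^ B := (degreeOf_le_totalDegree _ _).trans hok.bR.deg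
  set U : ℝ := 2 ^ (2 ^ B) * ((a.par0 4 : ℕ) : ℝ) ^ (2 ^ B) with hU
  have hU0 : 0 ≤ U := by positivity
  have hUe : U = 2 ^ (2 ^ B + 2 ^ (4 * a.c + B)) := by
    rw [hU, pow_add]
    congr 1
    unfold par0
    push_cast
    rw [← pow_mul, ← pow_add]
  have hsum : ∑ j ∈ range a.JJ, |a.Bkr j a.e0| ≤ 2 ^ B * U := by
    calc ∑ j ∈ range a.JJ, |a.Bkr j a.e0| ≤ ∑ _j ∈ range a.JJ, U :=
          sum_le_sum (fun j _ => Bkr_upper hok j)
      _ = a.JJ * U := by rw [sum_const, card_range, nsmul_eq_mul]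
      _ ≤ 2 ^ B * U := by
          refine mul_le_mul_of_nonneg_right ?_ hU0
          exact_mod_cast hJ
  have hpos : 0 < |a.Bkr a.JJ a.e0| := lt_of_lt_of_le (by positivity) hlow
  have hdiv : (∑ j ∈ range a.JJ, |a.Bkr j a.e0|) / |a.Bkr a.JJ a.e0| ≤
      2 ^ B * U * (2 * 2 ^ (2 ^ (3 * B))) := by
    rw [div_le_iff₀ hpos]
    refine hsum.trans ?_
    have h1 : 1 ≤ 2 * 2 ^ (2 ^ (3 * B)) * |a.Bkr a.JJ a.e0| := by
      rw [div_le_iff₀ (by positivity)] at hlow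
      calc (1 : ℝ) ≤ |a.Bkr a.JJ a.e0| * (2 * (((2 ^ B).factorial : ℝ) ^ (2 ^ B))) := hlow
        _ ≤ |a.Bkr a.JJ a.e0| * (2 * 2 ^ (2 ^ (3 * B))) := by gcongr
        _ = _ := by ring
    calc 2 ^ B * U = 2 ^ B * U * 1 := by ring
      _ ≤ 2 ^ B * U * (2 * 2 ^ (2 ^ (3 * B)) * |a.Bkr a.JJ a.e0|) := by gcongr
      _ = _ := by ring
  have hexp : (2 : ℝ) ^ B * U * (2 * 2 ^ (2 ^ (3 * B))) =
      2 ^ (B + 2 ^ B + 2 ^ (4 * a.c + B) + 1 + 2 ^ (3 * B)) := by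
    rw [hUe]
    simp only [pow_add, pow_one]
    ring
  have hfin : (1 : ℝ) + 2 ^ (B + 2 ^ B + 2 ^ (4 * a.c + B) + 1 + 2 ^ (3 * B)) <
      2 ^ (2 ^ (5 * a.c)) := by
    have h1 : (1 : ℝ) ≤ 2 ^ (B + 2 ^ B + 2 ^ (4 * a.c + B) + 1 + 2 ^ (3 * B)) :=
      one_le_pow₀ (by norm_num)
    calc (1 : ℝ) + 2 ^ (B + 2 ^ B + 2 ^ (4 * a.c + B) + 1 + 2 ^ (3 * B))
        ≤ 2 ^ (B + 2 ^ B + 2 ^ (4 * a.c + B) + 1 + 2 ^ (3 * B) + 1) := by
          rw [pow_succ]; linarith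
      _ < 2 ^ (2 ^ (5 * a.c)) := pow_lt_pow_right₀ (by norm_num) (numeric hok.c)
  have hpar : ((a.par0 5 : ℕ) : ℝ) = 2 ^ (2 ^ (5 * a.c)) := by
    unfold par0; push_cast; rfl
  rw [hpar]
  refine lt_of_le_of_lt ?_ hfin
  unfold Cb
  rw [← hexp]
  linarith

end Asm

end Crest.Agent.CHR
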