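import Crest.Agent.CHR.AsmD1
import Crest.Agent.CHR.AsmD2

/-!
CHUNK R316-ASMD3 (medium): critical points of `G_D - κ H²` and the bound.  Idea 447, B5, B6.
PROOF.
`crit_outer`: at an interior minimum `x` of `F(x) = GDr x - κ Hr x e ^ 2` all partial derivatives vanish: apply
`aeval_pderiv_eq_zero` to the polynomial `f = GD - X vK * H^2` at `z = pt x e κ` and `j = i < n`
(`Function.update (pt x e κ) i t = pt (Function.update x ⟨i,_⟩ t) e κ`; near `x i` the updated point stays in the open set);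
`pderiv i GD = 2D X_i^{2D-1}`, `pderiv i (X vK * H^2) = X vK * pderiv i (H^2)`.
(`aeval (pt x e κ) H = Hr x e` since `vK` does not occur in `H`, `H_vars`.)
`hbig`: `exists_max` (RedMax) with `Om = O(e)`, `H = Hr · e`, `Gd = GDr`, (`OO_isOpen`, `OO_bounded`, `OO_closure`, `Hr_ne`)
gives `x ∈ O(e)` with `Hr x e ≠ 0` and `0 ≤ GDr y - κ Hr y e ^ 2` on `O(e)`, `κ = GDr x / Hr x e ^ 2`, equality at `x`.  So `x` is a
critical point with value `0`: the complex point `pt x e κ` solves the outer system over `v = pt 0 e κ`, it is `Z i` for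
some `i` (`Sol.all`), and the factor `i` of `Rt_prod` is `0`; so `aeval (pt 0 e κ) Rt = 0` (`aeval_ofReal`) and `κ ≤ Cb e` by `Rt_root`.
`O_iff`: `rigid` (RedRigid) with `Om = OO hok`, `O_nonempty`, `O_empty` (RedO1, RedO2): if `A ≠ ∅` there is
`e' ∈ Reg c` with `O(e') ≠ ∅` (choose `Δ ≥ max Δ₀ 2^(2^c)`, `R = Δ^(2^c)`, `θ = max θ₀ (R^(2^c))`, `E = θ^(2^c)`), if `A = ∅`
(every `x` has a zero `Y` of `Qr x`, as `Qr ≥ 0`) there is `e' ∈ Reg c` with `O(e') = ∅`.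
`sample`: `hbig` at `e0` and `Cb_e0` give a point of `O(e0)` with `GDr - κ₀ Hr² < 0` (`Hr ≠ 0` there because `GDr ≥ 1`); `exists_min`
(RedMax) and `crit_outer`.
-/

set_option autoImplicit false

namespace Crest.Agent.CHR

open MvPolynomial Finset

namespace Asm
variable {a : Asm} {B : ℕ}

theorem asmD3_pt_lt (x : Fin a.n → ℝ) (e : ℝ × ℝ × ℝ × ℝ) (κ : ℝ) {j : ℕ} (hj : j < a.n) :
    a.pt x e κ j = x ⟨j, hj⟩ := by
  have h1 : j ≠ a.vDl := by unfold vDl tt; omega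
  have h2 : j ≠ a.vR := by unfold vR tt; omega
  have h3 : j ≠ a.vTh := by unfold vTh tt; omega
  have h4 : j ≠ a.vE := by unfold vE tt; omega
  have h5 : j ≠ a.vK := by unfold vK tt; omega
  unfold pt ext
  rw [if_neg h1, if_neg h2, if_neg h3, if_neg h4, if_neg h5, dif_pos hj]

theorem asmD3_pt_ge (x y : Fin a.n → ℝ) (e : ℝ × ℝ × ℝ × ℝ) (κ : ℝ) {j : ℕ} (hj : ¬ j < a.n) :
    a.pt x e κ j = a.pt y e κ j := by
  unfold pt ext
  rw [dif_neg hj, dif_neg hj]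

theorem asmD3_pt_vK (x : Fin a.n → ℝ) (e : ℝ × ℝ × ℝ × ℝ) (κ : ℝ) : a.pt x e κ a.vK = κ := by
  have h1 : a.vK ≠ a.vDl := by unfold vDl vK; omega
  have h2 : a.vK ≠ a.vR := by unfold vR vK; omega
  have h3 : a.vK ≠ a.vTh := by unfold vTh vK; omega
  have h4 : a.vK ≠ a.vE := by unfold vE vK; omega
  unfold pt
  rw [if_neg h1, if_neg h2, if_neg h3, if_neg h4, if_pos rfl]

theorem asmD3_aeval_GD (x : Fin a.n → ℝ) (e : ℝ × ℝ × ℝ × ℝ) (κ : ℝ) :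
    aeval (a.pt x e κ) a.GD = a.GDr x := by
  unfold GD GDr
  rw [map_add, map_one, map_sum]
  congr 1
  rw [Finset.sum_range]
  refine Finset.sum_congr rfl fun i _ => ?_
  rw [map_pow, aeval_X, asmD3_pt_lt x e κ i.2]

theorem asmD3_aeval_H (hok : a.Ok B) (x : Fin a.n → ℝ) (e : ℝ × ℝ × ℝ × ℝ) (κ : ℝ) :
    aeval (a.pt x e κ) a.H = a.Hr x e := by
  unfold Hr
  refine aeval_congr_vars fun j hj => ?_
  have h1 : j ≠ a.vK := by
    have := H_vars hok j hj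
    unfold vK tt
    unfold vDl tt at this
    omega
  unfold pt
  rw [if_neg h1, if_neg h1]

theorem asmD3_aeval_f (hok : a.Ok B) (x : Fin a.n → ℝ) (e : ℝ × ℝ × ℝ × ℝ) (κ : ℝ) :
    aeval (a.pt x e κ) (a.GD - X a.vK * a.H ^ 2) = a.GDr x - κ * a.Hr x e ^ 2 := by
  rw [map_sub, map_mul, map_pow, aeval_X, asmD3_aeval_GD, asmD3_aeval_H hok, asmD3_pt_vK]

theorem asmD3_update (x : Fin a.n → ℝ) (e : ℝ × ℝ × ℝ × ℝ) (κ : ℝ) {i : ℕ} (hi : i < a.n) (t : ℝ) :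
    Function.update (a.pt x e κ) i t = a.pt (Function.update x ⟨i, hi⟩ t) e κ := by
  funext j
  by_cases hji : j = i
  · subst hji
    rw [Function.update_self, asmD3_pt_lt _ _ _ hi, Function.update_self]
  · rw [Function.update_of_ne hji]
    by_cases hj : j < a.n
    · rw [asmD3_pt_lt _ _ _ hj, asmD3_pt_lt _ _ _ hj, Function.update_of_ne]
      intro h
      exact hji (congrArg Fin.val h)
    · exact asmD3_pt_ge _ _ _ _ hj

theorem asmD3_D_pos (hok : a.Ok B) : 0 < a.D := lt_of_le_of_lt (Nat.zero_le _) hok.D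

theorem asmD3_pderiv_GD (i : ℕ) (hi : i < a.n) :
    pderiv i a.GD = C ((2 * a.D : ℕ) : ℚ) * X i ^ (2 * a.D - 1) := by
  unfold GD
  rw [map_add, map_sum, ← C_1, pderiv_C, zero_add,
    Finset.sum_eq_single_of_mem i (Finset.mem_range.2 hi)]
  · rw [Derivation.leibniz_pow, pderiv_X_self]
    simp only [nsmul_eq_mul, smul_eq_mul, mul_one, map_natCast]
  · intro j _ hj
    rw [Derivation.leibniz_pow, pderiv_X_of_ne hj]
    simp

theorem crit_outer (hok : a.Ok B) {e : ℝ × ℝ × ℝ × ℝ} (h0 : 0 < e.2.2.1) {κ : ℝ} {x : Fin a.n → ℝ}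
    (hx : x ∈ OO hok e)
    (hmin : ∀ y ∈ OO hok e, a.GDr x - κ * a.Hr x e ^ 2 ≤ a.GDr y - κ * a.Hr y e ^ 2)
    (i : ℕ) (hi : i < a.n) :
    a.ext x i ^ (2 * a.D - 1) = aeval (a.pt x e κ) (a.qX (X a.vK) a.H i) := by
  have hopen := OO_isOpen hok h0
  have hev : ∀ᶠ t in nhds (a.pt x e κ i), aeval (a.pt x e κ) (a.GD - X a.vK * a.H ^ 2) ≤
      aeval (Function.update (a.pt x e κ) i t) (a.GD - X a.vK * a.H ^ 2) := by
    have hc : Continuous (fun t : ℝ => Function.update x ⟨i, hi⟩ t) :=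
      continuous_const.update _ continuous_id
    have h1 : Function.update x ⟨i, hi⟩ (a.pt x e κ i) ∈ OO hok e := by
      rw [asmD3_pt_lt x e κ hi, Function.update_eq_self]
      exact hx
    have h2 := hc.continuousAt.eventually_mem (hopen.mem_nhds h1)
    filter_upwards [h2] with t ht
    rw [asmD3_update x e κ hi, asmD3_aeval_f hok, asmD3_aeval_f hok]
    exact hmin _ ht
  have hz := aeval_pderiv_eq_zero _ _ _ hev
  have hiK : a.vK ≠ i := by unfold vK tt; omega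
  rw [map_sub, Derivation.leibniz, pderiv_X_of_ne hiK, smul_zero, add_zero, smul_eq_mul,
    asmD3_pderiv_GD i hi, map_sub, map_mul, map_mul, aeval_C, map_pow, aeval_X, aeval_X] at hz
  have e1 : a.ext x i = a.pt x e κ i := by
    rw [asmD3_pt_lt x e κ hi]
    unfold ext
    rw [dif_pos hi]
  have hD : ((a.D : ℕ) : ℝ) ≠ 0 := by
    have := asmD3_D_pos hok
    positivity
  rw [e1]
  unfold qX
  rw [map_mul, map_mul, aeval_C, aeval_X]
  have e2 : (algebraMap ℚ ℝ) (((2 * a.D : ℕ) : ℚ)) = 2 * (a.D : ℝ) := by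
    rw [eq_ratCast]; push_cast; ring
  have e3 : (algebraMap ℚ ℝ) (1 / (2 * (a.D : ℚ))) = 1 / (2 * (a.D : ℝ)) := by
    rw [eq_ratCast]; push_cast; ring
  rw [e2] at hz
  rw [e3]
  have h2 : 2 * (a.D : ℝ) * a.pt x e κ i ^ (2 * a.D - 1) =
      a.pt x e κ a.vK * aeval (a.pt x e κ) (pderiv i (a.H ^ 2)) := by linarith
  field_simp
  linarith

theorem asmD3_Reg_pos {c : ℕ} {e : ℝ × ℝ × ℝ × ℝ} (he : e ∈ Reg c) : 0 < e.2.2.1 := by
  obtain ⟨h1, h2, h3, h4⟩ := he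
  have g1 : 0 < e.1 := lt_of_lt_of_le (by positivity) h1
  have g2 : 0 < e.2.1 := lt_of_lt_of_le (by positivity) h2
  exact lt_of_lt_of_le (by positivity) h3

theorem asmD3_Hc0 (e : ℝ × ℝ × ℝ × ℝ) : Continuous (fun x : Fin a.n → ℝ => (x, e)) := by
  fun_prop

theorem asmD3_Hc (hok : a.Ok B) (e : ℝ × ℝ × ℝ × ℝ) :
    Continuous (fun x : Fin a.n → ℝ => a.Hr x e) := by
  have h1 : Continuous (fun x : Fin a.n → ℝ => (x, e)) := asmD3_Hc0 e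
  have h2 := (Hr_cont hok).comp h1
  exact h2

/-- `exists_max` for our data -/
theorem asmD3_max (hok : a.Ok B) {e : ℝ × ℝ × ℝ × ℝ} (he : e ∈ Reg a.c)
    (hne : (OO hok e).Nonempty) :
    ∃ x ∈ OO hok e, a.Hr x e ≠ 0 ∧
      ∀ y ∈ OO hok e, 0 ≤ a.GDr y - a.GDr x / (a.Hr x e) ^ 2 * (a.Hr y e) ^ 2 :=
  exists_max (OO hok e) (OO_isOpen hok (asmD3_Reg_pos he)) (OO_bounded hok e)
    (fun x => a.Hr x e) a.GDr (asmD3_Hc hok e) GDr_cont one_le_GDr (OO_closure hok he)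
    (Hr_ne hok he hne)

/-- `exists_min` for our data -/
theorem asmD3_min (hok : a.Ok B) {e : ℝ × ℝ × ℝ × ℝ} (he : e ∈ Reg a.c) {κ : ℝ}
    (hne : ∃ x ∈ OO hok e, a.GDr x - κ * a.Hr x e ^ 2 < 0) :
    ∃ x ∈ OO hok e, ∀ y ∈ OO hok e,
      a.GDr x - κ * a.Hr x e ^ 2 ≤ a.GDr y - κ * a.Hr y e ^ 2 :=
  exists_min (OO hok e) (OO_isOpen hok (asmD3_Reg_pos he)) (OO_bounded hok e)
    (fun x => a.Hr x e) a.GDr (asmD3_Hc hok e) GDr_cont one_le_GDr (OO_closure hok he) hne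

theorem hbig (hok : a.Ok B) : ∀ e ∈ Reg a.c, (OO hok e).Nonempty →
    ∃ x ∈ OO hok e, a.GDr x ≤ a.Cb e * a.Hr x e ^ 2 := by
  intro e he hne
  have hpos := asmD3_Reg_pos he
  obtain ⟨x, hx, hx0, hmax⟩ := asmD3_max hok he hne
  refine ⟨x, hx, ?_⟩
  have hGx : 0 < a.GDr x := lt_of_lt_of_le one_pos (one_le_GDr x)
  have hH2 : 0 < a.Hr x e ^ 2 := by positivity
  set κ : ℝ := a.GDr x / a.Hr x e ^ 2 with hκ
  have hκ0 : 0 < κ := div_pos hGx hH2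
  have hval : a.GDr x - κ * a.Hr x e ^ 2 = 0 := by
    rw [hκ, div_mul_cancel₀ _ hH2.ne', sub_self]
  have hcrit := crit_outer hok hpos (κ := κ) hx (fun y hy => by
    rw [hval]; exact hmax y hy)
  -- the complex point
  obtain ⟨Z, hZ, hprod⟩ := Rt_prod hok (fun j => ((a.pt 0 e κ j : ℝ) : ℂ))
  obtain ⟨i, hi⟩ := hZ.all (fun j => ((a.pt x e κ j : ℝ) : ℂ)) (fun j hj => by
    rw [Finset.mem_range] at hj
    rw [asmD3_pt_ge x 0 e κ hj]) (fun j hj => by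
    rw [Finset.mem_range] at hj
    have h1 := hcrit j hj
    have e1 : a.ext x j = a.pt x e κ j := by
      rw [asmD3_pt_lt x e κ hj]
      unfold ext
      rw [dif_pos hj]
    rw [aeval_ofReal, ← h1, e1, Complex.ofReal_pow])
  have h0 : aeval (fun j => ((a.pt 0 e κ j : ℝ) : ℂ)) a.Rt = 0 := by
    rw [hprod]
    refine Finset.prod_eq_zero (Finset.mem_univ i) ?_
    rw [hi, aeval_ofReal, asmD3_aeval_f hok, hval, Complex.ofReal_zero]
  rw [aeval_ofReal, Complex.ofReal_eq_zero] at h0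
  have hle := Rt_root hok he hκ0 h0
  calc a.GDr x = κ * a.Hr x e ^ 2 := by linarith
    _ ≤ a.Cb e * a.Hr x e ^ 2 := mul_le_mul_of_nonneg_right hle hH2.le

theorem asmD3_rigid (hok : a.Ok B) {e e' : ℝ × ℝ × ℝ × ℝ} (he : e ∈ Reg a.c) (he' : e' ∈ Reg a.c)
    (hne : (OO hok e).Nonempty) : (OO hok e').Nonempty :=
  rigid a.c (OO hok) a.Hr a.GDr a.Cb (Hr_cont hok) GDr_cont one_le_GDr (Cb_cont hok)
    (OO_open hok) (OO_bdry hok) (fun e _ => OO_bdd hok e) (hbig hok) he he' hne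

theorem O_iff (hok : a.Ok B) {e : ℝ × ℝ × ℝ × ℝ} (he : e ∈ Reg a.c) :
    (OO hok e).Nonempty ↔ ∃ x, ∀ Y, 0 < a.Qr x Y := by
  constructor
  · intro hne
    by_contra hcon
    push Not at hcon
    have hA : ∀ x, ∃ Y, (a.red hok).Q x Y = 0 := by
      intro x
      obtain ⟨Y, hY⟩ := hcon x
      exact ⟨Y, le_antisymm hY (Qr_nonneg hok x Y)⟩
    obtain ⟨R₀, hR⟩ := (a.red hok).O_empty hA ((2 : ℝ) ^ (2 ^ a.c)) (by positivity)
    have hRpos : 0 < max R₀ (((2 : ℝ) ^ (2 ^ a.c)) ^ (2 ^ a.c)) :=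
      lt_of_lt_of_le (by positivity) (le_max_right _ _)
    obtain ⟨E₀, hE⟩ := hR (max R₀ (((2 : ℝ) ^ (2 ^ a.c)) ^ (2 ^ a.c))) (le_max_left _ _)
      ((max R₀ (((2 : ℝ) ^ (2 ^ a.c)) ^ (2 ^ a.c))) ^ (2 ^ a.c)) (by positivity)
    have hEmp := hE (max E₀ (((max R₀ (((2 : ℝ) ^ (2 ^ a.c)) ^ (2 ^ a.c))) ^ (2 ^ a.c)) ^ (2 ^ a.c)))
      (le_max_left _ _)
    have he' : (((2 : ℝ) ^ (2 ^ a.c)), (max R₀ (((2 : ℝ) ^ (2 ^ a.c)) ^ (2 ^ a.c))),
        ((max R₀ (((2 : ℝ) ^ (2 ^ a.c)) ^ (2 ^ a.c))) ^ (2 ^ a.c)),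
        (max E₀ (((max R₀ (((2 : ℝ) ^ (2 ^ a.c)) ^ (2 ^ a.c))) ^ (2 ^ a.c)) ^ (2 ^ a.c)))) ∈
        Reg a.c := ⟨le_refl _, le_max_right _ _, le_refl _, le_max_right _ _⟩
    have h1 := asmD3_rigid hok he he' hne
    rw [Set.nonempty_iff_ne_empty] at h1
    exact h1 hEmp
  · intro hA
    obtain ⟨Δ₀, hΔ⟩ := (a.red hok).O_nonempty hA
    obtain ⟨θ₀, hθ₀, hθ⟩ := hΔ (max Δ₀ ((2 : ℝ) ^ (2 ^ a.c))) (le_max_left _ _)
      ((max Δ₀ ((2 : ℝ) ^ (2 ^ a.c))) ^ (2 ^ a.c))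
    have h1 := hθ (max θ₀ (((max Δ₀ ((2 : ℝ) ^ (2 ^ a.c))) ^ (2 ^ a.c)) ^ (2 ^ a.c)))
      (le_max_left _ _)
      ((max θ₀ (((max Δ₀ ((2 : ℝ) ^ (2 ^ a.c))) ^ (2 ^ a.c)) ^ (2 ^ a.c))) ^ (2 ^ a.c))
    have he' : ((max Δ₀ ((2 : ℝ) ^ (2 ^ a.c))), ((max Δ₀ ((2 : ℝ) ^ (2 ^ a.c))) ^ (2 ^ a.c)),
        (max θ₀ (((max Δ₀ ((2 : ℝ) ^ (2 ^ a.c))) ^ (2 ^ a.c)) ^ (2 ^ a.c))),
        ((max θ₀ (((max Δ₀ ((2 : ℝ) ^ (2 ^ a.c))) ^ (2 ^ a.c)) ^ (2 ^ a.c))) ^ (2 ^ a.c))) ∈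
        Reg a.c := ⟨le_max_right _ _, le_refl _, le_max_right _ _, le_refl _⟩
    exact asmD3_rigid hok he' he h1

theorem sample (hok : a.Ok B) (hne : (OO hok a.e0).Nonempty) :
    ∃ x ∈ OO hok a.e0, ∀ i < a.n,
      a.ext x i ^ (2 * a.D - 1) = aeval (a.pt x a.e0 (a.par0 5 : ℕ)) (a.qX (X a.vK) a.H i) := by
  have he := e0_mem (a := a)
  have hpos := asmD3_Reg_pos he
  obtain ⟨x1, hx1, hle⟩ := hbig hok a.e0 he hne
  have hC := Cb_e0 hok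
  have hG1 := one_le_GDr x1
  have hneg : a.GDr x1 - ((a.par0 5 : ℕ) : ℝ) * a.Hr x1 a.e0 ^ 2 < 0 := by
    have hH2 : 0 < a.Hr x1 a.e0 ^ 2 := by
      rcases (sq_nonneg (a.Hr x1 a.e0)).lt_or_eq with h | h
      · exact h
      · rw [← h, mul_zero] at hle
        linarith
    have := mul_lt_mul_of_pos_right hC hH2
    linarith
  obtain ⟨x, hx, hmin⟩ := asmD3_min hok he ⟨x1, hx1, hneg⟩
  exact ⟨x, hx, crit_outer hok hpos hx hmin⟩

end Asm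

end Crest.Agent.CHR
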