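import Crest.Agent.CHR.PhamDefs

set_option autoImplicit false

namespace Crest.Agent.CHR.Pham

open MvPolynomial Finset

/-- CHUNK R316-PHAMH: root bound.  (`l1at` of `Pham.lean` unfolded.)
PROOF.  Let `R = max (1, max_{j∈S} ‖Z i j‖)`.  For `j ∈ S` with `‖Z i j‖` maximal: if
`‖Z i j‖ > B ≥ 1` then `R = ‖Z i j‖` and
`R^{m j} = ‖aeval (Z i) (q j)‖ ≤ ∑_s |coeff| ∏_{i∉S} ‖v‖^{s_i} R^{sdeg}
≤ B R^{m j - 1}` (each monomial `s` of `q j` has `∑_{i∈S} s i ≤ sdeg S (q j) ≤ m j - 1`), so `R ≤ B`. -/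
theorem bound' {S : Finset ℕ} {m : ℕ → ℕ} {q : ℕ → P} {v : ℕ → ℂ} {N : ℕ} {Z : Fin N → ℕ → ℂ}
    (h : IsPham S m q) (hZ : Sol S m q v Z) (B : ℝ) (hB : 1 ≤ B)
    (hq : ∀ j ∈ S, ∑ e ∈ (q j).support, |((coeff e (q j) : ℚ) : ℝ)| *
      ∏ i ∈ e.support \ S, ‖v i‖ ^ e i ≤ B)
    (i : Fin N) (j : ℕ) (hj : j ∈ S) : ‖Z i j‖ ≤ B := by
  obtain ⟨j0, hj0, hmax⟩ := S.exists_max_image (fun k => ‖Z i k‖) ⟨j, hj⟩
  refine (hmax j hj).trans ?_
  by_contra hcon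
  push Not at hcon
  set R : ℝ := ‖Z i j0‖ with hR
  have hR1 : 1 < R := lt_of_le_of_lt hB hcon
  have hR0 : 0 < R := by linarith
  have hsol := hZ.sol i j0 hj0
  obtain ⟨hm0, hdeg⟩ := h j0 hj0
  have h1 : ‖aeval (Z i) (q j0)‖ ≤ ∑ e ∈ (q j0).support, ‖aeval (Z i) (monomial e (coeff e (q j0)))‖ := by
    conv_lhs => rw [(q j0).as_sum, map_sum]
    exact norm_sum_le _ _
  have h2 : ∀ e ∈ (q j0).support, ‖aeval (Z i) (monomial e (coeff e (q j0)))‖ ≤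
      (|((coeff e (q j0) : ℚ) : ℝ)| * ∏ i ∈ e.support \ S, ‖v i‖ ^ e i) * R ^ (m j0 - 1) := by
    intro e he
    rw [aeval_monomial, norm_mul]
    have e1 : ‖(algebraMap ℚ ℂ) (coeff e (q j0))‖ = |((coeff e (q j0) : ℚ) : ℝ)| := by
      rw [eq_ratCast, ← Complex.ofReal_ratCast, Complex.norm_real, Real.norm_eq_abs]
    rw [e1, mul_assoc]
    refine mul_le_mul_of_nonneg_left ?_ (abs_nonneg _)
    rw [Finsupp.prod, norm_prod, ← Finset.prod_inter_mul_prod_sdiff e.support S, mul_comm]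
    have e2 : ∏ x ∈ e.support \ S, ‖Z i x ^ e x‖ = ∏ i ∈ e.support \ S, ‖v i‖ ^ e i := by
      refine Finset.prod_congr rfl fun x hx => ?_
      rw [norm_pow, hZ.off i x (Finset.mem_sdiff.1 hx).2]
    rw [e2]
    refine mul_le_mul_of_nonneg_left ?_ (Finset.prod_nonneg fun x _ => by positivity)
    calc ∏ x ∈ e.support ∩ S, ‖Z i x ^ e x‖ ≤ ∏ x ∈ e.support ∩ S, R ^ e x := by
          refine Finset.prod_le_prod (fun x _ => norm_nonneg _) fun x hx => ?_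
          rw [norm_pow]
          exact pow_le_pow_left₀ (norm_nonneg _) (hmax x (Finset.mem_inter.1 hx).2) _
      _ = R ^ (∑ x ∈ e.support ∩ S, e x) := Finset.prod_pow_eq_pow_sum _ _ _
      _ ≤ R ^ (m j0 - 1) := by
          refine pow_le_pow_right₀ hR1.le ?_
          have e3 : ∑ x ∈ e.support ∩ S, e x ≤ ∑ x ∈ S, e x :=
            Finset.sum_le_sum_of_subset Finset.inter_subset_right
          have e4 : ∑ x ∈ S, e x ≤ sdeg S (q j0) :=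
            Finset.le_sup (f := fun m : ℕ →₀ ℕ => ∑ i ∈ S, m i) he
          omega
  have h3 : R ^ m j0 ≤ B * R ^ (m j0 - 1) := by
    calc R ^ m j0 = ‖Z i j0 ^ m j0‖ := (norm_pow _ _).symm
      _ = ‖aeval (Z i) (q j0)‖ := by rw [hsol]
      _ ≤ _ := h1
      _ ≤ ∑ e ∈ (q j0).support, (|((coeff e (q j0) : ℚ) : ℝ)| *
          ∏ i ∈ e.support \ S, ‖v i‖ ^ e i) * R ^ (m j0 - 1) := Finset.sum_le_sum h2
      _ = (∑ e ∈ (q j0).support, |((coeff e (q j0) : ℚ) : ℝ)| *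
          ∏ i ∈ e.support \ S, ‖v i‖ ^ e i) * R ^ (m j0 - 1) := by rw [Finset.sum_mul]
      _ ≤ _ := mul_le_mul_of_nonneg_right (hq j0 hj0) (by positivity)
  have h4 : R ^ m j0 = R * R ^ (m j0 - 1) := by
    rw [← pow_succ']
    congr 1
    omega
  rw [h4] at h3
  have h5 := le_of_mul_le_mul_right h3 (by positivity)
  linarith

end Crest.Agent.CHR.Pham
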