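import Crest.Agent.CHR.PhamS

set_option autoImplicit false

namespace Crest.Agent.CHR.Pham

open MvPolynomial Finset

/-- the value of a rational polynomial at conjugate points -/
private theorem conj_aeval (x : ℕ → ℂ) (g : P) :
    aeval (fun j => (starRingEnd ℂ) (x j)) g = (starRingEnd ℂ) (aeval x g) := by
  induction g using MvPolynomial.induction_on with
  | C a => rw [aeval_C, aeval_C, eq_ratCast, map_ratCast]
  | add p q hp hq => rw [map_add, map_add, map_add, hp, hq]
  | mul_X p i hp => rw [map_mul, map_mul, map_mul, hp, aeval_X, aeval_X]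

/-- CHUNK R316-PHAMI: conjugation.
PROOF.  Let `Z' i = conj ∘ Z i`.  For every rational `g`: `∑ aeval (Z' i) g = conj (∑ aeval (Z i) g)
= conj (aeval v (trS .. g)) = aeval v (trS .. g) = ∑ aeval (Z i) g` (`v` real; `hZ.tr` with
`K = sdeg S g`).  A complex polynomial `p : MvPolynomial S ℂ` is a complex combination of the
polynomials `spec S v (∏_{j∈S} X_j^{a_j})`, so `exists_perm_of_sums` applies to the restrictions of
`Z`, `Z'` to `S`; off `S` both are `v` (`hZ.off`, `hv`). -/
theorem conj' {S : Finset ℕ} {m : ℕ → ℕ} {q : ℕ → P} {v : ℕ → ℂ} {N : ℕ} {Z : Fin N → ℕ → ℂ}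
    (hZ : Sol S m q v Z) (hv : ∀ j, (starRingEnd ℂ) (v j) = v j) :
    ∃ c : Equiv.Perm (Fin N), ∀ i j, Z (c i) j = (starRingEnd ℂ) (Z i j) := by
  classical
  have hrat : ∀ g : P, ∑ i, aeval (fun j => (starRingEnd ℂ) (Z i j)) g = ∑ i, aeval (Z i) g := by
    intro g
    have h1 := hZ.tr (sdeg S g) g le_rfl
    calc ∑ i, aeval (fun j => (starRingEnd ℂ) (Z i j)) g
        = ∑ i, (starRingEnd ℂ) (aeval (Z i) g) :=
          Finset.sum_congr rfl fun i _ => conj_aeval (Z i) g
      _ = (starRingEnd ℂ) (∑ i, aeval (Z i) g) := (map_sum _ _ _).symm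
      _ = (starRingEnd ℂ) (aeval v (trS S m q (sdeg S g) g)) := by rw [h1]
      _ = aeval (fun j => (starRingEnd ℂ) (v j)) (trS S m q (sdeg S g) g) :=
          (conj_aeval v _).symm
      _ = aeval v (trS S m q (sdeg S g) g) := by
          congr 2
          funext j
          exact hv j
      _ = ∑ i, aeval (Z i) g := h1.symm
  have hren : ∀ (x : ℕ → ℂ) (e : S →₀ ℕ),
      aeval x (∏ j : S, (X (j : ℕ) : P) ^ e j) = eval (fun j : S => x j) (monomial e (1 : ℂ)) := by
    intro x e
    rw [map_prod, eval_monomial, one_mul, Finsupp.prod_fintype _ _ (fun _ => pow_zero _)]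
    refine Finset.prod_congr rfl fun j _ => ?_
    rw [map_pow, aeval_X]
  obtain ⟨c, hc⟩ := exists_perm_of_sums (fun i (j : S) => Z i j)
    (fun i (j : S) => (starRingEnd ℂ) (Z i j)) (by
      intro p
      induction p using MvPolynomial.induction_on' with
      | monomial e a =>
        have h2 : ∀ x : S → ℂ, eval x (monomial e a) = a * eval x (monomial e (1 : ℂ)) := by
          intro x
          rw [eval_monomial, eval_monomial, one_mul]
        simp only [h2]
        rw [← Finset.mul_sum, ← Finset.mul_sum]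
        congr 1
        have h3 := hrat (∏ j : S, (X (j : ℕ) : P) ^ e j)
        calc ∑ i, eval (fun j : S => Z i j) (monomial e (1 : ℂ))
            = ∑ i, aeval (Z i) (∏ j : S, (X (j : ℕ) : P) ^ e j) :=
              Finset.sum_congr rfl fun i _ => (hren (Z i) e).symm
          _ = ∑ i, aeval (fun j => (starRingEnd ℂ) (Z i j)) (∏ j : S, (X (j : ℕ) : P) ^ e j) :=
              h3.symm
          _ = _ := Finset.sum_congr rfl fun i _ => hren (fun j => (starRingEnd ℂ) (Z i j)) e
      | add p q hp hq =>
        simp only [map_add, Finset.sum_add_distrib]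
        rw [hp, hq])
  refine ⟨c, fun i j => ?_⟩
  by_cases hj : j ∈ S
  · exact congrFun (hc i) ⟨j, hj⟩
  · rw [hZ.off _ j hj, hZ.off _ j hj, hv]

end Crest.Agent.CHR.Pham
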