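import Crest.Agent.CHR.PhamDefs

set_option autoImplicit false

namespace Crest.Agent.CHR.Pham

open MvPolynomial Finset

/-- specialise all variables except `y` to `v` -/
noncomputable def spec1 (y : ℕ) (v : ℕ → ℂ) : P →ₐ[ℚ] Polynomial ℂ :=
  aeval (fun j => if j = y then Polynomial.X else Polynomial.C (v j))

private theorem D2_X_self (y : ℕ) (v : ℕ → ℂ) : spec1 y v (X y) = Polynomial.X := by
  rw [spec1, aeval_X, if_pos rfl]

private theorem D2_X_ne (y : ℕ) (v : ℕ → ℂ) {j : ℕ} (h : j ≠ y) :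
    spec1 y v (X j) = Polynomial.C (v j) := by
  rw [spec1, aeval_X, if_neg h]

private theorem D2_mono1 (y : ℕ) (v : ℕ → ℂ) (e : ℕ →₀ ℕ) :
    spec1 y v (monomial e 1) = Polynomial.monomial (e y)
      (aeval v (monomial (Finsupp.filter (fun i => i ∉ ({y} : Finset ℕ)) e) (1 : ℚ))) := by
  induction e using Finsupp.induction_linear with
  | zero =>
    have h1 : Finsupp.filter (fun i => i ∉ ({y} : Finset ℕ)) (0 : ℕ →₀ ℕ) = 0 :=
      Finsupp.filter_zero _
    rw [h1]
    change spec1 y v 1 = Polynomial.monomial 0 (aeval v (1 : P))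
    rw [map_one, map_one]
    rfl
  | add e e' he he' =>
    have h1 : (monomial (e + e') (1 : ℚ) : P) = monomial e 1 * monomial e' 1 := by
      rw [monomial_mul, one_mul]
    rw [h1, map_mul, he, he', Polynomial.monomial_mul_monomial, Finsupp.filter_add,
      ← map_mul, monomial_mul, one_mul, Finsupp.add_apply]
  | single j n =>
    have h1 : (monomial (Finsupp.single j n) (1 : ℚ) : P) = X j ^ n := by
      rw [X_pow_eq_monomial]
    rw [h1, map_pow]
    by_cases h : j = y
    · subst h
      have h3 : Finsupp.filter (fun i => i ∉ ({j} : Finset ℕ)) (Finsupp.single j n) = 0 :=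
        Finsupp.filter_single_of_neg _ (by simp)
      rw [D2_X_self, h3, Finsupp.single_eq_same, Polynomial.X_pow_eq_monomial]
      simp
    · have h3 : Finsupp.filter (fun i => i ∉ ({y} : Finset ℕ)) (Finsupp.single j n) =
          Finsupp.single j n :=
        Finsupp.filter_single_of_pos _ (by simpa using h)
      have h4 : (Finsupp.single j n) y = 0 := Finsupp.single_eq_of_ne (Ne.symm h)
      rw [D2_X_ne y v h, h3, h4, ← X_pow_eq_monomial, map_pow, aeval_X, ← Polynomial.C_pow]
      rfl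

private theorem D2_mono (y : ℕ) (v : ℕ → ℂ) (e : ℕ →₀ ℕ) (c : ℚ) :
    spec1 y v (monomial e c) = Polynomial.monomial (e y)
      (aeval v (monomial (Finsupp.filter (fun i => i ∉ ({y} : Finset ℕ)) e) c)) := by
  have h1 : (monomial e c : P) = C c * monomial e 1 := by
    rw [C_mul_monomial, mul_one]
  have h2 : (monomial (Finsupp.filter (fun i => i ∉ ({y} : Finset ℕ)) e) c : P) =
      C c * monomial (Finsupp.filter (fun i => i ∉ ({y} : Finset ℕ)) e) 1 := by
    rw [C_mul_monomial, mul_one]
  have h3 : spec1 y v (C c) = Polynomial.C (c : ℂ) := (spec1 y v).commutes c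
  rw [h1, h2, map_mul, map_mul, h3, D2_mono1, Polynomial.C_mul_monomial, aeval_C]
  rfl

private theorem D2_sum (y : ℕ) (v : ℕ → ℂ) (f : P) :
    spec1 y v f = ∑ e ∈ f.support, Polynomial.monomial (e y)
      (aeval v (monomial (Finsupp.filter (fun i => i ∉ ({y} : Finset ℕ)) e) (coeff e f))) := by
  conv_lhs => rw [f.as_sum]
  rw [map_sum]
  exact Finset.sum_congr rfl fun e _ => D2_mono y v e _

/-- CHUNK R316-PHAMD2 (first part).  PROOF: monomial by monomial. -/
theorem coeff_spec1 (y : ℕ) (v : ℕ → ℂ) (n : ℕ) (f : P) :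
    (spec1 y v f).coeff n = aeval v (coefS {y} (fun _ => n) f) := by
  rw [D2_sum, Polynomial.finsetSum_coeff, coefS, map_sum, Finset.sum_filter]
  refine Finset.sum_congr rfl fun e _ => ?_
  rw [Polynomial.coeff_monomial]
  refine if_congr ?_ rfl rfl
  simp

/-- second part -/
theorem eval_spec1 (y : ℕ) (v : ℕ → ℂ) (t : ℂ) (f : P) :
    (spec1 y v f).eval t = aeval (Function.update v y t) f := by
  induction f using MvPolynomial.induction_on with
  | C a =>
    have h3 : spec1 y v (C a) = Polynomial.C (a : ℂ) := (spec1 y v).commutes a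
    rw [h3, Polynomial.eval_C, aeval_C]
    rfl
  | add p q hp hq => rw [map_add, map_add, Polynomial.eval_add, hp, hq]
  | mul_X p i hp =>
    rw [map_mul, map_mul, Polynomial.eval_mul, hp, aeval_X]
    congr 1
    by_cases h : i = y
    · subst h
      rw [D2_X_self, Polynomial.eval_X, Function.update_self]
    · rw [D2_X_ne y v h, Polynomial.eval_C, Function.update_of_ne h]

/-- fourth part: independence of the value -/
theorem aeval_update_of_notMem (y : ℕ) (v : ℕ → ℂ) (t : ℂ) (f : P) (hy : y ∉ f.vars) :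
    aeval (Function.update v y t) f = aeval v f := by
  rw [aeval_def, aeval_def]
  refine eval₂Hom_congr' rfl ?_ rfl
  intro i hi _
  have : i ≠ y := fun h => hy (h ▸ hi)
  exact Function.update_of_ne this _ _

/-- third part: PROOF: `eval₂Hom_congr'` or `mem_support_notMem_vars_zero` monomial by monomial. -/
theorem spec1_of_notMem (y : ℕ) (v : ℕ → ℂ) (f : P) (hy : y ∉ f.vars) :
    spec1 y v f = Polynomial.C (aeval v f) := by
  apply Polynomial.funext
  intro t
  rw [eval_spec1, aeval_update_of_notMem y v t f hy, Polynomial.eval_C]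

private theorem mem_sup_iff (y : ℕ) (f : P) :
    f ∈ MvPolynomial.supported ℚ ({y}ᶜ : Set ℕ) ↔ y ∉ f.vars := by
  rw [mem_supported]
  constructor
  · intro h hy
    exact h hy rfl
  · intro h i hi
    rw [Set.mem_compl_iff, Set.mem_singleton_iff]
    rintro rfl
    exact h hi

private theorem mono_mem (y : ℕ) (e : ℕ →₀ ℕ) (c : ℚ) (he : e y = 0) :
    monomial e c ∈ MvPolynomial.supported ℚ ({y}ᶜ : Set ℕ) := by
  rw [mem_sup_iff]
  by_cases hc : c = 0
  · subst hc; simp
  · rw [vars_monomial hc, Finsupp.mem_support_iff]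
    simpa using he

private theorem supp_zero {y : ℕ} {f : P} (hf : f ∈ MvPolynomial.supported ℚ ({y}ᶜ : Set ℕ))
    {e : ℕ →₀ ℕ} (he : e ∈ f.support) : e y = 0 := by
  rw [mem_sup_iff] at hf
  by_contra h
  exact hf ((mem_vars_iff_mem_support y).2 ⟨e, he, Finsupp.mem_support_iff.2 h⟩)

private theorem coefS_mem (y : ℕ) (S : Finset ℕ) (a : ℕ → ℕ) (f : P)
    (hf : f ∈ MvPolynomial.supported ℚ ({y}ᶜ : Set ℕ)) :
    coefS S a f ∈ MvPolynomial.supported ℚ ({y}ᶜ : Set ℕ) := by
  rw [coefS]
  refine Subalgebra.sum_mem _ fun e he => ?_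
  apply mono_mem
  rw [Finset.mem_filter] at he
  have := supp_zero hf he.1
  rw [Finsupp.filter_apply, this, ite_self]

private theorem pderiv_mem (y j : ℕ) (f : P)
    (hf : f ∈ MvPolynomial.supported ℚ ({y}ᶜ : Set ℕ)) :
    pderiv j f ∈ MvPolynomial.supported ℚ ({y}ᶜ : Set ℕ) := by
  rw [f.as_sum, map_sum]
  refine Subalgebra.sum_mem _ fun e he => ?_
  rw [pderiv_monomial]
  apply mono_mem
  have := supp_zero hf he
  rw [Finsupp.tsub_apply, this, Nat.zero_sub]

/-- fifth part: the trace does not involve `y`.  PROOF: `MvPolynomial.supported ℚ {y}ᶜ` is a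
subalgebra (`mem_supported`), it contains `q j`, `X j` (`j ∈ S`, as `y ∉ S`), `g`; closed under
`pderiv` (monomials), determinants (sum over permutations), and under `coefS` (monomials). -/
theorem notMem_vars_trS (S : Finset ℕ) (m : ℕ → ℕ) (q : ℕ → P) (K : ℕ) (g : P) (y : ℕ)
    (hy : y ∉ S) (hyq : ∀ j ∈ S, y ∉ (q j).vars) (hyg : y ∉ g.vars) :
    y ∉ (trS S m q K g).vars := by
  rw [← mem_sup_iff] at hyg ⊢
  have hq : ∀ j ∈ S, q j ∈ MvPolynomial.supported ℚ ({y}ᶜ : Set ℕ) := fun j hj =>
    (mem_sup_iff y _).2 (hyq j hj)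
  have hX : ∀ j ∈ S, (X j : P) ∈ MvPolynomial.supported ℚ ({y}ᶜ : Set ℕ) := fun j hj => by
    rw [mem_sup_iff, vars_X, Finset.mem_singleton]
    rintro rfl
    exact hy hj
  rw [trS, resS]
  apply coefS_mem
  refine mul_mem (mul_mem hyg ?_) ?_
  · rw [jacS, Matrix.det_apply]
    refine Subalgebra.sum_mem _ fun p _ => ?_
    rw [Units.smul_def]
    refine zsmul_mem (Subalgebra.prod_mem _ fun i _ => ?_) _
    apply pderiv_mem
    exact sub_mem (pow_mem (hX _ (p i).2) _) (hq _ (p i).2)
  · rw [denS]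
    refine Subalgebra.prod_mem _ fun j hj => Subalgebra.sum_mem _ fun k _ => ?_
    exact mul_mem (pow_mem (hq j hj) _) (pow_mem (hX j hj) _)

/-- sixth part -/
theorem notMem_vars_pow (g : P) (y l : ℕ) (hyg : y ∉ g.vars) : y ∉ (g ^ l).vars := by
  rw [← mem_sup_iff] at hyg ⊢
  exact pow_mem hyg l

private theorem sdeg_le_iff (S : Finset ℕ) (f : P) (d : ℕ) :
    sdeg S f ≤ d ↔ ∀ e ∈ f.support, ∑ i ∈ S, e i ≤ d := by
  rw [sdeg, Finset.sup_le_iff]

private theorem sdeg_mul (S : Finset ℕ) (f g : P) : sdeg S (f * g) ≤ sdeg S f + sdeg S g := by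
  classical
  rw [sdeg_le_iff]
  intro e he
  obtain ⟨a, ha, b, hb, rfl⟩ := Finset.mem_add.1 (support_mul f g he)
  simp only [Finsupp.add_apply, Finset.sum_add_distrib]
  exact add_le_add ((sdeg_le_iff S f _).1 le_rfl a ha) ((sdeg_le_iff S g _).1 le_rfl b hb)

/-- seventh part: degrees -/
theorem sdeg_pow (S : Finset ℕ) (g : P) (l : ℕ) : sdeg S (g ^ l) ≤ l * sdeg S g := by
  induction l with
  | zero =>
    rw [pow_zero, Nat.zero_mul, sdeg_le_iff]
    intro e he
    have : e = 0 := by
      have h1 : (1 : P).support ⊆ {0} := support_monomial_subset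
      simpa using h1 he
    subst this
    simp
  | succ l ih =>
    rw [pow_succ, Nat.add_mul, Nat.one_mul]
    exact (sdeg_mul S _ _).trans (Nat.add_le_add_right ih _)

/-- eighth part: degrees -/
theorem sdeg_add_X_mul (S : Finset ℕ) (f g : P) (s : ℕ) (hs : s ∉ S) :
    sdeg S (g + X s * f) ≤ max (sdeg S g) (sdeg S f) := by
  classical
  rw [sdeg_le_iff]
  intro e he
  rcases Finset.mem_union.1 (support_add he) with h | h
  · exact ((sdeg_le_iff S g _).1 le_rfl e h).trans (le_max_left _ _)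
  · have h1 := (sdeg_le_iff S _ _).1 (sdeg_mul S (X s) f) e h
    have h2 : sdeg S (X s) ≤ 0 := by
      rw [sdeg_le_iff]
      intro a ha
      rw [support_X, Finset.mem_singleton] at ha
      subst ha
      refine (Finset.sum_eq_zero fun i hi => ?_).le
      exact Finsupp.single_eq_of_ne (fun h => hs (h ▸ hi))
    exact (h1.trans (by omega)).trans (le_max_right _ _)

end Crest.Agent.CHR.Pham
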