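import Crest.Agent.CHR.PhamS
import Crest.Agent.CHR.PhamD2

set_option autoImplicit false

namespace Crest.Agent.CHR.Pham

open MvPolynomial Finset

private theorem spec_update {S : Finset ℕ} {v : ℕ → ℂ} {s : ℕ} (t : ℂ) (f : P)
    (hf : s ∉ f.vars) : spec S (Function.update v s t) f = spec S v f := by
  rw [spec, spec, aeval_def, aeval_def]
  refine eval₂Hom_congr' rfl ?_ rfl
  intro i hi _
  have : i ≠ s := fun h => hf (h ▸ hi)
  rw [Function.update_of_ne this]

/-- CHUNK R316-PHAMU: changing a parameter that does not occur in the system.
PROOF: `sol_of_complex` for the new data; `spec S (update v s t) (q j) = spec S v (q j)` (monomials, or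
`eval₂Hom_congr'`), the points restricted to `S` do not change (`s ∉ S`), so (h4) is
`sol_tr_complex hZ`.  `all`: given a solution `x` over `update v s t`, `update x s (v s)` is a solution
over `v`. -/
theorem sol_update {S : Finset ℕ} {m : ℕ → ℕ} {q : ℕ → P} {v : ℕ → ℂ} {N : ℕ}
    {Z : Fin N → ℕ → ℂ} (hZ : Sol S m q v Z) (s : ℕ) (hs : s ∉ S)
    (hsq : ∀ j ∈ S, s ∉ (q j).vars) (t : ℂ) :
    Sol S m q (Function.update v s t) (fun i => Function.update (Z i) s t) := by
  have hne : ∀ j ∈ S, j ≠ s := fun j hj h => hs (h ▸ hj)
  refine sol_of_complex ?_ ?_ ?_ ?_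
  · intro i j hj
    by_cases h : j = s
    · subst h; rw [Function.update_self, Function.update_self]
    · rw [Function.update_of_ne h, Function.update_of_ne h, hZ.off i j hj]
  · intro i j hj
    rw [Function.update_of_ne (hne j hj), aeval_update_of_notMem s (Z i) t _ (hsq j hj)]
    exact hZ.sol i j hj
  · intro x hx1 hx2
    obtain ⟨i, hi⟩ := hZ.all (Function.update x s (v s)) (by
      intro j hj
      by_cases h : j = s
      · subst h; rw [Function.update_self]
      · rw [Function.update_of_ne h, hx1 j hj, Function.update_of_ne h]) (by
      intro j hj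
      rw [Function.update_of_ne (hne j hj), aeval_update_of_notMem s x _ _ (hsq j hj)]
      exact hx2 j hj)
    refine ⟨i, ?_⟩
    funext j
    by_cases h : j = s
    · subst h; rw [Function.update_self, hx1 j hs, Function.update_self]
    · rw [Function.update_of_ne h, hi, Function.update_of_ne h]
  · intro h K hK
    have e1 : (fun j : S => spec S (Function.update v s t) (q j)) = fun j : S => spec S v (q j) := by
      funext j
      exact spec_update t _ (hsq j j.2)
    have e2 : ∀ i : Fin N, (fun j : S => Function.update (Z i) s t j) = fun j : S => Z i j := by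
      intro i
      funext j
      exact Function.update_of_ne (hne j j.2) _ _
    rw [e1, ← sol_tr_complex hZ h K hK]
    exact Finset.sum_congr rfl fun i _ => by rw [e2]

end Crest.Agent.CHR.Pham
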