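import Crest.Agent.CHR.PhamD1
import Crest.Agent.CHR.PhamU

set_option autoImplicit false

namespace Crest.Agent.CHR.Pham

open MvPolynomial Finset

/-- CHUNK R316-PHAMN (first part): the norm.
PROOF.  `coeff_spec1 y v N` turns the right side into the coefficient of `X^N` of
`spec1 y v (∑_k C (1/k!) (∑_l C(..) * trS .. (g^l) * X y^l)^k)`; `spec1` is an algebra hom,
`spec1 (X y) = X`, `spec1 y v (trS ..) = C (aeval v (trS ..))` (`spec1_of_notMem`, `notMem_vars_trS`,
`notMem_vars_pow`) `= C (∑_i (aeval (Z i) g)^l)` (`hZ.tr`, `sdeg_pow`, `l ≤ N`); then `exp_newton`. -/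
theorem norm' {S : Finset ℕ} {m : ℕ → ℕ} {q : ℕ → P} {v : ℕ → ℂ} {N : ℕ} {Z : Fin N → ℕ → ℂ}
    (hZ : Sol S m q v Z) (g : P) {y K : ℕ} (hy : y ∉ S) (hyq : ∀ j ∈ S, y ∉ (q j).vars)
    (hyg : y ∉ g.vars) (hK : sdeg S g * N ≤ K) :
    ∏ i, aeval (Z i) g = aeval v (nrS S m q y K N g) := by
  have htr : ∀ l ∈ Icc 1 N, spec1 y v (trS S m q K (g ^ l)) =
      Polynomial.C (∑ i, aeval (Z i) g ^ l) := by
    intro l hl
    rw [Finset.mem_Icc] at hl
    rw [spec1_of_notMem y v _ (notMem_vars_trS S m q K (g ^ l) y hy hyq (notMem_vars_pow g y l hyg)),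
      ← hZ.tr K (g ^ l) ?_]
    · simp only [map_pow]
    · refine (sdeg_pow S g l).trans (le_trans ?_ hK)
      rw [mul_comm]
      exact Nat.mul_le_mul_left _ hl.2
  have hC : ∀ a : ℚ, spec1 y v (C a) = Polynomial.C (algebraMap ℚ ℂ a) := by
    intro a
    unfold spec1
    rw [aeval_C]
    rfl
  have hX : spec1 y v (X y) = Polynomial.X := by
    unfold spec1
    rw [aeval_X, if_pos rfl]
  unfold nrS
  rw [← coeff_spec1, ← exp_newton N (fun i => aeval (Z i) g)]
  congr 1
  rw [map_sum]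
  refine Finset.sum_congr rfl fun k _ => ?_
  rw [map_mul, map_pow, map_sum, hC]
  congr 2
  · simp
  · refine Finset.sum_congr rfl fun l hl => ?_
    rw [map_mul (spec1 y v), map_mul (spec1 y v), map_pow (spec1 y v), hX, hC, htr l hl, Polynomial.C_mul]
    congr 3
    simp

theorem coeff_prod_lin {ι : Type} [DecidableEq ι] (s : Finset ι) (a b : ι → ℂ) (ha : ∀ i ∈ s, a i ≠ 0) :
    (∏ i ∈ s, (Polynomial.C (a i) + Polynomial.C (b i) * Polynomial.X)).coeff 0 = ∏ i ∈ s, a i ∧
    (∏ i ∈ s, (Polynomial.C (a i) + Polynomial.C (b i) * Polynomial.X)).coeff 1 =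
      (∏ i ∈ s, a i) * ∑ i ∈ s, b i / a i := by
  induction s using Finset.induction_on with
  | empty => simp [Polynomial.coeff_one]
  | insert i s hi ih =>
    obtain ⟨h1, h2⟩ := ih fun j hj => ha j (Finset.mem_insert_of_mem hj)
    have hai := ha i (Finset.mem_insert_self i s)
    rw [Finset.prod_insert hi, Finset.prod_insert hi, Finset.sum_insert hi, add_mul, mul_assoc]
    constructor
    · rw [Polynomial.coeff_add, Polynomial.coeff_C_mul, Polynomial.coeff_C_mul, Polynomial.mul_coeff_zero,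
        Polynomial.coeff_X_zero, h1]
      ring
    · rw [Polynomial.coeff_add, Polynomial.coeff_C_mul, Polynomial.coeff_C_mul, Polynomial.coeff_X_mul,
        h1, h2]
      field_simp
      ring

/-- second part: sums of fractions.
PROOF.  Let `G = nrS S m q y K N (g + X s * f)`.  For all `t`,
`(spec1 s v G).eval t = aeval (update v s t) G = ∏_i aeval (update (Z i) s t) (g + X s * f)
= ∏_i (g_i + t f_i)` (`eval_spec1`, `norm'` for `sol_update hZ s .. t`, `aeval_update_of_notMem`,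
`sdeg_add_X_mul`).  So `spec1 s v G = ∏_i (C g_i + C f_i X)` (`Polynomial.funext`), coefficient of
`X^1`: `∑_i f_i ∏_{j≠i} g_j`, and `coeff_spec1`.  Divide by `∏ g_j = aeval v (nrS .. g)`. -/
theorem sumFrac' {S : Finset ℕ} {m : ℕ → ℕ} {q : ℕ → P} {v : ℕ → ℂ} {N : ℕ} {Z : Fin N → ℕ → ℂ}
    (hZ : Sol S m q v Z) (f g : P) {y s K : ℕ} (hy : y ∉ S) (hs : s ∉ S) (hys : y ≠ s)
    (hyq : ∀ j ∈ S, y ∉ (q j).vars) (hsq : ∀ j ∈ S, s ∉ (q j).vars)
    (hyg : y ∉ g.vars) (hyf : y ∉ f.vars) (hsg : s ∉ g.vars) (hsf : s ∉ f.vars)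
    (hK : max (sdeg S g) (sdeg S f) * N ≤ K) (hg : ∀ i, aeval (Z i) g ≠ 0) :
    aeval v (nrS S m q y K N g) ≠ 0 ∧
    ∑ i, aeval (Z i) f / aeval (Z i) g =
      aeval v (coefS {s} (fun _ => 1) (nrS S m q y K N (g + X s * f))) /
        aeval v (nrS S m q y K N g) := by
  have hn : ∏ i, aeval (Z i) g = aeval v (nrS S m q y K N g) :=
    norm' hZ g hy hyq hyg (le_trans (Nat.mul_le_mul_right _ (le_max_left _ _)) hK)
  have hne : aeval v (nrS S m q y K N g) ≠ 0 := by
    rw [← hn]
    exact Finset.prod_ne_zero_iff.mpr fun i _ => hg i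
  refine ⟨hne, ?_⟩
  have hyG : y ∉ (g + X s * f).vars := by
    intro hmem
    rcases Finset.mem_union.mp (MvPolynomial.vars_add_subset _ _ hmem) with h | h
    · exact hyg h
    · rcases Finset.mem_union.mp (MvPolynomial.vars_mul _ _ h) with h | h
      · rw [MvPolynomial.vars_X, Finset.mem_singleton] at h
        exact hys h
      · exact hyf h
  have h1 : ∀ t : ℂ, (spec1 s v (nrS S m q y K N (g + X s * f))).eval t =
      ∏ i, (aeval (Z i) g + t * aeval (Z i) f) := by
    intro t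
    rw [eval_spec1, ← norm' (sol_update hZ s hs hsq t) (g + X s * f) hy hyq hyG
      (le_trans (Nat.mul_le_mul_right _ (sdeg_add_X_mul S f g s hs)) hK)]
    refine Finset.prod_congr rfl fun i _ => ?_
    rw [map_add, map_mul, aeval_update_of_notMem s (Z i) t g hsg, aeval_update_of_notMem s (Z i) t f hsf,
      aeval_X, Function.update_self]
  have h2 : spec1 s v (nrS S m q y K N (g + X s * f)) =
      ∏ i, (Polynomial.C (aeval (Z i) g) + Polynomial.C (aeval (Z i) f) * Polynomial.X) := by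
    apply Polynomial.funext
    intro t
    rw [h1, Polynomial.eval_prod]
    refine Finset.prod_congr rfl fun i _ => ?_
    rw [Polynomial.eval_add, Polynomial.eval_mul, Polynomial.eval_C, Polynomial.eval_C, Polynomial.eval_X, mul_comm]
  have h3 := (coeff_prod_lin Finset.univ (fun i => aeval (Z i) g) (fun i => aeval (Z i) f) fun i _ => hg i).2
  rw [← coeff_spec1, h2, eq_div_iff hne, ← hn, mul_comm]
  exact h3.symm

end Crest.Agent.CHR.Pham
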