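import Crest.Agent.CHR.PhamC

set_option autoImplicit false

namespace Crest.Agent.CHR.Pham

open MvPolynomial Finset

private theorem phs_spec_monomial (S : Finset ℕ) (v : ℕ → ℂ) (a : S →₀ ℕ) :
    spec S v (monomial (a.embDomain ⟨Subtype.val, Subtype.val_injective⟩) (1 : ℚ)) =
      monomial a (1 : ℂ) := by
  unfold spec
  rw [aeval_monomial, map_one, one_mul, Finsupp.prod_embDomain, monomial_eq, C_1, one_mul]
  refine Finsupp.prod_congr fun j _ => ?_
  have : ((⟨Subtype.val, Subtype.val_injective⟩ : S ↪ ℕ) j) = (j : ℕ) := rfl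
  rw [this, dif_pos j.2]

private theorem phs_sdeg_monomial (S : Finset ℕ) (a : S →₀ ℕ) :
    sdeg S (monomial (a.embDomain ⟨Subtype.val, Subtype.val_injective⟩) (1 : ℚ)) =
      a.sum (fun _ e => e) := by
  classical
  unfold sdeg
  rw [support_monomial, if_neg one_ne_zero, Finset.sup_singleton, Finsupp.sum_fintype _ _ (fun _ => rfl),
    ← Finset.sum_coe_sort S]
  refine Finset.sum_congr rfl fun j _ => ?_
  exact Finsupp.embDomain_apply_self ⟨Subtype.val, Subtype.val_injective⟩ a j

private theorem phs_res_lin {σ : Type} [Fintype σ] [DecidableEq σ] (m : σ → ℕ)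
    (q : σ → MvPolynomial σ ℂ) (K : ℕ) (J h : MvPolynomial σ ℂ) :
    res m q K (h * J) = ∑ a ∈ h.support, coeff a h * res m q K (monomial a 1 * J) := by
  have hh : h * J = ∑ a ∈ h.support, C (coeff a h) * (monomial a 1 * J) := by
    conv_lhs => rw [h.as_sum, Finset.sum_mul]
    refine Finset.sum_congr rfl fun a _ => ?_
    rw [← mul_assoc, C_mul_monomial, mul_one]
  unfold res
  rw [hh, Finset.sum_mul, coeff_sum]
  refine Finset.sum_congr rfl fun a _ => ?_
  rw [mul_assoc, coeff_C_mul]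

/-- CHUNK R316-PHAMS (first part): `Sol` in terms of the specialised system.
PROOF.  (→) `h` is a complex linear combination of monomials `x^a = spec S v (∏_{j∈S} X_j^{a_j})`,
use `hZ.tr` with `K' = max K ...`?  No: for a monomial `x^a` in the support of `h`, `|a| ≤ K`, take
`g = ∏_{j ∈ S} X_j^{a_j}`, `sdeg S g ≤ K`, `hZ.tr K g`, `aeval_trS`, `eval_spec` (with `hZ.off`);
both sides of the claim are linear in `h`. -/
theorem sol_tr_complex {S : Finset ℕ} {m : ℕ → ℕ} {q : ℕ → P} {v : ℕ → ℂ} {N : ℕ}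
    {Z : Fin N → ℕ → ℂ} (hZ : Sol S m q v Z) (h : MvPolynomial S ℂ) (K : ℕ)
    (hK : h.totalDegree ≤ K) :
    ∑ i, eval (fun j : S => Z i j) h =
      res (fun j : S => m j) (fun j : S => spec S v (q j)) K
        (h * jac (fun j : S => m j) (fun j : S => spec S v (q j))) := by
  rw [phs_res_lin]
  have hh : ∀ i, eval (fun j : S => Z i j) h =
      ∑ a ∈ h.support, coeff a h * eval (fun j : S => Z i j) (monomial a (1 : ℂ)) := by
    intro i
    conv_lhs => rw [h.as_sum, map_sum]
    refine Finset.sum_congr rfl fun a _ => ?_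
    rw [eval_monomial, eval_monomial, one_mul]
  simp only [hh]
  rw [Finset.sum_comm]
  refine Finset.sum_congr rfl fun a ha => ?_
  rw [← Finset.mul_sum]
  congr 1
  have hdeg : sdeg S (monomial (a.embDomain ⟨Subtype.val, Subtype.val_injective⟩) (1 : ℚ)) ≤ K := by
    rw [phs_sdeg_monomial]
    exact (le_totalDegree ha).trans hK
  have h1 := hZ.tr K _ hdeg
  rw [aeval_trS, phs_spec_monomial] at h1
  rw [← h1]
  refine Finset.sum_congr rfl fun i _ => ?_
  rw [← eval_spec S v (Z i) (hZ.off i), phs_spec_monomial]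

/-- second part: converse.  PROOF: for rational `g` take `h = spec S v g`; `totalDegree_spec`,
`aeval_trS`, `eval_spec`. -/
theorem sol_of_complex {S : Finset ℕ} {m : ℕ → ℕ} {q : ℕ → P} {v : ℕ → ℂ} {N : ℕ}
    {Z : Fin N → ℕ → ℂ} (h1 : ∀ i, ∀ j ∉ S, Z i j = v j)
    (h2 : ∀ i, ∀ j ∈ S, Z i j ^ m j = aeval (Z i) (q j))
    (h3 : ∀ x : ℕ → ℂ, (∀ j ∉ S, x j = v j) → (∀ j ∈ S, x j ^ m j = aeval x (q j)) → ∃ i, Z i = x)
    (h4 : ∀ (h : MvPolynomial S ℂ) (K : ℕ), h.totalDegree ≤ K →
      ∑ i, eval (fun j : S => Z i j) h =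
      res (fun j : S => m j) (fun j : S => spec S v (q j)) K
        (h * jac (fun j : S => m j) (fun j : S => spec S v (q j)))) :
    Sol S m q v Z := by
  refine ⟨h1, h2, h3, ?_⟩
  intro K g hg
  rw [aeval_trS, ← h4 (spec S v g) K ((totalDegree_spec S v g).trans hg)]
  refine Finset.sum_congr rfl fun i _ => ?_
  rw [eval_spec S v (Z i) (h1 i)]

/-- third part: all traces determine the multiset.  PROOF: let `T` be the finite set of all points
`Z i`, `Z' i`.  For `p ∈ T` there is a polynomial `e` with `eval p e = 1`, `eval p' e = 0` for the other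
`p' ∈ T` (product over `p' ≠ p` of `(X_j - C (p' j)) * C (p j - p' j)⁻¹` for a coordinate `j` with
`p j ≠ p' j`).  The sums give `#{i | Z i = p} = #{i | Z' i = p}` (cast to `ℂ`).  Two functions on `Fin N`
with equal fibre cardinalities differ by a permutation. -/
theorem exists_perm_of_sums {σ : Type} [Fintype σ] [DecidableEq σ] {N : ℕ} (Z Z' : Fin N → σ → ℂ)
    (h : ∀ p : MvPolynomial σ ℂ, ∑ i, eval (Z i) p = ∑ i, eval (Z' i) p) :
    ∃ c : Equiv.Perm (Fin N), ∀ i, Z (c i) = Z' i := by
  classical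
  have hlin : ∀ p p' : σ → ℂ, ∃ l : MvPolynomial σ ℂ, p' ≠ p → eval p l = 1 ∧ eval p' l = 0 := by
    intro p p'
    by_cases hpp : p' = p
    · exact ⟨0, fun h => absurd hpp h⟩
    · obtain ⟨j, hj⟩ := Function.ne_iff.1 hpp
      refine ⟨(X j - C (p' j)) * C ((p j - p' j)⁻¹), fun _ => ⟨?_, ?_⟩⟩
      · simp only [map_mul, map_sub, eval_X, eval_C]
        exact mul_inv_cancel₀ (sub_ne_zero.2 (Ne.symm hj))
      · simp
  choose l hl using hlin
  have hcard : ∀ p : σ → ℂ, Fintype.card {i // Z' i = p} = Fintype.card {i // Z i = p} := by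
    intro p
    set T : Finset (σ → ℂ) := (Finset.univ.image Z ∪ Finset.univ.image Z').erase p with hT
    set e : MvPolynomial σ ℂ := ∏ p' ∈ T, l p p' with he
    have he1 : eval p e = 1 := by
      rw [he, map_prod]
      refine Finset.prod_eq_one fun p' hp' => ?_
      exact (hl p p' (Finset.ne_of_mem_erase hp')).1
    have he0 : ∀ p' ∈ T, eval p' e = 0 := by
      intro p' hp'
      rw [he, map_prod]
      exact Finset.prod_eq_zero hp' (hl p p' (Finset.ne_of_mem_erase hp')).2
    have hsum : ∀ Y : Fin N → σ → ℂ, (∀ i, Y i ≠ p → Y i ∈ T) →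
        ∑ i, eval (Y i) e = ((Fintype.card {i // Y i = p} : ℕ) : ℂ) := by
      intro Y hY
      rw [Fintype.card_subtype, Finset.card_filter]
      push_cast
      refine Finset.sum_congr rfl fun i _ => ?_
      split_ifs with hi
      · rw [hi, he1]
      · exact he0 _ (hY i hi)
    have hZ := hsum Z (fun i hi => Finset.mem_erase.2 ⟨hi, Finset.mem_union_left _
      (Finset.mem_image_of_mem _ (Finset.mem_univ _))⟩)
    have hZ' := hsum Z' (fun i hi => Finset.mem_erase.2 ⟨hi, Finset.mem_union_right _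
      (Finset.mem_image_of_mem _ (Finset.mem_univ _))⟩)
    have := h e
    rw [hZ, hZ'] at this
    exact_mod_cast this.symm
  refine ⟨Equiv.ofFiberEquiv (f := Z') (g := Z) (fun p => Fintype.equivOfCardEq (hcard p)), ?_⟩
  intro i
  exact Equiv.ofFiberEquiv_map _ i

end Crest.Agent.CHR.Pham
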