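import Crest.Agent.CHR.PhamG
import Crest.Agent.CHR.PhamS

set_option autoImplicit false

namespace Crest.Agent.CHR.Pham

open MvPolynomial Finset

/-- assembly: from `exists_pts` -/
theorem exists_sol' {S : Finset ℕ} {m : ℕ → ℕ} {q : ℕ → P} (h : IsPham S m q) (v : ℕ → ℂ) :
    ∃ Z : Fin (∏ j ∈ S, m j) → ℕ → ℂ, Sol S m q v Z := by
  have hs : Sys (fun j : S => m j) (fun j : S => spec S v (q j)) :=
    ⟨fun j => (h j j.2).1, fun j => (totalDegree_spec S v (q j)).trans_lt (h j j.2).2⟩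
  obtain ⟨Z', h1, h2, h3⟩ := exists_pts hs
  have hN : ∏ j ∈ S, m j = ∏ j : S, m j := (Finset.prod_coe_sort S m).symm
  rw [hN]
  let Z : Fin (∏ j : S, m j) → ℕ → ℂ := fun i j => if hj : j ∈ S then Z' i ⟨j, hj⟩ else v j
  have hZS : ∀ i, (fun j : S => Z i j) = Z' i := by
    intro i; funext j; simp [Z]
  have hoff : ∀ i, ∀ j ∉ S, Z i j = v j := by
    intro i j hj; simp [Z, hj]
  refine ⟨Z, sol_of_complex hoff ?_ ?_ ?_⟩
  · intro i j hj
    rw [← eval_spec S v (Z i) (hoff i), hZS, ← h1 i ⟨j, hj⟩]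
    simp [Z, hj]
  · intro x hx1 hx2
    obtain ⟨i, hi⟩ := h2 (fun j : S => x j) (by
      intro j
      rw [eval_spec S v x hx1]
      exact hx2 j j.2)
    refine ⟨i, ?_⟩
    funext j
    by_cases hj : j ∈ S
    · have := congrFun hi ⟨j, hj⟩
      simp only [Z, hj, dite_true]
      exact this
    · rw [hoff i j hj, hx1 j hj]
  · intro g K hK
    rw [← h3 g K hK]
    exact Finset.sum_congr rfl fun i _ => by rw [hZS]

end Crest.Agent.CHR.Pham
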