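import Crest.Agent.CHR.PhamDefs
import Crest.Agent.CHR.PhamT
import Crest.Agent.CHR.PhamN
import Crest.Agent.CHR.PhamH
import Crest.Agent.CHR.PhamI

/-!
# MODULE M4 (row 316): Pham systems.  Interface.  Paper proof: idea 447, part C.
-/

set_option autoImplicit false

namespace Crest.Agent.CHR

open MvPolynomial Finset

/-- C4: solutions with multiplicity and the trace formula.
PROOF: idea 447 (C1)-(C4).  Specialise the parameters to `v`, work over `ℂ` with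
`A = MvPolynomial S ℂ / (X_j^{m_j} - q_j)`. -/
theorem exists_sol {S : Finset ℕ} {m : ℕ → ℕ} {q : ℕ → P} (h : IsPham S m q) (v : ℕ → ℂ) :
    ∃ Z : Fin (∏ j ∈ S, m j) → ℕ → ℂ, Sol S m q v Z :=
  Pham.exists_sol' h v

/-- C5: the norm.  PROOF: `nrS` only uses the power sums `p_l = ∑ g(Z i)^l = aeval v (trS (g^l))`;
`∏ (1 + g_i y) = exp(∑_l (-1)^{l-1} p_l y^l / l)` as power series (both solve the same differential
equation `F' = L' F`, `F(0) = 1`), coefficient of `y^N`. -/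
theorem Sol.norm {S : Finset ℕ} {m : ℕ → ℕ} {q : ℕ → P} {v : ℕ → ℂ} {N : ℕ} {Z : Fin N → ℕ → ℂ}
    (hZ : Sol S m q v Z) (g : P) {y K : ℕ} (hy : y ∉ S) (hyq : ∀ j ∈ S, y ∉ (q j).vars)
    (hyg : y ∉ g.vars) (hK : sdeg S g * N ≤ K) :
    ∏ i, aeval (Z i) g = aeval v (nrS S m q y K N g) :=
  Pham.norm' hZ g hy hyq hyg hK

/-- C5: sums of fractions.  `s` is another auxiliary variable. -/
theorem Sol.sumFrac {S : Finset ℕ} {m : ℕ → ℕ} {q : ℕ → P} {v : ℕ → ℂ} {N : ℕ} {Z : Fin N → ℕ → ℂ}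
    (hZ : Sol S m q v Z) (f g : P) {y s K : ℕ} (hy : y ∉ S) (hs : s ∉ S) (hys : y ≠ s)
    (hyq : ∀ j ∈ S, y ∉ (q j).vars) (hsq : ∀ j ∈ S, s ∉ (q j).vars)
    (hyg : y ∉ g.vars) (hyf : y ∉ f.vars) (hsg : s ∉ g.vars) (hsf : s ∉ f.vars)
    (hK : max (sdeg S g) (sdeg S f) * N ≤ K) (hg : ∀ i, aeval (Z i) g ≠ 0) :
    aeval v (nrS S m q y K N g) ≠ 0 ∧
    ∑ i, aeval (Z i) f / aeval (Z i) g =
      aeval v (coefS {s} (fun _ => 1) (nrS S m q y K N (g + X s * f))) /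
        aeval v (nrS S m q y K N g) :=
  Pham.sumFrac' hZ f g hy hs hys hyq hsq hyg hyf hsg hsf hK hg

/-- L1 norm of a polynomial at a parameter point: bound for the value of `q j` -/
noncomputable def l1at (v : ℕ → ℂ) (S : Finset ℕ) (f : P) : ℝ :=
  ∑ m ∈ f.support, |((coeff m f : ℚ) : ℝ)| * ∏ i ∈ m.support \ S, ‖v i‖ ^ m i

/-- C6: root bound -/
theorem Sol.bound {S : Finset ℕ} {m : ℕ → ℕ} {q : ℕ → P} {v : ℕ → ℂ} {N : ℕ} {Z : Fin N → ℕ → ℂ}
    (h : IsPham S m q) (hZ : Sol S m q v Z) (B : ℝ) (hB : 1 ≤ B) (hq : ∀ j ∈ S, l1at v S (q j) ≤ B)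
    (i : Fin N) (j : ℕ) (hj : j ∈ S) : ‖Z i j‖ ≤ B :=
  Pham.bound' h hZ B hB hq i j hj

/-- over a real parameter point the solutions are closed under complex conjugation (with
multiplicity): the multisets `{Z i}` and `{conj (Z i)}` agree.
PROOF: all traces `∑ g(Z i)` (`g` rational) are real, so the two multisets have the same sums
`∑ g` for all rational polynomials `g` in the variables `S`; hence (interpolation: complex
combinations of rational polynomials are all complex polynomials) they are equal. -/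
theorem Sol.conj {S : Finset ℕ} {m : ℕ → ℕ} {q : ℕ → P} {v : ℕ → ℂ} {N : ℕ} {Z : Fin N → ℕ → ℂ}
    (hZ : Sol S m q v Z) (hv : ∀ j, (starRingEnd ℂ) (v j) = v j) :
    ∃ c : Equiv.Perm (Fin N), ∀ i j, Z (c i) j = (starRingEnd ℂ) (Z i j) :=
  Pham.conj' hZ hv

end Crest.Agent.CHR
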