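import Crest.Agent.CHR.TqB

/-!
# Row 316, module M5: positivity test, counting, assembly.
-/

set_option autoImplicit false

namespace Crest.Agent.CHR

open Finset

/-- centres -/
noncomputable def cen (P κ : ℕ) : ℝ := 2 ^ κ / 2 ^ (P + 1)

/-- the ideal value of the positivity test -/
def gam (p : Par) (V k : ℕ) (s : ℂ) : Prop :=
  ¬∀ κ ∈ range (2 * p.P + 3), ¬‖seedA V k *
    ((s - 2 ^ κ / 2 ^ (p.P + 1)) / (3 / 4 * (2 ^ κ / 2 ^ (p.P + 1))))‖ < 1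

theorem posT_nb {p : Par} {V K k : ℕ} (hV : 1 ≤ V) (hK : 2 ≤ K) (hM : 8 * V * K ^ 2 ≤ p.M) {s : ℂ}
    (hg : ∀ κ < 2 * p.P + 3, Gd V k
      ((s - 2 ^ κ / 2 ^ (p.P + 1)) / (3 / 4 * (2 ^ κ / 2 ^ (p.P + 1))))) :
    Nb ((1 + dl K) ^ (2 * p.P + 3)) (posT p (seedA V k) s) (gam p V k s) := by
  have h1 := Nb.prod (E := 1 + dl K) (range (2 * p.P + 3))
    (z := fun κ => 1 - thr (seedA V k) p.M
      ((s - 2 ^ κ / 2 ^ (p.P + 1)) / (3 / 4 * (2 ^ κ / 2 ^ (p.P + 1)))))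
    (b := fun κ => ¬‖seedA V k *
      ((s - 2 ^ κ / 2 ^ (p.P + 1)) / (3 / 4 * (2 ^ κ / 2 ^ (p.P + 1))))‖ < 1) (by
      intro κ hκ
      exact (thr_gd hV hK hM (hg κ (mem_range.1 hκ))).1.not)
  rw [card_range] at h1
  exact h1.not

theorem gam_iff {p : Par} {V k : ℕ} (hk : k < V) {s : ℂ} (him : s.im = 0) (hs : ‖s‖ ≤ 2 ^ p.P)
    (h0 : s = 0 ∨ (1 / 2 : ℝ) ^ p.P ≤ ‖s‖) : gam p V k s ↔ 0 < s.re := by
  have ha1 : 1 ≤ aR V k := aR_geq
  have ha2 := aR_ltq hk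
  have hsr : s = ((s.re : ℝ) : ℂ) := by
    apply Complex.ext
    · simp
    · simp [him]
  have hcen : ∀ κ, 0 < cen p.P κ := fun κ => by unfold cen; positivity
  have hX : ∀ κ, ‖seedA V k * ((s - 2 ^ κ / 2 ^ (p.P + 1)) / (3 / 4 * (2 ^ κ / 2 ^ (p.P + 1))))‖ =
      aR V k * (|s.re - cen p.P κ| / (3 / 4 * cen p.P κ)) := by
    intro κ
    rw [norm_seedA_mul]
    congr 1
    have e : (s - 2 ^ κ / 2 ^ (p.P + 1)) / (3 / 4 * (2 ^ κ / 2 ^ (p.P + 1))) =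
        (((s.re - cen p.P κ) / (3 / 4 * cen p.P κ) : ℝ) : ℂ) := by
      conv_lhs => rw [hsr]
      unfold cen
      push_cast
      rfl
    rw [e, Complex.norm_real, Real.norm_eq_abs, abs_div,
      abs_of_pos (by have := hcen κ; positivity : 0 < 3 / 4 * cen p.P κ)]
  unfold gam
  constructor
  · intro hn
    by_contra hle
    push Not at hle
    refine hn fun κ _ hlt => ?_
    rw [hX] at hlt
    have hc := hcen κ
    have h1 : 1 ≤ |s.re - cen p.P κ| / (3 / 4 * cen p.P κ) := by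
      rw [one_le_div (by positivity), abs_sub_comm]
      refine le_trans ?_ (le_abs_self _)
      linarith
    have h2 : 1 * 1 ≤ aR V k * (|s.re - cen p.P κ| / (3 / 4 * cen p.P κ)) := by gcongr
    linarith
  · intro hpos hall
    have hne : s ≠ 0 := by
      intro h
      rw [h] at hpos
      simp at hpos
    have hnorm : ‖s‖ = s.re := by
      rw [hsr, Complex.norm_real, Real.norm_eq_abs, Complex.ofReal_re, abs_of_pos hpos]
    rw [hnorm] at hs h0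
    have hlow : (1 / 2 : ℝ) ^ p.P ≤ s.re := h0.resolve_left hne
    have hex : ∃ κ, s.re ≤ cen p.P κ := by
      refine ⟨2 * p.P + 1, ?_⟩
      unfold cen
      rw [le_div_iff₀ (by positivity)]
      calc s.re * 2 ^ (p.P + 1) ≤ 2 ^ p.P * 2 ^ (p.P + 1) := by gcongr
        _ = 2 ^ (2 * p.P + 1) := by rw [← pow_add]; congr 1; omega
    classical
    have hf := Nat.find_spec hex
    have hmin := Nat.find_min' hex (m := 2 * p.P + 1) (by
      unfold cen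
      rw [le_div_iff₀ (by positivity)]
      calc s.re * 2 ^ (p.P + 1) ≤ 2 ^ p.P * 2 ^ (p.P + 1) := by gcongr
        _ = 2 ^ (2 * p.P + 1) := by rw [← pow_add]; congr 1; omega)
    have hne0 : Nat.find hex ≠ 0 := by
      intro h
      rw [h] at hf
      unfold cen at hf
      rw [pow_zero, le_div_iff₀ (by positivity)] at hf
      have h1 : (1 / 2 : ℝ) ^ p.P * 2 ^ (p.P + 1) ≤ s.re * 2 ^ (p.P + 1) := by gcongr
      have h2 : (1 / 2 : ℝ) ^ p.P * 2 ^ (p.P + 1) = 2 := by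
        rw [pow_succ, ← mul_assoc, ← mul_pow]; norm_num
      linarith
    obtain ⟨m, hm⟩ := Nat.exists_eq_succ_of_ne_zero hne0
    have hm' : Nat.find hex = m + 1 := hm
    have h3 := Nat.find_min hex (m := m) (by omega)
    push Not at h3
    have h4 : cen p.P (m + 1) = 2 * cen p.P m := by unfold cen; rw [pow_succ]; ring
    rw [hm', h4] at hf
    refine hall (m + 1) (mem_range.2 (by omega)) ?_
    rw [hX, h4]
    have hc := hcen m
    have h5 : |s.re - 2 * cen p.P m| / (3 / 4 * (2 * cen p.P m)) < 2 / 3 := by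
      rw [div_lt_iff₀ (by positivity), abs_lt]
      constructor <;> linarith
    have h6 : 0 ≤ |s.re - 2 * cen p.P m| / (3 / 4 * (2 * cen p.P m)) := by positivity
    calc aR V k * (|s.re - 2 * cen p.P m| / (3 / 4 * (2 * cen p.P m)))
        ≤ 3 / 2 * (|s.re - 2 * cen p.P m| / (3 / 4 * (2 * cen p.P m))) := by gcongr
      _ < 1 := by linarith

theorem seedA_zero (V : ℕ) : seedA V 0 = 1 := by unfold seedA; simp

/-- numbers away from the unit circle are good for the seed `1` -/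
theorem gd_zero {V : ℕ} (hV : 1 ≤ V) {x : ℂ} (h : ‖x‖ ≤ 3 / 4 ∨ 7 / 6 ≤ ‖x‖) : Gd V 0 x := by
  unfold Gd
  rw [seedA_zero, one_mul]
  have hV1 : (1 : ℝ) ≤ V := by exact_mod_cast hV
  have h1 : 1 / (8 * (V : ℝ)) ≤ 1 / 8 := by
    rw [div_le_div_iff₀ (by positivity) (by norm_num)]
    linarith
  rcases h with h | h
  · exact h1.trans (le_abs.2 (Or.inr (by linarith)))
  · exact h1.trans (le_abs.2 (Or.inl (by linarith)))

theorem pow_sub_one_le {δ : ℝ} (hδ : 0 ≤ δ) {n : ℕ} (hn : 2 * (n * δ) ≤ 1) :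
    (1 + δ) ^ n - 1 ≤ 2 * (n * δ) := by
  induction n with
  | zero => simp
  | succ n ih =>
    push_cast at hn ⊢
    have h1 : 2 * (n * δ) ≤ 1 := by nlinarith
    have h2 := ih h1
    rw [pow_succ]
    nlinarith [mul_nonneg (Nat.cast_nonneg (α := ℝ) n) hδ]

theorem dl_num {K : ℕ} (hK : 100 ≤ K) : 4 * (K : ℝ) ^ 4 * dl K ≤ 1 / 8 := by
  have h1 : (K : ℝ) ≤ 2 ^ K := by exact_mod_cast (Nat.lt_two_pow_self (n := K)).le
  unfold dl
  rw [mul_div_assoc', div_le_div_iff₀ (by positivity) (by norm_num)]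
  calc 4 * (K : ℝ) ^ 4 * 4 * 8 ≤ 4 * (2 ^ K) ^ 4 * 4 * 8 := by gcongr
    _ = 2 ^ (4 * K + 7) := by rw [pow_add, mul_comm 4 K, pow_mul]; ring
    _ ≤ 2 ^ (K ^ 2) := pow_le_pow_right₀ (by norm_num) (by nlinarith)
    _ = 1 * 2 ^ (K ^ 2) := by ring

namespace CData
variable {p : Par} (D : CData p)

/-- the standing assumptions on the numbers and seeds -/
structure Env (V K k₁ k₂ k₃ : ℕ) : Prop where
  ok : D.Ok
  hV : 1 ≤ V
  hK : 100 ≤ K
  hKs : p.N + p.T + p.L + p.P + D.S.card + D.na + 100 ≤ K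
  hM : 8 * V * K ^ 2 ≤ p.M
  hk₁ : k₁ < V
  hk₂ : k₂ < V
  hk₃ : k₃ < V
  g1 : ∀ κ ∈ D.S, ∀ t < p.T, ∀ i j, Gd V k₁ ((D.α κ j - D.α κ i) / p.R t)
  g2 : ∀ κ ∈ D.S, ∀ t < p.T, ∀ i, ∀ l ≤ p.L,
      Gd V k₂ ((wT p (seedA V k₁) (D.α κ) t i - (-1 + l * p.th)) / p.th)
  g3 : ∀ i, ∀ s : ℂ, (s = D.s₀ i ∨ s = D.b i ∨ ∃ a < D.na, s = D.u a i ∨ s = D.v a i) →
        ∀ κ ≤ 2 * p.P + 2, Gd V k₃ ((s - 2 ^ κ / 2 ^ (p.P + 1)) /
          (3 / 4 * (2 ^ κ / 2 ^ (p.P + 1))))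

variable {D}

theorem Ok.coord (h : D.Ok) {κ : ℕ} (hκ : κ ∈ D.S) : Coord p (D.α κ) where
  N1 := h.N1
  conj := by
    obtain ⟨c, hc⟩ := h.conj
    exact ⟨c, hc κ hκ⟩
  bd := h.bd κ hκ
  gap := h.gap κ hκ

variable {V K k₁ k₂ k₃ : ℕ}

theorem Env.K2 (e : D.Env V K k₁ k₂ k₃) : 2 ≤ K := le_trans (by norm_num) e.hK

theorem Env.dK (e : D.Env V K k₁ k₂ k₃) : 80 * (p.N * (p.N * dl K)) ≤ 1 / 10 := by
  have h1 := dl_num e.hK
  have hd := dl_pos K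
  have hN : (p.N : ℝ) ≤ K := by
    have := e.hKs
    exact_mod_cast (by omega : p.N ≤ K)
  have hK : (100 : ℝ) ≤ K := by exact_mod_cast e.hK
  have hN0 : (0 : ℝ) ≤ p.N := Nat.cast_nonneg _
  have h2 : (p.N : ℝ) * (p.N * dl K) ≤ K * (K * dl K) := by gcongr
  have h3 : (100 : ℝ) * 100 * (K * (K * dl K)) ≤ K * K * (K * (K * dl K)) := by gcongr
  have h4 : (K : ℝ) * K * (K * (K * dl K)) = K ^ 4 * dl K := by ring
  linarith

theorem Env.re_nb (e : D.Env V K k₁ k₂ k₃) (i : Fin p.N) :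
    Nb ((1 + dl K) ^ ((p.L + 1) * p.T * D.S.card)) (D.re (seedA V k₁) (seedA V k₂) i)
      (D.IsReal i) := by
  unfold re IsReal
  have := Nb.prod (E := ((1 + dl K) ^ (p.L + 1)) ^ p.T) D.S
    (z := fun κ => realT p (seedA V k₁) (seedA V k₂) (D.α κ) i)
    (b := fun κ => (D.α κ i).im = 0) (by
      intro κ hκ
      exact realT_nb (e.ok.coord hκ) e.hV e.K2 e.hM e.dK e.hk₁ e.hk₂ (e.g1 κ hκ) (e.g2 κ hκ) i)
  rw [← pow_mul, ← pow_mul, ← mul_assoc] at this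
  exact this

theorem Env.same_x (e : D.Env V K k₁ k₂ k₃) {κ : ℕ} (hκ : κ ∈ D.Sx) (i j : Fin p.N) :
    Gd V 0 ((D.α κ i - D.α κ j) * 2 ^ (p.P + 1)) ∧
      (‖seedA V 0 * ((D.α κ i - D.α κ j) * 2 ^ (p.P + 1))‖ < 1 ↔ D.α κ i = D.α κ j) := by
  have h2 : ‖(2 : ℂ) ^ (p.P + 1)‖ = 2 ^ (p.P + 1) := by
    rw [norm_pow]; norm_num
  rw [seedA_zero, one_mul]
  rcases e.ok.gap κ (e.ok.sub hκ) i j with h | h
  · have h0 : (D.α κ i - D.α κ j) * 2 ^ (p.P + 1) = 0 := by rw [h, sub_self, zero_mul]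
    rw [h0]
    refine ⟨gd_zero e.hV (Or.inl (by rw [norm_zero]; norm_num)), ?_⟩
    rw [norm_zero]
    exact ⟨fun _ => h, fun _ => one_pos⟩
  · have h3 : 2 ≤ ‖(D.α κ i - D.α κ j) * 2 ^ (p.P + 1)‖ := by
      rw [norm_mul, h2]
      calc (2 : ℝ) = (1 / 2 : ℝ) ^ p.P * 2 ^ (p.P + 1) := by
            rw [pow_succ, ← mul_assoc, ← mul_pow]; norm_num
        _ ≤ _ := by gcongr
    refine ⟨gd_zero e.hV (Or.inr (by linarith)), ⟨fun hh => by linarith, fun hh => ?_⟩⟩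
    rw [hh, sub_self, norm_zero] at h
    have : (0 : ℝ) < (1 / 2) ^ p.P := by positivity
    linarith

theorem Env.same_nb (e : D.Env V K k₁ k₂ k₃) (i j : Fin p.N) :
    Nb ((1 + dl K) ^ D.Sx.card) (D.same i j) (∀ κ ∈ D.Sx, D.α κ i = D.α κ j) := by
  unfold same
  refine Nb.prod D.Sx (z := fun κ => thr 1 p.M ((D.α κ i - D.α κ j) * 2 ^ (p.P + 1)))
    (b := fun κ => D.α κ i = D.α κ j) ?_
  intro κ hκ
  have h1 := e.same_x hκ i j
  have h2 := (thr_gd e.hV e.K2 e.hM h1.1).1.congr h1.2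
  rwa [seedA_zero] at h2

theorem Env.pos_nb (e : D.Env V K k₁ k₂ k₃) (i : Fin p.N) {s : ℂ}
    (hs : s = D.s₀ i ∨ s = D.b i ∨ ∃ a < D.na, s = D.u a i ∨ s = D.v a i) :
    Nb ((1 + dl K) ^ (2 * p.P + 3)) (posT p (seedA V k₃) s) (gam p V k₃ s) :=
  posT_nb e.hV e.K2 e.hM fun κ hκ => e.g3 i s hs κ (by omega)

theorem Env.gam_iff (e : D.Env V K k₁ k₂ k₃) {i : Fin p.N} (hi : D.IsReal i) {s : ℂ}
    (hs : s = D.s₀ i ∨ s = D.b i ∨ ∃ a < D.na, s = D.u a i ∨ s = D.v a i) :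
    gam p V k₃ s ↔ 0 < s.re :=
  have h := e.ok.vals i hi s hs
  Crest.Agent.CHR.gam_iff e.hk₃ h.1 h.2.1 h.2.2

/-- exponents are small -/
theorem Env.expo (e : D.Env V K k₁ k₂ k₃) {n : ℕ} (hn : n ≤ 2 * K ^ 3) :
    p.N * ((1 + dl K) ^ n - 1) ≤ 1 / 8 := by
  have h1 := dl_num e.hK
  have hd := dl_pos K
  have hN : (p.N : ℝ) ≤ K := by
    have := e.hKs
    exact_mod_cast (by omega : p.N ≤ K)
  have hn' : (n : ℝ) ≤ 2 * K ^ 3 := by exact_mod_cast hn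
  have hK : (100 : ℝ) ≤ K := by exact_mod_cast e.hK
  have hK3 : (0 : ℝ) ≤ K ^ 3 * dl K := by positivity
  have h2 : 2 * (n * dl K) ≤ 4 * (K ^ 3 * dl K) := by
    have : (n : ℝ) * dl K ≤ 2 * K ^ 3 * dl K := by gcongr
    linarith
  have h3 : (K : ℝ) * (4 * (K ^ 3 * dl K)) = 4 * K ^ 4 * dl K := by ring
  have h4 : 1 * (4 * ((K : ℝ) ^ 3 * dl K)) ≤ K * (4 * (K ^ 3 * dl K)) := by
    gcongr
    linarith
  have h5 := pow_sub_one_le hd.le (n := n) (by linarith)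
  have h6 : 0 ≤ (1 + dl K) ^ n - 1 := by
    have := one_le_pow₀ (n := n) (by linarith : (1 : ℝ) ≤ 1 + dl K)
    linarith
  calc (p.N : ℝ) * ((1 + dl K) ^ n - 1) ≤ K * (4 * (K ^ 3 * dl K)) := by
        gcongr
        linarith
    _ = 4 * K ^ 4 * dl K := h3
    _ ≤ 1 / 8 := h1

theorem Env.nsize (e : D.Env V K k₁ k₂ k₃) :
    D.Sx.card + (p.L + 1) * p.T * D.S.card + (2 * p.P + 3) + (2 * (2 * p.P + 3)) * D.na + 1 ≤
      2 * K ^ 3 := by
  have h := e.hKs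
  have hK := e.hK
  have h1 : D.Sx.card ≤ K := (card_le_card e.ok.sub).trans (by omega)
  have h2 : (p.L + 1) * p.T * D.S.card ≤ K * K * K :=
    Nat.mul_le_mul (Nat.mul_le_mul (by omega) (by omega)) (by omega)
  have h3 : (2 * (2 * p.P + 3)) * D.na ≤ (4 * K) * K := Nat.mul_le_mul (by omega) (by omega)
  have h4 : K * K * K = K ^ 3 := by ring
  have h5 : 100 * (K * K) ≤ K * K * K := by nlinarith
  have h6 : 100 * K ≤ K * K := by nlinarith
  have h7 : (4 * K) * K = 4 * (K * K) := by ring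
  omega

open Classical in
/-- number of bad real points over the same `x` -/
noncomputable def mB (D : CData p) (V k₃ : ℕ) (i : Fin p.N) : ℕ :=
  (univ.filter (fun j => ((∀ κ ∈ D.Sx, D.α κ i = D.α κ j) ∧ D.IsReal j) ∧
    ¬gam p V k₃ (D.b j))).card

theorem Env.bad_close (e : D.Env V K k₁ k₂ k₃) (i : Fin p.N) :
    ‖D.bad (seedA V k₁) (seedA V k₂) (seedA V k₃) i - (D.mB V k₃ i : ℂ)‖ ≤ 1 / 8 := by
  classical
  unfold bad mB
  have hd := dl_pos K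
  have h := Nb.sum (E := (1 + dl K) ^ D.Sx.card * (1 + dl K) ^ ((p.L + 1) * p.T * D.S.card) *
      (1 + dl K) ^ (2 * p.P + 3)) (univ : Finset (Fin p.N))
    (z := fun j => D.same i j * D.re (seedA V k₁) (seedA V k₂) j * (1 - posT p (seedA V k₃) (D.b j)))
    (b := fun j => ((∀ κ ∈ D.Sx, D.α κ i = D.α κ j) ∧ D.IsReal j) ∧ ¬gam p V k₃ (D.b j))
    (fun j _ => ((e.same_nb i j).mul (e.re_nb j)).mul (e.pos_nb j (Or.inr (Or.inl rfl))).not)
  rw [card_univ, Fintype.card_fin, ← pow_add, ← pow_add] at h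
  have h2 := e.expo (n := D.Sx.card + (p.L + 1) * p.T * D.S.card + (2 * p.P + 3))
    (by have := e.nsize; omega)
  refine le_trans (le_trans (le_of_eq ?_) h) h2
  congr

theorem Env.bad_gd (e : D.Env V K k₁ k₂ k₃) (i : Fin p.N) :
    Gd V 0 (4 / 3 * D.bad (seedA V k₁) (seedA V k₂) (seedA V k₃) i) ∧
      (‖seedA V 0 * (4 / 3 * D.bad (seedA V k₁) (seedA V k₂) (seedA V k₃) i)‖ < 1 ↔
        D.mB V k₃ i = 0) := by
  have h := e.bad_close i
  set z := D.bad (seedA V k₁) (seedA V k₂) (seedA V k₃) i with hz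
  have hn : ‖(4 / 3 : ℂ) * z‖ = 4 / 3 * ‖z‖ := by
    rw [norm_mul]
    norm_num
  rw [seedA_zero, one_mul, hn]
  by_cases h0 : D.mB V k₃ i = 0
  · rw [h0, Nat.cast_zero, sub_zero] at h
    refine ⟨gd_zero e.hV (Or.inl (by rw [hn]; linarith)), ?_⟩
    exact ⟨fun _ => h0, fun _ => by linarith⟩
  · have h1 : (1 : ℝ) ≤ (D.mB V k₃ i : ℝ) := by exact_mod_cast Nat.one_le_iff_ne_zero.2 h0
    have h2 : 7 / 8 ≤ ‖z‖ := by
      have h3 := norm_sub_norm_le (D.mB V k₃ i : ℂ) ((D.mB V k₃ i : ℂ) - z)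
      rw [sub_sub_cancel, norm_sub_rev (D.mB V k₃ i : ℂ) z, Complex.norm_natCast] at h3
      linarith
    refine ⟨gd_zero e.hV (Or.inr (by rw [hn]; linarith)), ?_⟩
    exact ⟨fun hh => by linarith, fun hh => absurd hh h0⟩

theorem Env.mB_zero (e : D.Env V K k₁ k₂ k₃) (i : Fin p.N) :
    D.mB V k₃ i = 0 ↔
      ∀ j, D.IsReal j → (∀ k ∈ D.Sx, D.α k j = D.α k i) → 0 < (D.b j).re := by
  classical
  unfold mB
  rw [card_eq_zero, filter_eq_empty_iff]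
  constructor
  · intro h j hj hs
    have h1 := h (mem_univ j)
    rw [← e.gam_iff hj (Or.inr (Or.inl rfl))]
    by_contra hg
    exact h1 ⟨⟨fun κ hκ => (hs κ hκ).symm, hj⟩, hg⟩
  · rintro h j - ⟨⟨h1, h2⟩, h3⟩
    rw [e.gam_iff h2 (Or.inr (Or.inl rfl))] at h3
    exact h3 (h j h2 fun κ hκ => (h1 κ hκ).symm)

theorem Env.acc_nb (e : D.Env V K k₁ k₂ k₃) (i : Fin p.N) :
    Nb ((1 + dl K) ^ ((p.L + 1) * p.T * D.S.card) * (1 + dl K) ^ (2 * p.P + 3) *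
      ((1 + dl K) ^ (2 * p.P + 3) * (1 + dl K) ^ (2 * p.P + 3)) ^ D.na * (1 + dl K))
      (D.acc (seedA V k₁) (seedA V k₂) (seedA V k₃) i) (D.Good i) := by
  unfold acc
  have hb := e.bad_gd i
  have h4 := (thr_gd e.hV e.K2 e.hM hb.1).1.congr (hb.2.trans (e.mB_zero i))
  rw [seedA_zero] at h4
  have h3 := Nb.prod (E := (1 + dl K) ^ (2 * p.P + 3) * (1 + dl K) ^ (2 * p.P + 3)) (range D.na)
    (z := fun a => 1 - (1 - posT p (seedA V k₃) (D.u a i)) * (1 - posT p (seedA V k₃) (D.v a i)))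
    (b := fun a => ¬(¬gam p V k₃ (D.u a i) ∧ ¬gam p V k₃ (D.v a i))) (by
      intro a ha
      have ha' := mem_range.1 ha
      exact ((e.pos_nb i (Or.inr (Or.inr ⟨a, ha', Or.inl rfl⟩))).not.mul
        (e.pos_nb i (Or.inr (Or.inr ⟨a, ha', Or.inr rfl⟩))).not).not)
  rw [card_range] at h3
  refine ((((e.re_nb i).mul (e.pos_nb i (Or.inl rfl))).mul h3).mul h4).congr ?_
  constructor
  · rintro ⟨⟨⟨hr, hs⟩, ha⟩, hj⟩
    refine ⟨hr, (e.gam_iff hr (Or.inl rfl)).1 hs, fun a ha' => ?_, hj⟩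
    have h := ha a (mem_range.2 ha')
    by_cases hu : gam p V k₃ (D.u a i)
    · exact Or.inl ((e.gam_iff hr (Or.inr (Or.inr ⟨a, ha', Or.inl rfl⟩))).1 hu)
    · by_cases hv : gam p V k₃ (D.v a i)
      · exact Or.inr ((e.gam_iff hr (Or.inr (Or.inr ⟨a, ha', Or.inr rfl⟩))).1 hv)
      · exact absurd ⟨hu, hv⟩ h
  · rintro ⟨hr, hs, ha, hj⟩
    refine ⟨⟨⟨hr, (e.gam_iff hr (Or.inl rfl)).2 hs⟩, fun a ha' => ?_⟩, hj⟩
    have ha'' := mem_range.1 ha'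
    rintro ⟨h1, h2⟩
    rcases ha a ha'' with h | h
    · exact h1 ((e.gam_iff hr (Or.inr (Or.inr ⟨a, ha'', Or.inl rfl⟩))).2 h)
    · exact h2 ((e.gam_iff hr (Or.inr (Or.inr ⟨a, ha'', Or.inr rfl⟩))).2 h)

open Classical in
theorem Env.count_close (e : D.Env V K k₁ k₂ k₃) :
    ‖D.count (seedA V k₁) (seedA V k₂) (seedA V k₃) -
      ((univ.filter (fun i => D.Good i)).card : ℂ)‖ ≤ 1 / 4 := by
  unfold count
  have h := Nb.sum (univ : Finset (Fin p.N)) (b := fun i => D.Good i) (fun i _ => e.acc_nb i)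
  rw [card_univ, Fintype.card_fin, ← pow_add, ← pow_add, ← pow_mul, ← pow_add, ← pow_succ] at h
  have h2 := e.expo (n := (p.L + 1) * p.T * D.S.card + (2 * p.P + 3) +
    (2 * p.P + 3 + (2 * p.P + 3)) * D.na + 1) (by
      have := e.nsize
      have h3 : (2 * p.P + 3 + (2 * p.P + 3)) * D.na = (2 * (2 * p.P + 3)) * D.na := by ring
      omega)
  refine (h.trans h2).trans (by norm_num)

end CData

end Crest.Agent.CHR
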