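import Crest.Agent.CHR.ThrDefs
import Crest.Agent.CHR.TqC

/-!
# MODULE M5 (row 316): interface.  Paper proof: idea 447, part D.
-/

set_option autoImplicit false

namespace Crest.Agent.CHR

open Finset

/-- the values tested for positivity -/
noncomputable def CData.val {p : Par} (D : CData p) (m : ℕ) (i : Fin p.N) : ℂ :=
  if m = 0 then D.s₀ i else if m = 1 then D.b i else
    if m % 2 = 0 then D.u (m / 2 - 1) i else D.v (m / 2 - 1) i

theorem CData.val_eq {p : Par} (D : CData p) (i : Fin p.N) {s : ℂ}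
    (h : s = D.s₀ i ∨ s = D.b i ∨ ∃ a < D.na, s = D.u a i ∨ s = D.v a i) :
    ∃ m < 2 * D.na + 2, s = D.val m i := by
  rcases h with h | h | ⟨a, ha, h | h⟩
  · exact ⟨0, by omega, by rw [h]; rfl⟩
  · exact ⟨1, by omega, by rw [h]; rfl⟩
  · refine ⟨2 * a + 2, by omega, ?_⟩
    unfold CData.val
    rw [if_neg (by omega), if_neg (by omega), if_pos (by omega), h]
    congr 1
    omega
  · refine ⟨2 * a + 3, by omega, ?_⟩
    unfold CData.val
    rw [if_neg (by omega), if_neg (by omega), if_neg (by omega), h]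
    congr 1
    omega

open Classical in
/-- first set of tests -/
noncomputable def CData.F1 {p : Par} (D : CData p) : Finset ℂ :=
  (D.S ×ˢ range p.T ×ˢ (univ : Finset (Fin p.N)) ×ˢ (univ : Finset (Fin p.N))).image
    (fun x => (D.α x.1 x.2.2.2 - D.α x.1 x.2.2.1) / p.R x.2.1)

open Classical in
/-- second set of tests -/
noncomputable def CData.F2 {p : Par} (D : CData p) (k₁ : ℕ) : Finset ℂ :=
  (D.S ×ˢ range p.T ×ˢ (univ : Finset (Fin p.N)) ×ˢ range (p.L + 1)).image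
    (fun x => (wT p (seedA p.V k₁) (D.α x.1) x.2.1 x.2.2.1 - (-1 + x.2.2.2 * p.th)) / p.th)

open Classical in
/-- third set of tests -/
noncomputable def CData.F3 {p : Par} (D : CData p) : Finset ℂ :=
  ((univ : Finset (Fin p.N)) ×ˢ range (2 * D.na + 2) ×ˢ range (2 * p.P + 3)).image
    (fun x => (D.val x.2.1 x.1 - 2 ^ x.2.2 / 2 ^ (p.P + 1)) /
      (3 / 4 * (2 ^ x.2.2 / 2 ^ (p.P + 1))))

theorem CData.F1_card {p : Par} (D : CData p) :
    D.F1.card ≤ D.S.card * (p.T * (p.N * p.N)) := by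
  refine card_image_le.trans (le_of_eq ?_)
  rw [card_product, card_product, card_product, card_range, card_univ, Fintype.card_fin]

theorem CData.F2_card {p : Par} (D : CData p) (k₁ : ℕ) :
    (D.F2 k₁).card ≤ D.S.card * (p.T * (p.N * (p.L + 1))) := by
  refine card_image_le.trans (le_of_eq ?_)
  rw [card_product, card_product, card_product, card_range, card_range, card_univ,
    Fintype.card_fin]

theorem CData.F3_card {p : Par} (D : CData p) :
    D.F3.card ≤ p.N * ((2 * D.na + 2) * (2 * p.P + 3)) := by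
  refine card_image_le.trans (le_of_eq ?_)
  rw [card_product, card_product, card_range, card_range, card_univ, Fintype.card_fin]

open Classical in
/-- D1-D4.  `V` large compared with the number of complex numbers tested, `M` large compared with
`V` and the number of tests.  Then for more than half of the seeds `(k₁,k₂,k₃)` the computed number
is within `1/4` of the number of good points, and no denominator vanishes. -/
theorem CData.main {p : Par} (D : CData p) (h : D.Ok)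
    (hV : 100 * (p.N ^ 2 * p.T * (p.L + 1) * (D.S.card + 1) + p.N * (2 * D.na + 2) * (2 * p.P + 3) + 1)
      ≤ p.V)
    (hM : 8 * p.V * (p.N + p.T + p.L + p.P + D.S.card + D.na + 100) ^ 2 ≤ p.M) :
    p.V ^ 3 < 2 * ((range p.V ×ˢ range p.V ×ˢ range p.V).filter (fun k =>
      ‖D.count (seedA p.V k.1) (seedA p.V k.2.1) (seedA p.V k.2.2) -
        ((univ.filter (fun i => D.Good i)).card : ℂ)‖ ≤ 1 / 4 ∧
      (∀ κ ∈ D.S, ∀ t < p.T, ∀ i j,
        1 + (seedA p.V k.1 * ((D.α κ j - D.α κ i) / p.R t)) ^ p.M ≠ 0) ∧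
      (∀ κ ∈ D.S, ∀ t < p.T, ∀ i,
        ∑ j, thr (seedA p.V k.1) p.M ((D.α κ j - D.α κ i) / p.R t) ≠ 0) ∧
      (∀ κ ∈ D.S, ∀ t < p.T, ∀ i, ∀ l ≤ p.L,
        1 + (seedA p.V k.2.1 * ((wT p (seedA p.V k.1) (D.α κ) t i - (-1 + l * p.th)) / p.th)) ^ p.M
          ≠ 0) ∧
      (∀ i, ∀ s : ℂ, (s = D.s₀ i ∨ s = D.b i ∨ ∃ a < D.na, s = D.u a i ∨ s = D.v a i) →
        ∀ κ ≤ 2 * p.P + 2, 1 + (seedA p.V k.2.2 * ((s - 2 ^ κ / 2 ^ (p.P + 1)) /
          (3 / 4 * (2 ^ κ / 2 ^ (p.P + 1))))) ^ p.M ≠ 0) ∧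
      (∀ κ ∈ D.Sx, ∀ i j, 1 + (1 * ((D.α κ i - D.α κ j) * 2 ^ (p.P + 1))) ^ p.M ≠ 0) ∧
      (∀ i, 1 + (1 * (4 / 3 * D.bad (seedA p.V k.1) (seedA p.V k.2.1) (seedA p.V k.2.2) i)) ^ p.M
        ≠ 0))).card := by
  have hV1 : 1 ≤ p.V := by omega
  have hN1 := h.N1
  set A1 := p.N ^ 2 * p.T * (p.L + 1) * (D.S.card + 1) with hA1
  set A2 := p.N * (2 * D.na + 2) * (2 * p.P + 3) with hA2
  have hF1 : 100 * D.F1.card ≤ p.V := by
    have h1 := D.F1_card
    have h2 : D.S.card * (p.T * (p.N * p.N)) ≤ A1 := by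
      calc D.S.card * (p.T * (p.N * p.N)) = (p.N ^ 2 * p.T * 1) * D.S.card := by ring
        _ ≤ A1 := Nat.mul_le_mul (Nat.mul_le_mul_left _ (by omega)) (by omega)
    omega
  have hF2 : ∀ k, 100 * (D.F2 k).card ≤ p.V := by
    intro k
    have h1 := D.F2_card k
    have h2 : D.S.card * (p.T * (p.N * (p.L + 1))) ≤ A1 := by
      calc D.S.card * (p.T * (p.N * (p.L + 1))) = (p.N * 1 * p.T * (p.L + 1)) * D.S.card := by ring
        _ ≤ (p.N * p.N * p.T * (p.L + 1)) * (D.S.card + 1) := by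
            refine Nat.mul_le_mul (Nat.mul_le_mul_right _ (Nat.mul_le_mul_right _
              (Nat.mul_le_mul_left _ hN1))) (by omega)
        _ = A1 := by rw [hA1]; ring
    omega
  have hF3 : 100 * D.F3.card ≤ p.V := by
    have h1 := D.F3_card
    have h2 : p.N * ((2 * D.na + 2) * (2 * p.P + 3)) = A2 := by rw [hA2]; ring
    omega
  refine count3 (V := p.V) (by omega) (fun k => ∃ x ∈ D.F1, ¬Gd p.V k x)
    (fun k₁ k => ∃ x ∈ D.F2 k₁, ¬Gd p.V k x) (fun k => ∃ x ∈ D.F3, ¬Gd p.V k x)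
    ((Nat.mul_le_mul_left _ (bad_card hV1 _)).trans hF1)
    (fun k => (Nat.mul_le_mul_left _ (bad_card hV1 _)).trans (hF2 k))
    ((Nat.mul_le_mul_left _ (bad_card hV1 _)).trans hF3) _ ?_
  intro k₁ hk₁ k₂ hk₂ k₃ hk₃ hb1 hb2 hb3
  push Not at hb1 hb2 hb3
  have e : D.Env p.V (p.N + p.T + p.L + p.P + D.S.card + D.na + 100) k₁ k₂ k₃ :=
    { ok := h
      hV := hV1
      hK := by omega
      hKs := le_refl _
      hM := hM
      hk₁ := hk₁
      hk₂ := hk₂
      hk₃ := hk₃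
      g1 := fun κ hκ t ht i j => hb1 _ (mem_image.2 ⟨(κ, t, i, j), by
        simp only [mem_product, mem_range, mem_univ, and_true]
        exact ⟨hκ, ht⟩, rfl⟩)
      g2 := fun κ hκ t ht i l hl => hb2 _ (mem_image.2 ⟨(κ, t, i, l), by
        simp only [mem_product, mem_range, mem_univ, true_and]
        exact ⟨hκ, ht, by omega⟩, rfl⟩)
      g3 := fun i s hs κ hκ => by
        obtain ⟨m, hm, hs'⟩ := D.val_eq i hs
        rw [hs']
        exact hb3 _ (mem_image.2 ⟨(i, m, κ), by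
          simp only [mem_product, mem_range, mem_univ, true_and]
          exact ⟨hm, by omega⟩, rfl⟩) }
  have hδ : (p.N : ℝ) * dl (p.N + p.T + p.L + p.P + D.S.card + D.na + 100) ≤ 1 / 2 := by
    have h1 := e.dK
    have hd := dl_pos (p.N + p.T + p.L + p.P + D.S.card + D.na + 100)
    have hN : (1 : ℝ) ≤ p.N := by exact_mod_cast hN1
    nlinarith
  refine ⟨e.count_close, ?_, ?_, ?_, ?_, ?_, ?_⟩
  · intro κ hκ t ht i j
    exact (thr_gd hV1 e.K2 hM (e.g1 κ hκ t ht i j)).2.2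
  · intro κ hκ t ht i
    exact (wT_close hN1 hV1 e.K2 hM hδ (D.α κ) t i (e.g1 κ hκ t ht i)).1
  · intro κ hκ t ht i l hl
    exact (thr_gd hV1 e.K2 hM (e.g2 κ hκ t ht i l hl)).2.2
  · intro i s hs κ hκ
    exact (thr_gd hV1 e.K2 hM (e.g3 i s hs κ hκ)).2.2
  · intro κ hκ i j
    have := (thr_gd hV1 e.K2 hM (e.same_x hκ i j).1).2.2
    rwa [seedA_zero] at this
  · intro i
    have := (thr_gd hV1 e.K2 hM (e.bad_gd i).1).2.2
    rwa [seedA_zero] at this

end Crest.Agent.CHR
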