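import Crest.Agent.CHR.Fam
import Crest.Agent.CHR.Pham
import Crest.Agent.CHR.Thr

/-!
# Row 316, module M9a: rational families.  Definitions.

`RF ok φ`: the complex function `φ w v` (`v` = values of the variables) is a quotient of two good
families of polynomials, for all `(w, v)` with `ok w v`.
-/

set_option autoImplicit false

namespace Crest.Agent.CHR

open MvPolynomial Finset

def RF (ok : W → (ℕ → ℂ) → Prop) (φ : W → (ℕ → ℂ) → ℂ) : Prop :=
  ∃ N D : W → P, IsFam N ∧ IsFam D ∧ ∀ w v, ok w v →
    aeval v (D w) ≠ 0 ∧ φ w v = aeval v (N w) / aeval v (D w)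

/-- a complex number depending on `w` which is a quotient of two CHN functions -/
noncomputable def ratC (a b : W → ℕ) (w : W) : ℂ := (a w : ℂ) / (b w : ℂ)

/-- replace the values of the variables `j < n` -/
def mixv (n : ℕ) (z v : ℕ → ℂ) : ℕ → ℂ := fun j => if j < n then z j else v j

/-- solutions of a system without parameters: `Z i`, `i < N`, is a list of the solutions with
multiplicity (only the values at `j < n` matter) -/
def Sol0 (n : ℕ) (m : ℕ → ℕ) (q : ℕ → P) {N : ℕ} (Z : Fin N → ℕ → ℂ) : Prop :=
  ∀ v : ℕ → ℂ, Sol (range n) m q v (fun i => mixv n (Z i) v)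

end Crest.Agent.CHR
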