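import Mathlib

/-!
CHUNK R316-REDMAX (easy): maximum and minimum arguments on a bounded open set.
-/

set_option autoImplicit false

namespace Crest.Agent.CHR

open Finset

/-- maximum argument (B5, first part): `Om` bounded open, `H` continuous, `0` on the boundary and
not identically `0` on `Om`; then there is `x ∈ Om` with `H x ≠ 0` such that, with
`κ = Gd x / (H x)²`, the function `Gd - κ H²` is `≥ 0` on `Om` and `0` at `x`. -/
theorem exists_max {r : ℕ} (Om : Set (Fin r → ℝ)) (hO : IsOpen Om) (hb : Bornology.IsBounded Om)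
    (H Gd : (Fin r → ℝ) → ℝ) (hH : Continuous H) (hG : Continuous Gd) (hG1 : ∀ x, 1 ≤ Gd x)
    (h0 : ∀ x ∈ closure Om, x ∉ Om → H x = 0) (hne : ∃ x ∈ Om, H x ≠ 0) :
    ∃ x ∈ Om, H x ≠ 0 ∧ ∀ y ∈ Om, 0 ≤ Gd y - Gd x / (H x) ^ 2 * (H y) ^ 2 := by
  have hcomp : IsCompact (closure Om) := hb.isCompact_closure
  obtain ⟨x1, hx1, hx1'⟩ := hne
  have hf : Continuous fun y => H y ^ 2 / Gd y :=
    (hH.pow 2).div hG fun y => by have := hG1 y; positivity
  obtain ⟨x, hx, hmax⟩ := hcomp.exists_isMaxOn ⟨x1, subset_closure hx1⟩ hf.continuousOn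
  have hGx : 0 < Gd x := lt_of_lt_of_le one_pos (hG1 x)
  have hx0 : H x ≠ 0 := by
    intro h
    have h1 : H x1 ^ 2 / Gd x1 ≤ H x ^ 2 / Gd x := hmax (subset_closure hx1)
    rw [h] at h1
    have h2 : 0 < H x1 ^ 2 / Gd x1 := by
      have := hG1 x1
      positivity
    simp at h1
    linarith
  have hxO : x ∈ Om := by
    by_contra h
    exact hx0 (h0 x hx h)
  refine ⟨x, hxO, hx0, fun y hy => ?_⟩
  have hGy : 0 < Gd y := lt_of_lt_of_le one_pos (hG1 y)
  have h1 : H y ^ 2 / Gd y ≤ H x ^ 2 / Gd x := hmax (subset_closure hy)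
  rw [div_le_div_iff₀ hGy hGx] at h1
  have h2 : 0 < H x ^ 2 := by positivity
  rw [sub_nonneg, div_mul_eq_mul_div, div_le_iff₀ h2]
  linarith

/-- minimum argument (B6): if `Gd - κ H²` is negative somewhere in `Om` there is a minimum point in `Om` -/
theorem exists_min {r : ℕ} (Om : Set (Fin r → ℝ)) (hO : IsOpen Om) (hb : Bornology.IsBounded Om)
    (H Gd : (Fin r → ℝ) → ℝ) (hH : Continuous H) (hG : Continuous Gd) (hG1 : ∀ x, 1 ≤ Gd x)
    (h0 : ∀ x ∈ closure Om, x ∉ Om → H x = 0) {κ : ℝ} (hne : ∃ x ∈ Om, Gd x - κ * H x ^ 2 < 0) :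
    ∃ x ∈ Om, ∀ y ∈ Om, Gd x - κ * H x ^ 2 ≤ Gd y - κ * H y ^ 2 := by
  have hcomp : IsCompact (closure Om) := hb.isCompact_closure
  obtain ⟨x1, hx1, hx1'⟩ := hne
  have hf : Continuous fun y => Gd y - κ * H y ^ 2 := hG.sub (continuous_const.mul (hH.pow 2))
  obtain ⟨x, hx, hmin⟩ := hcomp.exists_isMinOn ⟨x1, subset_closure hx1⟩ hf.continuousOn
  have h1 : Gd x - κ * H x ^ 2 ≤ Gd x1 - κ * H x1 ^ 2 := hmin (subset_closure hx1)
  have hxO : x ∈ Om := by
    by_contra h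
    rw [h0 x hx h] at h1
    have := hG1 x
    simp at h1
    linarith
  exact ⟨x, hxO, fun y hy => hmin (subset_closure hy)⟩


end Crest.Agent.CHR
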