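import Crest.Agent.CHR.RedB

/-!
CHUNK R316-REDS (medium, ~100 lines): Lemma S (idea 447, B3).
PROOF. Let `a0` = the largest `a < na` with some `h a b xb ≠ 0` (exists by `nz`).  The polynomial
`p(T) = ∑_b h a0 b xb * T^b` is not zero; choose `T* ∈ (U, U+1)` with `p(T*) ≠ 0`.  If the claim fails, then for
infinitely many `k` there is `θ'` with `uth θ' (x k) > U + 1 > T*` (and then for all larger `θ`, by `uth_mono`).  For every `n`, by
`uth_cont` at `(xb, n)`, for large `k`: `uth n (x k) < T*` (as `uth n xb ≤ U < T*`).  By the intermediate value theorem in `θ`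
there is `θ_k ≥ n` with `uth θ_k (x k) = T*`.  So we get `k_n → ∞`, `θ_n ≥ n` with `uth θ_n (x k_n) = T*` and by `root`
`0 = ∑_a θ_n^a ∑_b h a b (x k_n) T*^b`; the terms with `a > a0` vanish (`h a b xb = 0` there).  Divide by `θ_n^a0` and let
`n → ∞`: the limit is `p(T*) = 0`, contradiction.
-/

set_option autoImplicit false

namespace Crest.Agent.CHR

open Finset

namespace RedData
variable {r m : ℕ} (D : RedData r m)

/-- a real polynomial with a nonzero coefficient has a non-root in every open interval -/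
theorem exists_nonroot {nb : ℕ} (c : ℕ → ℝ) (hc : ∃ b < nb, c b ≠ 0) {A B : ℝ} (hAB : A < B) :
    ∃ T, A < T ∧ T < B ∧ ∑ b ∈ range nb, c b * T ^ b ≠ 0 := by
  classical
  set P : Polynomial ℝ := ∑ b ∈ range nb, Polynomial.monomial b (c b) with hP
  have hcoeff : ∀ b < nb, P.coeff b = c b := by
    intro b hb
    rw [hP, Polynomial.finsetSum_coeff]
    rw [Finset.sum_eq_single b]
    · simp
    · intro i _ hi
      rw [Polynomial.coeff_monomial, if_neg hi]
    · intro h
      exact absurd (mem_range.2 hb) h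
  have hP0 : P ≠ 0 := by
    rintro h0
    obtain ⟨b, hb, hne⟩ := hc
    apply hne
    rw [← hcoeff b hb, h0, Polynomial.coeff_zero]
  have heval : ∀ T, P.eval T = ∑ b ∈ range nb, c b * T ^ b := by
    intro T
    rw [hP, Polynomial.eval_finsetSum]
    simp
  have hinf : (Set.Ioo A B).Infinite := Set.Ioo_infinite hAB
  obtain ⟨T, hT, hTn⟩ := hinf.exists_notMem_finset P.roots.toFinset
  refine ⟨T, hT.1, hT.2, ?_⟩
  rw [← heval]
  intro h
  apply hTn
  rw [Multiset.mem_toFinset, Polynomial.mem_roots hP0]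
  exact h

theorem uth_tendsto_left {xb : Fin r → ℝ} {x : ℕ → Fin r → ℝ}
    (hx : Filter.Tendsto x Filter.atTop (nhds xb)) {θ : ℝ} (hθ : 0 < θ) :
    Filter.Tendsto (fun k => uth D.Q θ (x k)) Filter.atTop (nhds (uth D.Q θ xb)) := by
  have hcont : ContinuousAt (fun p : (Fin r → ℝ) × ℝ => uth D.Q p.2 p.1) (xb, θ) := by
    apply D.uth_cont.continuousAt
    apply IsOpen.mem_nhds (isOpen_lt continuous_const continuous_snd)
    exact hθ
  have h2 : Filter.Tendsto (fun k => (x k, θ)) Filter.atTop (nhds (xb, θ)) :=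
    hx.prodMk_nhds tendsto_const_nhds
  have h3 := Filter.Tendsto.comp hcont.tendsto h2
  simpa only [Function.comp_def] using h3

theorem uth_contOn_right (x : Fin r → ℝ) {A B : ℝ} (hA : 0 < A) :
    ContinuousOn (fun θ : ℝ => uth D.Q θ x) (Set.Icc A B) := by
  have h1 : ContinuousOn (fun θ : ℝ => ((x, θ) : (Fin r → ℝ) × ℝ)) (Set.Icc A B) := by fun_prop
  have h2 : Set.MapsTo (fun θ : ℝ => ((x, θ) : (Fin r → ℝ) × ℝ)) (Set.Icc A B)
      {p | 0 < p.2} := fun θ hθ => lt_of_lt_of_le hA hθ.1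
  have h3 := ContinuousOn.comp D.uth_cont h1 h2
  simpa only [Function.comp_def] using h3

/-- B3, Lemma S (sequence form): if `u ≤ U` at `x̄`, `x k → x̄`, and `h a b (x k) = 0` whenever
`h a b x̄ = 0`, then for large `k` `u_θ(x k) ≤ U + 1` for all `θ`. -/
theorem lemmaS {xb : Fin r → ℝ} {U : ℝ} (hU : ∀ θ, 0 < θ → uth D.Q θ xb ≤ U)
    {x : ℕ → Fin r → ℝ} (hx : Filter.Tendsto x Filter.atTop (nhds xb))
    (hh : ∀ k, ∀ a < D.na, ∀ b < D.nb, D.h a b xb = 0 → D.h a b (x k) = 0) :
    ∀ᶠ k in Filter.atTop, ∀ θ, 0 < θ → uth D.Q θ (x k) ≤ U + 1 := by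
  classical
  -- the largest `a0`
  set S : Finset ℕ := (range D.na).filter (fun a => ∃ b < D.nb, D.h a b xb ≠ 0) with hS
  have hSne : S.Nonempty := by
    obtain ⟨a, ha, b, hb, hab⟩ := D.nz xb
    exact ⟨a, by rw [hS, mem_filter]; exact ⟨mem_range.2 ha, b, hb, hab⟩⟩
  set a0 := S.max' hSne with ha0
  have ha0S : a0 ∈ S := S.max'_mem hSne
  have ha0' : a0 < D.na ∧ ∃ b < D.nb, D.h a0 b xb ≠ 0 := by
    have := ha0S
    rw [hS, mem_filter, mem_range] at this
    exact this
  have hmax : ∀ a < D.na, a0 < a → ∀ b < D.nb, D.h a b xb = 0 := by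
    intro a ha hlt b hb
    by_contra hne
    have : a ∈ S := by rw [hS, mem_filter]; exact ⟨mem_range.2 ha, b, hb, hne⟩
    exact absurd (S.le_max' a this) (not_le.2 hlt)
  obtain ⟨T, hT1, hT2, hTp⟩ := exists_nonroot (fun b => D.h a0 b xb) ha0'.2
    (show U < U + 1 by linarith)
  by_contra hcon
  have hfreq : ∃ᶠ k in Filter.atTop, ∃ θ, 0 < θ ∧ U + 1 < uth D.Q θ (x k) := by
    rw [Filter.not_eventually] at hcon
    refine hcon.mono ?_
    intro k hk
    push Not at hk
    exact hk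
  have key : ∀ n : ℕ, ∃ k, n ≤ k ∧ ∃ θ : ℝ, (n : ℝ) + 1 ≤ θ ∧ uth D.Q θ (x k) = T := by
    intro n
    have hn : (0 : ℝ) < (n : ℝ) + 1 := by positivity
    have htend : Filter.Tendsto (fun k => uth D.Q ((n : ℝ) + 1) (x k)) Filter.atTop
        (nhds (uth D.Q ((n : ℝ) + 1) xb)) := D.uth_tendsto_left hx hn
    have hlt : uth D.Q ((n : ℝ) + 1) xb < T := lt_of_le_of_lt (hU _ hn) hT1
    have hev : ∀ᶠ k in Filter.atTop, uth D.Q ((n : ℝ) + 1) (x k) < T :=
      htend.eventually_lt_const hlt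
    obtain ⟨k, ⟨θ', hθ', hbig⟩, hsmall, hkn⟩ :=
      (hfreq.and_eventually (hev.and (Filter.eventually_ge_atTop n))).exists
    refine ⟨k, hkn, ?_⟩
    -- `θ'` must exceed `n+1`
    have hlt' : (n : ℝ) + 1 < θ' := by
      by_contra hle
      rw [not_lt] at hle
      have := D.uth_mono (x k) hθ' hle
      linarith
    have hcontθ : ContinuousOn (fun θ : ℝ => uth D.Q θ (x k)) (Set.Icc ((n : ℝ) + 1) θ') :=
      D.uth_contOn_right (x k) hn
    obtain ⟨θ, hθ, hθT⟩ := intermediate_value_Icc hlt'.le hcontθ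
      ⟨hsmall.le, (lt_trans hT2 hbig).le⟩
    exact ⟨θ, hθ.1, hθT⟩
  choose k hk θ hθ hθT using key
  have hktend : Filter.Tendsto k Filter.atTop Filter.atTop :=
    Filter.tendsto_atTop_mono hk Filter.tendsto_id
  have hxk : Filter.Tendsto (fun n => x (k n)) Filter.atTop (nhds xb) := hx.comp hktend
  have hθpos : ∀ n, 0 < θ n := fun n => lt_of_lt_of_le (by positivity) (hθ n)
  have hθtend : Filter.Tendsto θ Filter.atTop Filter.atTop := by
    refine Filter.tendsto_atTop_mono (f := fun n : ℕ => (n : ℝ)) (fun n => ?_)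
      tendsto_natCast_atTop_atTop
    have := hθ n
    linarith
  -- the inner sums
  have hinner : ∀ a, Filter.Tendsto (fun n => ∑ b ∈ range D.nb, D.h a b (x (k n)) * T ^ b)
      Filter.atTop (nhds (∑ b ∈ range D.nb, D.h a b xb * T ^ b)) := by
    intro a
    apply tendsto_finsetSum
    intro b _
    exact (((D.hcont a b).tendsto xb).comp hxk).mul_const _
  have hzero : ∀ n, ∑ a ∈ range D.na, (∑ b ∈ range D.nb, D.h a b (x (k n)) * T ^ b) *
      (θ n ^ a / θ n ^ a0) = 0 := by
    intro n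
    have h0 := D.root (x (k n)) (θ n) (hθpos n)
    rw [hθT n] at h0
    have : ∑ a ∈ range D.na, (∑ b ∈ range D.nb, D.h a b (x (k n)) * T ^ b) *
        (θ n ^ a / θ n ^ a0) = (∑ a ∈ range D.na, ∑ b ∈ range D.nb,
          D.h a b (x (k n)) * θ n ^ a * T ^ b) / θ n ^ a0 := by
      rw [Finset.sum_div]
      refine Finset.sum_congr rfl fun a _ => ?_
      rw [Finset.sum_mul, Finset.sum_div]
      refine Finset.sum_congr rfl fun b _ => ?_
      ring
    rw [this, h0, zero_div]
  have hterm : ∀ a ∈ range D.na, Filter.Tendsto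
      (fun n => (∑ b ∈ range D.nb, D.h a b (x (k n)) * T ^ b) * (θ n ^ a / θ n ^ a0))
      Filter.atTop (nhds (if a = a0 then ∑ b ∈ range D.nb, D.h a0 b xb * T ^ b else 0)) := by
    intro a ha
    rw [mem_range] at ha
    rcases lt_trichotomy a a0 with hlt | heq | hgt
    · rw [if_neg hlt.ne]
      have h1 := (tendsto_pow_div_pow_atTop_zero (𝕜 := ℝ) hlt).comp hθtend
      have h2 := (hinner a).mul h1
      rw [mul_zero] at h2
      exact h2
    · rw [if_pos heq, heq]
      have h1 : (fun n => (∑ b ∈ range D.nb, D.h a0 b (x (k n)) * T ^ b) *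
          (θ n ^ a0 / θ n ^ a0)) =
          fun n => ∑ b ∈ range D.nb, D.h a0 b (x (k n)) * T ^ b := by
        funext n
        rw [div_self (pow_pos (hθpos n) _).ne', mul_one]
      rw [h1]
      exact hinner a0
    · rw [if_neg hgt.ne']
      have h1 : (fun n => (∑ b ∈ range D.nb, D.h a b (x (k n)) * T ^ b) * (θ n ^ a / θ n ^ a0)) =
          fun _ => 0 := by
        funext n
        rw [Finset.sum_eq_zero, zero_mul]
        intro b hb
        rw [mem_range] at hb
        rw [hh (k n) a ha b hb (hmax a ha hgt b hb), zero_mul]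
      rw [h1]
      exact tendsto_const_nhds
  have hsum := tendsto_finsetSum (range D.na) hterm
  rw [Finset.sum_ite_eq' (range D.na) a0, if_pos (mem_range.2 ha0'.1)] at hsum
  have hsum0 : (fun n => ∑ a ∈ range D.na, (∑ b ∈ range D.nb, D.h a b (x (k n)) * T ^ b) *
      (θ n ^ a / θ n ^ a0)) = fun _ => 0 := funext hzero
  rw [hsum0] at hsum
  exact hTp (tendsto_nhds_unique hsum tendsto_const_nhds)


end RedData

end Crest.Agent.CHR
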