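import Crest.Agent.CHR.RedC
import Crest.Agent.CHR.RedS

/-!
CHUNK R316-REDO2 (medium, ~120 lines): `O(e)` is empty if `A` is empty (idea 447, B4 (2)).
PROOF. `S = {x | ∑ x_i² ≤ Δ², ∀ a b, h_ab x = 0 ∨ 1 ≤ Δ² (h_ab x)²}` is compact.  Claim: `∃ C, ∀ x ∈ S, ∀ θ > 0, uth θ x ≤ C`.
Otherwise choose `x_k ∈ S`, `θ_k` with `uth θ_k (x_k) > k`, subsequence `x_k → xb ∈ S`; `uth θ xb ≤ U` for all `θ`
(`bdd_iff`); for large `k`: if `h_ab xb = 0` then `|h_ab (x_k)| < 1/Δ`, so `h_ab (x_k) = 0` (as `x_k ∈ S`); `lemmaS`: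
`uth θ (x_k) ≤ U+1` for large `k`, contradiction.  `R₀ = C + 1`.  If for some `R ≥ R₀`, `θ` there are `E_k → ∞` with
`x_k ∈ O(Δ,R,θ,E_k)`: subsequence `x_k → xb`; `xb ∈ S` (for every `(a,b)`: either `(h_ab x_k)² < 1/E_k²` infinitely often, so
`h_ab xb = 0`, or `1 < Δ² (h_ab x_k)²` infinitely often, so `1 ≤ Δ² (h_ab xb)²`); and `uth θ xb ≥ R > C`.
-/

set_option autoImplicit false

namespace Crest.Agent.CHR

open Finset

namespace RedData
variable {r m : ℕ} (D : RedData r m)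

private theorem redO2_ball {x : Fin r → ℝ} {Δ : ℝ} (hΔ : 0 < Δ) (h : ∑ i, x i ^ 2 ≤ Δ ^ 2) :
    x ∈ Metric.closedBall (0 : Fin r → ℝ) Δ := by
  rw [mem_closedBall_zero_iff, pi_norm_le_iff_of_nonneg hΔ.le]
  intro i
  rw [Real.norm_eq_abs]
  refine abs_le_of_sq_le_sq ?_ hΔ.le
  exact (Finset.single_le_sum (f := fun i => x i ^ 2) (fun i _ => sq_nonneg _)
    (Finset.mem_univ i)).trans h

/-- the compact set -/
private def redO2_S (Δ : ℝ) : Set (Fin r → ℝ) :=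
  {x | ∑ i, x i ^ 2 ≤ Δ ^ 2 ∧
    ∀ a < D.na, ∀ b < D.nb, D.h a b x = 0 ∨ 1 ≤ Δ ^ 2 * D.h a b x ^ 2}

private theorem redO2_compact {Δ : ℝ} (hΔ : 0 < Δ) : IsCompact (D.redO2_S Δ) := by
  refine Metric.isCompact_of_isClosed_isBounded ?_ ?_
  · have h1 : D.redO2_S Δ = {x | ∑ i, x i ^ 2 ≤ Δ ^ 2} ∩
        ⋂ a : ℕ, ⋂ (_ : a < D.na), ⋂ b : ℕ, ⋂ (_ : b < D.nb),
          ({x | D.h a b x = 0} ∪ {x | 1 ≤ Δ ^ 2 * D.h a b x ^ 2}) := by
      ext x
      simp [redO2_S]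
    rw [h1]
    refine IsClosed.inter (isClosed_le (by fun_prop) continuous_const) ?_
    refine isClosed_iInter fun a => isClosed_iInter fun _ => isClosed_iInter fun b =>
      isClosed_iInter fun _ => IsClosed.union ?_ ?_
    · exact isClosed_eq (D.hcont a b) continuous_const
    · exact isClosed_le continuous_const (continuous_const.mul ((D.hcont a b).pow 2))
  · exact Metric.isBounded_closedBall.subset fun x hx => redO2_ball hΔ hx.1

private theorem redO2_bdd (hA : ∀ x, ∃ Y, D.Q x Y = 0) {Δ : ℝ} (hΔ : 0 < Δ) :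
    ∃ C, ∀ x ∈ D.redO2_S Δ, ∀ θ, 0 < θ → uth D.Q θ x ≤ C := by
  by_contra hc
  push Not at hc
  choose x hxS θ hθ hlt using fun k : ℕ => hc (k : ℝ)
  obtain ⟨xb, hxb, φ, hφ, hlim⟩ := (D.redO2_compact hΔ).tendsto_subseq hxS
  obtain ⟨U, hU⟩ := (D.bdd_iff xb).2 (hA xb)
  have hev : ∀ᶠ k in Filter.atTop, ∀ a < D.na, ∀ b < D.nb,
      D.h a b xb = 0 → D.h a b (x (φ k)) = 0 := by
    have h1 : ∀ a ∈ Set.Iio D.na, ∀ᶠ k in Filter.atTop, ∀ b ∈ Set.Iio D.nb,
        D.h a b xb = 0 → D.h a b (x (φ k)) = 0 := by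
      intro a ha
      rw [Filter.eventually_all_finite (Set.finite_Iio _)]
      intro b hb
      by_cases h0 : D.h a b xb = 0
      · have h2 : Filter.Tendsto (fun k => Δ ^ 2 * D.h a b (x (φ k)) ^ 2) Filter.atTop
            (nhds (Δ ^ 2 * D.h a b xb ^ 2)) :=
          (((D.hcont a b).tendsto xb).comp hlim).pow 2 |>.const_mul _
        rw [h0] at h2
        have h3 : ∀ᶠ k in Filter.atTop, Δ ^ 2 * D.h a b (x (φ k)) ^ 2 < 1 :=
          h2.eventually (gt_mem_nhds (by norm_num))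
        filter_upwards [h3] with k hk _
        rcases (hxS (φ k)).2 a ha b hb with h4 | h4
        · exact h4
        · exact absurd h4 (not_le.2 hk)
      · exact Filter.Eventually.of_forall fun k h => absurd h h0
    have h2 := (Filter.eventually_all_finite (Set.finite_Iio D.na)).2 h1
    filter_upwards [h2] with k hk a ha b hb
    exact hk a ha b hb
  obtain ⟨K, hK⟩ := Filter.eventually_atTop.1 hev
  have hy : Filter.Tendsto (fun k => x (φ (k + K))) Filter.atTop (nhds xb) :=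
    hlim.comp (Filter.tendsto_add_atTop_nat K)
  have hfin := D.lemmaS hU hy (fun k a ha b hb h0 => hK (k + K) (by omega) a ha b hb h0)
  obtain ⟨n, hn⟩ := exists_nat_gt (U + 1)
  obtain ⟨M, hM⟩ := Filter.eventually_atTop.1 hfin
  have h5 := hM (max M n) (le_max_left _ _) (θ (φ (max M n + K))) (hθ _)
  have h6 := hlt (φ (max M n + K))
  have h7 : (n : ℝ) ≤ (φ (max M n + K) : ℕ) := by
    have h8 := hφ.id_le (max M n + K)
    have h9 : n ≤ max M n := le_max_right _ _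
    have h10 : n ≤ φ (max M n + K) := by
      simp only [id] at h8
      omega
    exact_mod_cast h10
  linarith

/-- B4 (2) -/
theorem O_empty (hA : ∀ x, ∃ Y, D.Q x Y = 0) :
    ∀ Δ, 0 < Δ → ∃ R₀, ∀ R ≥ R₀, ∀ θ, 0 < θ → ∃ E₀, ∀ E ≥ E₀, D.O Δ R θ E = ∅ := by
  intro Δ hΔ
  obtain ⟨C, hC⟩ := D.redO2_bdd hA hΔ
  refine ⟨C + 1, fun R hR θ hθ => ?_⟩
  by_contra hc
  push Not at hc
  choose E hE hne using fun k : ℕ => hc (k : ℝ)
  choose x hx using hne
  have hball : ∀ k, x k ∈ Metric.closedBall (0 : Fin r → ℝ) Δ :=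
    fun k => redO2_ball hΔ (hx k).1.le
  obtain ⟨xb, _, φ, hφ, hlim⟩ := (isCompact_closedBall (0 : Fin r → ℝ) Δ).tendsto_subseq hball
  have hφk : ∀ k : ℕ, (k : ℝ) ≤ E (φ k) := by
    intro k
    have h1 : k ≤ φ k := hφ.id_le k
    have h2 : (k : ℝ) ≤ (φ k : ℕ) := by exact_mod_cast h1
    exact h2.trans (hE (φ k))
  have hxb : xb ∈ D.redO2_S Δ := by
    constructor
    · have h1 : Filter.Tendsto (fun k => ∑ i, x (φ k) i ^ 2) Filter.atTop
          (nhds (∑ i, xb i ^ 2)) := by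
        have h2 : Continuous (fun x : Fin r → ℝ => ∑ i, x i ^ 2) := by fun_prop
        exact (h2.tendsto xb).comp hlim
      exact le_of_tendsto' h1 fun k => (hx (φ k)).1.le
    · intro a ha b hb
      by_contra hcc
      push Not at hcc
      have h1 : Filter.Tendsto (fun k => D.h a b (x (φ k)) ^ 2) Filter.atTop
          (nhds (D.h a b xb ^ 2)) := (((D.hcont a b).tendsto xb).comp hlim).pow 2
      have hpos : 0 < D.h a b xb ^ 2 := by
        have := hcc.1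
        positivity
      have h2 : ∀ᶠ k in Filter.atTop, Δ ^ 2 * D.h a b (x (φ k)) ^ 2 < 1 :=
        (h1.const_mul (Δ ^ 2)).eventually (gt_mem_nhds hcc.2)
      have h3 : ∀ᶠ k in Filter.atTop, D.h a b xb ^ 2 / 2 < D.h a b (x (φ k)) ^ 2 :=
        h1.eventually (lt_mem_nhds (by linarith))
      have h4 : ∀ᶠ k : ℕ in Filter.atTop, 2 / D.h a b xb ^ 2 ≤ (k : ℝ) ∧ 1 ≤ k := by
        obtain ⟨n, hn⟩ := exists_nat_ge (2 / D.h a b xb ^ 2)
        filter_upwards [Filter.eventually_ge_atTop (max n 1)] with k hk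
        refine ⟨hn.trans ?_, (le_max_right _ _).trans hk⟩
        exact_mod_cast (le_max_left n 1).trans hk
      obtain ⟨k, hk1, hk2, hk3, hk4⟩ := (h2.and (h3.and h4)).exists
      have hk4' : (1 : ℝ) ≤ k := by exact_mod_cast hk4
      rcases (hx (φ k)).2.1 a ha b hb with h5 | h5
      · have h6 := hφk k
        have h7 : (k : ℝ) ^ 2 ≤ E (φ k) ^ 2 := by nlinarith
        have h8 : (k : ℝ) ^ 2 * D.h a b (x (φ k)) ^ 2 < 1 :=
          lt_of_le_of_lt (mul_le_mul_of_nonneg_right h7 (sq_nonneg _)) h5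
        rw [div_le_iff₀ hpos] at hk3
        have h9 : (k : ℝ) ≤ (k : ℝ) ^ 2 := by nlinarith
        have h10 : (k : ℝ) * D.h a b (x (φ k)) ^ 2 ≤ (k : ℝ) ^ 2 * D.h a b (x (φ k)) ^ 2 :=
          mul_le_mul_of_nonneg_right h9 (sq_nonneg _)
        have h11 : (k : ℝ) * (D.h a b xb ^ 2 / 2) < (k : ℝ) * D.h a b (x (φ k)) ^ 2 :=
          mul_lt_mul_of_pos_left hk2 (by linarith)
        linarith
      · linarith
  have hu : R ≤ uth D.Q θ xb := by
    have h1 : ContinuousWithinAt (fun p : (Fin r → ℝ) × ℝ => uth D.Q p.2 p.1)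
        {p | 0 < p.2} (xb, θ) := D.uth_cont (xb, θ) hθ
    have h2 : Filter.Tendsto (fun k => (x (φ k), θ)) Filter.atTop
        (nhdsWithin (xb, θ) {p : (Fin r → ℝ) × ℝ | 0 < p.2}) := by
      refine tendsto_nhdsWithin_iff.2 ⟨hlim.prodMk_nhds tendsto_const_nhds, ?_⟩
      exact Filter.Eventually.of_forall fun k => hθ
    have h3 := h1.tendsto.comp h2
    exact ge_of_tendsto' h3 fun k => (hx (φ k)).2.2.le
  have := hC xb hxb θ hθ
  linarith


end RedData

end Crest.Agent.CHR
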