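import Crest.Agent.CHR.RedPath

/-!
CHUNK R316-REDRIGID (medium): rigidity along a path.
PROOF. Path `γ` from `e` to `e'`.  `Z = {s ∈ [0,1] | (Om (γ s)).Nonempty}`; `0 ∈ Z`.  `Z` is relatively open (`hopen`).  `Z` is closed:
`s_k → s`, `s_k ∈ Z`: `x_k ∈ Om (γ s_k)` with `1 ≤ Gd x_k ≤ Cb (γ s_k) H(x_k, γ s_k)²`; `x_k` bounded (`hbdd`), `Cb` bounded on the
compact path, subsequence `x_k → x`, `H(x,γ s)² > 0`, so by `hbdry` `x ∈ Om (γ s)`.  Connectedness of `[0,1]`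
(`IsPreconnected`, or sSup argument).
-/

set_option autoImplicit false

namespace Crest.Agent.CHR

open Finset

/-- B5, abstract rigidity along the region: `Om e` open, `H` continuous and `0` on the boundary,
`Cb` continuous with `Cb e * H² ≥ Gd` somewhere in `Om e` as soon as `Om e ≠ ∅`. -/
theorem rigid {r : ℕ} (c : ℕ) (Om : ℝ × ℝ × ℝ × ℝ → Set (Fin r → ℝ))
    (H : (Fin r → ℝ) → ℝ × ℝ × ℝ × ℝ → ℝ) (Gd : (Fin r → ℝ) → ℝ) (Cb : ℝ × ℝ × ℝ × ℝ → ℝ)
    (hH : Continuous (fun p : (Fin r → ℝ) × (ℝ × ℝ × ℝ × ℝ) => H p.1 p.2)) (hG : Continuous Gd)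
    (hG1 : ∀ x, 1 ≤ Gd x) (hC : ContinuousOn Cb (Reg c))
    (hopen : ∀ e ∈ Reg c, ∀ x ∈ Om e, ∀ᶠ p in nhds (x, e), p.1 ∈ Om p.2 ∨ p.2 ∉ Reg c)
    (hbdry : ∀ e ∈ Reg c, ∀ x, (∃ᶠ p in nhds (x, e), p.1 ∈ Om p.2 ∧ p.2 ∈ Reg c) → x ∉ Om e →
      H x e = 0)
    (hbdd : ∀ e ∈ Reg c, ∀ x ∈ Om e, ∑ i, x i ^ 2 ≤ e.1 ^ 2)
    (hbig : ∀ e ∈ Reg c, (Om e).Nonempty → ∃ x ∈ Om e, Gd x ≤ Cb e * H x e ^ 2)
    {e e' : ℝ × ℝ × ℝ × ℝ} (he : e ∈ Reg c) (he' : e' ∈ Reg c) (hne : (Om e).Nonempty) :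
    (Om e').Nonempty := by
  obtain ⟨γ, hγ, h0, h1, hγR⟩ := Reg_path c he he'
  let Z : Set (Set.Icc (0 : ℝ) 1) := {s | (Om (γ s)).Nonempty}
  have hγc : Continuous (fun s : Set.Icc (0 : ℝ) 1 => γ s) := hγ.comp continuous_subtype_val
  have hZo : IsOpen Z := by
    rw [isOpen_iff_eventually]
    rintro s ⟨x, hx⟩
    have h := hopen (γ s) (hγR s s.2) x hx
    have ht : Filter.Tendsto (fun s' : Set.Icc (0 : ℝ) 1 => (x, γ s')) (nhds s)
        (nhds (x, γ s)) := by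
      have : Continuous (fun s' : Set.Icc (0 : ℝ) 1 => (x, γ s')) := by fun_prop
      exact this.tendsto s
    filter_upwards [ht.eventually h] with s' hs'
    rcases hs' with hs' | hs'
    · exact ⟨x, hs'⟩
    · exact absurd (hγR s' s'.2) hs'
  have hZc : IsClosed Z := by
    apply IsSeqClosed.isClosed
    intro s p hs hsp
    have hex : ∀ n, ∃ x ∈ Om (γ (s n)), Gd x ≤ Cb (γ (s n)) * H x (γ (s n)) ^ 2 := fun n =>
      hbig _ (hγR _ (s n).2) (hs n)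
    choose x hxO hxG using hex
    have hγs : Filter.Tendsto (fun n => γ (s n)) Filter.atTop (nhds (γ p)) :=
      (hγc.tendsto p).comp hsp
    have hbR : Bornology.IsBounded (Set.range (fun n => (γ (s n)).1)) := by
      have : Filter.Tendsto (fun n => (γ (s n)).1) Filter.atTop (nhds (γ p).1) :=
        (continuous_fst.tendsto _).comp hγs
      exact Metric.isBounded_range_of_tendsto _ this
    obtain ⟨B, hB⟩ := hbR.exists_norm_le
    have hB0 : 0 ≤ B := (norm_nonneg _).trans (hB _ ⟨0, rfl⟩)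
    have hxb : ∀ n, x n ∈ Metric.closedBall (0 : Fin r → ℝ) B := by
      intro n
      rw [mem_closedBall_zero_iff, pi_norm_le_iff_of_nonneg hB0]
      intro i
      have h1 := hbdd _ (hγR _ (s n).2) (x n) (hxO n)
      have h2 : x n i ^ 2 ≤ ∑ i, x n i ^ 2 :=
        Finset.single_le_sum (f := fun i => x n i ^ 2) (fun _ _ => sq_nonneg _)
          (Finset.mem_univ i)
      have h3 : |(γ (s n)).1| ≤ B := hB _ ⟨n, rfl⟩
      have h4 : x n i ^ 2 ≤ B ^ 2 := by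
        calc x n i ^ 2 ≤ (γ (s n)).1 ^ 2 := h2.trans h1
          _ = |(γ (s n)).1| ^ 2 := (sq_abs _).symm
          _ ≤ B ^ 2 := by gcongr
      exact abs_le_of_sq_le_sq h4 hB0
    obtain ⟨y, -, φ, hφ, hxy⟩ := (isCompact_closedBall (0 : Fin r → ℝ) B).tendsto_subseq hxb
    have hγφ : Filter.Tendsto (fun n => γ (s (φ n))) Filter.atTop (nhds (γ p)) :=
      hγs.comp hφ.tendsto_atTop
    have hpair : Filter.Tendsto (fun n => (x (φ n), γ (s (φ n)))) Filter.atTop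
        (nhds (y, γ p)) := hxy.prodMk_nhds hγφ
    have hHl : Filter.Tendsto (fun n => H (x (φ n)) (γ (s (φ n)))) Filter.atTop
        (nhds (H y (γ p))) := (hH.tendsto (y, γ p)).comp hpair
    have hCl : Filter.Tendsto (fun n => Cb (γ (s (φ n)))) Filter.atTop (nhds (Cb (γ p))) := by
      have hc := hC (γ p) (hγR p p.2)
      have : Filter.Tendsto (fun n => γ (s (φ n))) Filter.atTop (nhdsWithin (γ p) (Reg c)) := by
        rw [tendsto_nhdsWithin_iff]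
        exact ⟨hγφ, Filter.Eventually.of_forall fun n => hγR _ (s (φ n)).2⟩
      exact hc.tendsto.comp this
    have hGl : Filter.Tendsto (fun n => Gd (x (φ n))) Filter.atTop (nhds (Gd y)) :=
      (hG.tendsto y).comp hxy
    have hle : Gd y ≤ Cb (γ p) * H y (γ p) ^ 2 :=
      le_of_tendsto_of_tendsto' hGl (hCl.mul (hHl.pow 2)) fun n => hxG (φ n)
    by_contra hcon
    have hyO : y ∉ Om (γ p) := fun h => hcon ⟨y, h⟩
    have hfr : ∃ᶠ q in nhds (y, γ p), q.1 ∈ Om q.2 ∧ q.2 ∈ Reg c :=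
      hpair.frequently (Filter.Frequently.of_forall fun n =>
        ⟨hxO (φ n), hγR _ (s (φ n)).2⟩)
    have h0 := hbdry (γ p) (hγR p p.2) y hfr hyO
    have h1 := hG1 y
    rw [h0] at hle
    norm_num at hle
    linarith
  have hZne : Z.Nonempty := ⟨⟨0, by simp⟩, by simpa [Z, h0] using hne⟩
  have hZu : Z = Set.univ := IsClopen.eq_univ ⟨hZc, hZo⟩ hZne
  have : (⟨1, by simp⟩ : Set.Icc (0 : ℝ) 1) ∈ Z := by rw [hZu]; trivial
  simpa [Z, h1] using this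


end Crest.Agent.CHR
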