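import Crest.Agent.CHR.Fam
import Crest.Agent.CHR.Pham
import Crest.Agent.CHR.Red
import Crest.Agent.CHR.RFDefs

/-!
# Row 316, module M9: the polynomials of the proof.  Definitions.

`x`-variables: `j < n`; `Y`-variables: `n ≤ j < n + m`; parameter variables: `n + m + k`, `k ≤ 7`.
-/

set_option autoImplicit false

namespace Crest.Agent.CHR

open MvPolynomial Finset

/-- numerical data of the construction: `n` `x`-variables, `m` `Y`-variables, the polynomial `Q`;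
`K2, nb, D, K1, c` large numbers -/
structure Asm where
  n : ℕ
  m : ℕ
  Q : P
  K2 : ℕ
  nb : ℕ
  D : ℕ
  K1 : ℕ
  c : ℕ

namespace Asm
variable (a : Asm)

/-- the total number of variables -/
def tt : ℕ := a.n + a.m
def vDl : ℕ := a.tt
def vR : ℕ := a.tt + 1
def vTh : ℕ := a.tt + 2
def vE : ℕ := a.tt + 3
def vK : ℕ := a.tt + 4
def vt : ℕ := a.tt + 5
def vT : ℕ := a.tt + 6
def vy : ℕ := a.tt + 7

/-- the `Y`-block -/
def SY : Finset ℕ := Ico a.n a.tt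

/-- `G(Y) = 1 + ∑ Y_j^6` -/
noncomputable def GY : P := 1 + ∑ j ∈ a.SY, X j ^ 6

/-- inner system `Y_j^5 = -(θ/6) ∂_j Q` -/
noncomputable def qY (th : P) (j : ℕ) : P := C (-1 / 6) * th * pderiv j a.Q

def N2 : ℕ := 5 ^ a.m

/-- `χ(x; θ, T)` with `θ = X vt`, `T = X vT` -/
noncomputable def chi : P :=
  nrS a.SY (fun _ => 5) (a.qY (X a.vt)) a.vy a.K2 a.N2 (X a.vT - (X a.vt * a.Q + a.GY))

/-- `h_ij(x)` = coefficient of `θ^i T^j` -/
noncomputable def h (i j : ℕ) : P :=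
  coefS (Ico a.vt (a.vt + 2)) (fun k => if k = a.vt then i else j) a.chi

/-- `χ(x; θ, R)` with `θ = X vTh`, `R = X vR` -/
noncomputable def chiR : P :=
  ∑ i ∈ range a.nb, ∑ j ∈ range a.nb, a.h i j * X a.vTh ^ i * X a.vR ^ j

/-- `H(x; Δ, R, θ, E)` -/
noncomputable def H : P :=
  (X a.vDl ^ 2 - ∑ i ∈ range a.n, X i ^ 2) *
    (∏ i ∈ range a.nb, ∏ j ∈ range a.nb,
      ((1 - X a.vE ^ 2 * a.h i j ^ 2) * (X a.vDl ^ 2 * a.h i j ^ 2 - 1))) * a.chiR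

/-- `G_D(x) = 1 + ∑ x_i^{2D}` -/
noncomputable def GD : P := 1 + ∑ i ∈ range a.n, X i ^ (2 * a.D)

/-- outer system `x_i^{2D-1} = (κ/2D) ∂_i (H²)` -/
noncomputable def qX (ka Hp : P) (i : ℕ) : P := C (1 / (2 * (a.D : ℚ))) * ka * pderiv i (Hp ^ 2)

def N1 : ℕ := (2 * a.D - 1) ^ a.n

/-- the resultant `Rt(κ; Δ, R, θ, E)` -/
noncomputable def Rt : P :=
  nrS (range a.n) (fun _ => 2 * a.D - 1) (a.qX (X a.vK) a.H) a.vy a.K1 a.N1 (a.GD - X a.vK * a.H ^ 2)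

/-- the conditions on the numerical data; `B` = size bound -/
structure Ok (B : ℕ) : Prop where
  Qv : ∀ j ∈ a.Q.vars, j < a.tt
  Qd : a.Q.totalDegree ≤ 4
  Qn : ∀ z : ℕ → ℝ, 0 ≤ aeval z a.Q
  K2 : 6 * a.N2 ≤ a.K2
  nb : a.chi.totalDegree < a.nb
  D : a.H.totalDegree < a.D
  K1 : 2 * a.D * a.N1 ≤ a.K1
  bc : Bnd B a.chi
  bh : ∀ i < a.nb, ∀ j < a.nb, Bnd B (a.h i j)
  bcR : Bnd B a.chiR
  bR : Bnd B a.Rt
  c : 4 * B + 20 ≤ a.c

/-- the concrete parameters `Δ₀ = 2^(2^c)`, `R₀ = 2^(2^(2c))`, `θ₀ = 2^(2^(3c))`, `E₀ = 2^(2^(4c))`,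
`κ₀ = 2^(2^(5c))` -/
def par0 (k : ℕ) : ℕ := 2 ^ (2 ^ (k * a.c))

/-- the constant polynomial `par0 k` -/
noncomputable def pc (k : ℕ) : P := C 2 ^ (2 ^ (k * a.c))

/-- substitution of the concrete parameters -/
noncomputable def sub0 : ℕ → P := fun j =>
  if j = a.vDl then a.pc 1 else
  if j = a.vR then a.pc 2 else
  if j = a.vTh then a.pc 3 else
  if j = a.vE then a.pc 4 else X j

/-- `H` at the concrete parameters -/
noncomputable def H0 : P := bind₁ a.sub0 a.H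

/-- the joint system -/
def mJ (j : ℕ) : ℕ := if j < a.n then 2 * a.D - 1 else 5
noncomputable def qJ (j : ℕ) : P :=
  if j < a.n then a.qX (a.pc 5) a.H0 j else a.qY (a.pc 3) j

/-- the tested polynomials -/
noncomputable def t0 : P := a.pc 1 ^ 2 - ∑ i ∈ range a.n, X i ^ 2
noncomputable def tu (k : ℕ) : P := 1 - a.pc 4 ^ 2 * a.h (k / a.nb) (k % a.nb) ^ 2
noncomputable def tv (k : ℕ) : P := a.pc 1 ^ 2 * a.h (k / a.nb) (k % a.nb) ^ 2 - 1
noncomputable def tb : P := a.pc 3 * a.Q + a.GY - a.pc 2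

/-- the point with coordinates `x`, `Y` (other coordinates `0`) -/
noncomputable def jn (x : Fin a.n → ℝ) (Y : Fin a.m → ℝ) : ℕ → ℝ := fun j =>
  if h : j < a.n then x ⟨j, h⟩ else if h' : j - a.n < a.m then Y ⟨j - a.n, h'⟩ else 0

/-- the real function `Q(x,Y)` -/
noncomputable def Qr (x : Fin a.n → ℝ) (Y : Fin a.m → ℝ) : ℝ := aeval (a.jn x Y) a.Q

/-- the real point with coordinates `x` (other coordinates `0`) -/
noncomputable def ext (x : Fin a.n → ℝ) : ℕ → ℝ := fun j => if h : j < a.n then x ⟨j, h⟩ else 0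

/-- the real functions `h_ij` -/
noncomputable def hr (i j : ℕ) (x : Fin a.n → ℝ) : ℝ := aeval (a.ext x) (a.h i j)

/-- parameters `e = (Δ, R, θ, E)` and `κ` inserted at a real point -/
noncomputable def pt (x : Fin a.n → ℝ) (e : ℝ × ℝ × ℝ × ℝ) (ka : ℝ) : ℕ → ℝ := fun j =>
  if j = a.vDl then e.1 else if j = a.vR then e.2.1 else if j = a.vTh then e.2.2.1 else
  if j = a.vE then e.2.2.2 else if j = a.vK then ka else a.ext x j

/-- `H` as a real function -/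
noncomputable def Hr (x : Fin a.n → ℝ) (e : ℝ × ℝ × ℝ × ℝ) : ℝ := aeval (a.pt x e 0) a.H

/-- `G_D` as a real function -/
noncomputable def GDr (x : Fin a.n → ℝ) : ℝ := 1 + ∑ i, x i ^ (2 * a.D)

/-- the coefficients `B_j` of `Rt` as a polynomial in `κ` -/
noncomputable def Bk (j : ℕ) : P := coefS {a.vK} (fun _ => j) a.Rt

/-- the values `B_j(e)` -/
noncomputable def Bkr (j : ℕ) (e : ℝ × ℝ × ℝ × ℝ) : ℝ := aeval (a.pt 0 e 0) (a.Bk j)

/-- the degree of `Rt` in `κ` -/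
noncomputable def JJ : ℕ := degreeOf a.vK a.Rt

/-- the root bound `κ_max(e)` -/
noncomputable def Cb (e : ℝ × ℝ × ℝ × ℝ) : ℝ :=
  1 + (∑ j ∈ range a.JJ, |a.Bkr j e|) / |a.Bkr a.JJ e|

/-- the concrete parameter point -/
noncomputable def e0 : ℝ × ℝ × ℝ × ℝ := ((a.par0 1 : ℕ), (a.par0 2 : ℕ), (a.par0 3 : ℕ), (a.par0 4 : ℕ))

/-- a solution of the joint system is good -/
def GoodZ {N : ℕ} (Z : Fin N → ℕ → ℂ) (i : Fin N) : Prop :=
  (∀ k < a.tt, (Z i k).im = 0) ∧ 0 < (aeval (Z i) a.t0).re ∧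
  (∀ k < a.nb ^ 2, 0 < (aeval (Z i) (a.tu k)).re ∨ 0 < (aeval (Z i) (a.tv k)).re) ∧
  ∀ j, (∀ k < a.tt, (Z j k).im = 0) → (∀ k < a.n, Z j k = Z i k) → 0 < (aeval (Z j) a.tb).re

end Asm

end Crest.Agent.CHR
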