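import Crest.Agent.CHR.AsmD3

/-!
CHUNK R316-ASME (medium): the joint system.  Idea 447, B6.
PROOF.
`qJ_eval_x`: `aeval z (qJ j)` for `j < n` and `z = ext x` (or any `z` with `z i = x i` for `i < n`) equals
`aeval (pt x e0 κ₀) (qX (X vK) H j)`: `pderiv j (H0 ^ 2) = bind₁ sub0 (pderiv j (H ^ 2))` for `j < n` (chain rule: `sub0` maps the variables
`< n` to themselves and the parameters to constants; `H_vars`; or prove it for monomials).
(=>) `O_iff` at `e0` (`e0_mem`), `sample` gives `x ∈ O(e0)` satisfying the outer equations, `minimizer` at `θ₀ = par0 3` gives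
`Y` satisfying the inner equations (`crit_inner`); the complex point `jn x Y` is a solution of the joint system, so by
`(hZ v).all` with `v = 0`: `Z i = jn x Y` on the indices `< tt` for some `i`.  `GoodZ Z i`: real; `t0 > 0` is `|x|² < Δ₀²`;
`tu k > 0` or `tv k > 0` for `k < nb²`, with `i = k / nb`, `j = k % nb < nb`; if `Z j` is real with the same `x` then its `Y`-part `Y'` has
`aeval (Z j) tb = θ₀ Q(x,Y') + G(Y') - R₀ ≥ uth Qr θ₀ x - R₀ > 0` (`RedData.uth_le`).
(<=) for `GoodZ Z i` let `x` be the (real) `x`-part of `Z i`.  Then `x ∈ O(e0)`: for the last condition take a minimiser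
`Y` at `x` (`minimizer`); `(x, Y)` is a solution of the joint system (the outer equations only involve `x` and hold
because they hold for `Z i`), so it is `Z j` for some `j`, real with the same `x`; so `tb > 0` there: `uth Qr θ₀ x > R₀`.
Then `O_iff`.
-/

set_option autoImplicit false

namespace Crest.Agent.CHR

open MvPolynomial Finset

namespace Asm
variable {a : Asm} {B : ℕ}

theorem pc_eval {R : Type*} [CommRing R] [Algebra ℚ R] (v : ℕ → R) (k : ℕ) :
    aeval v (a.pc k) = ((a.par0 k : ℕ) : R) := by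
  simp [pc, par0, map_ofNat]

private theorem asmE_pderiv_pc (j k : ℕ) : pderiv j (a.pc k) = 0 := by
  unfold pc
  rw [← map_pow]
  exact pderiv_C

private theorem asmE_sub0_pderiv (j : ℕ) (hj : j < a.n) (i : ℕ) :
    pderiv j (a.sub0 i) = bind₁ a.sub0 (pderiv j (X i : P)) := by
  have htt : a.n ≤ a.tt := Nat.le_add_right _ _
  unfold sub0
  by_cases h1 : i = a.vDl
  · have : i ≠ j := by unfold vDl at h1; omega
    rw [if_pos h1, asmE_pderiv_pc, pderiv_X_of_ne this, map_zero]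
  · rw [if_neg h1]
    by_cases h2 : i = a.vR
    · have : i ≠ j := by unfold vR at h2; omega
      rw [if_pos h2, asmE_pderiv_pc, pderiv_X_of_ne this, map_zero]
    · rw [if_neg h2]
      by_cases h3 : i = a.vTh
      · have : i ≠ j := by unfold vTh at h3; omega
        rw [if_pos h3, asmE_pderiv_pc, pderiv_X_of_ne this, map_zero]
      · rw [if_neg h3]
        by_cases h4 : i = a.vE
        · have : i ≠ j := by unfold vE at h4; omega
          rw [if_pos h4, asmE_pderiv_pc, pderiv_X_of_ne this, map_zero]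
        · rw [if_neg h4]
          by_cases h5 : i = j
          · subst h5
            rw [pderiv_X_self, map_one]
          · rw [pderiv_X_of_ne h5, map_zero]

private theorem asmE_pderiv_bind (j : ℕ) (hj : j < a.n) (f : P) :
    pderiv j (bind₁ a.sub0 f) = bind₁ a.sub0 (pderiv j f) := by
  induction f using MvPolynomial.induction_on with
  | C r =>
    rw [pderiv_C, map_zero, algHom_C]
    exact pderiv_C
  | add p q hp hq => rw [map_add, map_add, map_add, map_add, hp, hq]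
  | mul_X p i hp =>
    rw [map_mul, pderiv_mul, pderiv_mul, hp, bind₁_X_right, map_add, map_mul, map_mul,
      bind₁_X_right, asmE_sub0_pderiv j hj i]

private theorem asmE_sub0_eval (z : ℕ → ℝ) (x : Fin a.n → ℝ) (hz : ∀ i : Fin a.n, z i = x i)
    (κ : ℝ) (k : ℕ) (hk : k < a.n ∨ (a.vDl ≤ k ∧ k < a.vDl + 4)) :
    aeval z (a.sub0 k) = a.pt x a.e0 κ k := by
  have htt : a.n ≤ a.tt := Nat.le_add_right _ _
  unfold sub0 pt
  by_cases h1 : k = a.vDl
  · rw [if_pos h1, if_pos h1, pc_eval]; rfl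
  rw [if_neg h1, if_neg h1]
  by_cases h2 : k = a.vR
  · rw [if_pos h2, if_pos h2, pc_eval]; rfl
  rw [if_neg h2, if_neg h2]
  by_cases h3 : k = a.vTh
  · rw [if_pos h3, if_pos h3, pc_eval]; rfl
  rw [if_neg h3, if_neg h3]
  by_cases h4 : k = a.vE
  · rw [if_pos h4, if_pos h4, pc_eval]; rfl
  rw [if_neg h4, if_neg h4]
  have hk' : k < a.n := by
    unfold vDl at h1 hk
    unfold vR at h2
    unfold vTh at h3
    unfold vE at h4
    omega
  have h5 : k ≠ a.vK := by unfold vK; omega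
  rw [if_neg h5, aeval_X]
  unfold ext
  rw [dif_pos hk']
  exact hz ⟨k, hk'⟩

theorem qJ_eval_x (hok : a.Ok B) (z : ℕ → ℝ) (x : Fin a.n → ℝ) (hz : ∀ i : Fin a.n, z i = x i)
    (j : ℕ) (hj : j < a.n) :
    aeval z (a.qJ j) = aeval (a.pt x a.e0 (a.par0 5 : ℕ)) (a.qX (X a.vK) a.H j) := by
  have e1 : aeval z (pderiv j (a.H0 ^ 2)) =
      aeval (a.pt x a.e0 (a.par0 5 : ℕ)) (pderiv j (a.H ^ 2)) := by
    have e2 : a.H0 ^ 2 = bind₁ a.sub0 (a.H ^ 2) := by rw [map_pow]; rfl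
    rw [e2, asmE_pderiv_bind j hj, aeval_bind₁]
    refine aeval_congr_vars fun k hk => ?_
    exact asmE_sub0_eval z x hz _ k (H_vars hok k (vars_pow _ _ (vars_pderiv_sub _ _ hk)))
  have hvK : a.pt x a.e0 (a.par0 5 : ℕ) a.vK = ((a.par0 5 : ℕ) : ℝ) := by
    unfold pt
    rw [if_neg (by unfold vK vDl; omega), if_neg (by unfold vK vR; omega),
      if_neg (by unfold vK vTh; omega), if_neg (by unfold vK vE; omega), if_pos rfl]
  unfold qJ
  rw [if_pos hj]
  unfold qX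
  rw [map_mul, map_mul, map_mul, map_mul, pc_eval, e1, aeval_X, hvK, aeval_C, aeval_C]

private theorem asmE_qJ_eval_y (z : ℕ → ℝ) (j : ℕ) (hj : ¬ j < a.n) :
    aeval z (a.qJ j) = (-1 / 6) * ((a.par0 3 : ℕ) : ℝ) * aeval z (pderiv j a.Q) := by
  unfold qJ
  rw [if_neg hj]
  unfold qY
  rw [map_mul, map_mul, pc_eval, aeval_C]
  congr 2
  simp

private theorem asmE_jn_x (x : Fin a.n → ℝ) (Y : Fin a.m → ℝ) (i : Fin a.n) :
    a.jn x Y i = x i := by
  unfold jn
  rw [dif_pos i.2]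

private theorem asmE_jn_y (x : Fin a.n → ℝ) (Y : Fin a.m → ℝ) (i : Fin a.m) :
    a.jn x Y (a.n + i) = Y i := by
  unfold jn
  rw [dif_neg (by omega), dif_pos (by have := i.2; omega)]
  congr 1
  apply Fin.ext
  simp

private theorem asmE_jn_off (x : Fin a.n → ℝ) (Y : Fin a.m → ℝ) (j : ℕ) (h : ¬ j < a.tt) :
    a.jn x Y j = 0 := by
  unfold tt at h
  unfold jn
  rw [dif_neg (by omega), dif_neg (by omega)]

/-- real solutions of the joint equations occur in the list -/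
private theorem asmE_joint (hok : a.Ok B) {N : ℕ} {Z : Fin N → ℕ → ℂ}
    (hZ : Sol0 a.tt a.mJ a.qJ Z) (x : Fin a.n → ℝ) (Y : Fin a.m → ℝ)
    (hx : ∀ i < a.n,
      a.ext x i ^ (2 * a.D - 1) = aeval (a.pt x a.e0 (a.par0 5 : ℕ)) (a.qX (X a.vK) a.H i))
    (hY : ∀ j ∈ a.SY,
      (a.jn x Y j) ^ 5 = (-1 / 6) * ((a.par0 3 : ℕ) : ℝ) * aeval (a.jn x Y) (pderiv j a.Q)) :
    ∃ i, ∀ k < a.tt, Z i k = ((a.jn x Y k : ℝ) : ℂ) := by
  have hall := (hZ (fun _ => 0)).all (fun j => ((a.jn x Y j : ℝ) : ℂ))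
  obtain ⟨i, hi⟩ := hall (fun j hj => by
      rw [mem_range] at hj
      rw [asmE_jn_off x Y j hj, Complex.ofReal_zero]) (fun j hj => by
      rw [mem_range] at hj
      rw [aeval_ofReal]
      rw [← Complex.ofReal_pow]
      congr 1
      unfold mJ
      by_cases h : j < a.n
      · rw [if_pos h, qJ_eval_x hok (a.jn x Y) x (asmE_jn_x x Y) j h, ← hx j h]
        congr 1
        unfold ext jn
        rw [dif_pos h, dif_pos h]
      · rw [if_neg h, asmE_qJ_eval_y (a.jn x Y) j h]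
        exact hY j (by unfold SY; rw [mem_Ico]; omega))
  refine ⟨i, fun k hk => ?_⟩
  have := congrFun hi k
  simp only [mixv, if_pos hk] at this
  exact this

/-- real members of the list -/
private theorem asmE_real {N : ℕ} {Z : Fin N → ℕ → ℂ}
    (i : Fin N) (hr : ∀ k < a.tt, (Z i k).im = 0) :
    ∃ (x : Fin a.n → ℝ) (Y : Fin a.m → ℝ), ∀ k < a.tt, Z i k = ((a.jn x Y k : ℝ) : ℂ) := by
  refine ⟨fun k => (Z i k).re, fun k => (Z i (a.n + k)).re, fun k hk => ?_⟩
  have e : a.jn (fun k => (Z i k).re) (fun k => (Z i (a.n + k)).re) k = (Z i k).re := by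
    unfold jn
    by_cases h : k < a.n
    · rw [dif_pos h]
    · unfold tt at hk
      rw [dif_neg h, dif_pos (by omega)]
      simp only
      congr 2
      omega
  rw [e]
  apply Complex.ext
  · simp
  · simp [hr k hk]

private theorem asmE_outer (hok : a.Ok B) {N : ℕ} {Z : Fin N → ℕ → ℂ}
    (hZ : Sol0 a.tt a.mJ a.qJ Z) (i : Fin N) (x : Fin a.n → ℝ) (Y : Fin a.m → ℝ)
    (h : ∀ k < a.tt, Z i k = ((a.jn x Y k : ℝ) : ℂ)) (j : ℕ) (hj : j < a.n) :
    a.ext x j ^ (2 * a.D - 1) = aeval (a.pt x a.e0 (a.par0 5 : ℕ)) (a.qX (X a.vK) a.H j) := by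
  have htt : a.n ≤ a.tt := Nat.le_add_right _ _
  have e0 : mixv a.tt (Z i) (fun _ => 0) = fun k => ((a.jn x Y k : ℝ) : ℂ) := by
    funext k
    unfold mixv
    by_cases hk : k < a.tt
    · rw [if_pos hk, h k hk]
    · rw [if_neg hk, asmE_jn_off x Y k hk, Complex.ofReal_zero]
  have hs := (hZ (fun _ => 0)).sol i j (mem_range.2 (lt_of_lt_of_le hj htt))
  rw [e0, aeval_ofReal] at hs
  simp only at hs
  rw [← Complex.ofReal_pow] at hs
  have hs' := Complex.ofReal_injective hs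
  rw [qJ_eval_x hok (a.jn x Y) x (asmE_jn_x x Y) j hj] at hs'
  rw [← hs']
  unfold mJ
  rw [if_pos hj]
  congr 1
  unfold ext jn
  rw [dif_pos hj, dif_pos hj]

private theorem asmE_aeval {N : ℕ} {Z : Fin N → ℕ → ℂ} {i : Fin N}
    {x : Fin a.n → ℝ} {Y : Fin a.m → ℝ}
    (h : ∀ k < a.tt, Z i k = ((a.jn x Y k : ℝ) : ℂ)) {f : P} (hf : ∀ j ∈ f.vars, j < a.tt) :
    aeval (Z i) f = ((aeval (a.jn x Y) f : ℝ) : ℂ) := by
  rw [← aeval_ofReal]
  exact aeval_congr_vars fun j hj => h j (hf j hj)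

private theorem asmE_t0 (x : Fin a.n → ℝ) (Y : Fin a.m → ℝ) :
    aeval (a.jn x Y) a.t0 = ((a.par0 1 : ℕ) : ℝ) ^ 2 - ∑ i, x i ^ 2 := by
  unfold t0
  rw [map_sub, map_pow, pc_eval, map_sum]
  congr 1
  rw [← Fin.sum_univ_eq_sum_range (fun i => aeval (a.jn x Y) ((X i : P) ^ 2))]
  refine Finset.sum_congr rfl fun i _ => ?_
  rw [map_pow, aeval_X, asmE_jn_x]

private theorem asmE_h (hok : a.Ok B) (x : Fin a.n → ℝ) (Y : Fin a.m → ℝ) (i j : ℕ) :
    aeval (a.jn x Y) (a.h i j) = a.hr i j x := by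
  unfold hr
  refine aeval_congr_vars fun k hk => ?_
  have := h_vars hok i j k hk
  unfold jn ext
  rw [dif_pos this, dif_pos this]

private theorem asmE_tu (hok : a.Ok B) (x : Fin a.n → ℝ) (Y : Fin a.m → ℝ) (k : ℕ) :
    aeval (a.jn x Y) (a.tu k) =
      1 - ((a.par0 4 : ℕ) : ℝ) ^ 2 * a.hr (k / a.nb) (k % a.nb) x ^ 2 := by
  unfold tu
  rw [map_sub, map_one, map_mul, map_pow, map_pow, pc_eval, asmE_h hok]

private theorem asmE_tv (hok : a.Ok B) (x : Fin a.n → ℝ) (Y : Fin a.m → ℝ) (k : ℕ) :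
    aeval (a.jn x Y) (a.tv k) =
      ((a.par0 1 : ℕ) : ℝ) ^ 2 * a.hr (k / a.nb) (k % a.nb) x ^ 2 - 1 := by
  unfold tv
  rw [map_sub, map_one, map_mul, map_pow, map_pow, pc_eval, asmE_h hok]

private theorem asmE_tb (x : Fin a.n → ℝ) (Y : Fin a.m → ℝ) :
    aeval (a.jn x Y) a.tb =
      ((a.par0 3 : ℕ) : ℝ) * a.Qr x Y + (1 + ∑ j, Y j ^ 6) - ((a.par0 2 : ℕ) : ℝ) := by
  unfold tb GY SY tt
  rw [map_sub, map_add, map_mul, pc_eval, pc_eval, map_add, map_one, map_sum]
  congr 3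
  rw [Finset.sum_Ico_eq_sum_range, Nat.add_sub_cancel_left,
    ← Fin.sum_univ_eq_sum_range (fun i => aeval (a.jn x Y) ((X (a.n + i) : P) ^ 6))]
  refine Finset.sum_congr rfl fun i _ => ?_
  rw [map_pow, aeval_X, asmE_jn_y]

private theorem asmE_par0_pos (k : ℕ) : (0 : ℝ) < ((a.par0 k : ℕ) : ℝ) := by
  unfold par0
  positivity

theorem main (hok : a.Ok B) {N : ℕ} {Z : Fin N → ℕ → ℂ} (hZ : Sol0 a.tt a.mJ a.qJ Z) :
    (∃ x, ∀ Y, 0 < a.Qr x Y) ↔ ∃ i, a.GoodZ Z i := by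
  rw [← O_iff hok e0_mem]
  have hθ : (0 : ℝ) < ((a.par0 3 : ℕ) : ℝ) := asmE_par0_pos 3
  constructor
  · intro hne
    obtain ⟨x, hxO, hx⟩ := sample hok hne
    obtain ⟨Y, hY1, hY2⟩ := minimizer hok x hθ
    obtain ⟨i, hi⟩ := asmE_joint hok hZ x Y hx (crit_inner hok x Y hY2)
    have hxO' : ∑ i, x i ^ 2 < ((a.par0 1 : ℕ) : ℝ) ^ 2 ∧
        (∀ i < a.nb, ∀ j < a.nb, ((a.par0 4 : ℕ) : ℝ) ^ 2 * a.hr i j x ^ 2 < 1 ∨
          1 < ((a.par0 1 : ℕ) : ℝ) ^ 2 * a.hr i j x ^ 2) ∧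
        ((a.par0 2 : ℕ) : ℝ) < uth a.Qr ((a.par0 3 : ℕ) : ℝ) x := hxO
    obtain ⟨ho1, ho2, ho3⟩ := hxO'
    refine ⟨i, fun k hk => ?_, ?_, fun k hk => ?_, fun j hj1 hj2 => ?_⟩
    · rw [hi k hk, Complex.ofReal_im]
    · rw [asmE_aeval hi (t0_vars hok), Complex.ofReal_re, asmE_t0]
      linarith
    · have hnb : 0 < a.nb := by
        rcases Nat.eq_zero_or_pos a.nb with h | h
        · rw [h] at hk; simp at hk
        · exact h
      rw [asmE_aeval hi (tu_vars hok k), asmE_aeval hi (tv_vars hok k), Complex.ofReal_re,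
        Complex.ofReal_re, asmE_tu hok, asmE_tv hok]
      have hk1 : k / a.nb < a.nb := by
        rw [Nat.div_lt_iff_lt_mul hnb, ← pow_two]; exact hk
      rcases ho2 (k / a.nb) hk1 (k % a.nb) (Nat.mod_lt _ hnb) with h | h
      · left; linarith
      · right; linarith
    · obtain ⟨x', Y', h'⟩ := asmE_real (a := a) j hj1
      have hxx : x' = x := by
        funext k
        have hk1 : (k : ℕ) < a.tt := lt_of_lt_of_le k.2 (Nat.le_add_right _ _)
        have e1 := h' k hk1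
        have e2 := hi k hk1
        rw [hj2 k k.2, e2, asmE_jn_x, asmE_jn_x] at e1
        exact (Complex.ofReal_injective e1).symm
      subst hxx
      rw [asmE_aeval h' (tb_vars hok), Complex.ofReal_re, asmE_tb]
      have := (a.red hok).uth_le x' hθ Y'
      have h2 : uth a.Qr ((a.par0 3 : ℕ) : ℝ) x' ≤
        ((a.par0 3 : ℕ) : ℝ) * a.Qr x' Y' + (1 + ∑ j, Y' j ^ 6) := this
      linarith
  · rintro ⟨i, hr, h0, huv, hb⟩
    obtain ⟨x, Y, hi⟩ := asmE_real (a := a) i hr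
    refine ⟨x, ?_⟩
    change ∑ i, x i ^ 2 < ((a.par0 1 : ℕ) : ℝ) ^ 2 ∧
        (∀ i < a.nb, ∀ j < a.nb, ((a.par0 4 : ℕ) : ℝ) ^ 2 * a.hr i j x ^ 2 < 1 ∨
          1 < ((a.par0 1 : ℕ) : ℝ) ^ 2 * a.hr i j x ^ 2) ∧
        ((a.par0 2 : ℕ) : ℝ) < uth a.Qr ((a.par0 3 : ℕ) : ℝ) x
    refine ⟨?_, fun p hp q hq => ?_, ?_⟩
    · rw [asmE_aeval hi (t0_vars hok), Complex.ofReal_re, asmE_t0] at h0
      linarith
    · have hnb : 0 < a.nb := by omega
      have hk : p * a.nb + q < a.nb ^ 2 := by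
        have : (p + 1) * a.nb ≤ a.nb * a.nb := Nat.mul_le_mul_right _ hp
        rw [pow_two]
        rw [Nat.add_mul, Nat.one_mul] at this
        omega
      have := huv (p * a.nb + q) hk
      rw [asmE_aeval hi (tu_vars hok _), asmE_aeval hi (tv_vars hok _), Complex.ofReal_re,
        Complex.ofReal_re, asmE_tu hok, asmE_tv hok] at this
      have e1 : (p * a.nb + q) / a.nb = p := by
        rw [mul_comm, Nat.mul_add_div hnb, Nat.div_eq_of_lt hq, add_zero]
      have e2 : (p * a.nb + q) % a.nb = q := by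
        rw [mul_comm, Nat.mul_add_mod, Nat.mod_eq_of_lt hq]
      rw [e1, e2] at this
      rcases this with h | h
      · left; linarith
      · right; linarith
    · obtain ⟨Y', hY1, hY2⟩ := minimizer hok x hθ
      obtain ⟨j, hj⟩ := asmE_joint hok hZ x Y' (asmE_outer hok hZ i x Y hi)
        (crit_inner hok x Y' hY2)
      have hb' := hb j (fun k hk => by rw [hj k hk, Complex.ofReal_im]) (fun k hk => by
        have hk1 : k < a.tt := lt_of_lt_of_le hk (Nat.le_add_right _ _)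
        rw [hj k hk1, hi k hk1]
        unfold jn
        rw [dif_pos hk, dif_pos hk])
      rw [asmE_aeval hj (tb_vars hok), Complex.ofReal_re, asmE_tb] at hb'
      rw [hY1]
      linarith

end Asm

end Crest.Agent.CHR
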