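import Crest.Agent.CHR.GapA
import Crest.Agent.CHR.AsmB1
import Crest.Agent.CHR.AsmB2

/-!
CHUNK R316-ASMOK (medium, ~200 lines): the hypotheses `CData.Ok` for the data.  Idea 447, C6, C7.
PROOF.  Let `F = ((2^b)!)^(2^b) ≤ 2^(b * 2^(2b))` (`Nat.factorial_le_pow`-type bound `(2^b)! ≤ (2^b)^(2^b)`).
`bd`: `Sol.bound` for `isPham_joint` and `hZ (fun _ => 0)` with `B = 2^(2^b)`: `l1at 0 (range tt) (qJ j) = l1q (qJ j)` because all
variables of `qJ j` are `< tt` (`qJ_vars`), `≤ 2^(2^b)` (`Bnd.l1`).  So `‖Z i k‖ ≤ U₀ = 2^(2^b)`.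
Values: `‖aeval (Z i) s‖ ≤ 2^(2^b) * U₀^(2^b) =: U₁` (`Bnd.upper`), `U₁ ≤ 2^(2^(2b+1))`; differences `≤ 2 U₀ ≤ U₁`.
`gap`, `vals`: `gap_diff`, `gap_val` with `U = U₁`: `F * U₁^(N*N) ≤ 2^(b 2^(2b) + 2^(2b+1) 2^(2b)) ≤ 2^(2^(4b+10)) ≤ 2^P`.
(`1 - x = 0 ∨ ...`: `(1/2)^P ≤ 1/(F U₁^M)`.)
`vals`: real points: `s.im = 0` (`aeval_ofReal`: the values at a real point are real; only the variables `< tt` matter,
`aeval_congr_vars`, `t0_vars`, ...).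
`conj`: `Sol.conj` for `hZ (fun _ => 0)`.
-/

set_option autoImplicit false

namespace Crest.Agent.CHR

open MvPolynomial Finset

namespace Asm
variable {a : Asm} {B : ℕ}

/-- the data of module M5 -/
noncomputable def dat (a : Asm) (p : Par) (Z : Fin p.N → ℕ → ℂ) : CData p where
  S := range a.tt
  Sx := range a.n
  α := fun k i => Z i k
  na := a.nb ^ 2
  s₀ := fun i => aeval (Z i) a.t0
  u := fun k i => aeval (Z i) (a.tu k)
  v := fun k i => aeval (Z i) (a.tv k)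
  b := fun i => aeval (Z i) a.tb

theorem dat_isReal (p : Par) (Z : Fin p.N → ℕ → ℂ) (i : Fin p.N) :
    (a.dat p Z).IsReal i ↔ ∀ k < a.tt, (Z i k).im = 0 := by
  constructor
  · intro h k hk
    exact h k (mem_range.2 hk)
  · intro h k hk
    exact h k (mem_range.1 hk)

theorem dat_good (p : Par) (Z : Fin p.N → ℕ → ℂ) (i : Fin p.N) :
    (a.dat p Z).Good i ↔ a.GoodZ Z i := by
  unfold CData.Good GoodZ
  rw [dat_isReal]
  refine and_congr_right fun _ => and_congr_right fun _ => and_congr_right fun _ => ?_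
  constructor
  · intro h j hj hk
    exact h j ((dat_isReal p Z j).2 hj) (fun k hk' => hk k (mem_range.1 hk'))
  · intro h j hj hk
    exact h j ((dat_isReal p Z j).1 hj) (fun k hk' => hk k (mem_range.2 hk'))

/-! ### sizes -/

theorem ok_size {b N P M : ℕ} (hN : N ≤ 2 ^ b) (hP : 2 ^ (4 * b + 10) ≤ P) (hM : M ≤ N * N) :
    ((2 ^ b).factorial : ℝ) ^ (2 ^ b) * ((2 : ℝ) ^ (2 ^ b) * ((2 : ℝ) ^ (2 ^ b)) ^ (2 ^ b)) ^ M ≤
      2 ^ P := by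
  have h1 : ((2 ^ b).factorial : ℝ) ^ (2 ^ b) ≤ 2 ^ (b * 2 ^ b * 2 ^ b) := by
    have h : (2 ^ b).factorial ≤ (2 ^ b) ^ (2 ^ b) := Nat.factorial_le_pow _
    have h' : (((2 ^ b).factorial : ℕ) : ℝ) ≤ (((2 ^ b) ^ (2 ^ b) : ℕ) : ℝ) := by exact_mod_cast h
    calc ((2 ^ b).factorial : ℝ) ^ (2 ^ b) ≤ (((2 ^ b) ^ (2 ^ b) : ℕ) : ℝ) ^ (2 ^ b) :=
          pow_le_pow_left₀ (by positivity) h' _
      _ = 2 ^ (b * 2 ^ b * 2 ^ b) := by push_cast; rw [← pow_mul, ← pow_mul, mul_assoc]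
  have h2 : ((2 : ℝ) ^ (2 ^ b) * ((2 : ℝ) ^ (2 ^ b)) ^ (2 ^ b)) ^ M =
      2 ^ ((2 ^ b + 2 ^ b * 2 ^ b) * M) := by
    rw [← pow_mul, ← pow_add, ← pow_mul]
  rw [h2]
  have hM' : M ≤ 2 ^ b * 2 ^ b := hM.trans (Nat.mul_le_mul hN hN)
  have hb : b ≤ 2 ^ b := (Nat.lt_two_pow_self).le
  have h1b : 1 ≤ 2 ^ b := Nat.one_le_two_pow
  have h3 : b * 2 ^ b * 2 ^ b + (2 ^ b + 2 ^ b * 2 ^ b) * M ≤ P := by
    refine le_trans ?_ hP
    set x := 2 ^ b with hx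
    have e : 2 ^ (4 * b + 10) = 1024 * (x * x * x * x) := by rw [hx]; ring
    rw [e]
    have a1 : b * x * x ≤ x * x * x := by gcongr
    have a2 : (x + x * x) * M ≤ (x + x * x) * (x * x) := Nat.mul_le_mul_left _ hM'
    have a3 : x * x * x ≤ x * x * x * x := Nat.le_mul_of_pos_right _ h1b
    have a4 : (x + x * x) * (x * x) = x * x * x + x * x * x * x := by ring
    omega
  calc ((2 ^ b).factorial : ℝ) ^ (2 ^ b) * 2 ^ ((2 ^ b + 2 ^ b * 2 ^ b) * M)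
      ≤ 2 ^ (b * 2 ^ b * 2 ^ b) * 2 ^ ((2 ^ b + 2 ^ b * 2 ^ b) * M) := by gcongr
    _ = 2 ^ (b * 2 ^ b * 2 ^ b + (2 ^ b + 2 ^ b * 2 ^ b) * M) := by rw [← pow_add]
    _ ≤ 2 ^ P := pow_le_pow_right₀ (by norm_num) h3

theorem ok_gap {F x : ℝ} {P : ℕ} (hF0 : 0 < F) (hF : F ≤ 2 ^ P) (h : 1 / F ≤ x) :
    (1 / 2 : ℝ) ^ P ≤ x := by
  refine le_trans ?_ h
  rw [one_div_pow]
  exact one_div_le_one_div_of_le hF0 hF

theorem ok_bound (hok : a.Ok B) {N : ℕ} {Z : Fin N → ℕ → ℂ} (hZ : Sol0 a.tt a.mJ a.qJ Z) {b : ℕ}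
    (hq : ∀ j < a.tt, Bnd b (a.qJ j)) (i : Fin N) (k : ℕ) (hk : k < a.tt) :
    ‖Z i k‖ ≤ 2 ^ (2 ^ b) := by
  have h := Sol.bound (isPham_joint hok) (hZ (fun _ => 0)) (2 ^ (2 ^ b))
    (one_le_pow₀ (by norm_num)) (fun j hj => ?_) i k (mem_range.2 hk)
  · simpa only [mixv, if_pos hk] using h
  · have hj' := mem_range.1 hj
    have hl : ((l1q (a.qJ j) : ℚ) : ℝ) ≤ ((2 ^ (2 ^ b) : ℚ) : ℝ) := by exact_mod_cast (hq j hj').l1
    have e : l1at (fun _ => 0) (range a.tt) (a.qJ j) = ((l1q (a.qJ j) : ℚ) : ℝ) := by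
      unfold l1at l1q
      push_cast
      refine sum_congr rfl fun m hm => ?_
      have hs : m.support \ range a.tt = ∅ := by
        rw [sdiff_eq_empty_iff_subset]
        intro l hl
        exact mem_range.2 (qJ_vars hok j hj' l ((mem_vars_iff_mem_support l).2 ⟨m, hm, hl⟩))
      rw [hs, prod_empty, mul_one]
    rw [e]
    refine hl.trans (le_of_eq ?_)
    push_cast; rfl

theorem ok_real {s : P} {n : ℕ} (hs : ∀ j ∈ s.vars, j < n) {z : ℕ → ℂ} (hz : ∀ k < n, (z k).im = 0) :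
    (aeval z s).im = 0 := by
  have h : aeval z s = aeval (fun j => (((z j).re : ℝ) : ℂ)) s := by
    refine aeval_congr_vars fun j hj => ?_
    apply Complex.ext
    · simp
    · simp [hz j (hs j hj)]
  rw [h, aeval_ofReal (fun j => (z j).re)]
  simp

theorem dat_ok (hok : a.Ok B) {p : Par} {Z : Fin p.N → ℕ → ℂ} (hZ : Sol0 a.tt a.mJ a.qJ Z) {b₀ b K : ℕ}
    (hq : ∀ j < a.tt, Bnd b₀ (a.qJ j)) (h0 : Bnd b₀ a.t0) (hu : ∀ k < a.nb ^ 2, Bnd b₀ (a.tu k))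
    (hv : ∀ k < a.nb ^ 2, Bnd b₀ (a.tv k)) (hb : Bnd b₀ a.tb)
    (hF : ∀ k < a.tt, Bnd b₀ (nrS (range a.tt) a.mJ a.qJ (a.tt + 1) p.N p.N (X a.tt + X k)))
    (hK : 2 ^ b₀ * p.N ≤ K) (hbb : b₀ ≤ b)
    (g0 : Bnd b (gapv a.tt a.mJ a.qJ K p.N a.t0))
    (gu : ∀ k < a.nb ^ 2, Bnd b (gapv a.tt a.mJ a.qJ K p.N (a.tu k)))
    (gv : ∀ k < a.nb ^ 2, Bnd b (gapv a.tt a.mJ a.qJ K p.N (a.tv k)))
    (gb : Bnd b (gapv a.tt a.mJ a.qJ K p.N a.tb))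
    (gd : ∀ k < a.tt, Bnd b (gapd a.tt a.mJ a.qJ K p.N k))
    (hN1 : 1 ≤ p.N) (hN : p.N ≤ 2 ^ b) (hP : 2 ^ (4 * b + 10) ≤ p.P) :
    (a.dat p Z).Ok := by
  have hV1 : (1 : ℝ) ≤ 2 ^ (2 ^ b) := one_le_pow₀ (by norm_num)
  have hbd : ∀ (i : Fin p.N) (k : ℕ), k < a.tt → ‖Z i k‖ ≤ 2 ^ (2 ^ b) := fun i k hk =>
    (ok_bound hok hZ hq i k hk).trans
      (pow_le_pow_right₀ (by norm_num) (Nat.pow_le_pow_right (by norm_num) hbb))
  have hU : (1 : ℝ) ≤ (2 : ℝ) ^ (2 ^ b) * ((2 : ℝ) ^ (2 ^ b)) ^ (2 ^ b) :=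
    one_le_mul_of_one_le_of_one_le hV1 (one_le_pow₀ hV1)
  have hFpos : (0 : ℝ) < ((2 ^ b).factorial : ℝ) ^ (2 ^ b) := by positivity
  have hF1 : (1 : ℝ) ≤ ((2 ^ b).factorial : ℝ) ^ (2 ^ b) := by
    refine one_le_pow₀ ?_
    exact_mod_cast (Nat.factorial_pos _)
  have hsz := fun {M : ℕ} (hM : M ≤ p.N * p.N) => ok_size hN hP hM
  have hNN : p.N ≤ p.N * p.N := Nat.le_mul_of_pos_left _ (by omega)
  have hUP : (2 : ℝ) ^ (2 ^ b) * ((2 : ℝ) ^ (2 ^ b)) ^ (2 ^ b) ≤ 2 ^ p.P := by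
    refine le_trans ?_ (hsz (M := 1) (hN1.trans hNN))
    rw [pow_one]
    exact le_mul_of_one_le_left (zero_le_one.trans hU) hF1
  have hVU : 2 * (2 : ℝ) ^ (2 ^ b) ≤ (2 : ℝ) ^ (2 ^ b) * ((2 : ℝ) ^ (2 ^ b)) ^ (2 ^ b) := by
    rw [mul_comm]
    refine mul_le_mul_of_nonneg_left ?_ (by positivity)
    calc (2 : ℝ) = 2 ^ 1 := by norm_num
      _ ≤ 2 ^ (2 ^ b * 2 ^ b) := pow_le_pow_right₀ (by norm_num)
          (Nat.mul_pos Nat.one_le_two_pow Nat.one_le_two_pow)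
      _ = ((2 : ℝ) ^ (2 ^ b)) ^ (2 ^ b) := by rw [← pow_mul]
  -- values of one polynomial
  have hval : ∀ s : P, (∀ j ∈ s.vars, j < a.tt) → Bnd b₀ s → Bnd b (gapv a.tt a.mJ a.qJ K p.N s) →
      ∀ i, (∀ k < a.tt, (Z i k).im = 0) → (aeval (Z i) s).im = 0 ∧ ‖aeval (Z i) s‖ ≤ 2 ^ p.P ∧
        (aeval (Z i) s = 0 ∨ (1 / 2 : ℝ) ^ p.P ≤ ‖aeval (Z i) s‖) := by
    intro s hs hbs hgs i hi
    have hup : ∀ i, ‖aeval (Z i) s‖ ≤ (2 : ℝ) ^ (2 ^ b) * ((2 : ℝ) ^ (2 ^ b)) ^ (2 ^ b) :=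
      fun i => (hbs.mono hbb).upper (Z i) _ hV1 (fun j hj => hbd i j (hs j hj))
    refine ⟨ok_real hs hi, (hup i).trans hUP, ?_⟩
    rcases gap_val hZ (qJ_vars hok) s hs ((Nat.mul_le_mul_right _ hbs.deg).trans hK) hgs hU hup i
      with h | h
    · exact Or.inl h
    · exact Or.inr (ok_gap (by positivity) (hsz hNN) h)
  refine ⟨hN1, ?_, ?_, ?_, ?_, ?_⟩
  · intro k hk
    have : k < a.n := mem_range.1 hk
    exact mem_range.2 (lt_of_lt_of_le this (Nat.le_add_right _ _))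
  · obtain ⟨c, hc⟩ := Sol.conj (hZ (fun _ => 0)) (fun j => by simp)
    refine ⟨c, fun k hk i => ?_⟩
    have h := hc i k
    simp only [mixv, if_pos (mem_range.1 hk)] at h
    exact h
  · intro k hk i
    have h1 : ‖Z i k‖ ≤ 2 ^ (2 ^ b) := hbd i k (mem_range.1 hk)
    refine h1.trans (le_trans ?_ hUP)
    exact le_mul_of_one_le_right (by positivity) (one_le_pow₀ hV1)
  · intro k hk i j
    have hk' := mem_range.1 hk
    rcases gap_diff hZ (qJ_vars hok) k hk' ((Nat.mul_le_mul_right _ (hF k hk').deg).trans hK)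
      (gd k hk') hU (fun i j => by
        refine (norm_sub_le _ _).trans ?_
        have := hbd i k hk'
        have := hbd j k hk'
        linarith) i j with h | h
    · exact Or.inl h
    · exact Or.inr (ok_gap (by positivity) (hsz le_rfl) h)
  · intro i hi s hs
    have hi' := (dat_isReal p Z i).1 hi
    rcases hs with rfl | rfl | ⟨k, hk, rfl | rfl⟩
    · exact hval a.t0 (t0_vars hok) h0 g0 i hi'
    · exact hval a.tb (tb_vars hok) hb gb i hi'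
    · exact hval (a.tu k) (tu_vars hok k) (hu k hk) (gu k hk) i hi'
    · exact hval (a.tv k) (tv_vars hok k) (hv k hk) (gv k hk) i hi'

end Asm

end Crest.Agent.CHR
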