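import Crest.Agent.CHR.CHclD

/-!
# MODULE M2 (row 316): closure properties of the counting hierarchy

Everything is proved in `CHclA.lean` (levels), `CHclB.lean` (predicates `CHP`, string functions
`CHF`), `CHclC.lean` (number functions `CHN`, exact counting), `CHclD.lean` (sums, arithmetic).
-/
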