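import Crest.Agent.CHR.Defs

/-!
# MODULE M2 (row 316): counting bit strings of a fixed length
-/

set_option autoImplicit false

namespace Crest.Agent.CHR

open Crest.Complexity Crest.CountHier

/-- number of strings of length `n` in `S` -/
noncomputable def cnt (n : ℕ) (S : Set W) : ℕ := {y : W | y.length = n ∧ y ∈ S}.ncard

theorem cnt_finite (n : ℕ) (S : Set W) : {y : W | y.length = n ∧ y ∈ S}.Finite :=
  (List.finite_length_eq Bool n).subset fun _ hy => hy.1

theorem cnt_congr {n : ℕ} {S T : Set W} (h : ∀ y : W, y.length = n → (y ∈ S ↔ y ∈ T)) :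
    cnt n S = cnt n T := by
  unfold cnt
  congr 1
  ext y
  simp only [Set.mem_ofPred_eq]
  constructor
  · rintro ⟨h1, h2⟩; exact ⟨h1, (h y h1).1 h2⟩
  · rintro ⟨h1, h2⟩; exact ⟨h1, (h y h1).2 h2⟩

theorem cnt_succ (n : ℕ) (S : Set W) :
    cnt (n + 1) S = cnt n {y | true :: y ∈ S} + cnt n {y | false :: y ∈ S} := by
  unfold cnt
  have h : {y : W | y.length = n + 1 ∧ y ∈ S} =
      (List.cons true) '' {y : W | y.length = n ∧ y ∈ {y | true :: y ∈ S}} ∪
      (List.cons false) '' {y : W | y.length = n ∧ y ∈ {y | false :: y ∈ S}} := by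
    ext y
    rcases y with _ | ⟨b, y⟩
    · simp
    · cases b <;> simp
  rw [h, Set.ncard_union_eq ?_ ((cnt_finite n _).image _) ((cnt_finite n _).image _)]
  · rw [Set.ncard_image_of_injective _ (List.cons_injective),
      Set.ncard_image_of_injective _ (List.cons_injective)]
  · rw [Set.disjoint_left]
    rintro y ⟨a, _, rfl⟩ ⟨b, _, hb⟩
    simp at hb

theorem cnt_zero_of_mem {S : Set W} (h : [] ∈ S) : cnt 0 S = 1 := by
  unfold cnt
  rw [Set.ncard_eq_one]
  refine ⟨[], ?_⟩
  ext y
  simp only [Set.mem_ofPred_eq, List.length_eq_zero_iff, Set.mem_singleton_iff]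
  constructor
  · exact fun h => h.1
  · rintro rfl; exact ⟨rfl, h⟩

theorem cnt_zero_of_notMem {S : Set W} (h : [] ∉ S) : cnt 0 S = 0 := by
  unfold cnt
  rw [Set.ncard_eq_zero (cnt_finite 0 S)]
  ext y
  simp only [Set.mem_ofPred_eq, List.length_eq_zero_iff, Set.mem_empty_iff_false, iff_false]
  rintro ⟨rfl, h2⟩
  exact h h2

open Classical in
theorem cnt_zero (S : Set W) : cnt 0 S = if [] ∈ S then 1 else 0 := by
  split_ifs with h
  · exact cnt_zero_of_mem h
  · exact cnt_zero_of_notMem h

theorem cnt_compl (n : ℕ) (S : Set W) : cnt n S + cnt n Sᶜ = 2 ^ n := by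
  induction n generalizing S with
  | zero =>
    by_cases h : [] ∈ S
    · rw [cnt_zero_of_mem h, cnt_zero_of_notMem (by simpa using h)]; rfl
    · rw [cnt_zero_of_notMem h, cnt_zero_of_mem (by simpa using h)]; rfl
  | succ n ih =>
    rw [cnt_succ, cnt_succ, pow_succ]
    have h1 : cnt n {y | true :: y ∈ S} + cnt n {y | true :: y ∈ Sᶜ} = 2 ^ n := ih _
    have h2 : cnt n {y | false :: y ∈ S} + cnt n {y | false :: y ∈ Sᶜ} = 2 ^ n := ih _
    omega

theorem cnt_le (n : ℕ) (S : Set W) : cnt n S ≤ 2 ^ n := by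
  have := cnt_compl n S
  omega

theorem cnt_pos {n : ℕ} {S : Set W} : 0 < cnt n S ↔ ∃ y : W, y.length = n ∧ y ∈ S := by
  unfold cnt
  rw [Set.ncard_pos (cnt_finite n S)]
  rfl

theorem cnt_val_lt (n v : ℕ) : cnt n {y | val y < v} = min v (2 ^ n) := by
  induction n generalizing v with
  | zero =>
    by_cases h : 0 < v
    · rw [cnt_zero_of_mem (by simpa [val] using h)]
      simp; omega
    · rw [cnt_zero_of_notMem (by simpa [val] using h)]
      simp; omega
  | succ n ih =>
    rw [cnt_succ]
    have e1 : {y : W | true :: y ∈ {y : W | val y < v}} = {y | val y < v / 2} := by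
      ext y
      simp only [Set.mem_ofPred_eq, val, Bool.toNat_true]
      omega
    have e2 : {y : W | false :: y ∈ {y : W | val y < v}} = {y | val y < (v + 1) / 2} := by
      ext y
      simp only [Set.mem_ofPred_eq, val, Bool.toNat_false]
      omega
    rw [e1, e2, ih, ih, pow_succ]
    omega

theorem cnt_val_ge (n v : ℕ) : cnt n {y | v ≤ val y} = 2 ^ n - v := by
  have h := cnt_compl n {y | val y < v}
  have e : {y : W | val y < v}ᶜ = {y | v ≤ val y} := by
    ext y; simp
  rw [e, cnt_val_lt] at h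
  omega

theorem cnt_pad (n m : ℕ) (S : Set W) :
    cnt (n + m) {y | val (y.drop n) = 0 ∧ y.take n ∈ S} = cnt n S := by
  induction n generalizing S with
  | zero =>
    by_cases h : [] ∈ S
    · rw [cnt_zero_of_mem h]
      have e : {y : W | val (y.drop 0) = 0 ∧ y.take 0 ∈ S} = {y | val y < 1} := by
        ext y
        simp [h]
      rw [e, cnt_val_lt]
      have := Nat.one_le_two_pow (n := 0 + m)
      omega
    · rw [cnt_zero_of_notMem h]
      have e : {y : W | val (y.drop 0) = 0 ∧ y.take 0 ∈ S} = {y | val y < 0} := by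
        ext y
        simp [h]
      rw [e, cnt_val_lt]
      simp
  | succ n ih =>
    have : n + 1 + m = (n + m) + 1 := by omega
    rw [this, cnt_succ, cnt_succ, ← ih, ← ih]
    rfl

theorem sum_range_two_mul (f : ℕ → ℕ) (k : ℕ) :
    ∑ i ∈ Finset.range (2 * k), f i =
      ∑ i ∈ Finset.range k, f (1 + 2 * i) + ∑ i ∈ Finset.range k, f (2 * i) := by
  induction k with
  | zero => simp
  | succ k ih =>
    rw [show 2 * (k + 1) = 2 * k + 1 + 1 by ring, Finset.sum_range_succ, Finset.sum_range_succ, ih,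
      Finset.sum_range_succ, Finset.sum_range_succ]
    rw [show 2 * k + 1 = 1 + 2 * k by ring]
    ring

theorem cnt_prod (n m : ℕ) (Q : ℕ → W → Prop) :
    cnt (n + m) {y | Q (val (y.take n)) (y.drop n)} =
      ∑ i ∈ Finset.range (2 ^ n), cnt m {u | Q i u} := by
  induction n generalizing Q with
  | zero => simp [val]
  | succ n ih =>
    have : n + 1 + m = (n + m) + 1 := by omega
    rw [this, cnt_succ]
    have h1 := ih (fun i u => Q (1 + 2 * i) u)
    have h2 := ih (fun i u => Q (2 * i) u)
    rw [pow_succ, mul_comm (2 ^ n) 2, sum_range_two_mul, ← h1, ← h2]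
    congr 1
    apply cnt_congr
    intro y _
    simp [val]

/-- sums as counts -/
theorem cnt_sum (n m N : ℕ) (f : ℕ → ℕ) (hN : N ≤ 2 ^ n) (hf : ∀ i < N, f i ≤ 2 ^ m) :
    cnt (n + m) {y | val (y.take n) < N ∧ val (y.drop n) < f (val (y.take n))} =
      ∑ i ∈ Finset.range N, f i := by
  have h := cnt_prod n m (fun i u => i < N ∧ val u < f i)
  rw [h, ← Finset.sum_range_add_sum_Ico _ hN]
  have e2 : ∑ i ∈ Finset.Ico N (2 ^ n), cnt m {u | i < N ∧ val u < f i} = 0 := by
    apply Finset.sum_eq_zero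
    intro i hi
    rw [Finset.mem_Ico] at hi
    have e : {u : W | i < N ∧ val u < f i} = {u | val u < 0} := by
      ext u
      simp only [Set.mem_ofPred_eq]
      omega
    rw [e, cnt_val_lt]
    simp
  rw [e2, add_zero]
  apply Finset.sum_congr rfl
  intro i hi
  rw [Finset.mem_range] at hi
  have e : {u : W | i < N ∧ val u < f i} = {u | val u < f i} := by
    ext u
    simp [hi]
  rw [e, cnt_val_lt]
  exact min_eq_left (hf i hi)

end Crest.Agent.CHR
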