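import Crest.Agent.CHR.PT
import Crest.Agent.CHR.CntStr

/-!
# MODULE M2 (row 316), part A: closure properties of the levels
-/

set_option autoImplicit false

namespace Crest.Agent.CHR

open Crest.Complexity Crest.CountHier

theorem poly_mono (q : Polynomial ℕ) {a b : ℕ} (h : a ≤ b) : q.eval a ≤ q.eval b := by
  induction q using Polynomial.induction_on' with
  | add p q hp hq => simpa using add_le_add hp hq
  | monomial n c => simpa using Nat.mul_le_mul_left _ (Nat.pow_le_pow_left h n)

theorem val_replicate_true (k : ℕ) : val (List.replicate k true) = 2 ^ k - 1 := by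
  induction k with
  | zero => rfl
  | succ k ih =>
    have h1 := Nat.one_le_two_pow (n := k)
    rw [List.replicate_succ, val, ih, pow_succ]
    simp
    omega

theorem val_replicate_false_append (k : ℕ) : val (List.replicate k false ++ [true]) = 2 ^ k := by
  induction k with
  | zero => rfl
  | succ k ih =>
    rw [List.replicate_succ, List.cons_append, val, ih, pow_succ]
    simp
    omega

theorem val_half (k : ℕ) : val (List.replicate k false ++ [true]).tail = 2 ^ k / 2 := by
  cases k with
  | zero => rfl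
  | succ k =>
    rw [List.replicate_succ, List.cons_append, List.tail_cons, val_replicate_false_append, pow_succ]
    omega

/-! ## polynomial-time tests -/

theorem PTP.head {f : W → W} (hf : PolyTime f) :
    PolyTimePred (fun w => decide ((f w).head? = some true)) := by
  rw [PTP_iff]
  have h := PT.ite hf (PT.const [true]) (PT.const [false])
  convert h using 2 with w
  by_cases hw : (f w).head? = some true <;> simp [hw]

theorem PTP.valZero {f : W → W} (hf : PolyTime f) :
    PolyTimePred (fun w => decide (val (f w) = 0)) := by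
  have h := PTP.lt hf (PT.const [true])
  convert h using 2 with w
  simp [val]

theorem PTP.le {f g : W → W} (hf : PolyTime f) (hg : PolyTime g) :
    PolyTimePred (fun w => decide (val (f w) ≤ val (g w))) := by
  have h := PTP.not (PTP.lt hg hf)
  convert h using 2 with w
  rw [← decide_not]
  exact decide_eq_decide.2 not_lt.symm

/-! ## closure of the levels -/

theorem level_succ_intro {j : ℕ} {L B : Set W} (hB : B ∈ level j) (p : Polynomial ℕ)
    (h : ∀ w : W, w ∈ L ↔ 2 ^ (p.eval w.length) < 2 * cnt (p.eval w.length) {y | pairBits w y ∈ B}) :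
    L ∈ level (j + 1) := ⟨B, hB, p, h⟩

theorem level_succ_elim {j : ℕ} {L : Set W} (hL : L ∈ level (j + 1)) :
    ∃ B ∈ level j, ∃ p : Polynomial ℕ, ∀ w : W,
      w ∈ L ↔ 2 ^ (p.eval w.length) < 2 * cnt (p.eval w.length) {y | pairBits w y ∈ B} := hL

structure Closed (j : ℕ) : Prop where
  preim : ∀ {L : Set W} {f : W → W}, L ∈ level j → PolyTime f → {w | f w ∈ L} ∈ level j
  sel : ∀ {L₁ L₂ : Set W} {p : W → Bool}, L₁ ∈ level j → L₂ ∈ level j → PolyTimePred p →
    {w | if p w = true then w ∈ L₁ else w ∈ L₂} ∈ level j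
  compl : ∀ {L : Set W}, L ∈ level j → Lᶜ ∈ level j
  empty : (∅ : Set W) ∈ level j
  univ : (Set.univ : Set W) ∈ level j

theorem Closed.test {j : ℕ} (hc : Closed j) {p : W → Bool} (hp : PolyTimePred p) :
    {w | p w = true} ∈ level j := by
  have h := hc.sel hc.univ hc.empty hp
  convert h using 1
  ext w
  simp only [Set.mem_ofPred_eq]
  by_cases hw : p w = true <;> simp [hw]

/-- THRESHOLD LEMMA -/
theorem Closed.thr {j : ℕ} (hc : Closed j) {L : Set W} (hL : L ∈ level j) {l t : W → W}
    (hl : PolyTime l) (ht : PolyTime t) :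
    {w | val (t w) < cnt (l w).length {y | pairBits w y ∈ L}} ∈ level (j + 1) := by
  obtain ⟨r, hr⟩ := PT.lenBound hl
  -- the accepting set
  have hB1 : {z : W | pairBits (fstB z) ((sndB z).tail.take (l (fstB z)).length) ∈ L} ∈ level j :=
    hc.preim hL (PT.pair PT.fst (PT.take (PT.comp PT.tail PT.snd) (PT.comp hl PT.fst)))
  have hB2 := hc.sel hB1 hc.empty
    (PTP.valZero (PT.drop (PT.comp PT.tail PT.snd) (PT.comp hl PT.fst)))
  have hB3 := hc.sel hB2
    (hc.test (PTP.le (PT.comp ht PT.fst) (PT.comp PT.tail PT.snd))) (PTP.head PT.snd)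
  obtain ⟨B, hB, hBm⟩ : ∃ B ∈ level j, ∀ z : W, z ∈ B ↔
      (((sndB z).head? = some true ∧ val ((sndB z).tail.drop (l (fstB z)).length) = 0 ∧
        pairBits (fstB z) ((sndB z).tail.take (l (fstB z)).length) ∈ L) ∨
      ((sndB z).head? ≠ some true ∧ val (t (fstB z)) ≤ val (sndB z).tail)) := by
    refine ⟨_, hB3, fun z => ?_⟩
    simp only [Set.mem_ofPred_eq, decide_eq_true_eq, Set.mem_empty_iff_false]
    split_ifs <;> tauto
  refine level_succ_intro hB (r + 1) (fun w => ?_)
  have e0 : (r + 1).eval w.length = r.eval w.length + 1 := by simp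
  rw [e0]
  set M := r.eval w.length with hM
  have hmM : (l w).length ≤ M := hr w
  rw [cnt_succ]
  rw [cnt_congr (T := {y | val (y.drop (l w).length) = 0 ∧
      y.take (l w).length ∈ {y | pairBits w y ∈ L}})
    (fun y _ => by simp [hBm]), cnt_congr (S := {y | false :: y ∈ _}) (T := {y | val (t w) ≤ val y})
    (fun y _ => by simp [hBm]), cnt_val_ge]
  have e3 := cnt_pad (l w).length (M - (l w).length) {y | pairBits w y ∈ L}
  rw [Nat.add_sub_cancel' hmM] at e3
  rw [e3]
  have h1 : cnt (l w).length {y | pairBits w y ∈ L} ≤ 2 ^ M :=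
    (cnt_le _ _).trans (Nat.pow_le_pow_right (by norm_num) hmM)
  simp only [Set.mem_ofPred_eq]
  rw [pow_succ]
  omega

theorem closed_zero : Closed 0 where
  preim := by
    rintro L f ⟨p, hp, h⟩ hf
    exact ⟨_, PTP.comp hp hf, fun x => h (f x)⟩
  sel := by
    rintro L₁ L₂ p ⟨p₁, hp₁, h₁⟩ ⟨p₂, hp₂, h₂⟩ hp
    refine ⟨fun w => if p w = true then p₁ w else p₂ w, ?_, fun x => ?_⟩
    · rw [PTP_iff] at hp₁ hp₂ ⊢
      have h := PTP.ite hp hp₁ hp₂
      convert h using 2 with w
      by_cases hw : p w = true <;> simp [hw]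
    · simp only [Set.mem_ofPred_eq]
      by_cases hw : p x = true
      · simp [hw, h₁]
      · simp [hw, h₂]
  compl := by
    rintro L ⟨p, hp, h⟩
    refine ⟨_, PTP.not hp, fun x => ?_⟩
    rw [Set.mem_compl_iff, h x]
    cases p x <;> simp
  empty := ⟨_, PTP.const false, fun x => by simp⟩
  univ := ⟨_, PTP.const true, fun x => by simp⟩

theorem two_pow_lt_iff (m n : ℕ) : 2 ^ m < 2 * n ↔ 2 ^ m / 2 < n := by
  cases m with
  | zero => omega
  | succ m => rw [pow_succ]; omega

theorem compl_arith (k A C : ℕ) (h : A + C = 2 ^ k) :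
    ¬ (2 ^ k < 2 * A) ↔ 2 ^ (k - 1) - 1 < C := by
  cases k with
  | zero => simp at h ⊢; omega
  | succ k =>
    rw [pow_succ] at h ⊢
    rw [Nat.add_sub_cancel]
    have := Nat.one_le_two_pow (n := k)
    omega

theorem PT.zeros {f : W → W} (hf : PolyTime f) (q : Polynomial ℕ) :
    PolyTime (fun w => List.replicate (q.eval (f w).length) false) := by
  have hc := PT.unary hf q
  obtain ⟨r, hr⟩ := PT.lenBound hc
  have hs : PolyTime (fun w : W => false :: w) := PT.append (PT.const [false]) PT.id
  have key : ∀ k : ℕ, (fun w : W => false :: w)^[k] [] = List.replicate k false := by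
    intro k
    induction k with
    | zero => rfl
    | succ k ih => rw [Function.iterate_succ_apply', ih, List.replicate_succ]
  have h := PT.iter hs (PT.const []) hc r (fun w k hk => by
    rw [key, List.length_replicate]
    exact hk.trans (hr w))
  convert h using 2 with w
  rw [key, List.length_replicate]

theorem PT.half {f : W → W} (hf : PolyTime f) (q : Polynomial ℕ) :
    PolyTime (fun w => (List.replicate (q.eval (f w).length) false ++ [true]).tail) :=
  PT.comp PT.tail (PT.append (PT.zeros hf q) (PT.const [true]))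

theorem Closed.succ {j : ℕ} (hc : Closed j) : Closed (j + 1) where
  preim := by
    intro L f hL hf
    obtain ⟨B, hB, q, h⟩ := level_succ_elim hL
    have hB' : {z | pairBits (f (fstB z)) (sndB z) ∈ B} ∈ level j :=
      hc.preim hB (PT.pair (PT.comp hf PT.fst) PT.snd)
    have h1 := hc.thr hB' (PT.unary hf q) (PT.half hf q)
    convert h1 using 1
    ext w
    simp only [Set.mem_ofPred_eq, val_half, List.length_replicate, fstB_pairBits, sndB_pairBits]
    rw [h, two_pow_lt_iff]
  sel := by
    intro L₁ L₂ p hL₁ hL₂ hp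
    obtain ⟨B₁, hB₁, q₁, h₁⟩ := level_succ_elim hL₁
    obtain ⟨B₂, hB₂, q₂, h₂⟩ := level_succ_elim hL₂
    have hB := hc.sel hB₁ hB₂ (PTP.comp hp PT.fst)
    have h1 := hc.thr hB (PTP.ite hp (PT.unary PT.id q₁) (PT.unary PT.id q₂))
      (PTP.ite hp (PT.half PT.id q₁) (PT.half PT.id q₂))
    convert h1 using 1
    ext w
    simp only [Set.mem_ofPred_eq]
    by_cases hw : p w = true
    · simp only [hw, if_true, val_half, List.length_replicate, fstB_pairBits]
      rw [h₁, two_pow_lt_iff]
    · simp only [hw, Bool.false_eq_true, if_false, val_half, List.length_replicate, fstB_pairBits]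
      rw [h₂, two_pow_lt_iff]
  compl := by
    intro L hL
    obtain ⟨B, hB, q, h⟩ := level_succ_elim hL
    have h1 := hc.thr (hc.compl hB) (PT.unary PT.id q) (PT.comp PT.tail (PT.unary PT.id q))
    convert h1 using 1
    ext w
    simp only [Set.mem_ofPred_eq, List.length_replicate, Set.mem_compl_iff]
    rw [h, List.tail_replicate, val_replicate_true]
    exact compl_arith _ _ _ (cnt_compl (q.eval w.length) {y | pairBits w y ∈ B})
  empty := by
    refine level_succ_intro hc.empty 0 (fun w => ?_)
    have : cnt 0 {y : W | pairBits w y ∈ (∅ : Set W)} = 0 := cnt_zero_of_notMem (by simp)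
    rw [Polynomial.eval_zero, this]
    simp
  univ := by
    refine level_succ_intro hc.univ 0 (fun w => ?_)
    have : cnt 0 {y : W | pairBits w y ∈ (Set.univ : Set W)} = 1 := cnt_zero_of_mem (by simp)
    rw [Polynomial.eval_zero, this]
    simp

theorem closed (j : ℕ) : Closed j := by
  induction j with
  | zero => exact closed_zero
  | succ j ih => exact ih.succ

theorem level_succ_mono {j : ℕ} {L : Set W} (hL : L ∈ level j) : L ∈ level (j + 1) := by
  refine level_succ_intro ((closed j).preim hL PT.fst) 0 (fun w => ?_)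
  rw [Polynomial.eval_zero]
  by_cases h : w ∈ L
  · have : cnt 0 {y : W | pairBits w y ∈ {w | fstB w ∈ L}} = 1 := cnt_zero_of_mem (by simpa using h)
    rw [this]; simpa using h
  · have : cnt 0 {y : W | pairBits w y ∈ {w | fstB w ∈ L}} = 0 :=
      cnt_zero_of_notMem (by simpa using h)
    rw [this]; simpa using h

theorem level_mono {i j : ℕ} (h : i ≤ j) {L : Set W} (hL : L ∈ level i) : L ∈ level j := by
  induction j, h using Nat.le_induction with
  | base => exact hL
  | succ j _ ih => exact level_succ_mono ih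

theorem level_inter {j : ℕ} {L₁ L₂ : Set W} (h₁ : L₁ ∈ level j) (h₂ : L₂ ∈ level j) :
    L₁ ∩ L₂ ∈ level (j + 1) := by
  have hc := closed j
  have hB := hc.sel (hc.preim h₁ PT.fst) (hc.preim h₂ PT.fst) (PTP.head PT.snd)
  have h := hc.thr hB (PT.const [true]) (PT.const [true])
  convert h using 1
  ext w
  simp only [Set.mem_ofPred_eq, List.length_singleton, Set.mem_inter_iff]
  rw [show cnt 1 _ = _ from cnt_succ 0 _, cnt_zero, cnt_zero]
  by_cases hw1 : w ∈ L₁ <;> by_cases hw2 : w ∈ L₂ <;> simp [hw1, hw2, val]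

end Crest.Agent.CHR
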