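import Crest.Agent.CHR.CHclA

/-!
# MODULE M2 (row 316), part B: predicates and string functions
-/

set_option autoImplicit false

namespace Crest.Agent.CHR

open Crest.Complexity Crest.CountHier

/-! ## predicates -/

theorem CHP.ofP {p : W → Bool} (hp : PolyTimePred p) : CHP (fun w => p w = true) :=
  ⟨0, p, hp, fun _ => Iff.rfl⟩

theorem CHP.congr {p q : W → Prop} (hp : CHP p) (h : ∀ w, p w ↔ q w) : CHP q := by
  have : q = p := by funext w; exact propext (h w).symm
  rw [this]; exact hp

theorem CHP.const (c : Prop) : CHP (fun _ => c) := by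
  classical
  exact (CHP.ofP (PTP.const (decide c))).congr (fun _ => by simp)

theorem CHP.not {p : W → Prop} (hp : CHP p) : CHP (fun w => ¬ p w) := by
  obtain ⟨j, hj⟩ := hp
  exact ⟨j, (closed j).compl hj⟩

theorem CHP.and {p q : W → Prop} (hp : CHP p) (hq : CHP q) : CHP (fun w => p w ∧ q w) := by
  obtain ⟨i, hi⟩ := hp
  obtain ⟨j, hj⟩ := hq
  exact ⟨max i j + 1, level_inter (level_mono (le_max_left i j) hi) (level_mono (le_max_right i j) hj)⟩

/-- polynomial-time preimages -/
theorem CHP.preim {p : W → Prop} {f : W → W} (hp : CHP p) (hf : PolyTime f) :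
    CHP (fun w => p (f w)) := by
  obtain ⟨j, hj⟩ := hp
  exact ⟨j, (closed j).preim hj hf⟩

/-- thresholds -/
theorem CHP.thr {P : W → Prop} (hP : CHP P) {l t : W → W} (hl : PolyTime l) (ht : PolyTime t) :
    CHP (fun w => val (t w) < cnt (l w).length {y | P (pairBits w y)}) := by
  obtain ⟨j, hj⟩ := hP
  exact ⟨j + 1, (closed j).thr hj hl ht⟩

theorem two_mul_length_fstB (u : W) : 2 * (fstB u).length ≤ u.length := by
  unfold fstB
  induction u using unpairB.induct with
  | case1 b l ih => rw [unpairB]; simp only [List.length_cons]; omega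
  | case2 l => simp [unpairB]
  | case3 x h1 h2 => rw [unpairB]; simp; exact h1; exact h2

theorem CHP.or {p q : W → Prop} (hp : CHP p) (hq : CHP q) : CHP (fun w => p w ∨ q w) :=
  ((hp.not.and hq.not).not).congr (fun w => by tauto)

theorem CHP.imp {p q : W → Prop} (hp : CHP p) (hq : CHP q) : CHP (fun w => p w → q w) :=
  (hp.not.or hq).congr (fun w => by tauto)

theorem CHP.iff {p q : W → Prop} (hp : CHP p) (hq : CHP q) : CHP (fun w => (p w ↔ q w)) :=
  ((hp.imp hq).and (hq.imp hp)).congr (fun w => by tauto)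

/-- majority over all strings of length `p (|w|)` -/
theorem CHP.maj {P : W → Prop} (hP : CHP P) (p : Polynomial ℕ) :
    CHP (fun w => 2 ^ (p.eval w.length) <
      2 * {y : W | y.length = p.eval w.length ∧ P (pairBits w y)}.ncard) := by
  obtain ⟨j, hj⟩ := hP
  exact ⟨j + 1, _, hj, p, fun x => Iff.rfl⟩

theorem CHP.ex {P : W → Prop} (hP : CHP P) (p : Polynomial ℕ) :
    CHP (fun w => ∃ y : W, y.length ≤ p.eval w.length ∧ P (pairBits w y)) := by
  have h1 : CHP (fun z => P (pairBits (fstB z) (fstB (sndB z)))) :=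
    hP.preim (PT.pair PT.fst (PT.comp PT.fst PT.snd))
  have h2 := h1.thr (PT.unary PT.id (2 * p + 1)) (PT.const [])
  refine h2.congr (fun w => ?_)
  simp only [val, List.length_replicate, fstB_pairBits, sndB_pairBits]
  rw [cnt_pos]
  have e : (2 * p + 1).eval w.length = 2 * p.eval w.length + 1 := by simp
  rw [e]
  constructor
  · rintro ⟨u, hu, hP⟩
    have := two_mul_length_fstB u
    exact ⟨fstB u, by omega, hP⟩
  · rintro ⟨y, hy, hP⟩
    refine ⟨pairBits y (List.replicate (2 * (p.eval w.length - y.length)) false), ?_, ?_⟩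
    · simp [pairBits]
      omega
    · simpa using hP

theorem CHP.all {P : W → Prop} (hP : CHP P) (p : Polynomial ℕ) :
    CHP (fun w => ∀ y : W, y.length ≤ p.eval w.length → P (pairBits w y)) :=
  ((hP.not.ex p).not).congr (fun w => by push Not; rfl)

/-! ## string functions -/

theorem CHF.ofPT {f : W → W} (hf : PolyTime f) : CHF f :=
  ⟨PT.lenBound hf, (CHP.ofP (PTP.eq (PT.comp hf PT.fst) PT.snd)).congr (fun w => by simp)⟩

theorem CHF.congr {f g : W → W} (hf : CHF f) (h : ∀ w, f w = g w) : CHF g := by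
  have : g = f := by funext w; exact (h w).symm
  rw [this]; exact hf

theorem CHP.comp {P : W → Prop} {f : W → W} (hP : CHP P) (hf : CHF f) : CHP (fun w => P (f w)) := by
  obtain ⟨⟨p, hp⟩, hg⟩ := hf
  refine ((hg.and (hP.preim PT.snd)).ex p).congr (fun w => ?_)
  simp only [fstB_pairBits, sndB_pairBits]
  constructor
  · rintro ⟨y, _, rfl, h⟩; exact h
  · intro h; exact ⟨f w, hp w, rfl, h⟩

theorem CHF.comp {f g : W → W} (hg : CHF g) (hf : CHF f) : CHF (fun w => g (f w)) := by
  obtain ⟨⟨p, hp⟩, hgf⟩ := hf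
  obtain ⟨⟨q, hq⟩, hgg⟩ := hg
  refine ⟨⟨q.comp p, fun w => ?_⟩, ?_⟩
  · rw [Polynomial.eval_comp]
    exact (hq _).trans (poly_mono q (hp w))
  · have h1 : CHP (fun u => f (fstB (fstB u)) = sndB u) :=
      (hgf.preim (PT.pair (PT.comp PT.fst PT.fst) PT.snd)).congr (fun u => by simp)
    have h2 : CHP (fun u => g (sndB u) = sndB (fstB u)) :=
      (hgg.preim (PT.pair PT.snd (PT.comp PT.snd PT.fst))).congr (fun u => by simp)
    refine ((h1.and h2).ex p).congr (fun z => ?_)
    simp only [fstB_pairBits, sndB_pairBits]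
    constructor
    · rintro ⟨y, _, rfl, h⟩; exact h
    · intro h
      refine ⟨f (fstB z), (hp _).trans (poly_mono p ?_), rfl, h⟩
      have := two_mul_length_fstB z
      omega

theorem CHF.id : CHF (fun w => w) := CHF.ofPT PT.id
theorem CHF.const (c : W) : CHF (fun _ => c) := CHF.ofPT (PT.const c)
theorem CHF.fst : CHF fstB := CHF.ofPT PT.fst
theorem CHF.snd : CHF sndB := CHF.ofPT PT.snd

theorem length_pairBits (x y : W) : (pairBits x y).length = 2 * x.length + 1 + y.length := by
  simp [pairBits]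
  omega

theorem CHF.pair {f g : W → W} (hf : CHF f) (hg : CHF g) : CHF (fun w => pairBits (f w) (g w)) := by
  obtain ⟨⟨p, hp⟩, hgf⟩ := hf
  obtain ⟨⟨q, hq⟩, hgg⟩ := hg
  refine ⟨⟨2 * p + 1 + q, fun w => ?_⟩, ?_⟩
  · rw [length_pairBits]
    have h1 := hp w
    have h2 := hq w
    simp
    omega
  · have h1 : CHP (fun z => f (fstB z) = fstB (sndB z)) :=
      (hgf.preim (PT.pair PT.fst (PT.comp PT.fst PT.snd))).congr (fun u => by simp)
    have h2 : CHP (fun z => g (fstB z) = sndB (sndB z)) :=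
      (hgg.preim (PT.pair PT.fst (PT.comp PT.snd PT.snd))).congr (fun u => by simp)
    have h3 : CHP (fun z => sndB z = pairBits (fstB (sndB z)) (sndB (sndB z))) :=
      (CHP.ofP (PTP.eq PT.snd (PT.pair (PT.comp PT.fst PT.snd) (PT.comp PT.snd PT.snd)))).congr
        (fun u => by simp)
    refine ((h1.and h2).and h3).congr (fun z => ?_)
    change _ ↔ pairBits (f (fstB z)) (g (fstB z)) = sndB z
    constructor
    · rintro ⟨⟨h1, h2⟩, h3⟩
      rw [h1, h2, ← h3]
    · intro h
      rw [← h]
      simp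

open Classical in
theorem CHF.ite {p : W → Prop} {f g : W → W} (hp : CHP p) (hf : CHF f) (hg : CHF g) :
    CHF (fun w => if p w then f w else g w) := by
  obtain ⟨⟨a, ha⟩, hgf⟩ := hf
  obtain ⟨⟨b, hb⟩, hgg⟩ := hg
  refine ⟨⟨a + b, fun w => ?_⟩, ?_⟩
  · have h1 := ha w
    have h2 := hb w
    simp only [Polynomial.eval_add]
    split_ifs <;> omega
  · have h1 : CHP (fun z => p (fstB z)) := hp.preim PT.fst
    refine ((h1.and hgf).or (h1.not.and hgg)).congr (fun z => ?_)
    by_cases h : p (fstB z) <;> simp [h]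

theorem CHP.eqF {f g : W → W} (hf : CHF f) (hg : CHF g) : CHP (fun w => f w = g w) :=
  ((CHP.ofP (PTP.eq PT.fst PT.snd)).comp (hf.pair hg)).congr (fun w => by simp)

end Crest.Agent.CHR
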