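import Crest.Agent.CHR.CHclB

/-!
# MODULE M2 (row 316), part C: number functions, exact counting
-/

set_option autoImplicit false

namespace Crest.Agent.CHR

open Crest.Complexity Crest.CountHier

/-! ## number functions -/

theorem length_sndB_le (u : W) : (sndB u).length ≤ u.length := by
  unfold sndB
  induction u using unpairB.induct with
  | case1 b l ih => rw [unpairB]; simp only [List.length_cons]; omega
  | case2 l => simp [unpairB]
  | case3 x h1 h2 => rw [unpairB]; simp; exact h1; exact h2

/-- introduction rule: polynomially many bits and graph in CH -/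
theorem CHN.intro {f : W → ℕ} (p : Polynomial ℕ) (hb : ∀ w, f w < 2 ^ (p.eval w.length))
    (hg : CHP (fun z => f (fstB z) = val (sndB z))) : CHN f := by
  refine ⟨⟨p, fun w => ?_⟩, ?_⟩
  · change (Nat.bits (f w)).length ≤ _
    rw [Nat.size_eq_bits_len, Nat.size_le]
    exact hb w
  · have h1 : CHP (fun z => Nat.bits (val (sndB z)) = sndB z) :=
      (CHP.ofP (PTP.eq (PT.norm PT.snd) PT.snd)).congr (fun z => by simp)
    refine (hg.and h1).congr (fun z => ?_)
    constructor
    · rintro ⟨h1, h2⟩
      change Nat.bits (f (fstB z)) = sndB z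
      rw [h1, h2]
    · intro h
      change Nat.bits (f (fstB z)) = sndB z at h
      rw [← h]
      simp

theorem CHN.bound {f : W → ℕ} (hf : CHN f) :
    ∃ p : Polynomial ℕ, ∀ w, f w < 2 ^ (p.eval w.length) := by
  obtain ⟨⟨p, hp⟩, _⟩ := hf
  refine ⟨p, fun w => ?_⟩
  have h : (Nat.bits (f w)).length ≤ _ := hp w
  rwa [Nat.size_eq_bits_len, Nat.size_le] at h

theorem CHN.congr {f g : W → ℕ} (hf : CHN f) (h : ∀ w, f w = g w) : CHN g := by
  have : g = f := by funext w; exact (h w).symm
  rw [this]; exact hf

theorem CHN.comp {f : W → ℕ} {g : W → W} (hf : CHN f) (hg : CHF g) : CHN (fun w => f (g w)) :=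
  CHF.comp hf hg

theorem CHN.ofVal {f : W → W} (hf : CHF f) : CHN (fun w => val (f w)) :=
  CHF.comp (CHF.ofPT (PT.norm PT.id)) hf

/-- `w, i ↦` string with a number attached -/
theorem CHF.pn {f : W → W} {g : W → ℕ} (hf : CHF f) (hg : CHN g) : CHF (fun w => pn (f w) (g w)) :=
  CHF.pair hf hg

theorem CHN.const (c : ℕ) : CHN (fun _ => c) := CHF.const _

theorem CHN.len : CHN (fun w => w.length) := CHF.ofPT (PT.lenBin PT.id)

theorem CHN.lt {f g : W → ℕ} (hf : CHN f) (hg : CHN g) : CHP (fun w => f w < g w) :=
  ((CHP.ofP (PTP.lt PT.fst PT.snd)).comp (CHF.pair hf hg)).congr (fun w => by simp)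

theorem CHN.le {f g : W → ℕ} (hf : CHN f) (hg : CHN g) : CHP (fun w => f w ≤ g w) :=
  ((hg.lt hf).not).congr (fun _ => not_lt)

theorem CHN.eq {f g : W → ℕ} (hf : CHN f) (hg : CHN g) : CHP (fun w => f w = g w) :=
  ((hf.le hg).and (hg.le hf)).congr (fun _ => le_antisymm_iff.symm)

open Classical in
theorem CHN.ite {p : W → Prop} {f g : W → ℕ} (hp : CHP p) (hf : CHN f) (hg : CHN g) :
    CHN (fun w => if p w then f w else g w) := by
  refine CHF.congr (CHF.ite hp hf hg) (fun w => ?_)
  by_cases h : p w <;> simp [h]

/-- exact counting -/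
theorem CHN.count {P : W → Prop} (hP : CHP P) (p : Polynomial ℕ) :
    CHN (fun w => {y : W | y.length = p.eval w.length ∧ P (pairBits w y)}.ncard) := by
  have key : CHN (fun w => cnt (p.eval w.length) {y | P (pairBits w y)}) := by
    refine CHN.intro (p + 1) (fun w => ?_) ?_
    · have h1 := cnt_le (p.eval w.length) {y | P (pairBits w y)}
      have e : (p + 1).eval w.length = p.eval w.length + 1 := by simp
      rw [e, pow_succ]
      have := Nat.one_le_two_pow (n := p.eval w.length)
      omega
    · have hP' : CHP (fun z => P (pairBits (fstB (fstB z)) (sndB z))) :=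
        hP.preim (PT.pair (PT.comp PT.fst PT.fst) PT.snd)
      have h1 : CHP (fun z => val (sndB z) <
          cnt (p.eval (fstB z).length) {y | P (pairBits (fstB z) y)}) :=
        (hP'.thr (PT.unary PT.fst p) PT.snd).congr (fun z => by simp)
      have hP'' : CHP (fun z => P (pairBits (fstB (fstB (fstB z))) (sndB z))) :=
        hP.preim (PT.pair (PT.comp PT.fst (PT.comp PT.fst PT.fst)) PT.snd)
      have h2 : CHP (fun u => val (sndB u) <
          cnt (p.eval (fstB (fstB u)).length) {y | P (pairBits (fstB (fstB u)) y)}) :=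
        (hP''.thr (PT.unary (PT.comp PT.fst PT.fst) p) PT.snd).congr (fun z => by simp)
      have h3 : CHP (fun u => val (sndB u) < val (sndB (fstB u))) :=
        (CHP.ofP (PTP.lt PT.snd (PT.comp PT.snd PT.fst))).congr (fun z => by simp)
      have h4 := (h3.imp h2).all Polynomial.X
      refine (h1.not.and h4).congr (fun z => ?_)
      simp only [fstB_pairBits, sndB_pairBits, Polynomial.eval_X]
      set n := cnt (p.eval (fstB z).length) {y | P (pairBits (fstB z) y)} with hn
      constructor
      · rintro ⟨h5, h6⟩
        by_contra hne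
        have hlt : n < val (sndB z) := by omega
        have h7 : n < 2 ^ (sndB z).length := hlt.trans (val_lt _)
        have h8 : (Nat.bits n).length ≤ (sndB z).length := by
          rw [Nat.size_eq_bits_len, Nat.size_le]; exact h7
        have h9 := h6 (Nat.bits n) (h8.trans (length_sndB_le z))
        rw [val_bits] at h9
        exact absurd (h9 hlt) (lt_irrefl _)
      · intro h
        rw [h]
        exact ⟨lt_irrefl _, fun y _ hy => hy⟩
  exact key

end Crest.Agent.CHR
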