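import Crest.Agent.CHR.CHclC

/-!
# MODULE M2 (row 316), part D: sums and arithmetic
-/

set_option autoImplicit false

namespace Crest.Agent.CHR

open Crest.Complexity Crest.CountHier

theorem fstB_pnD (w : W) (i : ℕ) : fstB (Crest.Agent.CHR.pn w i) = w := by
  simp [Crest.Agent.CHR.pn]
theorem val_sndB_pnD (w : W) (i : ℕ) : val (sndB (Crest.Agent.CHR.pn w i)) = i := by
  simp [Crest.Agent.CHR.pn]

/-- sums of exponentially many numbers -/
theorem CHN.sum {N f : W → ℕ} (hN : CHN N) (hf : CHN f) :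
    CHN (fun w => ∑ i ∈ Finset.range (N w), f (Crest.Agent.CHR.pn w i)) := by
  obtain ⟨p₁, hp₁⟩ := hN.bound
  obtain ⟨r, hr⟩ := hf.bound
  set p₂ : Polynomial ℕ := r.comp (2 * Polynomial.X + 1 + p₁) with hp₂
  have htk : PolyTime (fun z => (sndB z).take (p₁.eval (fstB z).length)) := by
    have h := PT.take PT.snd (PT.unary PT.fst p₁)
    simpa using h
  have hdr : PolyTime (fun z => (sndB z).drop (p₁.eval (fstB z).length)) := by
    have h := PT.drop PT.snd (PT.unary PT.fst p₁)
    simpa using h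
  have hi : CHN (fun z => val ((sndB z).take (p₁.eval (fstB z).length))) :=
    CHN.ofVal (CHF.ofPT htk)
  have hu : CHN (fun z => val ((sndB z).drop (p₁.eval (fstB z).length))) :=
    CHN.ofVal (CHF.ofPT hdr)
  have h1 : CHP (fun z => val ((sndB z).take (p₁.eval (fstB z).length)) < N (fstB z)) :=
    hi.lt (hN.comp CHF.fst)
  have h2 : CHP (fun z => val ((sndB z).drop (p₁.eval (fstB z).length)) <
      f (Crest.Agent.CHR.pn (fstB z) (val ((sndB z).take (p₁.eval (fstB z).length))))) :=
    hu.lt (hf.comp (CHF.pn CHF.fst hi))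
  refine (CHN.count (h1.and h2) (p₁ + p₂)).congr (fun w => ?_)
  have key := cnt_sum (p₁.eval w.length) (p₂.eval w.length) (N w)
    (fun i => f (Crest.Agent.CHR.pn w i)) (hp₁ w).le (fun i hi => by
      refine (hr _).le.trans (Nat.pow_le_pow_right (by norm_num) ?_)
      rw [hp₂, Polynomial.eval_comp]
      apply poly_mono
      unfold Crest.Agent.CHR.pn
      rw [length_pairBits]
      have h3 : (Nat.bits i).length ≤ p₁.eval w.length := by
        rw [Nat.size_eq_bits_len, Nat.size_le]
        exact hi.trans (hp₁ w)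
      simp
      omega)
  rw [← key]
  simp only [fstB_pairBits, sndB_pairBits, Polynomial.eval_add]
  rfl

open Classical in
theorem CHN.card {N : W → ℕ} {P : W → Prop} (hN : CHN N) (hP : CHP P) :
    CHN (fun w => ((Finset.range (N w)).filter (fun i => P (Crest.Agent.CHR.pn w i))).card) := by
  refine (hN.sum (CHN.ite hP (CHN.const 1) (CHN.const 0))).congr (fun w => ?_)
  rw [Finset.card_filter]

theorem CHP.exN {N : W → ℕ} {P : W → Prop} (hN : CHN N) (hP : CHP P) :
    CHP (fun w => ∃ i < N w, P (Crest.Agent.CHR.pn w i)) := by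
  classical
  refine ((CHN.const 0).lt (hN.card hP)).congr (fun w => ?_)
  rw [Finset.card_pos]
  constructor
  · rintro ⟨i, hi⟩
    rw [Finset.mem_filter, Finset.mem_range] at hi
    exact ⟨i, hi⟩
  · rintro ⟨i, h1, h2⟩
    exact ⟨i, by rw [Finset.mem_filter, Finset.mem_range]; exact ⟨h1, h2⟩⟩

theorem CHP.allN {N : W → ℕ} {P : W → Prop} (hN : CHN N) (hP : CHP P) :
    CHP (fun w => ∀ i < N w, P (Crest.Agent.CHR.pn w i)) :=
  ((CHP.exN hN hP.not).not).congr (fun w => by push Not; rfl)

open Classical in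
/-- bounded minimisation -/
theorem CHN.find {N : W → ℕ} {P : W → Prop} (hN : CHN N) (hP : CHP P) :
    CHN (fun w => if h : ∃ i, i < N w ∧ P (Crest.Agent.CHR.pn w i) then Nat.find h else N w) := by
  have h1 : CHP (fun u => ¬ P (Crest.Agent.CHR.pn (fstB (fstB u)) (val (sndB u)))) :=
    (hP.comp (CHF.pn (CHF.fst.comp CHF.fst) (CHN.ofVal CHF.snd))).not
  have h2 : CHP (fun z => ∀ i < val (sndB z), ¬ P (Crest.Agent.CHR.pn (fstB z) i)) :=
    (CHP.allN (CHN.ofVal CHF.snd) h1).congr (fun z => by simp [fstB_pnD, val_sndB_pnD])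
  refine (hN.card (hP.not.and h2)).congr (fun w => ?_)
  simp only [fstB_pnD, val_sndB_pnD]
  split_ifs with h
  · have h3 := Nat.find_spec h
    have e : (Finset.range (N w)).filter (fun i => ¬ P (Crest.Agent.CHR.pn w i) ∧
        ∀ i' < i, ¬ P (Crest.Agent.CHR.pn w i')) = Finset.range (Nat.find h) := by
      ext i
      rw [Finset.mem_filter, Finset.mem_range, Finset.mem_range]
      constructor
      · rintro ⟨h4, h5, h6⟩
        by_contra h7
        rw [not_lt] at h7
        rcases h7.lt_or_eq with h8 | h8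
        · exact h6 _ h8 h3.2
        · rw [← h8] at h5; exact h5 h3.2
      · intro h4
        have h5 : i < N w := h4.trans h3.1
        refine ⟨h5, fun h6 => Nat.find_min h h4 ⟨h5, h6⟩, fun i' hi' h6 => ?_⟩
        exact Nat.find_min h (hi'.trans h4) ⟨hi'.trans h5, h6⟩
    rw [e, Finset.card_range]
  · rw [Finset.filter_true_of_mem, Finset.card_range]
    intro i hi
    rw [Finset.mem_range] at hi
    refine ⟨fun h6 => h ⟨i, hi, h6⟩, fun i' hi' h6 => h ⟨i', hi'.trans hi, h6⟩⟩

theorem CHN.add {f g : W → ℕ} (hf : CHN f) (hg : CHN g) : CHN (fun w => f w + g w) := by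
  classical
  have h1 : CHN (fun z => if val (sndB z) = 0 then f (fstB z) else g (fstB z)) := by
    have h := CHN.ite ((CHN.ofVal CHF.snd).eq (CHN.const 0)) (hf.comp CHF.fst) (hg.comp CHF.fst)
    refine h.congr (fun w => ?_)
    split_ifs <;> rfl
  refine ((CHN.const 2).sum h1).congr (fun w => ?_)
  simp [Finset.sum_range_succ, fstB_pnD, val_sndB_pnD]

theorem CHN.mul {f g : W → ℕ} (hf : CHN f) (hg : CHN g) : CHN (fun w => f w * g w) :=
  (hf.sum (hg.comp CHF.fst)).congr (fun w => by simp [fstB_pnD])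

theorem CHN.sub {f g : W → ℕ} (hf : CHN f) (hg : CHN g) : CHN (fun w => f w - g w) := by
  classical
  refine (hf.card ((hg.comp CHF.fst).le (CHN.ofVal CHF.snd))).congr (fun w => ?_)
  simp only [fstB_pnD, val_sndB_pnD]
  have e : (Finset.range (f w)).filter (fun i => g w ≤ i) = Finset.Ico (g w) (f w) := by
    ext i
    rw [Finset.mem_filter, Finset.mem_range, Finset.mem_Ico, and_comm]
  rw [e, Nat.card_Ico]

theorem CHN.div {f g : W → ℕ} (hf : CHN f) (hg : CHN g) : CHN (fun w => f w / g w) := by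
  classical
  have h1 : CHP (fun z => 0 < g (fstB z)) := (CHN.const 0).lt (hg.comp CHF.fst)
  have h2 : CHP (fun z => (val (sndB z) + 1) * g (fstB z) ≤ f (fstB z)) :=
    (((CHN.ofVal CHF.snd).add (CHN.const 1)).mul (hg.comp CHF.fst)).le (hf.comp CHF.fst)
  refine (hf.card (h1.and h2)).congr (fun w => ?_)
  simp only [fstB_pnD, val_sndB_pnD]
  rcases Nat.eq_zero_or_pos (g w) with h | h
  · simp [h]
  · have e : (Finset.range (f w)).filter (fun i => 0 < g w ∧ (i + 1) * g w ≤ f w) =
        Finset.range (f w / g w) := by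
      ext i
      rw [Finset.mem_filter, Finset.mem_range, Finset.mem_range, ← Nat.le_div_iff_mul_le h]
      have h3 := Nat.div_le_self (f w) (g w)
      constructor
      · rintro ⟨_, _, h4⟩; omega
      · intro h4; exact ⟨by omega, h, by omega⟩
    rw [e, Finset.card_range]

theorem CHN.mod {f g : W → ℕ} (hf : CHN f) (hg : CHN g) : CHN (fun w => f w % g w) :=
  (hf.sub (hg.mul (hf.div hg))).congr (fun _ => (Nat.mod_def _ _).symm)

/-- bitwise definition: a function is CHN if its bits are (poly many) -/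
theorem CHN.polyLen {f : W → W} (hf : CHF f) (q : Polynomial ℕ) :
    CHN (fun w => q.eval (f w).length) :=
  (CHN.len.comp ((CHF.ofPT (PT.unary PT.id q)).comp hf)).congr (fun w => by simp)

theorem CHN.twoPow {f : W → W} (hf : CHF f) (q : Polynomial ℕ) :
    CHN (fun w => 2 ^ (q.eval (f w).length)) :=
  (CHN.ofVal ((CHF.ofPT (PT.append (PT.zeros PT.id q) (PT.const [true]))).comp hf)).congr
    (fun _ => val_replicate_false_append _)

end Crest.Agent.CHR
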