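import Crest.Agent.CHR.CntC

/-!
# MODULE M9b (row 316): interface.
Proof in `CntA`, `CntB`, `CntC`.
-/

set_option autoImplicit false

namespace Crest.Agent.CHR

open MvPolynomial Finset

theorem CFam.count_CHP (C : CFam) (Z : (w : W) → Fin (C.NN w) → ℕ → ℂ) :
    ∃ R : W → Prop, CHP R ∧ ∀ w, C.Hyp w (Z w) → C.NoPole w (Z w) →
      (R w ↔ 1 / 2 < ((C.data w (Z w)).count (C.A₁ w) (C.A₂ w) (C.A₃ w)).re) := by
  have h : RF (fun z _ => C.G Z z) (fun z v => C.cntv Z z v) :=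
    C.rf_cnt Z CHF.id (fun z v h => h)
  obtain ⟨R, hR, hRw⟩ := RF.half h
  refine ⟨R, hR, fun w h1 h2 => ?_⟩
  have hG : C.G Z w := ⟨h1, h2⟩
  rw [(hRw w hG).2, C.cntv_eq Z hG]

end Crest.Agent.CHR
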