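import Crest.Agent.CHR.CntDefs

/-!
# Row 316, module M9b, part A: general tools (constants, indexed products, moving copies, sums over
the solutions)
-/

set_option autoImplicit false

namespace Crest.Agent.CHR

open MvPolynomial Finset

variable {ok ok' : W → (ℕ → ℂ) → Prop} {φ ψ : W → (ℕ → ℂ) → ℂ}

theorem cnt_fst (w : W) (i : ℕ) : fstB (pn w i) = w := by simp [pn]
theorem cnt_snd (w : W) (i : ℕ) : val (sndB (pn w i)) = i := by simp [pn]

theorem CHN.ite' {p : W → Prop} [∀ w, Decidable (p w)] {f g : W → ℕ} (hp : CHP p) (hf : CHN f)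
    (hg : CHN g) : CHN (fun w => if p w then f w else g w) := by
  classical
  exact (CHN.ite hp hf hg).congr (fun w => by split_ifs <;> rfl)

theorem IsFam.ite' {p : W → Prop} [∀ w, Decidable (p w)] {F G : W → P} (hp : CHP p) (hF : IsFam F)
    (hG : IsFam G) : IsFam (fun w => if p w then F w else G w) := by
  classical
  exact (IsFam.ite hp hF hG).congr (fun w => by split_ifs <;> rfl)

theorem RF.subst' {G : W → P} (hG : IsFam G) {σ : W → (ℕ → ℂ) → ℕ → ℂ}
    (hσ : ∀ z v j, aeval v (G (pn z j)) = σ z v j) (h : RF ok' φ)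
    (hok : ∀ z v, ok z v → ok' z (σ z v)) : RF ok (fun z v => φ z (σ z v)) := by
  have e : ∀ z v, (fun j => aeval v (G (pn z j))) = σ z v := fun z v => funext (hσ z v)
  have := RF.subst (ok := ok) (ok' := ok') (φ := φ) hG h (by
    intro w v hw
    rw [e]
    exact hok w v hw)
  refine this.congr ?_
  intro w v _
  rw [e]

theorem RF.nat {x : W → ℕ} (hx : CHN x) : RF ok (fun w _ => (x w : ℂ)) :=
  (RF.const hx (CHN.const 1) (fun _ => one_pos)).congr (by intro w v _; simp [ratC])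

theorem RF.num (c : ℕ) : RF ok (fun _ _ => (c : ℂ)) := RF.nat (CHN.const c)

theorem RF.one : RF ok (fun _ _ => (1 : ℂ)) := (RF.num 1).congr (by intro w v _; simp)

theorem RF.prod' {N : W → ℕ} (hN : CHN N) {F : W → ℕ → (ℕ → ℂ) → ℂ}
    (h : RF ok' (fun z v => F (fstB z) (val (sndB z)) v))
    (hok : ∀ w v, ok w v → ∀ i < N w, ok' (pn w i) v) :
    RF ok (fun w v => ∏ i ∈ range (N w), F w i v) :=
  (RF.prod hN h hok).congr (by intro w v _; simp only [cnt_fst, cnt_snd])

/-- seeds -/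
theorem RF.seed {V k : W → ℕ} (hV : CHN V) (hk : CHN k) (h0 : ∀ w v, ok w v → 1 ≤ V w) :
    RF ok (fun w _ => seedA (V w) (k w)) := by
  unfold seedA
  refine RF.one.add ((RF.nat hk).div ((RF.num 2).mul (RF.nat hV)) ?_)
  intro w v h
  have := h0 w v h
  have h1 : ((V w : ℕ) : ℂ) ≠ 0 := by
    rw [Nat.cast_ne_zero]; omega
  simpa using h1

/-- powers of two -/
theorem RF.twoPow {n : W → ℕ} (hn : CHN n) : RF ok (fun w _ => (2 : ℂ) ^ n w) :=
  ((RF.num 2).pow hn).congr (by intro w v _; simp)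

/-- radii -/
theorem RF.rad {N Pp t : W → ℕ} (hN : CHN N) (hP : CHN Pp) (ht : CHN t)
    (h0 : ∀ w v, ok w v → 1 ≤ N w) :
    RF ok (fun w _ => 32 * (N w : ℂ) * 2 ^ Pp w / (1 + 1 / (64 * (N w : ℂ))) ^ t w) := by
  have hN0 : ∀ w v, ok w v → (64 * (N w : ℂ)) ≠ 0 := by
    intro w v h
    have := h0 w v h
    have h1 : ((N w : ℕ) : ℂ) ≠ 0 := by
      rw [Nat.cast_ne_zero]; omega
    simpa using h1
  have h64 : RF ok (fun w _ => (64 : ℂ) * (N w : ℂ)) :=
    ((RF.num 64).mul (RF.nat hN)).congr (by intro w v _; simp)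
  have h32 : RF ok (fun w _ => (32 : ℂ) * (N w : ℂ)) :=
    ((RF.num 32).mul (RF.nat hN)).congr (by intro w v _; simp)
  refine (h32.mul (RF.twoPow hP)).div ((RF.one.add (RF.one.div h64 hN0)).pow ht) ?_
  intro w v h
  apply pow_ne_zero
  have h1 : (1 : ℂ) + 1 / (64 * (N w : ℂ)) = ((1 + 1 / (64 * (N w : ℝ)) : ℝ) : ℂ) := by
    push_cast
    ring
  rw [h1]
  have h2 : (0 : ℝ) < 1 + 1 / (64 * (N w : ℝ)) := by positivity
  exact_mod_cast h2.ne'

/-- the grid unit `1/(20N)` -/
theorem RF.theta {N : W → ℕ} (hN : CHN N) (h0 : ∀ w v, ok w v → 1 ≤ N w) :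
    RF ok (fun w _ => 1 / (20 * (N w : ℂ))) := by
  have h20 : RF ok (fun w _ => (20 : ℂ) * (N w : ℂ)) :=
    ((RF.num 20).mul (RF.nat hN)).congr (by intro w v _; simp)
  refine RF.one.div h20 ?_
  intro w v h
  have := h0 w v h
  have h1 : ((N w : ℕ) : ℂ) ≠ 0 := by
    rw [Nat.cast_ne_zero]; omega
  simpa using h1

theorem cnt_aeval_congr_vars {f : P} {v v' : ℕ → ℂ} (h : ∀ j ∈ f.vars, v j = v' j) :
    aeval v f = aeval v' f := by
  unfold MvPolynomial.aeval
  exact eval₂Hom_congr' rfl (fun j hj _ => h j hj) rfl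

namespace CFam
variable (C : CFam)

/-- bound for the number of variables -/
theorem n9_bd {a : W → W} (ha : CHF a) : ∃ r : Polynomial ℕ, ∀ z, C.n9 (a z) ≤ r.eval z.length := by
  obtain ⟨p, hp⟩ := ha.1
  refine ⟨C.r.comp p, fun z => (C.hn9r (a z)).trans ?_⟩
  rw [Polynomial.eval_comp]
  exact polyEval_mono _ (hp z)

/-- sums over the solutions -/
theorem sumSol (Z : (w : W) → Fin (C.NN w) → ℕ → ℂ) {a : W → W} (ha : CHF a) (h : RF ok' φ)
    (hok : ∀ z v, ok z v → C.Hyp (a z) (Z (a z)) ∧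
      ∀ i, ok' z (mixv (C.n9 (a z)) (Z (a z) i) v)) :
    RF ok (fun z v => ∑ i, φ z (mixv (C.n9 (a z)) (Z (a z) i) v)) := by
  obtain ⟨r, hr⟩ := C.n9_bd ha
  have hpn : CHF (fun y => pn (a (fstB y)) (val (sndB y))) := CHF.pn (ha.comp CHF.fst) CHN.var
  refine RF.sumSol (n := fun z => C.n9 (a z)) (m := fun y => C.m (pn (a (fstB y)) (val (sndB y))))
    (NN := fun z => C.NN (a z)) (q := fun y => C.q (pn (a (fstB y)) (val (sndB y))))
    (C.hn9.comp ha) r hr (C.hm.comp hpn) (C.hq.comp hpn) (C.hNN.comp ha) (fun z => Z (a z)) h ?_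
  intro z v hz
  obtain ⟨h1, h2⟩ := hok z v hz
  refine ⟨?_, h2⟩
  simp only [cnt_fst, cnt_snd]
  exact h1.sol

/-- the point in copy `1` moved to copy `0`... read: value of variable `n + k` := value of `k` -/
noncomputable def dn (w : W) (v : ℕ → ℂ) : ℕ → ℂ := fun j =>
  if C.n9 w ≤ j ∧ j < 2 * C.n9 w then v (j - C.n9 w) else 0

/-- value of variable `k` := value of `n + k` -/
noncomputable def up (w : W) (v : ℕ → ℂ) : ℕ → ℂ := fun j =>
  if j < C.n9 w then v (C.n9 w + j) else 0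

theorem rf_dn {a : W → W} (ha : CHF a) (h : RF ok' φ)
    (hok : ∀ z v, ok z v → ok' z (C.dn (a z) v)) : RF ok (fun z v => φ z (C.dn (a z) v)) := by
  have hb : CHF (fun y => a (fstB y)) := ha.comp CHF.fst
  obtain ⟨r, hr⟩ := C.n9_bd hb
  have hn : CHN (fun y => C.n9 (a (fstB y))) := C.hn9.comp hb
  have hc : CHP (fun y => C.n9 (a (fstB y)) ≤ val (sndB y) ∧
      val (sndB y) < 2 * C.n9 (a (fstB y))) :=
    (hn.le CHN.var).and (CHN.var.lt ((CHN.const 2).mul hn))
  have hidx : CHN (fun y => if C.n9 (a (fstB y)) ≤ val (sndB y) ∧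
      val (sndB y) < 2 * C.n9 (a (fstB y)) then val (sndB y) - C.n9 (a (fstB y)) else 0) :=
    CHN.ite' hc (CHN.var.sub hn) (CHN.const 0)
  have hX := IsFam.var hidx r (by
    intro y
    refine le_trans ?_ (hr y)
    split_ifs with h
    · omega
    · omega)
  have h0 : IsFam (fun _ => (MvPolynomial.C ((0 : ℕ) / (1 : ℕ) : ℚ) : P)) :=
    IsFam.const (CHN.const 0) (CHN.const 1) (fun _ => one_pos)
  refine RF.subst' (IsFam.ite' hc hX h0) (σ := fun z v => C.dn (a z) v) ?_ h hok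
  intro z v j
  simp only [cnt_fst, cnt_snd, dn]
  split_ifs with h
  · rw [aeval_X]
  · simp

theorem rf_up {a : W → W} (ha : CHF a) (h : RF ok' φ)
    (hok : ∀ z v, ok z v → ok' z (C.up (a z) v)) : RF ok (fun z v => φ z (C.up (a z) v)) := by
  have hb : CHF (fun y => a (fstB y)) := ha.comp CHF.fst
  obtain ⟨r, hr⟩ := C.n9_bd hb
  have hn : CHN (fun y => C.n9 (a (fstB y))) := C.hn9.comp hb
  have hc : CHP (fun y => val (sndB y) < C.n9 (a (fstB y))) := CHN.var.lt hn
  have hidx : CHN (fun y => if val (sndB y) < C.n9 (a (fstB y)) then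
      C.n9 (a (fstB y)) + val (sndB y) else 0) :=
    CHN.ite' hc (hn.add CHN.var) (CHN.const 0)
  have hX := IsFam.var hidx (r + r) (by
    intro y
    rw [Polynomial.eval_add]
    have := hr y
    split_ifs with h
    · omega
    · omega)
  have h0 : IsFam (fun _ => (MvPolynomial.C ((0 : ℕ) / (1 : ℕ) : ℚ) : P)) :=
    IsFam.const (CHN.const 0) (CHN.const 1) (fun _ => one_pos)
  refine RF.subst' (IsFam.ite' hc hX h0) (σ := fun z v => C.up (a z) v) ?_ h hok
  intro z v j
  simp only [cnt_fst, cnt_snd, up]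
  split_ifs with h
  · rw [aeval_X]
  · simp

/-- coordinate `k z` of the point in copy `0` -/
theorem rf_x0 {a : W → W} (ha : CHF a) {k : W → ℕ} (hk : CHN k)
    (hok : ∀ z v, ok z v → k z < C.n9 (a z)) : RF ok (fun z v => v (k z)) := by
  obtain ⟨r, hr⟩ := C.n9_bd ha
  have hn : CHN (fun z => C.n9 (a z)) := C.hn9.comp ha
  have hidx : CHN (fun z => if k z < C.n9 (a z) then k z else 0) :=
    CHN.ite' (hk.lt hn) hk (CHN.const 0)
  have := RF.var (ok := ok) hidx r (by
    intro z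
    refine le_trans ?_ (hr z)
    split_ifs with h
    · omega
    · omega)
  refine this.congr ?_
  intro z v hz
  rw [if_pos (hok z v hz)]

/-- coordinate `k z` of the point in copy `1` -/
theorem rf_x1 {a : W → W} (ha : CHF a) {k : W → ℕ} (hk : CHN k)
    (hok : ∀ z v, ok z v → k z < C.n9 (a z)) : RF ok (fun z v => v (C.n9 (a z) + k z)) := by
  obtain ⟨r, hr⟩ := C.n9_bd ha
  have hn : CHN (fun z => C.n9 (a z)) := C.hn9.comp ha
  have hidx : CHN (fun z => if k z < C.n9 (a z) then C.n9 (a z) + k z else 0) :=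
    CHN.ite' (hk.lt hn) (hn.add hk) (CHN.const 0)
  have := RF.var (ok := ok) hidx (r + r) (by
    intro z
    rw [Polynomial.eval_add]
    have := hr z
    split_ifs with h
    · omega
    · omega)
  refine this.congr ?_
  intro z v hz
  rw [if_pos (hok z v hz)]

end CFam

end Crest.Agent.CHR
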