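import Crest.Agent.CHR.CntA

/-!
# Row 316, module M9b, part B: the reality test is a rational family
-/

set_option autoImplicit false

namespace Crest.Agent.CHR

open MvPolynomial Finset

variable {ok ok' : W → (ℕ → ℂ) → Prop} {φ ψ : W → (ℕ → ℂ) → ℂ}

namespace CFam
variable (C : CFam) (Z : (w : W) → Fin (C.NN w) → ℕ → ℂ)

/-- copy `0` of `v` is the point number `i` -/
def At0 (w : W) (v : ℕ → ℂ) (i : Fin (C.NN w)) : Prop := ∀ κ < C.n9 w, v κ = Z w i κ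

/-- copy `1` of `v` is the point number `i` -/
def At1 (w : W) (v : ℕ → ℂ) (i : Fin (C.NN w)) : Prop := ∀ κ < C.n9 w, v (C.n9 w + κ) = Z w i κ

theorem at0_mixv (w : W) (v : ℕ → ℂ) (i : Fin (C.NN w)) :
    C.At0 Z w (mixv (C.n9 w) (Z w i) v) i := by
  intro κ h
  simp [mixv, h]

variable {C Z} in
theorem At1.mixv {w : W} {v : ℕ → ℂ} {i : Fin (C.NN w)} (h : C.At1 Z w v i) (j : Fin (C.NN w)) :
    C.At1 Z w (mixv (C.n9 w) (Z w j) v) i := by
  intro κ hκ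
  rw [← h κ hκ]
  simp [Crest.Agent.CHR.mixv]

/-- all hypotheses at `w` -/
def G (w : W) : Prop := C.Hyp w (Z w) ∧ C.NoPole w (Z w)

/-! ### constants -/

theorem rf_A1 {a : W → W} (ha : CHF a) (h : ∀ z v, ok z v → C.G Z (a z)) :
    RF ok (fun z _ => C.A₁ (a z)) :=
  RF.seed (C.hVV.comp ha) (C.hk1.comp ha) (fun z v hz => (h z v hz).1.V1)

theorem rf_A2 {a : W → W} (ha : CHF a) (h : ∀ z v, ok z v → C.G Z (a z)) :
    RF ok (fun z _ => C.A₂ (a z)) :=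
  RF.seed (C.hVV.comp ha) (C.hk2.comp ha) (fun z v hz => (h z v hz).1.V1)

theorem rf_A3 {a : W → W} (ha : CHF a) (h : ∀ z v, ok z v → C.G Z (a z)) :
    RF ok (fun z _ => C.A₃ (a z)) :=
  RF.seed (C.hVV.comp ha) (C.hk3.comp ha) (fun z v hz => (h z v hz).1.V1)

theorem rf_R {a : W → W} (ha : CHF a) {t : W → ℕ} (ht : CHN t)
    (h : ∀ z v, ok z v → C.G Z (a z)) : RF ok (fun z _ => (C.par (a z)).R (t z)) :=
  RF.rad (C.hNN.comp ha) (C.hPP.comp ha) ht (fun z v hz => (h z v hz).1.N1)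

theorem rf_th {a : W → W} (ha : CHF a)
    (h : ∀ z v, ok z v → C.G Z (a z)) : RF ok (fun z _ => (C.par (a z)).th) :=
  RF.theta (C.hNN.comp ha) (fun z v hz => (h z v hz).1.N1)

theorem R_ne {w : W} (h : C.G Z w) (t : ℕ) : (C.par w).R t ≠ 0 := by
  have h1 : ((C.NN w : ℕ) : ℂ) ≠ 0 := by
    have := h.1.N1
    rw [Nat.cast_ne_zero]; omega
  have h2 : (C.par w).R t = 32 * (C.NN w : ℂ) * 2 ^ C.PP w / (1 + 1 / (64 * (C.NN w : ℂ))) ^ t := rfl
  rw [h2]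
  refine div_ne_zero (mul_ne_zero (mul_ne_zero (by norm_num) h1) (pow_ne_zero _ (by norm_num))) ?_
  apply pow_ne_zero
  have h3 : (1 : ℂ) + 1 / (64 * (C.NN w : ℂ)) = ((1 + 1 / (64 * (C.NN w : ℝ)) : ℝ) : ℂ) := by
    push_cast
    ring
  rw [h3]
  have h4 : (0 : ℝ) < 1 + 1 / (64 * (C.NN w : ℝ)) := by positivity
  exact_mod_cast h4.ne'

theorem th_ne {w : W} (h : C.G Z w) : (C.par w).th ≠ 0 := by
  have h1 : ((C.NN w : ℕ) : ℂ) ≠ 0 := by
    have := h.1.N1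
    rw [Nat.cast_ne_zero]; omega
  have h2 : (C.par w).th = 1 / (20 * (C.NN w : ℂ)) := rfl
  rw [h2]
  exact div_ne_zero one_ne_zero (mul_ne_zero (by norm_num) h1)

/-! ### centre of mass -/

/-- `thr` of the difference of coordinate `k` of copy 0 and copy 1 -/
theorem rf_thrk {a : W → W} (ha : CHF a) {k t : W → ℕ} (hk : CHN k) (ht : CHN t)
    (hG : ∀ z v, ok z v → C.G Z (a z)) (hkn : ∀ z v, ok z v → k z < C.n9 (a z))
    (htn : ∀ z v, ok z v → t z < (C.par (a z)).T)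
    (hat : ∀ z v, ok z v → ∃ i j, C.At1 Z (a z) v i ∧ C.At0 Z (a z) v j) :
    RF ok (fun z v => thr (C.A₁ (a z)) (C.par (a z)).M
      ((v (k z) - v (C.n9 (a z) + k z)) / (C.par (a z)).R (t z))) := by
  refine RF.thr (C.hMM.comp ha) (C.rf_A1 Z ha hG)
    (((C.rf_x0 ha hk hkn).sub (C.rf_x1 ha hk hkn)).div (C.rf_R Z ha ht hG)
      (fun z v hz => C.R_ne Z (hG z v hz) _)) ?_
  intro z v hz
  obtain ⟨i, j, hi, hj⟩ := hat z v hz
  have h1 := (hG z v hz).2.1 (k z) (by simpa [data] using hkn z v hz) (t z) (htn z v hz) i j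
  rw [hj _ (hkn z v hz), hi _ (hkn z v hz)]
  exact h1

/-- numerator of `wT` for the point in copy `1` -/
noncomputable def wvN (w : W) (k t : ℕ) (v : ℕ → ℂ) : ℂ :=
  ∑ j, (v (C.n9 w + k) - Z w j k) * thr (C.A₁ w) (C.par w).M
    ((Z w j k - v (C.n9 w + k)) / (C.par w).R t)

/-- denominator of `wT` for the point in copy `1` -/
noncomputable def wvD (w : W) (k t : ℕ) (v : ℕ → ℂ) : ℂ :=
  ∑ j, thr (C.A₁ w) (C.par w).M ((Z w j k - v (C.n9 w + k)) / (C.par w).R t)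

theorem rf_wvN {a : W → W} (ha : CHF a) {k t : W → ℕ} (hk : CHN k) (ht : CHN t)
    (hG : ∀ z v, ok z v → C.G Z (a z)) (hkn : ∀ z v, ok z v → k z < C.n9 (a z))
    (htn : ∀ z v, ok z v → t z < (C.par (a z)).T)
    (hat : ∀ z v, ok z v → ∃ i, C.At1 Z (a z) v i) :
    RF ok (fun z v => C.wvN Z (a z) (k z) (t z) v) := by
  have h1 : RF (fun z v => C.G Z (a z) ∧ k z < C.n9 (a z) ∧ t z < (C.par (a z)).T ∧
      ∃ i j, C.At1 Z (a z) v i ∧ C.At0 Z (a z) v j)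
      (fun z v => (v (C.n9 (a z) + k z) - v (k z)) * thr (C.A₁ (a z)) (C.par (a z)).M
      ((v (k z) - v (C.n9 (a z) + k z)) / (C.par (a z)).R (t z))) :=
    ((C.rf_x1 ha hk (fun z v h => h.2.1)).sub (C.rf_x0 ha hk (fun z v h => h.2.1))).mul
      (C.rf_thrk Z ha hk ht (fun z v h => h.1) (fun z v h => h.2.1) (fun z v h => h.2.2.1)
        (fun z v h => h.2.2.2))
  have h2 := C.sumSol (ok := ok) Z ha h1 (fun z v hz => ⟨(hG z v hz).1, fun i => by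
    obtain ⟨i', hi'⟩ := hat z v hz
    exact ⟨hG z v hz, hkn z v hz, htn z v hz, i', i, hi'.mixv i, C.at0_mixv Z _ _ _⟩⟩)
  refine h2.congr ?_
  intro z v hz
  unfold wvN
  refine Finset.sum_congr rfl fun j _ => ?_
  have e0 : mixv (C.n9 (a z)) (Z (a z) j) v (k z) = Z (a z) j (k z) :=
    C.at0_mixv Z _ _ _ _ (hkn z v hz)
  have e1 : mixv (C.n9 (a z)) (Z (a z) j) v (C.n9 (a z) + k z) = v (C.n9 (a z) + k z) := by
    simp [mixv]
  rw [e0, e1]

theorem rf_wvD {a : W → W} (ha : CHF a) {k t : W → ℕ} (hk : CHN k) (ht : CHN t)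
    (hG : ∀ z v, ok z v → C.G Z (a z)) (hkn : ∀ z v, ok z v → k z < C.n9 (a z))
    (htn : ∀ z v, ok z v → t z < (C.par (a z)).T)
    (hat : ∀ z v, ok z v → ∃ i, C.At1 Z (a z) v i) :
    RF ok (fun z v => C.wvD Z (a z) (k z) (t z) v) := by
  have h1 : RF (fun z v => C.G Z (a z) ∧ k z < C.n9 (a z) ∧ t z < (C.par (a z)).T ∧
      ∃ i j, C.At1 Z (a z) v i ∧ C.At0 Z (a z) v j)
      (fun z v => thr (C.A₁ (a z)) (C.par (a z)).M
      ((v (k z) - v (C.n9 (a z) + k z)) / (C.par (a z)).R (t z))) :=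
      (C.rf_thrk Z ha hk ht (fun z v h => h.1) (fun z v h => h.2.1) (fun z v h => h.2.2.1)
        (fun z v h => h.2.2.2))
  have h2 := C.sumSol (ok := ok) Z ha h1 (fun z v hz => ⟨(hG z v hz).1, fun i => by
    obtain ⟨i', hi'⟩ := hat z v hz
    exact ⟨hG z v hz, hkn z v hz, htn z v hz, i', i, hi'.mixv i, C.at0_mixv Z _ _ _⟩⟩)
  refine h2.congr ?_
  intro z v hz
  unfold wvD
  refine Finset.sum_congr rfl fun j _ => ?_
  have e0 : mixv (C.n9 (a z)) (Z (a z) j) v (k z) = Z (a z) j (k z) :=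
    C.at0_mixv Z _ _ _ _ (hkn z v hz)
  have e1 : mixv (C.n9 (a z)) (Z (a z) j) v (C.n9 (a z) + k z) = v (C.n9 (a z) + k z) := by
    simp [mixv]
  rw [e0, e1]

/-- `wT` for the point in copy `1` -/
noncomputable def wv (w : W) (k t : ℕ) (v : ℕ → ℂ) : ℂ :=
  C.wvN Z w k t v / ((C.par w).R t * C.wvD Z w k t v)

theorem wv_eq {w : W} {v : ℕ → ℂ} {i : Fin (C.NN w)} (hi : C.At1 Z w v i) {k : ℕ}
    (hk : k < C.n9 w) (t : ℕ) :
    C.wv Z w k t v = wT (C.par w) (C.A₁ w) ((C.data w (Z w)).α k) t i := by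
  unfold wv wT wvN wvD
  rw [hi k hk]
  rfl

theorem wvD_eq {w : W} {v : ℕ → ℂ} {i : Fin (C.NN w)} (hi : C.At1 Z w v i) {k : ℕ}
    (hk : k < C.n9 w) (t : ℕ) :
    C.wvD Z w k t v = ∑ j, thr (C.A₁ w) (C.par w).M
      (((C.data w (Z w)).α k j - (C.data w (Z w)).α k i) / (C.par w).R t) := by
  unfold wvD
  rw [hi k hk]
  rfl

theorem rf_wv {a : W → W} (ha : CHF a) {k t : W → ℕ} (hk : CHN k) (ht : CHN t)
    (hG : ∀ z v, ok z v → C.G Z (a z)) (hkn : ∀ z v, ok z v → k z < C.n9 (a z))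
    (htn : ∀ z v, ok z v → t z < (C.par (a z)).T)
    (hat : ∀ z v, ok z v → ∃ i, C.At1 Z (a z) v i) :
    RF ok (fun z v => C.wv Z (a z) (k z) (t z) v) := by
  refine (C.rf_wvN Z ha hk ht hG hkn htn hat).div
    ((C.rf_R Z ha ht hG).mul (C.rf_wvD Z ha hk ht hG hkn htn hat)) ?_
  intro z v hz
  obtain ⟨i, hi⟩ := hat z v hz
  refine mul_ne_zero (C.R_ne Z (hG z v hz) _) ?_
  rw [C.wvD_eq Z hi (hkn z v hz)]
  exact (hG z v hz).2.2.1 (k z) (by simpa [data] using hkn z v hz) (t z) (htn z v hz) i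

/-! ### reality test -/

/-- one factor of the inner product -/
noncomputable def gf (w : W) (k t l : ℕ) (v : ℕ → ℂ) : ℂ :=
  1 - thr (C.A₂ w) (C.par w).M ((C.wv Z w k t v - (-1 + l * (C.par w).th)) / (C.par w).th)

theorem rf_gf {a : W → W} (ha : CHF a) {k t l : W → ℕ} (hk : CHN k) (ht : CHN t) (hl : CHN l)
    (hG : ∀ z v, ok z v → C.G Z (a z)) (hkn : ∀ z v, ok z v → k z < C.n9 (a z))
    (htn : ∀ z v, ok z v → t z < (C.par (a z)).T)
    (hln : ∀ z v, ok z v → l z ≤ (C.par (a z)).L)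
    (hat : ∀ z v, ok z v → ∃ i, C.At1 Z (a z) v i) :
    RF ok (fun z v => C.gf Z (a z) (k z) (t z) (l z) v) := by
  have hm1 : RF ok (fun _ _ => (-1 : ℂ)) := RF.one.neg
  refine RF.one.sub (RF.thr (C.hMM.comp ha) (C.rf_A2 Z ha hG)
    (((C.rf_wv Z ha hk ht hG hkn htn hat).sub (hm1.add ((RF.nat hl).mul (C.rf_th Z ha hG)))).div
      (C.rf_th Z ha hG) (fun z v hz => C.th_ne Z (hG z v hz))) ?_)
  intro z v hz
  obtain ⟨i, hi⟩ := hat z v hz
  rw [C.wv_eq Z hi (hkn z v hz)]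
  exact (hG z v hz).2.2.2.1 (k z) (by simpa [data] using hkn z v hz) (t z) (htn z v hz) i (l z)
    (hln z v hz)

/-- one factor of the outer product -/
noncomputable def tf (w : W) (k t : ℕ) (v : ℕ → ℂ) : ℂ :=
  1 - ∏ l ∈ range ((C.par w).L + 1), C.gf Z w k t l v

theorem hL : CHN (fun w => (C.par w).L) := (CHN.const 40).mul C.hNN

theorem hT : CHN (fun w => (C.par w).T) :=
  ((CHN.const 64).mul C.hNN).mul ((((CHN.const 2).mul C.hPP).add C.hNN).add (CHN.const 4))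

theorem rf_tf {a : W → W} (ha : CHF a) {k t : W → ℕ} (hk : CHN k) (ht : CHN t)
    (hG : ∀ z v, ok z v → C.G Z (a z)) (hkn : ∀ z v, ok z v → k z < C.n9 (a z))
    (htn : ∀ z v, ok z v → t z < (C.par (a z)).T)
    (hat : ∀ z v, ok z v → ∃ i, C.At1 Z (a z) v i) :
    RF ok (fun z v => C.tf Z (a z) (k z) (t z) v) := by
  have h1 : RF (fun z v => ok (fstB z) v ∧ val (sndB z) ≤ (C.par (a (fstB z))).L)
      (fun z v => C.gf Z (a (fstB z)) (k (fstB z)) (t (fstB z)) (val (sndB z)) v) :=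
    C.rf_gf Z (ha.comp CHF.fst) (hk.comp CHF.fst) (ht.comp CHF.fst) CHN.var
      (fun z v h => hG _ _ h.1) (fun z v h => hkn _ _ h.1) (fun z v h => htn _ _ h.1)
      (fun z v h => h.2) (fun z v h => hat _ _ h.1)
  refine RF.one.sub (RF.prod' ((C.hL.comp ha).add (CHN.const 1))
    (F := fun z l v => C.gf Z (a z) (k z) (t z) l v) h1 ?_)
  intro w v hw i hi
  rw [cnt_fst, cnt_snd]
  exact ⟨hw, by omega⟩

/-- reality test for coordinate `k` of the point in copy `1` -/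
noncomputable def rv (w : W) (k : ℕ) (v : ℕ → ℂ) : ℂ := ∏ t ∈ range (C.par w).T, C.tf Z w k t v

theorem rf_rv {a : W → W} (ha : CHF a) {k : W → ℕ} (hk : CHN k)
    (hG : ∀ z v, ok z v → C.G Z (a z)) (hkn : ∀ z v, ok z v → k z < C.n9 (a z))
    (hat : ∀ z v, ok z v → ∃ i, C.At1 Z (a z) v i) :
    RF ok (fun z v => C.rv Z (a z) (k z) v) := by
  have h1 : RF (fun z v => ok (fstB z) v ∧ val (sndB z) < (C.par (a (fstB z))).T)
      (fun z v => C.tf Z (a (fstB z)) (k (fstB z)) (val (sndB z)) v) :=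
    C.rf_tf Z (ha.comp CHF.fst) (hk.comp CHF.fst) CHN.var
      (fun z v h => hG _ _ h.1) (fun z v h => hkn _ _ h.1) (fun z v h => h.2)
      (fun z v h => hat _ _ h.1)
  refine RF.prod' (C.hT.comp ha) (F := fun z t v => C.tf Z (a z) (k z) t v) h1 ?_
  intro w v hw i hi
  rw [cnt_fst, cnt_snd]
  exact ⟨hw, hi⟩

theorem rv_eq {w : W} {v : ℕ → ℂ} {i : Fin (C.NN w)} (hi : C.At1 Z w v i) {k : ℕ}
    (hk : k < C.n9 w) :
    C.rv Z w k v = realT (C.par w) (C.A₁ w) (C.A₂ w) ((C.data w (Z w)).α k) i := by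
  unfold rv realT tf gf
  refine Finset.prod_congr rfl fun t _ => ?_
  rw [C.wv_eq Z hi hk]

/-- all coordinates of the point in copy `1` pass the reality test -/
noncomputable def re1 (w : W) (v : ℕ → ℂ) : ℂ := ∏ k ∈ range (C.n9 w), C.rv Z w k v

theorem rf_re1 {a : W → W} (ha : CHF a)
    (hG : ∀ z v, ok z v → C.G Z (a z)) (hat : ∀ z v, ok z v → ∃ i, C.At1 Z (a z) v i) :
    RF ok (fun z v => C.re1 Z (a z) v) := by
  have h1 : RF (fun z v => ok (fstB z) v ∧ val (sndB z) < C.n9 (a (fstB z)))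
      (fun z v => C.rv Z (a (fstB z)) (val (sndB z)) v) :=
    C.rf_rv Z (ha.comp CHF.fst) CHN.var
      (fun z v h => hG _ _ h.1) (fun z v h => h.2) (fun z v h => hat _ _ h.1)
  refine RF.prod' (C.hn9.comp ha) (F := fun z k v => C.rv Z (a z) k v) h1 ?_
  intro w v hw i hi
  rw [cnt_fst, cnt_snd]
  exact ⟨hw, hi⟩

theorem re1_eq {w : W} {v : ℕ → ℂ} {i : Fin (C.NN w)} (hi : C.At1 Z w v i) :
    C.re1 Z w v = (C.data w (Z w)).re (C.A₁ w) (C.A₂ w) i := by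
  unfold re1 CData.re
  exact Finset.prod_congr rfl fun k hk => C.rv_eq Z hi (mem_range.1 hk)

theorem at1_dn {w : W} {v : ℕ → ℂ} {i : Fin (C.NN w)} (h : C.At0 Z w v i) :
    C.At1 Z w (C.dn w v) i := by
  intro κ hκ
  rw [← h κ hκ]
  have h1 : C.n9 w ≤ C.n9 w + κ ∧ C.n9 w + κ < 2 * C.n9 w := by omega
  rw [dn, if_pos h1]
  congr 1
  omega

theorem at0_up {w : W} {v : ℕ → ℂ} {i : Fin (C.NN w)} (h : C.At1 Z w v i) :
    C.At0 Z w (C.up w v) i := by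
  intro κ hκ
  rw [← h κ hκ, up, if_pos hκ]

theorem rf_re0 {a : W → W} (ha : CHF a)
    (hG : ∀ z v, ok z v → C.G Z (a z)) (hat : ∀ z v, ok z v → ∃ i, C.At0 Z (a z) v i) :
    RF ok (fun z v => C.re1 Z (a z) (C.dn (a z) v)) := by
  refine C.rf_dn ha (φ := fun z v => C.re1 Z (a z) v)
    (ok' := fun z v => C.G Z (a z) ∧ ∃ i, C.At1 Z (a z) v i)
    (C.rf_re1 Z ha (fun z v h => h.1) (fun z v h => h.2)) ?_
  intro z v hz
  obtain ⟨i, hi⟩ := hat z v hz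
  exact ⟨hG z v hz, i, C.at1_dn Z hi⟩

theorem aeval_at0 {w : W} {v : ℕ → ℂ} {i : Fin (C.NN w)} (h : C.At0 Z w v i) {f : P}
    (hf : ∀ j ∈ f.vars, j < C.n9 w) : aeval v f = aeval (Z w i) f :=
  cnt_aeval_congr_vars fun j hj => h j (hf j hj)

end CFam

end Crest.Agent.CHR
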