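import Crest.Agent.CHR.CntB

/-!
# Row 316, module M9b, part C: acceptance and counting
-/

set_option autoImplicit false

namespace Crest.Agent.CHR

open MvPolynomial Finset

variable {ok ok' : W → (ℕ → ℂ) → Prop} {φ ψ : W → (ℕ → ℂ) → ℂ}

namespace CFam
variable (C : CFam) (Z : (w : W) → Fin (C.NN w) → ℕ → ℂ)

/-- positivity test of a rational family -/
theorem rf_pos {a : W → W} (ha : CHF a) {s : W → (ℕ → ℂ) → ℂ} (hs : RF ok s)
    (hG : ∀ z v, ok z v → C.G Z (a z))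
    (h0 : ∀ z v, ok z v → ∀ κ ≤ 2 * (C.par (a z)).P + 2, 1 + (C.A₃ (a z) *
      ((s z v - 2 ^ κ / 2 ^ ((C.par (a z)).P + 1)) /
      (3 / 4 * (2 ^ κ / 2 ^ ((C.par (a z)).P + 1))))) ^ (C.par (a z)).M ≠ 0) :
    RF ok (fun z v => posT (C.par (a z)) (C.A₃ (a z)) (s z v)) := by
  have hf := ha.comp CHF.fst
  have hdy : RF (fun z v => ok (fstB z) v ∧ val (sndB z) ≤ 2 * (C.par (a (fstB z))).P + 2)
      (fun z _ => (2 : ℂ) ^ (val (sndB z)) / 2 ^ ((C.par (a (fstB z))).P + 1)) :=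
    (RF.twoPow CHN.var).div (RF.twoPow ((C.hPP.comp hf).add (CHN.const 1)))
      (fun z v _ => pow_ne_zero _ two_ne_zero)
  have h34 : RF (fun z v => ok (fstB z) v ∧ val (sndB z) ≤ 2 * (C.par (a (fstB z))).P + 2)
      (fun _ _ => (3 / 4 : ℂ)) :=
    ((RF.num 3).div (RF.num 4) (fun z v _ => by norm_num)).congr (by intro z v _; norm_num)
  have h1 : RF (fun z v => ok (fstB z) v ∧ val (sndB z) ≤ 2 * (C.par (a (fstB z))).P + 2)
      (fun z v => 1 - thr (C.A₃ (a (fstB z))) (C.par (a (fstB z))).M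
        ((s (fstB z) v - 2 ^ (val (sndB z)) / 2 ^ ((C.par (a (fstB z))).P + 1)) /
        (3 / 4 * (2 ^ (val (sndB z)) / 2 ^ ((C.par (a (fstB z))).P + 1))))) := by
    refine RF.one.sub (RF.thr (C.hMM.comp hf) (C.rf_A3 Z hf (fun z v h => hG _ _ h.1))
      (((hs.comp CHF.fst (fun z v h => h.1)).sub hdy).div (h34.mul hdy) ?_) ?_)
    · intro z v _
      exact mul_ne_zero (by norm_num) (div_ne_zero (pow_ne_zero _ two_ne_zero)
        (pow_ne_zero _ two_ne_zero))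
    · intro z v h
      exact h0 _ _ h.1 _ h.2
  have h2 := RF.prod' (ok := ok) ((((CHN.const 2).mul (C.hPP.comp ha)).add (CHN.const 3)))
    (F := fun z κ v => 1 - thr (C.A₃ (a z)) (C.par (a z)).M
        ((s z v - 2 ^ κ / 2 ^ ((C.par (a z)).P + 1)) /
        (3 / 4 * (2 ^ κ / 2 ^ ((C.par (a z)).P + 1))))) h1 (by
    intro w v hw i hi
    rw [cnt_fst, cnt_snd]
    refine ⟨hw, ?_⟩
    have hi' : i < 2 * (C.par (a w)).P + 3 := hi
    omega)
  exact RF.one.sub h2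

/-- same `x`-part of the points in copy `1` and copy `0` -/
noncomputable def samev (w : W) (v : ℕ → ℂ) : ℂ :=
  ∏ κ ∈ range (C.nx w), thr 1 (C.par w).M ((v (C.n9 w + κ) - v κ) * 2 ^ ((C.par w).P + 1))

theorem samev_eq {w : W} (h9 : C.nx w ≤ C.n9 w) {v : ℕ → ℂ} {i j : Fin (C.NN w)}
    (hi : C.At1 Z w v i) (hj : C.At0 Z w v j) :
    C.samev w v = (C.data w (Z w)).same i j := by
  unfold samev CData.same
  refine Finset.prod_congr rfl fun κ hκ => ?_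
  have hκ' : κ < C.n9 w := lt_of_lt_of_le (mem_range.1 hκ) h9
  rw [hi κ hκ', hj κ hκ']
  rfl

theorem rf_same {a : W → W} (ha : CHF a) (hG : ∀ z v, ok z v → C.G Z (a z))
    (hat : ∀ z v, ok z v → ∃ i j, C.At1 Z (a z) v i ∧ C.At0 Z (a z) v j) :
    RF ok (fun z v => C.samev (a z) v) := by
  have hf := ha.comp CHF.fst
  have hlt : ∀ (z : W) (v : ℕ → ℂ), (ok (fstB z) v ∧ val (sndB z) < C.nx (a (fstB z))) →
      val (sndB z) < C.n9 (a (fstB z)) := fun z v h => lt_of_lt_of_le h.2 (hG _ _ h.1).1.nx9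
  have h1 : RF (fun z v => ok (fstB z) v ∧ val (sndB z) < C.nx (a (fstB z)))
      (fun z v => thr 1 (C.par (a (fstB z))).M
        ((v (C.n9 (a (fstB z)) + val (sndB z)) - v (val (sndB z))) *
          2 ^ ((C.par (a (fstB z))).P + 1))) := by
    refine RF.thr (C.hMM.comp hf) RF.one
      (((C.rf_x1 hf CHN.var hlt).sub (C.rf_x0 hf CHN.var hlt)).mul
        (RF.twoPow ((C.hPP.comp hf).add (CHN.const 1)))) ?_
    intro z v h
    obtain ⟨i, j, hi, hj⟩ := hat _ _ h.1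
    rw [hi _ (hlt z v h), hj _ (hlt z v h)]
    exact (hG _ _ h.1).2.2.2.2.2.1 (val (sndB z)) (by simpa [data] using h.2) i j
  refine RF.prod' (C.hnx.comp ha) (F := fun z κ v => thr 1 (C.par (a z)).M
    ((v (C.n9 (a z) + κ) - v κ) * 2 ^ ((C.par (a z)).P + 1))) h1 ?_
  intro w v hw i hi
  rw [cnt_fst, cnt_snd]
  exact ⟨hw, hi⟩

/-- number of bad real points over the same `x` as the point in copy `1` -/
noncomputable def badv (w : W) (v : ℕ → ℂ) : ℂ :=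
  ∑ j, C.samev w (mixv (C.n9 w) (Z w j) v) * C.re1 Z w (C.dn w (mixv (C.n9 w) (Z w j) v)) *
    (1 - posT (C.par w) (C.A₃ w) (aeval (mixv (C.n9 w) (Z w j) v) (C.bb w)))

theorem badv_eq {w : W} (hG : C.G Z w) {v : ℕ → ℂ} {i : Fin (C.NN w)} (hi : C.At1 Z w v i) :
    C.badv Z w v = (C.data w (Z w)).bad (C.A₁ w) (C.A₂ w) (C.A₃ w) i := by
  unfold badv CData.bad
  refine Finset.sum_congr rfl fun j _ => ?_
  have hj := C.at0_mixv Z w v j
  rw [C.samev_eq Z hG.1.nx9 (hi.mixv j) hj, C.re1_eq Z (C.at1_dn Z hj),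
    C.aeval_at0 Z hj hG.1.vbb]
  rfl

theorem rf_bad {a : W → W} (ha : CHF a) (hG : ∀ z v, ok z v → C.G Z (a z))
    (hat : ∀ z v, ok z v → ∃ i, C.At1 Z (a z) v i) :
    RF ok (fun z v => C.badv Z (a z) v) := by
  have h1 : RF (fun z v => C.G Z (a z) ∧ ∃ i j, C.At1 Z (a z) v i ∧ C.At0 Z (a z) v j)
      (fun z v => C.samev (a z) v * C.re1 Z (a z) (C.dn (a z) v) *
        (1 - posT (C.par (a z)) (C.A₃ (a z)) (aeval v (C.bb (a z))))) := by
    refine ((C.rf_same Z ha (fun z v h => h.1) (fun z v h => h.2)).mul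
      (C.rf_re0 Z ha (fun z v h => h.1) (fun z v h => ?_))).mul
      (RF.one.sub (C.rf_pos Z ha (RF.poly (C.hbb.comp ha)) (fun z v h => h.1) ?_))
    · obtain ⟨i, j, _, hj⟩ := h.2
      exact ⟨j, hj⟩
    · intro z v h κ hκ
      obtain ⟨i, j, _, hj⟩ := h.2
      rw [C.aeval_at0 Z hj h.1.1.vbb]
      exact h.1.2.2.2.2.1 j _ (Or.inr (Or.inl rfl)) κ hκ
  have h2 := C.sumSol (ok := ok) Z ha h1 (fun z v hz => ⟨(hG z v hz).1, fun j => by
    obtain ⟨i, hi⟩ := hat z v hz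
    exact ⟨hG z v hz, i, j, hi.mixv j, C.at0_mixv Z _ _ _⟩⟩)
  exact h2

/-- positivity test of a polynomial at the point in copy `1` -/
theorem rf_posUp {a : W → W} (ha : CHF a) {F : W → P} (hF : IsFam F)
    (hG : ∀ z v, ok z v → C.G Z (a z))
    (hat : ∀ z v, ok z v → ∃ i, C.At1 Z (a z) v i)
    (hv : ∀ z v, ok z v → ∀ j ∈ (F z).vars, j < C.n9 (a z))
    (hs : ∀ z v, ok z v → ∀ i, aeval (Z (a z) i) (F z) = (C.data (a z) (Z (a z))).s₀ i ∨
      aeval (Z (a z) i) (F z) = (C.data (a z) (Z (a z))).b i ∨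
      ∃ b < (C.data (a z) (Z (a z))).na, aeval (Z (a z) i) (F z) = (C.data (a z) (Z (a z))).u b i ∨
        aeval (Z (a z) i) (F z) = (C.data (a z) (Z (a z))).v b i) :
    RF ok (fun z v => posT (C.par (a z)) (C.A₃ (a z)) (aeval (C.up (a z) v) (F z))) := by
  refine C.rf_pos Z ha (C.rf_up ha (φ := fun z v => aeval v (F z)) (ok' := fun _ _ => True)
    (RF.poly hF) (fun z v _ => trivial)) hG ?_
  intro z v hz κ hκ
  obtain ⟨i, hi⟩ := hat z v hz
  rw [C.aeval_at0 Z (C.at0_up Z hi) (hv z v hz)]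
  exact (hG z v hz).2.2.2.2.1 i _ (hs z v hz i) κ hκ

/-- factor `a` of the middle product -/
noncomputable def mf (w : W) (b : ℕ) (v : ℕ → ℂ) : ℂ :=
  1 - (1 - posT (C.par w) (C.A₃ w) (aeval (C.up w v) (C.uu (pn w b)))) *
    (1 - posT (C.par w) (C.A₃ w) (aeval (C.up w v) (C.vv (pn w b))))

theorem rf_mf {a : W → W} (ha : CHF a) {b : W → ℕ} (hb : CHN b)
    (hG : ∀ z v, ok z v → C.G Z (a z)) (hbn : ∀ z v, ok z v → b z < C.na (a z))
    (hat : ∀ z v, ok z v → ∃ i, C.At1 Z (a z) v i) :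
    RF ok (fun z v => C.mf (a z) (b z) v) := by
  refine RF.one.sub ((RF.one.sub ?_).mul (RF.one.sub ?_))
  · exact C.rf_posUp Z ha (F := fun z => C.uu (pn (a z) (b z))) (C.huu.comp (CHF.pn ha hb)) hG hat
      (fun z v h => (hG z v h).1.vuu _ (hbn z v h))
      (fun z v h i => Or.inr (Or.inr ⟨b z, hbn z v h, Or.inl rfl⟩))
  · exact C.rf_posUp Z ha (F := fun z => C.vv (pn (a z) (b z))) (C.hvv.comp (CHF.pn ha hb)) hG hat
      (fun z v h => (hG z v h).1.vvv _ (hbn z v h))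
      (fun z v h i => Or.inr (Or.inr ⟨b z, hbn z v h, Or.inr rfl⟩))

/-- acceptance of the point in copy `1` -/
noncomputable def accv (w : W) (v : ℕ → ℂ) : ℂ :=
  C.re1 Z w v * posT (C.par w) (C.A₃ w) (aeval (C.up w v) (C.s0 w)) *
    (∏ b ∈ range (C.na w), C.mf w b v) * thr 1 (C.par w).M (4 / 3 * C.badv Z w v)

theorem mf_eq {w : W} (hG : C.G Z w) {v : ℕ → ℂ} {i : Fin (C.NN w)} (hi : C.At1 Z w v i) {b : ℕ}
    (hb : b < C.na w) :
    C.mf w b v = 1 - (1 - posT (C.par w) (C.A₃ w) ((C.data w (Z w)).u b i)) *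
      (1 - posT (C.par w) (C.A₃ w) ((C.data w (Z w)).v b i)) := by
  unfold mf
  rw [C.aeval_at0 Z (C.at0_up Z hi) (hG.1.vuu b hb), C.aeval_at0 Z (C.at0_up Z hi) (hG.1.vvv b hb)]
  rfl

theorem accv_eq {w : W} (hG : C.G Z w) {v : ℕ → ℂ} {i : Fin (C.NN w)} (hi : C.At1 Z w v i) :
    C.accv Z w v = (C.data w (Z w)).acc (C.A₁ w) (C.A₂ w) (C.A₃ w) i := by
  unfold accv CData.acc
  rw [C.re1_eq Z hi, C.badv_eq Z hG hi, C.aeval_at0 Z (C.at0_up Z hi) hG.1.vs0,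
    Finset.prod_congr rfl (fun b hb => C.mf_eq Z hG hi (mem_range.1 hb))]
  rfl

theorem rf_acc {a : W → W} (ha : CHF a) (hG : ∀ z v, ok z v → C.G Z (a z))
    (hat : ∀ z v, ok z v → ∃ i, C.At1 Z (a z) v i) :
    RF ok (fun z v => C.accv Z (a z) v) := by
  have h43 : RF ok (fun _ _ => (4 / 3 : ℂ)) :=
    ((RF.num 4).div (RF.num 3) (fun z v _ => by norm_num)).congr (by intro z v _; norm_num)
  have h1 : RF (fun z v => ok (fstB z) v ∧ val (sndB z) < C.na (a (fstB z)))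
      (fun z v => C.mf (a (fstB z)) (val (sndB z)) v) :=
    C.rf_mf Z (ha.comp CHF.fst) CHN.var (fun z v h => hG _ _ h.1) (fun z v h => h.2)
      (fun z v h => hat _ _ h.1)
  refine (((C.rf_re1 Z ha hG hat).mul (C.rf_posUp Z ha (F := fun z => C.s0 (a z))
    (C.hs0.comp ha) hG hat (fun z v h => (hG z v h).1.vs0) (fun z v h i => Or.inl rfl))).mul
    (RF.prod' (C.hna.comp ha) (F := fun z b v => C.mf (a z) b v) h1 ?_)).mul
    (RF.thr (C.hMM.comp ha) RF.one (h43.mul (C.rf_bad Z ha hG hat)) ?_)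
  · intro w v hw i hi
    rw [cnt_fst, cnt_snd]
    exact ⟨hw, hi⟩
  · intro z v hz
    obtain ⟨i, hi⟩ := hat z v hz
    rw [C.badv_eq Z (hG z v hz) hi]
    exact (hG z v hz).2.2.2.2.2.2 i

/-- the number computed by the algorithm -/
noncomputable def cntv (w : W) (v : ℕ → ℂ) : ℂ :=
  ∑ i, C.accv Z w (C.dn w (mixv (C.n9 w) (Z w i) v))

theorem cntv_eq {w : W} (hG : C.G Z w) (v : ℕ → ℂ) :
    C.cntv Z w v = (C.data w (Z w)).count (C.A₁ w) (C.A₂ w) (C.A₃ w) := by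
  unfold cntv CData.count
  exact Finset.sum_congr rfl fun i _ => C.accv_eq Z hG (C.at1_dn Z (C.at0_mixv Z w v i))

theorem rf_cnt {a : W → W} (ha : CHF a) (hG : ∀ z v, ok z v → C.G Z (a z)) :
    RF ok (fun z v => C.cntv Z (a z) v) := by
  have h1 : RF (fun z v => C.G Z (a z) ∧ ∃ i, C.At0 Z (a z) v i)
      (fun z v => C.accv Z (a z) (C.dn (a z) v)) := by
    refine C.rf_dn ha (φ := fun z v => C.accv Z (a z) v)
      (ok' := fun z v => C.G Z (a z) ∧ ∃ i, C.At1 Z (a z) v i)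
      (C.rf_acc Z ha (fun z v h => h.1) (fun z v h => h.2)) ?_
    intro z v hz
    obtain ⟨i, hi⟩ := hz.2
    exact ⟨hz.1, i, C.at1_dn Z hi⟩
  exact C.sumSol (ok := ok) Z ha h1 (fun z v hz => ⟨(hG z v hz).1, fun i =>
    ⟨hG z v hz, i, C.at0_mixv Z _ _ _⟩⟩)

end CFam

end Crest.Agent.CHR
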