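import Crest.Agent.CHR.RFc

/-!
# Row 316, module M9b: the counting expression is a rational family.  Definitions.
-/

set_option autoImplicit false

namespace Crest.Agent.CHR

open MvPolynomial Finset

/-- Data depending on a string `w` (good families).  The system is `X_j^{m (pn w j)} = q (pn w j)`,
`j < n9 w`; `NN w` = number of solutions, `nx w` = number of `x`-variables; `s0, bb, uu (pn w a),
vv (pn w a)` the polynomials to be tested; `PP, VV, MM` numerical parameters; `k1, k2, k3` seeds. -/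
structure CFam where
  n9 : W → ℕ
  nx : W → ℕ
  na : W → ℕ
  NN : W → ℕ
  PP : W → ℕ
  VV : W → ℕ
  MM : W → ℕ
  k1 : W → ℕ
  k2 : W → ℕ
  k3 : W → ℕ
  m : W → ℕ
  q : W → P
  s0 : W → P
  bb : W → P
  uu : W → P
  vv : W → P
  r : Polynomial ℕ
  hn9 : CHN n9
  hn9r : ∀ w, n9 w ≤ r.eval w.length
  hnx : CHN nx
  hna : CHN na
  hNN : CHN NN
  hPP : CHN PP
  hVV : CHN VV
  hMM : CHN MM
  hk1 : CHN k1
  hk2 : CHN k2
  hk3 : CHN k3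
  hm : CHN m
  hq : IsFam q
  hs0 : IsFam s0
  hbb : IsFam bb
  huu : IsFam uu
  hvv : IsFam vv

namespace CFam
variable (C : CFam)

def par (w : W) : Par := ⟨C.NN w, C.PP w, C.VV w, C.MM w⟩

/-- the data of module M5 at the string `w`, for a list `Z` of solutions -/
noncomputable def data (w : W) (Z : Fin (C.NN w) → ℕ → ℂ) : CData (C.par w) where
  S := range (C.n9 w)
  Sx := range (C.nx w)
  α := fun k i => Z i k
  na := C.na w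
  s₀ := fun i => aeval (Z i) (C.s0 w)
  u := fun a i => aeval (Z i) (C.uu (pn w a))
  v := fun a i => aeval (Z i) (C.vv (pn w a))
  b := fun i => aeval (Z i) (C.bb w)

/-- algebraic hypotheses at `w` -/
structure Hyp (w : W) (Z : Fin (C.NN w) → ℕ → ℂ) : Prop where
  nx9 : C.nx w ≤ C.n9 w
  sol : Sol0 (C.n9 w) (fun j => C.m (pn w j)) (fun j => C.q (pn w j)) Z
  vs0 : ∀ j ∈ (C.s0 w).vars, j < C.n9 w
  vbb : ∀ j ∈ (C.bb w).vars, j < C.n9 w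
  vuu : ∀ a < C.na w, ∀ j ∈ (C.uu (pn w a)).vars, j < C.n9 w
  vvv : ∀ a < C.na w, ∀ j ∈ (C.vv (pn w a)).vars, j < C.n9 w
  N1 : 1 ≤ C.NN w
  V1 : 1 ≤ C.VV w
  M1 : 1 ≤ C.MM w

/-- the seeds -/
noncomputable def A₁ (w : W) : ℂ := seedA (C.VV w) (C.k1 w)
noncomputable def A₂ (w : W) : ℂ := seedA (C.VV w) (C.k2 w)
noncomputable def A₃ (w : W) : ℂ := seedA (C.VV w) (C.k3 w)

/-- no denominator vanishes (conditions in `CData.main`) -/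
def NoPole (w : W) (Z : Fin (C.NN w) → ℕ → ℂ) : Prop :=
  let D := C.data w Z
  let p := C.par w
  (∀ κ ∈ D.S, ∀ t < p.T, ∀ i j, 1 + (C.A₁ w * ((D.α κ j - D.α κ i) / p.R t)) ^ p.M ≠ 0) ∧
  (∀ κ ∈ D.S, ∀ t < p.T, ∀ i,
    ∑ j, thr (C.A₁ w) p.M ((D.α κ j - D.α κ i) / p.R t) ≠ 0) ∧
  (∀ κ ∈ D.S, ∀ t < p.T, ∀ i, ∀ l ≤ p.L,
    1 + (C.A₂ w * ((wT p (C.A₁ w) (D.α κ) t i - (-1 + l * p.th)) / p.th)) ^ p.M ≠ 0) ∧
  (∀ i, ∀ s : ℂ, (s = D.s₀ i ∨ s = D.b i ∨ ∃ a < D.na, s = D.u a i ∨ s = D.v a i) →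
    ∀ κ ≤ 2 * p.P + 2, 1 + (C.A₃ w * ((s - 2 ^ κ / 2 ^ (p.P + 1)) /
      (3 / 4 * (2 ^ κ / 2 ^ (p.P + 1))))) ^ p.M ≠ 0) ∧
  (∀ κ ∈ D.Sx, ∀ i j, 1 + (1 * ((D.α κ i - D.α κ j) * 2 ^ (p.P + 1))) ^ p.M ≠ 0) ∧
  (∀ i, 1 + (1 * (4 / 3 * D.bad (C.A₁ w) (C.A₂ w) (C.A₃ w) i)) ^ p.M ≠ 0)

end CFam

end Crest.Agent.CHR
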