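import Crest.Agent.CHR.Defs

/-!
# Row 316, module M1: combinators for polynomial-time functions

`PT.un`: unary functions computed by an explicit program; `PT.bin`: binary operations given by an
explicit program (parametric in the register offset `B`) applied to two polynomial-time functions.
-/

set_option autoImplicit false

namespace Crest.Agent.CHR

/-! ## polynomially bounded functions -/

/-- `F w` is bounded by a polynomial in the length of `w` -/
def PB (F : W → ℕ) : Prop := ∃ q : Polynomial ℕ, ∀ w, F w ≤ q.eval w.length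

theorem polyEval_mono (q : Polynomial ℕ) {m n : ℕ} (h : m ≤ n) : q.eval m ≤ q.eval n := by
  induction q using Polynomial.induction_on' with
  | add p q hp hq => simpa using add_le_add hp hq
  | monomial k a =>
    simp only [Polynomial.eval_monomial]
    exact Nat.mul_le_mul_left _ (Nat.pow_le_pow_left h k)

theorem PB.const (c : ℕ) : PB (fun _ => c) := ⟨Polynomial.C c, fun w => by simp⟩
theorem PB.len : PB (fun w => w.length) := ⟨Polynomial.X, fun w => by simp⟩
theorem PB.add {F G : W → ℕ} (hF : PB F) (hG : PB G) : PB (fun w => F w + G w) := by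
  obtain ⟨p, hp⟩ := hF
  obtain ⟨q, hq⟩ := hG
  exact ⟨p + q, fun w => by simpa using add_le_add (hp w) (hq w)⟩
theorem PB.mul {F G : W → ℕ} (hF : PB F) (hG : PB G) : PB (fun w => F w * G w) := by
  obtain ⟨p, hp⟩ := hF
  obtain ⟨q, hq⟩ := hG
  exact ⟨p * q, fun w => by simpa using Nat.mul_le_mul (hp w) (hq w)⟩
theorem PB.pow {F : W → ℕ} (hF : PB F) (d : ℕ) : PB (fun w => F w ^ d) := by
  obtain ⟨p, hp⟩ := hF
  exact ⟨p ^ d, fun w => by simpa using Nat.pow_le_pow_left (hp w) d⟩
theorem PB.mono {F G : W → ℕ} (hG : PB G) (h : ∀ w, F w ≤ G w) : PB F := by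
  obtain ⟨q, hq⟩ := hG
  exact ⟨q, fun w => (h w).trans (hq w)⟩
theorem PB.comp {F : W → ℕ} {f : W → W} (hF : PB F) (hf : PB (fun w => (f w).length)) :
    PB (fun w => F (f w)) := by
  obtain ⟨p, hp⟩ := hF
  obtain ⟨q, hq⟩ := hf
  refine ⟨p.comp q, fun w => (hp (f w)).trans ?_⟩
  rw [Polynomial.eval_comp]
  exact polyEval_mono p (hq w)

/-- Normal form of the definition. -/
theorem PolyTime_iff {f : W → W} :
    PolyTime f ↔ ∃ (P : Prog) (T : W → ℕ), PB T ∧ ∀ w, Ev P (ini w) (T w) (ini (f w)) := by
  constructor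
  · rintro ⟨P, q, h⟩
    choose T hT hE using h
    exact ⟨P, T, ⟨q, hT⟩, hE⟩
  · rintro ⟨P, T, ⟨q, hq⟩, h⟩
    exact ⟨P, q, fun w => ⟨T w, hq w, h w⟩⟩

/-- output length is polynomially bounded -/
theorem PolyTime.pb {f : W → W} (hf : PolyTime f) : PB (fun w => (f w).length) := by
  obtain ⟨P, T, hT, h⟩ := PolyTime_iff.1 hf
  refine (PB.len.add hT).mono fun w => ?_
  have := (h w).length_le 0
  simpa [ini] using this

theorem PT.lenBound {f : W → W} (hf : PolyTime f) :
    ∃ q : Polynomial ℕ, ∀ w, (f w).length ≤ q.eval w.length := hf.pb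

/-- Unary explicit programs: registers `0`, `B+1`, `B+2`, `B+3` with `B = 0`; time
`≤ a (|x|+1)^d`. -/
theorem PT.un {h : W → W} (R : Prog) (a d : ℕ)
    (hR : ∀ x : W, ∃ t ≤ a * (x.length + 1) ^ d, Ev R (st 0 x [] [] []) t (st 0 (h x) [] [] [])) :
    PolyTime h := by
  refine ⟨R, Polynomial.C a * (Polynomial.X + 1) ^ d, fun w => ?_⟩
  obtain ⟨t, ht, hE⟩ := hR w
  refine ⟨t, by simpa using ht, ?_⟩
  simpa only [st_ini] using hE

/-- move register `r` to both `p` and `p'` (reversing) -/
def mv2 (r p p' : ℕ) : Prog :=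
  .loop r (.case r .skip (.pop r ;; .push p false ;; .push p' false)
    (.pop r ;; .push p true ;; .push p' true))

theorem ev_mv2_st (B : ℕ) (w b c d : W) :
    Ev (mv2 0 (B + 1) (B + 2)) (st B w b c d) (5 * w.length + 1)
      (st B [] (w.reverse ++ b) (w.reverse ++ c) d) := by
  induction w generalizing b c with
  | nil => exact (Ev.loop_done (by simp)).time (by simp)
  | cons x w ih =>
    have h1 : Ev (.pop 0) (st B (x :: w) b c d) 1 (st B w b c d) := by
      simpa using Ev.pop 0 (st B (x :: w) b c d)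
    have h2 : Ev (.push (B + 1) x) (st B w b c d) 1 (st B w (x :: b) c d) := by
      simpa using Ev.push (B + 1) x (st B w b c d)
    have h3 : Ev (.push (B + 2) x) (st B w (x :: b) c d) 1 (st B w (x :: b) (x :: c) d) := by
      simpa using Ev.push (B + 2) x (st B w (x :: b) c d)
    have h4 : Ev (.case 0 .skip (.pop 0 ;; .push (B + 1) false ;; .push (B + 2) false)
        (.pop 0 ;; .push (B + 1) true ;; .push (B + 2) true)) (st B (x :: w) b c d)
        (1 + (1 + 1) + 1) (st B w (x :: b) (x :: c) d) := by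
      cases x with
      | false => exact Ev.case_false (l := w) (by simp) (Ev.seq h1 (Ev.seq h2 h3))
      | true => exact Ev.case_true (l := w) (by simp) (Ev.seq h1 (Ev.seq h2 h3))
    have h5 := ih (x :: b) (x :: c)
    have h6 := Ev.loop_step (r := 0) (by simp) h4 h5
    have e1 : w.reverse ++ x :: b = (x :: w).reverse ++ b := by simp
    have e2 : w.reverse ++ x :: c = (x :: w).reverse ++ c := by simp
    rw [e1, e2] at h6
    exact h6.time (by simp; omega)

/-- copy register `0` (register `B+2` gets the reversed copy) -/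
def cpy (B : ℕ) : Prog := mv2 0 (B + 1) (B + 2) ;; mv (B + 1) 0

theorem ev_cpy (B : ℕ) (w d : W) :
    Ev (cpy B) (st B w [] [] d) (9 * w.length + 2) (st B w [] w.reverse d) := by
  have h1 := ev_mv2_st B w [] [] d
  have h2 := Ev.mv (r := B + 1) (r' := 0) (by simp) (st B [] (w.reverse ++ []) (w.reverse ++ []) d)
  simp only [List.append_nil, st_r1, st_r0, st_u1, st_u0, List.reverse_reverse,
    List.length_reverse] at h1 h2
  exact (Ev.seq h1 h2).time (by omega)

theorem ev_mv03 (B : ℕ) (w b c d : W) :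
    Ev (mv 0 (B + 3)) (st B w b c d) (4 * w.length + 1) (st B [] b c (w.reverse ++ d)) := by
  simpa using Ev.mv (r := 0) (r' := B + 3) (by simp) (st B w b c d)

theorem ev_mv02 (B : ℕ) (w b c d : W) :
    Ev (mv 0 (B + 2)) (st B w b c d) (4 * w.length + 1) (st B [] b (w.reverse ++ c) d) := by
  simpa using Ev.mv (r := 0) (r' := B + 2) (by simp) (st B w b c d)

theorem ev_mv01 (B : ℕ) (w b c d : W) :
    Ev (mv 0 (B + 1)) (st B w b c d) (4 * w.length + 1) (st B [] (w.reverse ++ b) c d) := by
  simpa using Ev.mv (r := 0) (r' := B + 1) (by simp) (st B w b c d)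

theorem ev_mv10 (B : ℕ) (w b c d : W) :
    Ev (mv (B + 1) 0) (st B w b c d) (4 * b.length + 1) (st B (b.reverse ++ w) [] c d) := by
  simpa using Ev.mv (r := B + 1) (r' := 0) (by simp) (st B w b c d)

theorem ev_mv20 (B : ℕ) (w b c d : W) :
    Ev (mv (B + 2) 0) (st B w b c d) (4 * c.length + 1) (st B (c.reverse ++ w) b [] d) := by
  simpa using Ev.mv (r := B + 2) (r' := 0) (by simp) (st B w b c d)

theorem ev_mv30 (B : ℕ) (w b c d : W) :
    Ev (mv (B + 3) 0) (st B w b c d) (4 * d.length + 1) (st B (d.reverse ++ w) b c []) := by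
  simpa using Ev.mv (r := B + 3) (r' := 0) (by simp) (st B w b c d)

theorem ev_mv21 (B : ℕ) (w b c d : W) :
    Ev (mv (B + 2) (B + 1)) (st B w b c d) (4 * c.length + 1) (st B w (c.reverse ++ b) [] d) := by
  simpa using Ev.mv (r := B + 2) (r' := B + 1) (by simp) (st B w b c d)

theorem ev_mv12 (B : ℕ) (w b c d : W) :
    Ev (mv (B + 1) (B + 2)) (st B w b c d) (4 * b.length + 1) (st B w [] (b.reverse ++ c) d) := by
  simpa using Ev.mv (r := B + 1) (r' := B + 2) (by simp) (st B w b c d)

theorem ev_mv13 (B : ℕ) (w b c d : W) :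
    Ev (mv (B + 1) (B + 3)) (st B w b c d) (4 * b.length + 1) (st B w [] c (b.reverse ++ d)) := by
  simpa using Ev.mv (r := B + 1) (r' := B + 3) (by simp) (st B w b c d)

theorem ev_mv31 (B : ℕ) (w b c d : W) :
    Ev (mv (B + 3) (B + 1)) (st B w b c d) (4 * d.length + 1) (st B w (d.reverse ++ b) c []) := by
  simpa using Ev.mv (r := B + 3) (r' := B + 1) (by simp) (st B w b c d)

theorem ev_clr0 (B : ℕ) (w b c d : W) :
    Ev (clr 0) (st B w b c d) (2 * w.length + 1) (st B [] b c d) := by
  simpa using Ev.clr 0 (st B w b c d)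

theorem ev_clr1 (B : ℕ) (w b c d : W) :
    Ev (clr (B + 1)) (st B w b c d) (2 * b.length + 1) (st B w [] c d) := by
  simpa using Ev.clr (B + 1) (st B w b c d)

theorem ev_clr2 (B : ℕ) (w b c d : W) :
    Ev (clr (B + 2)) (st B w b c d) (2 * c.length + 1) (st B w b [] d) := by
  simpa using Ev.clr (B + 2) (st B w b c d)

theorem ev_clr3 (B : ℕ) (w b c d : W) :
    Ev (clr (B + 3)) (st B w b c d) (2 * d.length + 1) (st B w b c []) := by
  simpa using Ev.clr (B + 3) (st B w b c d)

/-- Binary explicit programs: `x` in register `0`, `y` in register `B+1`, `B+2`, `B+3` empty;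
result in register `0`, the others empty; time `≤ a (|x|+|y|+1)^d`. -/
theorem PT.bin {h : W → W → W} {f g : W → W} (R : ℕ → Prog) (a d : ℕ)
    (hR : ∀ (B : ℕ) (x y : W), ∃ t ≤ a * (x.length + y.length + 1) ^ d,
      Ev (R B) (st B x y [] []) t (st B (h x y) [] [] []))
    (hf : PolyTime f) (hg : PolyTime g) : PolyTime (fun w => h (f w) (g w)) := by
  have hfb := hf.pb
  have hgb := hg.pb
  obtain ⟨P, T, hT, hP⟩ := PolyTime_iff.1 hf
  obtain ⟨Q, S, hS, hQ⟩ := PolyTime_iff.1 hg
  choose V hV hE using hR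
  set B := max P.maxReg Q.maxReg with hB
  rw [PolyTime_iff]
  refine ⟨cpy B ;; P ;; mv 0 (B + 3) ;; mv (B + 2) 0 ;; Q ;; mv 0 (B + 2) ;; mv (B + 3) 0 ;;
    mv (B + 2) (B + 1) ;; R B, fun w => (9 * w.length + 2) + (T w + ((4 * (f w).length + 1) +
      ((4 * w.length + 1) + (S w + ((4 * (g w).length + 1) + ((4 * (f w).length + 1) +
      ((4 * (g w).length + 1) + V B (f w) (g w)))))))), ?_, fun w => ?_⟩
  · have hV' : PB (fun w => V B (f w) (g w)) :=
      ((PB.const a).mul (((hfb.add hgb).add (PB.const 1)).pow d)).mono fun w => hV B (f w) (g w)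
    have c4 := PB.const 4
    have c1 := PB.const 1
    exact (((PB.const 9).mul PB.len).add (PB.const 2)).add (hT.add (((c4.mul hfb).add c1).add
      (((c4.mul PB.len).add c1).add (hS.add (((c4.mul hgb).add c1).add (((c4.mul hfb).add c1).add
      (((c4.mul hgb).add c1).add hV')))))))
  · rw [← st_ini B w, ← st_ini B (h (f w) (g w))]
    have e1 := ev_cpy B w []
    have e2 := (hP w).frame_st (le_max_left P.maxReg Q.maxReg) [] w.reverse []
    have e3 := ev_mv03 B (f w) [] w.reverse []
    have e4 := ev_mv20 B [] [] w.reverse ((f w).reverse ++ [])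
    have e5 := (hQ w).frame_st (le_max_right P.maxReg Q.maxReg) [] [] ((f w).reverse ++ [])
    have e6 := ev_mv02 B (g w) [] [] ((f w).reverse ++ [])
    have e7 := ev_mv30 B [] [] ((g w).reverse ++ []) ((f w).reverse ++ [])
    have e8 := ev_mv21 B (f w) [] ((g w).reverse) []
    have e9 := hE B (f w) (g w)
    simp only [List.append_nil, List.reverse_reverse, List.length_reverse] at e1 e2 e3 e4 e5 e6 e7 e8
    exact Ev.seq e1 (Ev.seq e2 (Ev.seq e3 (Ev.seq e4 (Ev.seq e5 (Ev.seq e6 (Ev.seq e7
      (Ev.seq e8 e9)))))))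

theorem PT.id : PolyTime (fun w => w) :=
  PolyTime_iff.2 ⟨.skip, fun _ => 1, PB.const 1, fun _ => Ev.skip _⟩

theorem PT.comp {f g : W → W} (hg : PolyTime g) (hf : PolyTime f) : PolyTime (fun w => g (f w)) := by
  have hfb := hf.pb
  obtain ⟨P, T, hT, hP⟩ := PolyTime_iff.1 hf
  obtain ⟨Q, S, hS, hQ⟩ := PolyTime_iff.1 hg
  rw [PolyTime_iff]
  exact ⟨P ;; Q, fun w => T w + S (f w), hT.add (hS.comp hfb),
    fun w => Ev.seq (hP w) (hQ (f w))⟩

/-- `if the first string starts with true then f else g` -/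
theorem PT.ite {c f g : W → W} (hc : PolyTime c) (hf : PolyTime f) (hg : PolyTime g) :
    PolyTime (fun w => if (c w).head? = some true then f w else g w) := by
  have hcb := hc.pb
  obtain ⟨C, U, hU, hC⟩ := PolyTime_iff.1 hc
  obtain ⟨P, T, hT, hP⟩ := PolyTime_iff.1 hf
  obtain ⟨Q, S, hS, hQ⟩ := PolyTime_iff.1 hg
  set B := max C.maxReg (max P.maxReg Q.maxReg) with hB
  rw [PolyTime_iff]
  refine ⟨cpy B ;; C ;; .case 0 (clr 0 ;; mv (B + 2) 0 ;; Q) (clr 0 ;; mv (B + 2) 0 ;; Q)
    (clr 0 ;; mv (B + 2) 0 ;; P), fun w => (9 * w.length + 2) + (U w + (((2 * (c w).length + 1) +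
      ((4 * w.length + 1) + (if (c w).head? = some true then T w else S w))) + 1)), ?_, fun w => ?_⟩
  · have h1 : PB (fun w => if (c w).head? = some true then T w else S w) :=
      (hT.add hS).mono fun w => by split_ifs <;> omega
    have c4 := PB.const 4
    have c1 := PB.const 1
    exact (((PB.const 9).mul PB.len).add (PB.const 2)).add (hU.add ((((PB.const 2).mul hcb).add
      c1).add (((c4.mul PB.len).add c1).add h1) |>.add c1))
  · rw [← st_ini B w]
    have e1 := ev_cpy B w []
    have e2 := (hC w).frame_st (le_max_left _ _ : C.maxReg ≤ B) [] w.reverse []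
    have e3 := ev_clr0 B (c w) [] w.reverse []
    have e4 := ev_mv20 B [] [] w.reverse []
    simp only [List.append_nil, List.reverse_reverse, List.length_reverse] at e1 e2 e3 e4
    refine Ev.seq e1 (Ev.seq e2 ?_)
    have e5 := (hP w)
    rw [← st_ini B w, ← st_ini B (f w)] at e5
    have e6 := (hQ w)
    rw [← st_ini B w, ← st_ini B (g w)] at e6
    rcases hcw : c w with _ | ⟨b, l⟩
    · rw [hcw] at e3
      simp only [List.head?_nil, reduceCtorEq, if_false]
      rw [← st_ini B (g w)]
      exact Ev.case_nil (by simp) (Ev.seq e3 (Ev.seq e4 e6))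
    · rw [hcw] at e3
      cases b with
      | false =>
        simp only [List.head?_cons, Option.some.injEq, Bool.false_eq_true, if_false]
        rw [← st_ini B (g w)]
        exact Ev.case_false (l := l) (by simp) (Ev.seq e3 (Ev.seq e4 e6))
      | true =>
        simp only [List.head?_cons, if_true]
        rw [← st_ini B (f w)]
        exact Ev.case_true (l := l) (by simp) (Ev.seq e3 (Ev.seq e4 e5))

/-- bounded iteration: the state stays polynomially bounded -/
theorem PT.iter {s i c : W → W} (hs : PolyTime s) (hi : PolyTime i) (hc : PolyTime c)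
    (q : Polynomial ℕ)
    (hq : ∀ w k, k ≤ (c w).length → (s^[k] (i w)).length ≤ q.eval w.length) :
    PolyTime (fun w => s^[(c w).length] (i w)) := by
  have hcb := hc.pb
  obtain ⟨C, U, hU, hC⟩ := PolyTime_iff.1 hc
  obtain ⟨I, V, hV, hI⟩ := PolyTime_iff.1 hi
  obtain ⟨P, p, hP⟩ := hs
  set B := max C.maxReg (max I.maxReg P.maxReg) with hB
  -- the loop
  have hloop : ∀ (l : W) (x : W) (M : ℕ), (∀ k ≤ l.length, (s^[k] x).length ≤ M) →
      ∃ t ≤ l.length * (p.eval M + 2) + 1,
        Ev (.loop (B + 1) (.pop (B + 1) ;; P)) (st B x l [] []) t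
          (st B (s^[l.length] x) [] [] []) := by
    intro l
    induction l with
    | nil =>
      intro x M _
      exact ⟨1, by simp, Ev.loop_done (by simp)⟩
    | cons b l ih =>
      intro x M hM
      obtain ⟨t1, ht1, h1⟩ := hP x
      have hx : x.length ≤ M := by simpa using hM 0 (by simp)
      have ht1' : t1 ≤ p.eval M := ht1.trans (polyEval_mono p hx)
      obtain ⟨t2, ht2, h2⟩ := ih (s x) M (fun k hk => by
        have := hM (k + 1) (by simpa using hk)
        simpa [Function.iterate_succ_apply] using this)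
      have e1 : Ev (.pop (B + 1)) (st B x (b :: l) [] []) 1 (st B x l [] []) := by
        simpa using Ev.pop (B + 1) (st B x (b :: l) [] [])
      have e2 := h1.frame_st (le_trans (le_max_right _ _) (le_max_right _ _) : P.maxReg ≤ B)
        l [] []
      refine ⟨(1 + t1) + t2 + 1, ?_, ?_⟩
      · have : (b :: l).length * (p.eval M + 2) = l.length * (p.eval M + 2) + (p.eval M + 2) := by
          rw [List.length_cons]; ring
        omega
      · have h3 := Ev.loop_step (r := B + 1) (by simp) (Ev.seq e1 e2) h2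
        simpa [Function.iterate_succ_apply] using h3
  have hl' : ∀ w : W, ∃ t ≤ (c w).length * (p.eval (q.eval w.length) + 2) + 1,
      Ev (.loop (B + 1) (.pop (B + 1) ;; P)) (st B (i w) (c w).reverse [] []) t
          (st B (s^[(c w).length] (i w)) [] [] []) := by
    intro w
    have := hloop (c w).reverse (i w) (q.eval w.length) (fun k hk => hq w k (by simpa using hk))
    simpa using this
  choose Z hZ hL using hl'
  rw [PolyTime_iff]
  refine ⟨cpy B ;; C ;; mv 0 (B + 1) ;; mv (B + 2) 0 ;; I ;; .loop (B + 1) (.pop (B + 1) ;; P),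
    fun w => (9 * w.length + 2) + (U w + ((4 * (c w).length + 1) + ((4 * w.length + 1) +
      (V w + Z w)))), ?_, fun w => ?_⟩
  · have hZ' : PB Z := by
      refine ((hcb.mul ((?_ : PB fun w => p.eval (q.eval w.length)).add (PB.const 2))).add
        (PB.const 1)).mono hZ
      exact ⟨p.comp q, fun w => by rw [Polynomial.eval_comp]⟩
    have c4 := PB.const 4
    have c1 := PB.const 1
    exact (((PB.const 9).mul PB.len).add (PB.const 2)).add (hU.add (((c4.mul hcb).add c1).add
      (((c4.mul PB.len).add c1).add (hV.add hZ'))))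
  · rw [← st_ini B w, ← st_ini B (s^[(c w).length] (i w))]
    have e1 := ev_cpy B w []
    have e2 := (hC w).frame_st (le_max_left _ _ : C.maxReg ≤ B) [] w.reverse []
    have e3 := ev_mv01 B (c w) [] w.reverse []
    have e4 := ev_mv20 B [] (c w).reverse w.reverse []
    have e5 := (hI w).frame_st (le_trans (le_max_left _ _) (le_max_right _ _) : I.maxReg ≤ B)
      (c w).reverse [] []
    simp only [List.append_nil, List.reverse_reverse, List.length_reverse] at e1 e2 e3 e4 e5
    exact Ev.seq e1 (Ev.seq e2 (Ev.seq e3 (Ev.seq e4 (Ev.seq e5 (hL w)))))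

end Crest.Agent.CHR
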