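import Crest.Agent.CHR.PTDef

/-!
# Row 316, module M1, chunk COMPILE: structured programs run on `Turing.FinTM2` machines

PROOF PLAN (see `Crest/Agent/TS/Machine.lean` for the same construction for another language).
Stacks `K = Fin (R+1)`, `R = P.maxReg`, `Γ _ = Bool`, internal state `σ = Option Bool` with initial
state `none`; labels `Λ = Option (Lab P)`, `none` has the statement `halt`;
`Lab skip = Lab (push) = Lab (pop) = Unit`, `Lab (seq P Q) = Lab P ⊕ Lab Q`,
`Lab (case r P Q R) = Option (Lab P ⊕ Lab Q ⊕ Lab R)`, `Lab (loop r P) = Option (Lab P)` (`none` =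
the test).  `code P emb ex l`: the statement of label `l`, given the embedding `emb : Lab P → Λ` of
the labels and the exit label `ex`; every statement ends with `load none` and `goto`.  The test
statements are `peek r (fun _ o => o)` followed by branches.
MAIN LEMMA (induction on `Ev`): if `m (emb l) = code P emb ex l` for all `l` and `P.maxReg ≤ R`
then `Ev P s t s'` implies that `t` steps of `TM2.step m` lead from `⟨some (emb (start P)), none,
fun k : Fin (R+1) => s k⟩` to `⟨some ex, none, fun k => s' k⟩`.
Then one more step (halt) gives `haltList`; input = output stack = `0`, alphabets `Equiv.refl Bool`,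
time `q + 1`.
-/

set_option autoImplicit false

namespace Crest.Agent.CHR

open Turing

namespace Comp

/-- Local labels of a program. -/
def Lab : Prog → Type
  | .skip => Unit
  | .push _ _ => Unit
  | .pop _ => Unit
  | .seq P Q => Lab P ⊕ Lab Q
  | .case _ P Q R => Option (Lab P ⊕ Lab Q ⊕ Lab R)
  | .loop _ P => Option (Lab P)

/-- Entry label. -/
def start : (P : Prog) → Lab P
  | .skip => ()
  | .push _ _ => ()
  | .pop _ => ()
  | .seq P _ => Sum.inl (start P)
  | .case _ _ _ _ => none
  | .loop _ _ => none

theorem finiteLab : (P : Prog) → Finite (Lab P)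
  | .skip => inferInstanceAs (Finite Unit)
  | .push _ _ => inferInstanceAs (Finite Unit)
  | .pop _ => inferInstanceAs (Finite Unit)
  | .seq P Q => by
      have := finiteLab P
      have := finiteLab Q
      exact inferInstanceAs (Finite (Lab P ⊕ Lab Q))
  | .case _ P Q R => by
      have := finiteLab P
      have := finiteLab Q
      have := finiteLab R
      exact inferInstanceAs (Finite (Option (Lab P ⊕ Lab Q ⊕ Lab R)))
  | .loop _ P => by
      have := finiteLab P
      exact inferInstanceAs (Finite (Option (Lab P)))

variable {N : ℕ} {Λ : Type}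

/-- the constant alphabet -/
abbrev Gam (N : ℕ) : Fin (N + 1) → Type := fun _ => Bool

/-- three way test -/
def caseStmt (i : Fin (N + 1)) (p q r : Λ) : TM2.Stmt (Gam N) Λ (Option Bool) :=
  .peek i (fun _ o => o)
    (.branch (fun v => v.isNone)
      (.load (fun _ => none) (.goto fun _ => p))
      (.branch (fun v => v.getD false)
        (.load (fun _ => none) (.goto fun _ => r))
        (.load (fun _ => none) (.goto fun _ => q))))

/-- The code of a program, given an embedding of its labels and an exit label. -/
def code : (P : Prog) → (Lab P → Λ) → Λ → Lab P → TM2.Stmt (Gam N) Λ (Option Bool)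
  | .skip, _, ex, _ => .goto fun _ => ex
  | .push r b, _, ex, _ => .push (Fin.ofNat (N + 1) r) (fun _ => b) (.goto fun _ => ex)
  | .pop r, _, ex, _ => .pop (Fin.ofNat (N + 1) r) (fun v _ => v) (.goto fun _ => ex)
  | .seq P Q, emb, ex, l =>
      match l with
      | Sum.inl l => code P (fun x => emb (Sum.inl x)) (emb (Sum.inr (start Q))) l
      | Sum.inr l => code Q (fun x => emb (Sum.inr x)) ex l
  | .case r P Q R, emb, ex, l =>
      match l with
      | none => caseStmt (Fin.ofNat (N + 1) r) (emb (some (Sum.inl (start P))))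
          (emb (some (Sum.inr (Sum.inl (start Q))))) (emb (some (Sum.inr (Sum.inr (start R)))))
      | some (Sum.inl l) => code P (fun x => emb (some (Sum.inl x))) ex l
      | some (Sum.inr (Sum.inl l)) => code Q (fun x => emb (some (Sum.inr (Sum.inl x)))) ex l
      | some (Sum.inr (Sum.inr l)) => code R (fun x => emb (some (Sum.inr (Sum.inr x)))) ex l
  | .loop r P, emb, ex, l =>
      match l with
      | none => caseStmt (Fin.ofNat (N + 1) r) ex (emb (some (start P))) (emb (some (start P)))
      | some l => code P (fun x => emb (some x)) (emb none) l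

/-- the stacks of a state -/
def rs (N : ℕ) (s : St) : (k : Fin (N + 1)) → List (Gam N k) := fun k => s k

theorem ofNat_val {r : ℕ} (hr : r ≤ N) : ((Fin.ofNat (N + 1) r : Fin (N + 1)) : ℕ) = r := by
  simp [Fin.ofNat, Nat.mod_eq_of_lt (Nat.lt_succ_of_le hr)]

theorem rs_ofNat {r : ℕ} (hr : r ≤ N) (s : St) : rs N s (Fin.ofNat (N + 1) r) = s r := by
  unfold rs
  rw [ofNat_val hr]

theorem rs_update {r : ℕ} (hr : r ≤ N) (s : St) (v : List Bool) :
    Function.update (rs N s) (Fin.ofNat (N + 1) r) v = rs N (Function.update s r v) := by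
  funext k
  unfold rs
  by_cases h : k = Fin.ofNat (N + 1) r
  · subst h
    rw [Function.update_self, ofNat_val hr, Function.update_self]
  · have h' : (k : ℕ) ≠ r := by
      intro e
      apply h
      ext
      rw [ofNat_val hr, e]
    rw [Function.update_of_ne h, Function.update_of_ne h']

/-- `n` steps lead from `a` to `b` -/
def Steps (m : Λ → TM2.Stmt (Gam N) Λ (Option Bool)) (n : ℕ)
    (a b : TM2.Cfg (Gam N) Λ (Option Bool)) : Prop :=
  (flip bind (TM2.step m))^[n] (some a) = some b

theorem Steps.one {m : Λ → TM2.Stmt (Gam N) Λ (Option Bool)}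
    {a b : TM2.Cfg (Gam N) Λ (Option Bool)} (h : TM2.step m a = some b) : Steps m 1 a b := h

theorem Steps.trans {m : Λ → TM2.Stmt (Gam N) Λ (Option Bool)} {n n' : ℕ}
    {a b c : TM2.Cfg (Gam N) Λ (Option Bool)} (h : Steps m n a b) (h' : Steps m n' b c) :
    Steps m (n + n') a c := by
  unfold Steps at *
  rw [Nat.add_comm n n', Function.iterate_add_apply, h, h']

theorem step_case {m : Λ → TM2.Stmt (Gam N) Λ (Option Bool)} {r : ℕ} (hr : r ≤ N) {l p q t : Λ}
    (hm : m l = caseStmt (Fin.ofNat (N + 1) r) p q t) (s : St) :
    Steps m 1 ⟨some l, none, rs N s⟩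
      ⟨some (match s r with | [] => p | false :: _ => q | true :: _ => t), none, rs N s⟩ := by
  refine Steps.one ?_
  simp only [TM2.step, hm, caseStmt, TM2.stepAux, rs_ofNat hr]
  rcases s r with _ | ⟨_ | _, l⟩ <;> rfl

/-- The main simulation lemma. -/
theorem steps_code {m : Λ → TM2.Stmt (Gam N) Λ (Option Bool)} {P : Prog} {s s' : St} {t : ℕ}
    (h : Ev P s t s') : P.maxReg ≤ N → ∀ (emb : Lab P → Λ) (ex : Λ),
      (∀ l, m (emb l) = code P emb ex l) →
      Steps m t ⟨some (emb (start P)), none, rs N s⟩ ⟨some ex, none, rs N s'⟩ := by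
  induction h with
  | skip s =>
    intro _ emb ex hm
    have h0 : m (emb (start Prog.skip)) = .goto fun _ => ex := hm ()
    refine Steps.one ?_
    simp only [TM2.step, h0, TM2.stepAux]
  | push r b s =>
    intro hP emb ex hm
    have hr : r ≤ N := hP
    have h0 : m (emb (start (Prog.push r b))) =
      .push (Fin.ofNat (N + 1) r) (fun _ => b) (.goto fun _ => ex) := hm ()
    refine Steps.one ?_
    simp only [TM2.step, h0, TM2.stepAux, rs_ofNat hr, rs_update hr]
  | pop r s =>
    intro hP emb ex hm
    have hr : r ≤ N := hP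
    have h0 : m (emb (start (Prog.pop r))) =
      .pop (Fin.ofNat (N + 1) r) (fun v _ => v) (.goto fun _ => ex) := hm ()
    refine Steps.one ?_
    simp only [TM2.step, h0, TM2.stepAux, rs_ofNat hr, rs_update hr]
  | seq h1 h2 ih1 ih2 =>
    rename_i P Q s s' s'' t t'
    intro hP emb ex hm
    simp only [Prog.maxReg, max_le_iff] at hP
    have a1 := ih1 hP.1 (fun x => emb (Sum.inl x)) (emb (Sum.inr (start Q)))
      (fun l => hm (Sum.inl l))
    have a2 := ih2 hP.2 (fun x => emb (Sum.inr x)) ex (fun l => hm (Sum.inr l))
    exact a1.trans a2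
  | case_nil hr h ih =>
    rename_i r P Q R s s' t
    intro hP emb ex hm
    simp only [Prog.maxReg, max_le_iff] at hP
    have a0 := step_case hP.1 (hm none) s
    rw [hr] at a0
    have a1 := ih hP.2.1 (fun x => emb (some (Sum.inl x))) ex (fun l => hm (some (Sum.inl l)))
    rw [Nat.add_comm]
    exact a0.trans a1
  | case_false hr h ih =>
    rename_i r P Q R s s' t l
    intro hP emb ex hm
    simp only [Prog.maxReg, max_le_iff] at hP
    have a0 := step_case hP.1 (hm none) s
    rw [hr] at a0
    have a1 := ih hP.2.2.1 (fun x => emb (some (Sum.inr (Sum.inl x)))) ex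
      (fun l => hm (some (Sum.inr (Sum.inl l))))
    rw [Nat.add_comm]
    exact a0.trans a1
  | case_true hr h ih =>
    rename_i r P Q R s s' t l
    intro hP emb ex hm
    simp only [Prog.maxReg, max_le_iff] at hP
    have a0 := step_case hP.1 (hm none) s
    rw [hr] at a0
    have a1 := ih hP.2.2.2 (fun x => emb (some (Sum.inr (Sum.inr x)))) ex
      (fun l => hm (some (Sum.inr (Sum.inr l))))
    rw [Nat.add_comm]
    exact a0.trans a1
  | loop_done hr =>
    rename_i r P s
    intro hP emb ex hm
    simp only [Prog.maxReg, max_le_iff] at hP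
    have a0 := step_case hP.1 (hm none) s
    rw [hr] at a0
    exact a0
  | loop_step hr h1 h2 ih1 ih2 =>
    rename_i r P s s' s'' t t'
    intro hP emb ex hm
    have hP' := hP
    simp only [Prog.maxReg, max_le_iff] at hP'
    have a0 : Steps m 1 ⟨some (emb none), none, rs N s⟩
        ⟨some (emb (some (start P))), none, rs N s⟩ := by
      have := step_case hP'.1 (hm none) s
      rcases hs : s r with _ | ⟨_ | _, l⟩
      · exact absurd hs hr
      · rw [hs] at this; exact this
      · rw [hs] at this; exact this
    have a1 := ih1 hP'.2 (fun x => emb (some x)) (emb none) (fun l => hm (some l))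
    have a2 := ih2 hP emb ex hm
    have a3 := (a0.trans a1).trans a2
    have e : 1 + t + t' = t + t' + 1 := by omega
    rw [e] at a3
    exact a3

/-- The complete code. -/
def full (P : Prog) : Option (Lab P) → TM2.Stmt (Gam P.maxReg) (Option (Lab P)) (Option Bool)
  | none => .halt
  | some l => code P some none l

/-- The machine. -/
noncomputable def tm (P : Prog) : FinTM2 :=
  let _ : Finite (Lab P) := finiteLab P
  let _ : Fintype (Option (Lab P)) := Fintype.ofFinite _
  { K := Fin (P.maxReg + 1)
    k₀ := 0
    k₁ := 0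
    Γ := Gam P.maxReg
    Λ := Option (Lab P)
    main := some (start P)
    σ := Option Bool
    initialState := none
    m := full P }

theorem rs_ini (P : Prog) (w : List Bool) (k : Fin (P.maxReg + 1)) :
    (if k = 0 then w else []) = rs P.maxReg (ini w) k := by
  unfold rs ini
  by_cases h : k = 0
  · subst h; simp
  · have : (k : ℕ) ≠ 0 := fun e => h (Fin.ext e)
    simp [h, this]

theorem init_eq (P : Prog) (w : List Bool) : initList (tm P) w =
    ⟨some (some (start P)), none, rs P.maxReg (ini w)⟩ := by
  unfold initList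
  congr 1
  funext k
  by_cases h : k = (0 : Fin (P.maxReg + 1))
  · subst h
    refine (dif_pos rfl).trans ?_
    rfl
  · refine (dif_neg h).trans ?_
    rw [← rs_ini]
    exact (if_neg h).symm

theorem halt_eq (P : Prog) (w : List Bool) : haltList (tm P) w =
    ⟨none, none, rs P.maxReg (ini w)⟩ := by
  unfold haltList
  congr 1
  funext k
  by_cases h : k = (0 : Fin (P.maxReg + 1))
  · subst h
    refine (dif_pos rfl).trans ?_
    rfl
  · refine (dif_neg h).trans ?_
    rw [← rs_ini]
    exact (if_neg h).symm

theorem outputs (P : Prog) {w v : List Bool} {t : ℕ} (h : Ev P (ini w) t (ini v)) :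
    (flip bind (tm P).step)^[t + 1] (some (initList (tm P) w)) = some (haltList (tm P) v) := by
  rw [init_eq, halt_eq]
  have a1 : Steps (full P) t ⟨some (some (start P)), none, rs P.maxReg (ini w)⟩
      ⟨some none, none, rs P.maxReg (ini v)⟩ :=
    steps_code (m := full P) h le_rfl some none (fun l => rfl)
  have a2 : Steps (full P) 1 ⟨some none, none, rs P.maxReg (ini v)⟩
      ⟨none, none, rs P.maxReg (ini v)⟩ := Steps.one rfl
  exact a1.trans a2

end Comp

theorem PolyTime.toTM_aux {α : Type} {f : List Bool → α} {e : α → List Bool}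
    (hf : PolyTime (fun w => e (f w))) :
    Crest.Complexity.PolyTimeComputable (Computability.encodingList Bool).encode e f := by
  obtain ⟨P, q, hP⟩ := hf
  choose t ht hev using hP
  refine ⟨⟨⟨Comp.tm P, Equiv.refl _, Equiv.refl _⟩, q + 1, ?_⟩⟩
  intro w
  refine ⟨⟨t w + 1, ?_⟩, ?_⟩
  · have := Comp.outputs P (hev w)
    have e1 : List.map (Equiv.refl Bool).invFun w = w := by simp
    have e2 : List.map (Equiv.refl Bool).invFun (e (f w)) = e (f w) := by simp
    exact (congrArg (fun z : List Bool => (flip bind (Comp.tm P).step)^[t w + 1]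
      (some (initList (Comp.tm P) z))) e1).trans
      (this.trans (congrArg (fun z : List Bool => some (haltList (Comp.tm P) z)) e2.symm))
  · have h1 : t w + 1 ≤ Polynomial.eval w.length (q + 1) := by
      rw [Polynomial.eval_add, Polynomial.eval_one]
      exact Nat.succ_le_succ (ht w)
    exact h1

theorem PolyTime.toTM {f : List Bool → List Bool} (hf : PolyTime f) :
    Crest.Complexity.PolyTime f :=
  PolyTime.toTM_aux (f := f) (e := (Computability.encodingList Bool).encode) hf

theorem PolyTimePred.toTM {p : List Bool → Bool} (hp : PolyTimePred p) :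
    Crest.Complexity.PolyTimePred p :=
  PolyTime.toTM_aux (f := p) (e := Computability.encodeBool) hp

theorem InP.toTM {L : Set (List Bool)} (h : InP L) : Crest.Complexity.InP L := by
  obtain ⟨f, hf, hL⟩ := h
  exact ⟨f, hf.toTM, hL⟩

theorem level_sub (j : ℕ) : level j ⊆ Crest.CountHier.level j := by
  induction j with
  | zero => intro L hL; exact InP.toTM hL
  | succ j ih =>
    rintro L ⟨B, hB, p, hp⟩
    exact ⟨B, ih hB, p, hp⟩

end Crest.Agent.CHR
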