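import Crest.Agent.CHR.PTDef
import Crest.Prelude.Def_Complexity
import Crest.Prelude.Def_CountHier
import Crest.Prelude.Def_RealEA

/-!
# Row 316 (S0488): common definitions.  Paper proof: ideas row 316 (helper91).

Everything is indexed by bit strings `W`.  Several arguments are merged with `pairBits`.
-/

set_option autoImplicit false

namespace Crest.Agent.CHR

open Crest.Complexity Crest.CountHier

abbrev W := List Bool

/-- Decoding of `pairBits` (total function). -/
def unpairB : W → W × W
  | true :: b :: l => (b :: (unpairB l).1, (unpairB l).2)
  | false :: l => ([], l)
  | _ => ([], [])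

def fstB (z : W) : W := (unpairB z).1
def sndB (z : W) : W := (unpairB z).2

/-- value of a bit string, least significant bit first -/
def val : W → ℕ
  | [] => 0
  | b :: l => b.toNat + 2 * val l

@[simp] theorem unpairB_pairBits (x y : W) : unpairB (pairBits x y) = (x, y) := by
  induction x with
  | nil => rfl
  | cons b x ih =>
    have : pairBits (b :: x) y = true :: b :: pairBits x y := rfl
    rw [this, unpairB, ih]

@[simp] theorem fstB_pairBits (x y : W) : fstB (pairBits x y) = x := by simp [fstB]
@[simp] theorem sndB_pairBits (x y : W) : sndB (pairBits x y) = y := by simp [sndB]

@[simp] theorem val_bits (n : ℕ) : val (Nat.bits n) = n := by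
  induction n using Nat.binaryRec' with
  | zero => simp [val]
  | bit b n h ih =>
    rw [Nat.bits_append_bit n b h, val, ih]
    cases b <;> simp [Nat.bit]
    omega

theorem val_lt (l : W) : val l < 2 ^ l.length := by
  induction l with
  | nil => simp [val]
  | cons b l ih =>
    rw [val, List.length_cons, pow_succ]
    cases b <;> simp <;> omega

/-- a string together with a number -/
def pn (w : W) (i : ℕ) : W := pairBits w (Nat.bits i)

/-- The union of the levels of the counting hierarchy. -/
def CH : Set (Set W) := {L | ∃ j, L ∈ level j}

/-- A predicate on strings is in the counting hierarchy. -/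
def CHP (p : W → Prop) : Prop := {w | p w} ∈ CH

/-- A string-valued function is computable in the counting hierarchy: the length is polynomially
bounded and the graph is in CH. -/
def CHF (f : W → W) : Prop :=
  (∃ p : Polynomial ℕ, ∀ w, (f w).length ≤ p.eval w.length) ∧
    CHP (fun z => f (fstB z) = sndB z)

/-- A number-valued function (poly many bits) is computable in the counting hierarchy. -/
def CHN (f : W → ℕ) : Prop := CHF (fun w => Nat.bits (f w))

end Crest.Agent.CHR
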