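import Crest.Agent.CHR.FamOpA

/-!
CHUNK R316-FAMOPSG (medium): the sign of a good family of rational numbers.
PROOF.  `IsFam.elim`: `b, g`; `B = b(|w|)`.  `Z w : ℤ` with `(Z w : ℚ) = dnB B * x w` (`Bnd.intD`, `IntD.iff` for the coefficient `0`).
`|x w| = l1q (C (x w)) ≤ 2^(2^B)` and `dnB B ≤ 2^(2^(3B))` (`dnB_le`), so `|Z w| ≤ 2^(2^(3B+1))`.  `sign_CH Z (3 * b + 1)`.  Residue for a prime
`p > 2^(3B+1) ≥ 2^B`: `zmodN (Z w) p = (dnB B : ZMod p) * evp p (asg p 0) (F w)` (`evp_C`), so `= (((2^B)! % p)^(2^B) % p) * g (arg w p 0) % p`,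
`(2^B)! = ∏_{i < 2^B} (i+1)` by `CHN.prodMod` (`Finset.prod_range_add_one_eq_factorial`), `CHN.powMod` (see `ArPow`).
`0 < x w ↔ 0 < Z w`.
-/

set_option autoImplicit false

namespace Crest.Agent.CHR

open MvPolynomial Finset

private theorem zmodN_eq_val (Z : ℤ) (p : ℕ) [NeZero p] : zmodN Z p = ((Z : ZMod p)).val := by
  have h : (((Z : ZMod p)).val : ℤ) = Z % p := ZMod.val_intCast Z
  unfold zmodN
  rw [← h, Int.toNat_natCast]

private theorem factMod_CH (b : Polynomial ℕ) :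
    CHN (fun z => if (val (sndB z)).Prime then
      (2 ^ (b.eval (fstB z).length)).factorial % val (sndB z) else 0) := by
  classical
  have hN : CHN (fun z => 2 ^ (b.eval (fstB z).length)) := CHN.twoPow CHF.fst b
  refine (CHN.prodMod (f := fun u => val (sndB u) + 1) hN (CHN.var.add (CHN.const 1)) CHN.var).congr
    (fun z => ?_)
  have h : ∏ i ∈ Finset.range (2 ^ (b.eval (fstB z).length)), (val (sndB (pn z i)) + 1) =
      (2 ^ (b.eval (fstB z).length)).factorial := by
    rw [← Finset.prod_range_add_one_eq_factorial]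
    refine Finset.prod_congr rfl (fun i _ => ?_)
    simp
  rw [h]

/-- the sign of a family of rational numbers -/
theorem IsFam.sign {F : W → P} (hF : IsFam F) {x : W → ℚ} (hx : ∀ w, F w = C (x w)) :
    CHP (fun w => 0 < x w) := by
  classical
  obtain ⟨b, g, hb, hg, hv⟩ := hF.elim
  have hk : ∀ w, ∃ k : ℤ, (dnB (b.eval w.length) : ℚ) * x w = k := by
    intro w
    obtain ⟨k, hk⟩ := IntD.iff.1 (hb w).intD 0
    refine ⟨k, ?_⟩
    rw [hx w, MvPolynomial.coeff_C] at hk
    simpa using hk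
  choose Z hZ using hk
  have hD0 : ∀ w : W, (0 : ℚ) < (dnB (b.eval w.length) : ℚ) := fun w => by
    exact_mod_cast dnB_pos _
  have hsign : ∀ w, 0 < Z w ↔ 0 < x w := by
    intro w
    rw [← Int.cast_pos (R := ℚ), ← hZ w]
    exact mul_pos_iff_of_pos_left (hD0 w)
  have hbd : ∀ w, |Z w| ≤ 2 ^ (2 ^ ((3 * b + 1).eval w.length)) := by
    intro w
    have e : (3 * b + 1).eval w.length = 3 * b.eval w.length + 1 := by simp
    rw [e]
    set B := b.eval w.length with hB
    have h1 : |x w| ≤ 2 ^ (2 ^ B) := by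
      have := (hb w).l1
      rwa [hx w, l1q_C] at this
    have h2 : (dnB B : ℚ) ≤ 2 ^ (2 ^ (3 * B)) := by exact_mod_cast dnB_le B
    have h3 : ((|Z w| : ℤ) : ℚ) ≤ 2 ^ (2 ^ (3 * B + 1)) := by
      rw [Int.cast_abs, ← hZ w, abs_mul, abs_of_pos (hD0 w), ← fbtp_sq]
      refine mul_le_mul h2 (h1.trans (fbtp_mono (by omega))) (abs_nonneg _) (by positivity)
    exact_mod_cast h3
  refine (sign_CH Z (3 * b + 1) hbd ?_).congr hsign
  have hpr : CHP (fun z : W => (val (sndB z)).Prime) := CHP.prime CHN.var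
  have hlt : CHP (fun z : W => 2 ^ ((3 * b + 1).eval (fstB z).length) < val (sndB z)) :=
    (CHN.twoPow CHF.fst (3 * b + 1)).lt CHN.var
  have hpow : CHN (fun z : W => if val (sndB z) = 0 then 0 else
      (if (val (sndB z)).Prime then (2 ^ (b.eval (fstB z).length)).factorial % val (sndB z) else 0) ^
        (2 ^ (b.eval (fstB z).length)) % val (sndB z)) :=
    CHN.powMod0 (factMod_CH b) (CHN.twoPow CHF.fst b) CHN.var
  have hgz : CHN (fun z : W => g (arg (fstB z) (val (sndB z)) 0)) :=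
    hg.comp (CHF.arg CHF.fst CHN.var (CHN.const 0))
  refine (CHN.iteD (hpr.and hlt) ((hpow.mul hgz).mod CHN.var) (CHN.const 0)).congr (fun z => ?_)
  by_cases h : (val (sndB z)).Prime ∧ 2 ^ ((3 * b + 1).eval (fstB z).length) < val (sndB z)
  · rw [if_pos h, if_pos h]
    obtain ⟨hp, hl⟩ := h
    set p := val (sndB z) with hpdef
    set w := fstB z with hw
    have : Fact p.Prime := ⟨hp⟩
    have : NeZero p := ⟨hp.ne_zero⟩
    have e : (3 * b + 1).eval w.length = 3 * b.eval w.length + 1 := by simp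
    rw [e] at hl
    have hl' : 2 ^ (b.eval w.length) < p :=
      lt_of_le_of_lt (Nat.pow_le_pow_right (by norm_num) (by omega)) hl
    rw [if_neg hp.ne_zero, if_pos hp, zmodN_eq_val]
    have hgv : ((g (arg w p 0) : ℕ) : ZMod p) = ((x w : ℚ) : ZMod p) := by
      rw [← hv w p 0 hl', hx w, evp_C, ZMod.natCast_zmod_val]
    have hnd : ¬ p ∣ dnB (b.eval w.length) := dnB_not_dvd hp hl'
    have hnd0 : ((dnB (b.eval w.length) : ℕ) : ZMod p) ≠ 0 := fun h =>
      hnd ((ZMod.natCast_eq_zero_iff _ _).1 h)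
    have hc := cast_of_den hnd (a := x w) (k := Z w) (hZ w).symm
    have hZp : ((Z w : ℤ) : ZMod p) = ((dnB (b.eval w.length) : ℕ) : ZMod p) * ((x w : ℚ) : ZMod p) := by
      rw [hc, ← mul_assoc, mul_inv_cancel₀ hnd0, one_mul]
    have h1 : ((((2 ^ (b.eval w.length)).factorial % p) ^ (2 ^ (b.eval w.length)) % p *
        g (arg w p 0) % p : ℕ) : ZMod p) = ((Z w : ℤ) : ZMod p) := by
      rw [ZMod.natCast_mod, Nat.cast_mul, ZMod.natCast_mod, Nat.cast_pow, ZMod.natCast_mod, hgv, hZp]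
      rw [dnB, Nat.cast_pow]
    rw [← h1, ZMod.val_natCast]
    exact (Nat.mod_mod _ _).symm
  · rw [if_neg h, if_neg h]

end Crest.Agent.CHR
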