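import Crest.Agent.CHR.FamBnd

/-!
CHUNK R316-FAMQUANT (medium): quantitative consequences.
PROOF.  `lower`: `dnB B * x` is a nonzero integer.  `upper`: `aeval v f = ∑ m, coeff * ∏ v_j^m_j` (`aeval_def`, `eval₂_eq`), each monomial `≤ V^deg`,
`deg ≤ 2^B`, `l1q f ≤ 2^(2^B)`.
`domination`: let `m*` be the lexicographically largest exponent in `f.support`, comparing `m (i0+3)`, then `m (i0+2)`, `m (i0+1)`, `m i0`
(e.g. take the maximum of the key `((m(i0+3) * T + m(i0+2)) * T + m(i0+1)) * T + m i0`, `T = 2^B + 1`, all entries `≤ 2^B`; the key is injective on the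
support because the variables are in `[i0, i0+4)`).  For `m ≠ m*` let `i` be the top index where they differ, `m i < m* i`;
`v^m ≤ v^(m*) * (v_{i-1})^(2^B) / v_i ≤ v^(m*) / 2^(2^c)` (for `i = i0`: `≤ v^(m*) / v_{i0}`), using `v_{i0} ≤ v_{i0+1} ≤ ..`, `v_i ≥ v_{i-1}^(2^c)`,
`2^c ≥ 2^B + 1` and `v_{i-1} ≥ 2^(2^c)`.  So `|f(v)| ≥ v^(m*) (1/D - 2^(2^B) / 2^(2^c)) ≥ 1/(2D)`, `D = dnB B`, because
`2 D 2^(2^B) ≤ 2^(1 + 2^(3B) + 2^B) ≤ 2^(2^(3B+3))` (`dnB_le`) and `v^(m*) ≥ 1`.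
-/

set_option autoImplicit false

namespace Crest.Agent.CHR

open MvPolynomial Finset

theorem fq_coeff_lower {B : ℕ} {f : P} (h : Bnd B f) (m : ℕ →₀ ℕ) (hm : coeff m f ≠ 0) :
    (1 : ℚ) / (((2 ^ B).factorial : ℚ) ^ (2 ^ B)) ≤ |coeff m f| := by
  obtain ⟨k, hk⟩ := IntD.iff.1 h.intD m
  have hD : (0 : ℚ) < (dnB B : ℚ) := by exact_mod_cast dnB_pos B
  have hDe : ((dnB B : ℕ) : ℚ) = ((2 ^ B).factorial : ℚ) ^ (2 ^ B) := by
    unfold dnB; push_cast; rfl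
  rw [← hDe]
  have hk0 : k ≠ 0 := by
    rintro rfl
    rw [Int.cast_zero] at hk
    exact hm ((mul_eq_zero.1 hk).resolve_left hD.ne')
  have h1 : (1 : ℚ) ≤ |(k : ℚ)| := by
    have : (1 : ℤ) ≤ |k| := Int.one_le_abs hk0
    exact_mod_cast this
  rw [← hk, abs_mul, abs_of_pos hD] at h1
  rw [div_le_iff₀ hD]
  linarith [mul_comm (dnB B : ℚ) |coeff m f|]

/-- lower bound for nonzero rational values -/
theorem Bnd.lower {B : ℕ} {x : ℚ} (h : Bnd B (C x)) (hx : x ≠ 0) :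
    (1 : ℚ) / (((2 ^ B).factorial : ℚ) ^ (2 ^ B)) ≤ |x| := by
  have := fq_coeff_lower h 0 (by simpa using hx)
  simpa using this

theorem fq_aeval_eq_sum {A : Type*} [CommRing A] [Algebra ℚ A] (v : ℕ → A) (f : P) :
    aeval v f = ∑ m ∈ f.support, algebraMap ℚ A (coeff m f) * ∏ j ∈ m.support, v j ^ m j := by
  rw [aeval_def, eval₂_eq]

theorem fq_digit {T p p' q q' : ℕ} (_hq : q < T) (hq' : q' < T) (h : p * T + q ≤ p' * T + q') :
    p < p' ∨ (p = p' ∧ q ≤ q') := by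
  rcases lt_trichotomy p p' with h1 | h1 | h1
  · exact Or.inl h1
  · subst h1
    exact Or.inr ⟨rfl, by omega⟩
  · exfalso
    have h2 : (p' + 1) * T ≤ p * T := Nat.mul_le_mul_right _ h1
    rw [Nat.add_mul, one_mul] at h2
    omega

/-- the four-variable comparison -/
theorem fq_lex {D Q : ℕ} (hDQ : 3 * D + 1 ≤ Q) {x0 x1 x2 x3 : ℝ} (h0 : (2 : ℝ) ^ Q ≤ x0)
    (h1 : x0 ^ Q ≤ x1) (h2 : x1 ^ Q ≤ x2) (h3 : x2 ^ Q ≤ x3) {a b c d a' b' c' d' : ℕ}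
    (ha : a ≤ D) (hb : b ≤ D) (hc : c ≤ D)
    (hlt : d < d' ∨ (d = d' ∧ (c < c' ∨ (c = c' ∧ (b < b' ∨ (b = b' ∧ a < a')))))) :
    x0 ^ a * x1 ^ b * x2 ^ c * x3 ^ d * 2 ^ Q ≤ x0 ^ a' * x1 ^ b' * x2 ^ c' * x3 ^ d' := by
  have hQ : 1 ≤ Q := by omega
  have e0 : (1 : ℝ) ≤ x0 := le_trans (one_le_pow₀ (by norm_num)) h0
  have e01 : x0 ≤ x1 := le_trans (le_self_pow₀ e0 (by omega)) h1
  have e1 : (1 : ℝ) ≤ x1 := e0.trans e01
  have e12 : x1 ≤ x2 := le_trans (le_self_pow₀ e1 (by omega)) h2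
  have e2 : (1 : ℝ) ≤ x2 := e1.trans e12
  have e23 : x2 ≤ x3 := le_trans (le_self_pow₀ e2 (by omega)) h3
  have e3 : (1 : ℝ) ≤ x3 := e2.trans e23
  have p0 : 0 < x0 := by linarith
  have p1 : 0 < x1 := by linarith
  have p2 : 0 < x2 := by linarith
  have p3 : 0 < x3 := by linarith
  rcases hlt with hlt | ⟨rfl, hlt | ⟨rfl, hlt | ⟨rfl, hlt⟩⟩⟩
  · -- `d < d'`
    have hx : x0 ^ a * x1 ^ b * x2 ^ c * 2 ^ Q ≤ x3 := by
      calc x0 ^ a * x1 ^ b * x2 ^ c * 2 ^ Q ≤ x2 ^ D * x2 ^ D * x2 ^ D * x2 := by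
            have f0 : x0 ^ a ≤ x2 ^ D := (pow_le_pow_left₀ p0.le (e01.trans e12) a).trans
              (pow_le_pow_right₀ e2 ha)
            have f1 : x1 ^ b ≤ x2 ^ D := (pow_le_pow_left₀ p1.le e12 b).trans
              (pow_le_pow_right₀ e2 hb)
            have f2 : x2 ^ c ≤ x2 ^ D := pow_le_pow_right₀ e2 hc
            have f3 : (2 : ℝ) ^ Q ≤ x2 := h0.trans (e01.trans e12)
            gcongr
        _ = x2 ^ (3 * D + 1) := by ring
        _ ≤ x2 ^ Q := pow_le_pow_right₀ e2 hDQ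
        _ ≤ x3 := h3
    calc x0 ^ a * x1 ^ b * x2 ^ c * x3 ^ d * 2 ^ Q
        = (x0 ^ a * x1 ^ b * x2 ^ c * 2 ^ Q) * x3 ^ d := by ring
      _ ≤ x3 * x3 ^ d := by gcongr
      _ = 1 * 1 * 1 * x3 ^ (d + 1) := by ring
      _ ≤ x0 ^ a' * x1 ^ b' * x2 ^ c' * x3 ^ d' := by
          have g0 : (1 : ℝ) ≤ x0 ^ a' := one_le_pow₀ e0
          have g1 : (1 : ℝ) ≤ x1 ^ b' := one_le_pow₀ e1
          have g2 : (1 : ℝ) ≤ x2 ^ c' := one_le_pow₀ e2
          have g3 : x3 ^ (d + 1) ≤ x3 ^ d' := pow_le_pow_right₀ e3 hlt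
          gcongr
  · have hx : x0 ^ a * x1 ^ b * 2 ^ Q ≤ x2 := by
      calc x0 ^ a * x1 ^ b * 2 ^ Q ≤ x1 ^ D * x1 ^ D * x1 := by
            have f0 : x0 ^ a ≤ x1 ^ D := (pow_le_pow_left₀ p0.le e01 a).trans
              (pow_le_pow_right₀ e1 ha)
            have f1 : x1 ^ b ≤ x1 ^ D := pow_le_pow_right₀ e1 hb
            have f3 : (2 : ℝ) ^ Q ≤ x1 := h0.trans e01
            gcongr
        _ = x1 ^ (2 * D + 1) := by ring
        _ ≤ x1 ^ Q := pow_le_pow_right₀ e1 (by omega)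
        _ ≤ x2 := h2
    calc x0 ^ a * x1 ^ b * x2 ^ c * x3 ^ d * 2 ^ Q
        = (x0 ^ a * x1 ^ b * 2 ^ Q) * x2 ^ c * x3 ^ d := by ring
      _ ≤ x2 * x2 ^ c * x3 ^ d := by gcongr
      _ = 1 * 1 * x2 ^ (c + 1) * x3 ^ d := by ring
      _ ≤ x0 ^ a' * x1 ^ b' * x2 ^ c' * x3 ^ d := by
          have g0 : (1 : ℝ) ≤ x0 ^ a' := one_le_pow₀ e0
          have g1 : (1 : ℝ) ≤ x1 ^ b' := one_le_pow₀ e1
          have g3 : x2 ^ (c + 1) ≤ x2 ^ c' := pow_le_pow_right₀ e2 hlt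
          gcongr
  · have hx : x0 ^ a * 2 ^ Q ≤ x1 := by
      calc x0 ^ a * 2 ^ Q ≤ x0 ^ D * x0 := by
            have f0 : x0 ^ a ≤ x0 ^ D := pow_le_pow_right₀ e0 ha
            gcongr
        _ = x0 ^ (D + 1) := by ring
        _ ≤ x0 ^ Q := pow_le_pow_right₀ e0 (by omega)
        _ ≤ x1 := h1
    calc x0 ^ a * x1 ^ b * x2 ^ c * x3 ^ d * 2 ^ Q
        = (x0 ^ a * 2 ^ Q) * x1 ^ b * x2 ^ c * x3 ^ d := by ring
      _ ≤ x1 * x1 ^ b * x2 ^ c * x3 ^ d := by gcongr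
      _ = 1 * x1 ^ (b + 1) * x2 ^ c * x3 ^ d := by ring
      _ ≤ x0 ^ a' * x1 ^ b' * x2 ^ c * x3 ^ d := by
          have g0 : (1 : ℝ) ≤ x0 ^ a' := one_le_pow₀ e0
          have g3 : x1 ^ (b + 1) ≤ x1 ^ b' := pow_le_pow_right₀ e1 hlt
          gcongr
  · calc x0 ^ a * x1 ^ b * x2 ^ c * x3 ^ d * 2 ^ Q
        ≤ x0 ^ a * x1 ^ b * x2 ^ c * x3 ^ d * x0 := by gcongr
      _ = x0 ^ (a + 1) * x1 ^ b * x2 ^ c * x3 ^ d := by ring
      _ ≤ x0 ^ a' * x1 ^ b * x2 ^ c * x3 ^ d := by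
          have g3 : x0 ^ (a + 1) ≤ x0 ^ a' := pow_le_pow_right₀ e0 hlt
          gcongr

/-- domination: a nonzero polynomial in the four variables `i0, i0+1, i0+2, i0+3` does not vanish on
the region `Reg c` (`c ≥ 3 B + 3`): quantitative form -/
theorem Bnd.domination {B : ℕ} {f : P} (h : Bnd B f) (hf : f ≠ 0) (i0 : ℕ)
    (hv : ∀ j ∈ f.vars, i0 ≤ j ∧ j < i0 + 4) {c : ℕ} (hc : 3 * B + 3 ≤ c) (v : ℕ → ℝ)
    (h0 : (2 : ℝ) ^ (2 ^ c) ≤ v i0) (h1 : v i0 ^ (2 ^ c) ≤ v (i0 + 1))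
    (h2 : v (i0 + 1) ^ (2 ^ c) ≤ v (i0 + 2)) (h3 : v (i0 + 2) ^ (2 ^ c) ≤ v (i0 + 3)) :
    1 / (2 * (((2 ^ B).factorial : ℝ) ^ (2 ^ B))) ≤ |aeval v f| := by
  classical
  set D : ℕ := 2 ^ B with hD
  set Q : ℕ := 2 ^ c with hQ
  have hDQ : 3 * D + 1 ≤ Q := by
    have h4 : 2 ^ (3 * B + 3) ≤ Q := Nat.pow_le_pow_right (by norm_num) hc
    have h5 : 2 ^ (3 * B + 3) = 8 * (D * D * D) := by rw [hD]; ring
    have h6 : 1 ≤ D := Nat.one_le_two_pow
    nlinarith [Nat.mul_le_mul h6 h6, Nat.mul_le_mul (Nat.mul_le_mul h6 h6) h6]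
  -- exponents
  have hle : ∀ m ∈ f.support, ∀ j, m j ≤ D := by
    intro m hm j
    by_cases hj : j ∈ m.support
    · refine le_trans ?_ ((le_totalDegree hm).trans h.deg)
      exact Finset.single_le_sum (f := fun j => m j) (fun _ _ => Nat.zero_le _) hj
    · rw [Finsupp.notMem_support_iff.1 hj]; exact Nat.zero_le _
  have hz : ∀ m ∈ f.support, ∀ j, ¬ (i0 ≤ j ∧ j < i0 + 4) → m j = 0 := by
    intro m hm j hj
    by_contra hne
    exact hj (hv j ((mem_vars_iff_mem_support j).2 ⟨m, hm, Finsupp.mem_support_iff.2 hne⟩))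
  set M : (ℕ →₀ ℕ) → ℝ := fun m =>
    v i0 ^ m i0 * v (i0 + 1) ^ m (i0 + 1) * v (i0 + 2) ^ m (i0 + 2) * v (i0 + 3) ^ m (i0 + 3) with hM
  have hprod : ∀ m ∈ f.support, ∏ j ∈ m.support, v j ^ m j = M m := by
    intro m hm
    have hsub : m.support ⊆ Finset.Ico i0 (i0 + 4) := by
      intro j hj
      by_contra hcon
      exact (Finsupp.mem_support_iff.1 hj) (hz m hm j (by simpa using hcon))
    rw [Finset.prod_subset hsub (fun j _ hj => by
      rw [Finsupp.notMem_support_iff.1 hj, pow_zero])]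
    rw [Finset.prod_Ico_eq_prod_range]
    have : i0 + 4 - i0 = 4 := by omega
    rw [this]
    simp only [Finset.prod_range_succ, Finset.prod_range_zero, one_mul, add_zero, hM]
  have hne : f.support.Nonempty := by
    rw [Finset.nonempty_iff_ne_empty]
    exact fun hcon => hf (support_eq_empty.1 hcon)
  obtain ⟨ms, hms, hmax⟩ := Finset.exists_max_image f.support
    (fun m => ((m (i0 + 3) * (D + 1) + m (i0 + 2)) * (D + 1) + m (i0 + 1)) * (D + 1) + m i0) hne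
  have hlex : ∀ m ∈ f.support, m ≠ ms → M m * 2 ^ Q ≤ M ms := by
    intro m hm hmne
    have hkey := hmax m hm
    refine fq_lex hDQ h0 h1 h2 h3 (hle m hm _) (hle m hm _) (hle m hm _) ?_
    have l1 := fq_digit (Nat.lt_succ_of_le (hle m hm i0)) (Nat.lt_succ_of_le (hle ms hms i0)) hkey
    rcases l1 with l1 | ⟨l1, l1'⟩
    · rcases fq_digit (Nat.lt_succ_of_le (hle m hm (i0 + 1)))
        (Nat.lt_succ_of_le (hle ms hms (i0 + 1))) l1.le with l2 | ⟨l2, l2'⟩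
      · rcases fq_digit (Nat.lt_succ_of_le (hle m hm (i0 + 2)))
          (Nat.lt_succ_of_le (hle ms hms (i0 + 2))) l2.le with l3 | ⟨l3, l3'⟩
        · exact Or.inl l3
        · refine Or.inr ⟨l3, Or.inl (lt_of_le_of_ne l3' ?_)⟩
          intro hcon
          rw [l3, hcon] at l2
          exact lt_irrefl _ l2
      · have l4 : m (i0 + 3) = ms (i0 + 3) ∧ m (i0 + 2) = ms (i0 + 2) := by
          rcases fq_digit (Nat.lt_succ_of_le (hle m hm (i0 + 2)))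
            (Nat.lt_succ_of_le (hle ms hms (i0 + 2))) l2.le with l3 | ⟨l3, l3'⟩
          · rcases fq_digit (Nat.lt_succ_of_le (hle ms hms (i0 + 2)))
              (Nat.lt_succ_of_le (hle m hm (i0 + 2))) l2.ge with l5 | ⟨l5, _⟩ <;> omega
          · refine ⟨l3, ?_⟩
            rw [l3] at l2
            omega
        refine Or.inr ⟨l4.1, Or.inr ⟨l4.2, Or.inl (lt_of_le_of_ne l2' ?_)⟩⟩
        intro hcon
        rw [l2, hcon] at l1
        exact lt_irrefl _ l1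
    · have l4 : (m (i0 + 3) * (D + 1) + m (i0 + 2)) = (ms (i0 + 3) * (D + 1) + ms (i0 + 2)) ∧
          m (i0 + 1) = ms (i0 + 1) := by
        rcases fq_digit (Nat.lt_succ_of_le (hle m hm (i0 + 1)))
            (Nat.lt_succ_of_le (hle ms hms (i0 + 1))) l1.le with l3 | ⟨l3, l3'⟩
        · rcases fq_digit (Nat.lt_succ_of_le (hle ms hms (i0 + 1)))
              (Nat.lt_succ_of_le (hle m hm (i0 + 1))) l1.ge with l5 | ⟨l5, _⟩ <;> omega
        · refine ⟨l3, ?_⟩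
          rw [l3] at l1
          omega
      have l6 : m (i0 + 3) = ms (i0 + 3) ∧ m (i0 + 2) = ms (i0 + 2) := by
        rcases fq_digit (Nat.lt_succ_of_le (hle m hm (i0 + 2)))
            (Nat.lt_succ_of_le (hle ms hms (i0 + 2))) l4.1.le with l3 | ⟨l3, l3'⟩
        · rcases fq_digit (Nat.lt_succ_of_le (hle ms hms (i0 + 2)))
              (Nat.lt_succ_of_le (hle m hm (i0 + 2))) l4.1.ge with l5 | ⟨l5, _⟩ <;> omega
        · refine ⟨l3, ?_⟩
          have := l4.1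
          rw [l3] at this
          omega
      refine Or.inr ⟨l6.1, Or.inr ⟨l6.2, Or.inr ⟨l4.2, lt_of_le_of_ne l1' ?_⟩⟩⟩
      intro hcon
      apply hmne
      ext j
      by_cases hj : i0 ≤ j ∧ j < i0 + 4
      · have : j = i0 ∨ j = i0 + 1 ∨ j = i0 + 2 ∨ j = i0 + 3 := by omega
        rcases this with rfl | rfl | rfl | rfl
        · exact hcon
        · exact l4.2
        · exact l6.2
        · exact l6.1
      · rw [hz m hm j hj, hz ms hms j hj]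
  -- positivity
  have e0 : (1 : ℝ) ≤ v i0 := le_trans (one_le_pow₀ (by norm_num)) h0
  have e1 : (1 : ℝ) ≤ v (i0 + 1) := le_trans (one_le_pow₀ e0) h1
  have e2 : (1 : ℝ) ≤ v (i0 + 2) := le_trans (one_le_pow₀ e1) h2
  have e3 : (1 : ℝ) ≤ v (i0 + 3) := le_trans (one_le_pow₀ e2) h3
  have hM1 : ∀ m, 1 ≤ M m := by
    intro m
    have g0 : (1 : ℝ) ≤ v i0 ^ m i0 := one_le_pow₀ e0
    have g1 : (1 : ℝ) ≤ v (i0 + 1) ^ m (i0 + 1) := one_le_pow₀ e1
    have g2 : (1 : ℝ) ≤ v (i0 + 2) ^ m (i0 + 2) := one_le_pow₀ e2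
    have g3 : (1 : ℝ) ≤ v (i0 + 3) ^ m (i0 + 3) := one_le_pow₀ e3
    exact one_le_mul_of_one_le_of_one_le (one_le_mul_of_one_le_of_one_le
      (one_le_mul_of_one_le_of_one_le g0 g1) g2) g3
  -- the estimate
  have hsum : aeval v f = ∑ m ∈ f.support, ((coeff m f : ℚ) : ℝ) * M m := by
    rw [fq_aeval_eq_sum]
    refine Finset.sum_congr rfl fun m hm => ?_
    rw [hprod m hm]
    rfl
  have hsplit : aeval v f = ((coeff ms f : ℚ) : ℝ) * M ms +
      ∑ m ∈ f.support.erase ms, ((coeff m f : ℚ) : ℝ) * M m := by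
    rw [hsum]
    exact (Finset.add_sum_erase f.support (fun m => ((coeff m f : ℚ) : ℝ) * M m) hms).symm
  have hrest : |∑ m ∈ f.support.erase ms, ((coeff m f : ℚ) : ℝ) * M m| ≤
      (2 : ℝ) ^ D * (M ms / 2 ^ Q) := by
    refine (Finset.abs_sum_le_sum_abs _ _).trans ?_
    have hb : ∀ m ∈ f.support.erase ms, |((coeff m f : ℚ) : ℝ) * M m| ≤
        |((coeff m f : ℚ) : ℝ)| * (M ms / 2 ^ Q) := by
      intro m hm
      have hm' := Finset.mem_erase.1 hm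
      rw [abs_mul, abs_of_nonneg (zero_le_one.trans (hM1 m))]
      refine mul_le_mul_of_nonneg_left ?_ (abs_nonneg _)
      rw [le_div_iff₀ (by positivity)]
      exact hlex m hm'.2 hm'.1
    refine (Finset.sum_le_sum hb).trans ?_
    rw [← Finset.sum_mul]
    refine mul_le_mul_of_nonneg_right ?_ (div_nonneg (zero_le_one.trans (hM1 ms)) (by positivity))
    have hl : ∑ m ∈ f.support.erase ms, |((coeff m f : ℚ) : ℝ)| ≤
        ∑ m ∈ f.support, |((coeff m f : ℚ) : ℝ)| :=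
      Finset.sum_le_sum_of_subset_of_nonneg (Finset.erase_subset _ _) fun _ _ _ => abs_nonneg _
    refine hl.trans ?_
    have hl1 : l1q f ≤ 2 ^ (2 ^ B) := h.l1
    have hl2 : ((l1q f : ℚ) : ℝ) ≤ ((2 ^ (2 ^ B) : ℚ) : ℝ) := by exact_mod_cast hl1
    have hl3 : ((l1q f : ℚ) : ℝ) = ∑ m ∈ f.support, |((coeff m f : ℚ) : ℝ)| := by
      unfold l1q; push_cast; rfl
    rw [← hl3, hD]
    refine hl2.trans (le_of_eq ?_)
    push_cast; rfl
  set E : ℝ := ((2 ^ B).factorial : ℝ) ^ (2 ^ B) with hE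
  have hEpos : 0 < E := by positivity
  have hlow : 1 / E ≤ |((coeff ms f : ℚ) : ℝ)| := by
    have h4 := fq_coeff_lower h ms (mem_support_iff.1 hms)
    have h5 : (((1 : ℚ) / (((2 ^ B).factorial : ℚ) ^ (2 ^ B)) : ℚ) : ℝ) ≤
        ((|coeff ms f| : ℚ) : ℝ) := by exact_mod_cast h4
    push_cast at h5
    exact h5
  have hEle : 2 * E * 2 ^ D ≤ 2 ^ Q := by
    have h4 : E ≤ (2 : ℝ) ^ (2 ^ (3 * B)) := by
      have := dnB_le B
      have h5 : ((dnB B : ℕ) : ℝ) ≤ ((2 ^ (2 ^ (3 * B)) : ℕ) : ℝ) := by exact_mod_cast this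
      unfold dnB at h5
      push_cast at h5
      exact h5
    calc 2 * E * 2 ^ D ≤ 2 * (2 : ℝ) ^ (2 ^ (3 * B)) * 2 ^ D := by gcongr
      _ = 2 ^ (1 + 2 ^ (3 * B) + D) := by rw [pow_add, pow_add, pow_one]
      _ ≤ 2 ^ Q := by
        refine pow_le_pow_right₀ (by norm_num) ?_
        have h6 : 2 ^ (3 * B + 3) ≤ Q := Nat.pow_le_pow_right (by norm_num) hc
        have h7 : 2 ^ (3 * B + 3) = 8 * 2 ^ (3 * B) := by ring
        have h8 : D ≤ 2 ^ (3 * B) := Nat.pow_le_pow_right (by norm_num) (by omega)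
        have h9 : 1 ≤ 2 ^ (3 * B) := Nat.one_le_two_pow
        omega
  have hMs := hM1 ms
  have hfin : |((coeff ms f : ℚ) : ℝ) * M ms| - |∑ m ∈ f.support.erase ms,
      ((coeff m f : ℚ) : ℝ) * M m| ≤ |aeval v f| := by
    rw [hsplit]
    have := abs_sub_abs_le_abs_sub (((coeff ms f : ℚ) : ℝ) * M ms)
      (-∑ m ∈ f.support.erase ms, ((coeff m f : ℚ) : ℝ) * M m)
    rw [abs_neg, sub_neg_eq_add] at this
    exact this
  refine le_trans ?_ hfin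
  have hA : M ms / E ≤ |((coeff ms f : ℚ) : ℝ) * M ms| := by
    rw [abs_mul, abs_of_nonneg (zero_le_one.trans hMs)]
    calc M ms / E = 1 / E * M ms := by ring
      _ ≤ |((coeff ms f : ℚ) : ℝ)| * M ms := by gcongr
  have hB' : (2 : ℝ) ^ D * (M ms / 2 ^ Q) ≤ M ms / (2 * E) := by
    have h4 : (2 : ℝ) ^ D / 2 ^ Q ≤ 1 / (2 * E) := by
      rw [div_le_div_iff₀ (by positivity) (by positivity)]
      linarith
    calc (2 : ℝ) ^ D * (M ms / 2 ^ Q) = (2 : ℝ) ^ D / 2 ^ Q * M ms := by ring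
      _ ≤ 1 / (2 * E) * M ms := by gcongr
      _ = M ms / (2 * E) := by ring
  have hC : 1 / (2 * E) ≤ M ms / (2 * E) := by gcongr
  have hD' : M ms / E = M ms / (2 * E) + M ms / (2 * E) := by field_simp; ring
  linarith

/-- upper bound for values -/
theorem Bnd.upper {B : ℕ} {f : P} (h : Bnd B f) (v : ℕ → ℂ) (V : ℝ) (hV : 1 ≤ V)
    (hv : ∀ j ∈ f.vars, ‖v j‖ ≤ V) : ‖aeval v f‖ ≤ 2 ^ (2 ^ B) * V ^ (2 ^ B) := by
  rw [fq_aeval_eq_sum]
  refine (norm_sum_le _ _).trans ?_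
  have hb : ∀ m ∈ f.support, ‖algebraMap ℚ ℂ (coeff m f) * ∏ j ∈ m.support, v j ^ m j‖ ≤
      |((coeff m f : ℚ) : ℝ)| * V ^ (2 ^ B) := by
    intro m hm
    rw [norm_mul, norm_prod]
    have h1 : ‖algebraMap ℚ ℂ (coeff m f)‖ = |((coeff m f : ℚ) : ℝ)| := by
      have : algebraMap ℚ ℂ (coeff m f) = (((coeff m f : ℚ) : ℝ) : ℂ) := by simp
      rw [this, Complex.norm_real, Real.norm_eq_abs]
    rw [h1]
    refine mul_le_mul_of_nonneg_left ?_ (abs_nonneg _)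
    calc ∏ j ∈ m.support, ‖v j ^ m j‖ ≤ ∏ j ∈ m.support, V ^ m j := by
          refine Finset.prod_le_prod (fun _ _ => norm_nonneg _) fun j hj => ?_
          rw [norm_pow]
          exact pow_le_pow_left₀ (norm_nonneg _)
            (hv j ((mem_vars_iff_mem_support j).2 ⟨m, hm, hj⟩)) _
      _ = V ^ (∑ j ∈ m.support, m j) := by rw [Finset.prod_pow_eq_pow_sum]
      _ ≤ V ^ (2 ^ B) := pow_le_pow_right₀ hV ((le_totalDegree hm).trans h.deg)
  refine (Finset.sum_le_sum hb).trans ?_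
  rw [← Finset.sum_mul]
  refine mul_le_mul_of_nonneg_right ?_ (by positivity)
  have hl2 : ((l1q f : ℚ) : ℝ) ≤ ((2 ^ (2 ^ B) : ℚ) : ℝ) := by exact_mod_cast h.l1
  have hl3 : ((l1q f : ℚ) : ℝ) = ∑ m ∈ f.support, |((coeff m f : ℚ) : ℝ)| := by
    unfold l1q; push_cast; rfl
  rw [← hl3]
  refine hl2.trans (le_of_eq ?_)
  push_cast; rfl

end Crest.Agent.CHR
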