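import Crest.Agent.CHR.FamRes
import Crest.Agent.CHR.FamOpSg
import Crest.Agent.CHR.FamQuant

/-!
# MODULE M7 (row 316): closure properties of good families.  Interface.  Idea 447, part A4.

The statements are in `FamCode.lean` (`IsFam.congr`, `bnd`, `intro`, `elim`), `FamOpA.lean` (`comp`, `const`, `var`, `neg`, `add`, `mul`,
`sub`, `ite`, `iteD`, `zero`, `one`), `FamOpS.lean` (`sum`, `prod`, `pow`, `sum2`, `prod2`), `FamOpB.lean` (`bind`), `FamOpC.lean` (`coef`),
`FamOpD.lean` (`pderiv`), `FamOpDet.lean` (`det`), `FamOpSg.lean` (`sign`), `FamRes.lean` (`res`, `tr`, `nr`), `FamQuant.lean` (`Bnd.lower`,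
`Bnd.domination`, `Bnd.upper`), `FamBnd.lean` (closure of `Bnd`).
-/
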