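import Crest.Agent.CHR.FamEvp
import Crest.Agent.CHR.FamBnd

/-!
CHUNK R316-FAMEVPB (medium): evaluation modulo `p` of a substitution.
PROOF HINTS. `bind₁ g f = ∑ m ∈ f.support, C (coeff m f) * ∏ j ∈ m.support, g j ^ m j` (`bind₁`, `aeval_def`, `eval₂_eq`;
`m.support ⊆ f.vars`: `mem_vars`).  Apply `evp_sum`, `evp_mul`, `evp_prod`, `evp_pow`, `evp_C` (with `PI.coef`, ...).
-/

set_option autoImplicit false

namespace Crest.Agent.CHR

open MvPolynomial Finset

private theorem bind₁_eq_sum (f : P) (g : ℕ → P) :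
    bind₁ g f = ∑ m ∈ f.support, C (coeff m f) * ∏ j ∈ m.support, g j ^ m j := by
  rw [bind₁, aeval_def, eval₂_eq]
  rfl

variable {p : ℕ} [hp : Fact p.Prime]

theorem PI.bind {f : P} {g : ℕ → P} (hf : PI p f) (hg : ∀ j ∈ f.vars, PI p (g j)) :
    PI p (bind₁ g f) := by
  rw [bind₁_eq_sum]
  refine PI.sum _ fun m hm => (hf.coef m).mul (PI.prod _ fun j hj => (hg j ?_).pow _)
  exact mem_vars j |>.2 ⟨m, hm, hj⟩

/-- substitution -/
theorem evp_bind {f : P} {g : ℕ → P} (hf : PI p f) (hg : ∀ j ∈ f.vars, PI p (g j))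
    (z : ℕ → ZMod p) : evp p z (bind₁ g f) = evp p (fun j => evp p z (g j)) f := by
  have hj : ∀ m ∈ f.support, ∀ j ∈ m.support, PI p (g j) := fun m hm j hj =>
    hg j (mem_vars j |>.2 ⟨m, hm, hj⟩)
  rw [bind₁_eq_sum, evp_sum _ (fun m hm => (hf.coef m).mul (PI.prod _ fun j hj' =>
    (hj m hm j hj').pow _))]
  rw [evp]
  refine Finset.sum_congr rfl fun m hm => ?_
  rw [evp_mul (hf.coef m) (PI.prod _ fun j hj' => (hj m hm j hj').pow _), evp_C,
    evp_prod _ (fun j hj' => (hj m hm j hj').pow _)]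
  congr 1
  exact Finset.prod_congr rfl fun j hj' => evp_pow (hj m hm j hj') _ z

end Crest.Agent.CHR
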