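import Crest.Agent.CHR.FamBnd
import Crest.Agent.CHR.FamEvpB

/-!
# Row 316, module M7: the code layer (introduction / elimination rules of `IsFam`)
CHUNK R316-FAMCODE (medium).

`arg w p A` = the canonical code of the triple; `gF (arg w p A) = (evp p (asg p A) (F w)).val`.

PROOF HINTS.  `elim`: `g = famVal F b`; on `arg w p A` the `dif_pos` branch (`val_bits`), transport of the `Fact` instance.
`intro`: `famVal F b z = if (pA z).Prime ∧ 2 ^ b(|fstB z|) < pA z then g (arg (fstB z) (pA z) (AA z)) else 0`; CHN by `CHN.iteD`,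
`CHP.prime`, `CHN.lt`, `CHN.twoPow`, `CHN.comp`, `CHF.arg`.  `powN`: `a^e = a^e % 2^q`, `CHN.powMod` (see `ArPow`).
`CHN.dgt`: if `p^j > A` the digit is `0`; `j ≥ |bits A|` implies `p^j ≥ 2^j > A`; so replace `j` by `min j (Nat.size A)`, `p^(min ..) ≤ p^|A|`
poly bits (or case distinction `A < 2^j`... with `CHN.powN`).  `dgt_fromD`: induction on `L` (or `fromD p (j+1+k) d =
fromD p j d + p^j * (d j + p * ...)`).  `CHN.fromD`: `CHN.sum2` with `CHN.mul` and `CHN.powN` (`p^j < 2^(r(|w|) q(|w|))`; in the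
context `pn w j` replace `j` by `min j (q |w|)` to have a bound for all inputs).
-/

set_option autoImplicit false

namespace Crest.Agent.CHR

open MvPolynomial Finset Crest.Complexity Crest.CountHier

/-- canonical code of `(w, p, A)` -/
def arg (w : W) (p A : ℕ) : W := pairBits w (pairBits (Nat.bits p) (Nat.bits A))

/-- the modulus of an argument -/
def pA (z : W) : ℕ := val (fstB (sndB z))
/-- the assignment of an argument -/
def AA (z : W) : ℕ := val (sndB (sndB z))

@[simp] theorem fstB_arg (w : W) (p A : ℕ) : fstB (arg w p A) = w := by simp [arg]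
@[simp] theorem pA_arg (w : W) (p A : ℕ) : pA (arg w p A) = p := by simp [arg, pA]
@[simp] theorem AA_arg (w : W) (p A : ℕ) : AA (arg w p A) = A := by simp [arg, AA]

theorem CHN.pA : CHN pA := CHN.ofVal (CHF.fst.comp CHF.snd)
theorem CHN.AA : CHN AA := CHN.ofVal (CHF.snd.comp CHF.snd)

theorem CHF.arg {f : W → W} {g h : W → ℕ} (hf : CHF f) (hg : CHN g) (hh : CHN h) :
    CHF (fun z => arg (f z) (g z) (h z)) := CHF.pair hf (CHF.pair hg hh)

/-- length of a pair -/
theorem len_pairBits (x y : W) : (pairBits x y).length = 2 * x.length + 1 + y.length := by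
  induction x with
  | nil => simp [pairBits]; omega
  | cons b x ih =>
    have : pairBits (b :: x) y = true :: b :: pairBits x y := rfl
    rw [this, List.length_cons, List.length_cons, ih, List.length_cons]
    omega

theorem len_pn (w : W) (i : ℕ) : (pn w i).length = 2 * w.length + 1 + (Nat.bits i).length :=
  len_pairBits w _

theorem len_bits_le {i k : ℕ} (h : i < 2 ^ k) : (Nat.bits i).length ≤ k := by
  rw [Nat.size_eq_bits_len]
  exact Nat.size_le.mpr h

/-- a polynomial bound for the length of `pn w i`, `i < N w` -/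
theorem exists_len_pn {N : W → ℕ} (hN : CHN N) :
    ∃ r : Polynomial ℕ, ∀ w i, i < N w → (pn w i).length ≤ r.eval w.length := by
  obtain ⟨q, hq⟩ := hN.bound
  refine ⟨2 * Polynomial.X + 1 + q, fun w i hi => ?_⟩
  rw [len_pn]
  have h := len_bits_le (lt_trans hi (hq w))
  simp only [Polynomial.eval_add, Polynomial.eval_mul, Polynomial.eval_ofNat, Polynomial.eval_X,
    Polynomial.eval_one]
  omega

theorem IsFam.congr {F G : W → P} (hF : IsFam F) (h : ∀ w, F w = G w) : IsFam G := by
  have : G = F := by funext w; exact (h w).symm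
  rw [this]; exact hF

/-- one may increase the bound -/
theorem IsFam.bnd {F : W → P} (hF : IsFam F) : ∃ b : Polynomial ℕ, ∀ w, Bnd (b.eval w.length) (F w) :=
  let ⟨b, hb, _⟩ := hF
  ⟨b, hb⟩

theorem evp_transport (F : W → P) {w w' : W} {p p' A A' : ℕ} [hp : Fact p.Prime] (hw : w' = w)
    (hpp : p' = p) (hA : A' = A) (h : p'.Prime) :
    (evp p (asg p A) (F w)).val = (haveI := Fact.mk h; (evp p' (asg p' A') (F w')).val) := by
  subst hw hpp hA
  rfl

/-- elimination rule -/
theorem IsFam.elim {F : W → P} (hF : IsFam F) : ∃ (b : Polynomial ℕ) (g : W → ℕ),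
    (∀ w, Bnd (b.eval w.length) (F w)) ∧ CHN g ∧
      ∀ (w : W) (p A : ℕ) [Fact p.Prime], 2 ^ (b.eval w.length) < p →
        (evp p (asg p A) (F w)).val = g (arg w p A) := by
  obtain ⟨b, hb, hc⟩ := hF
  refine ⟨b, famVal F b, hb, hc, fun w p A hp hlt => ?_⟩
  have h : (val (fstB (sndB (arg w p A)))).Prime ∧
      2 ^ (b.eval (fstB (arg w p A)).length) < val (fstB (sndB (arg w p A))) := by
    have e : val (fstB (sndB (arg w p A))) = p := pA_arg w p A
    rw [e, fstB_arg]
    exact ⟨hp.out, hlt⟩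
  unfold famVal
  rw [dif_pos h]
  exact evp_transport F (fstB_arg w p A) (pA_arg w p A) (AA_arg w p A) h.1

/-- introduction rule -/
theorem IsFam.intro {F : W → P} (b : Polynomial ℕ) (hb : ∀ w, Bnd (b.eval w.length) (F w))
    {g : W → ℕ} (hg : CHN g)
    (h : ∀ (w : W) (p A : ℕ) [Fact p.Prime], 2 ^ (b.eval w.length) < p →
      (evp p (asg p A) (F w)).val = g (arg w p A)) : IsFam F := by
  classical
  refine ⟨b, hb, ?_⟩
  have h1 : CHN (fun z => if (Crest.Agent.CHR.pA z).Prime ∧
      2 ^ (b.eval (fstB z).length) < Crest.Agent.CHR.pA z then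
      g (Crest.Agent.CHR.arg (fstB z) (Crest.Agent.CHR.pA z) (Crest.Agent.CHR.AA z)) else 0) :=
    CHN.iteD ((CHP.prime CHN.pA).and (CHN.lt (CHN.twoPow CHF.fst b) CHN.pA))
      (hg.comp (CHF.arg CHF.fst CHN.pA CHN.AA)) (CHN.const 0)
  refine h1.congr fun z => ?_
  unfold famVal
  by_cases hz : (val (fstB (sndB z))).Prime ∧
      2 ^ (b.eval (fstB z).length) < val (fstB (sndB z))
  · have hz' : (Crest.Agent.CHR.pA z).Prime ∧
        2 ^ (b.eval (fstB z).length) < Crest.Agent.CHR.pA z := hz
    rw [dif_pos hz, if_pos hz']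
    have := Fact.mk hz'.1
    rw [← h (fstB z) (Crest.Agent.CHR.pA z) (Crest.Agent.CHR.AA z) hz'.2]
    rfl
  · have hz' : ¬((Crest.Agent.CHR.pA z).Prime ∧
        2 ^ (b.eval (fstB z).length) < Crest.Agent.CHR.pA z) := hz
    rw [dif_neg hz, if_neg hz']

/-! ## digits -/

/-- exact powers of polynomial size -/
theorem CHN.powN {a e : W → ℕ} (ha : CHN a) (he : CHN e) (q : Polynomial ℕ)
    (hq : ∀ w, a w ^ e w < 2 ^ (q.eval w.length)) : CHN (fun w => a w ^ e w) := by
  refine (CHN.powMod ha he (CHN.twoPow CHF.id q) (fun w => by positivity)).congr fun w => ?_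
  exact Nat.mod_eq_of_lt (hq w)

/-- the `j`-th digit of `A` in base `p` -/
def dgt' (p A j : ℕ) : ℕ := A / p ^ j % p

theorem asg_eq (p A j : ℕ) : asg p A j = ((dgt' p A j : ℕ) : ZMod p) := by
  unfold asg dgt'
  rw [ZMod.natCast_mod]

theorem pow_lt_of_bounds {p r e q : ℕ} (hp : p < 2 ^ r) (he : e ≤ q) : p ^ e < 2 ^ (r * q + 1) := by
  calc p ^ e ≤ (2 ^ r) ^ e := Nat.pow_le_pow_left hp.le e
    _ ≤ (2 ^ r) ^ q := Nat.pow_le_pow_right (by positivity) he
    _ = 2 ^ (r * q) := by rw [← pow_mul]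
    _ < 2 ^ (r * q + 1) := Nat.pow_lt_pow_right (by norm_num) (by omega)

/-- powers with a small exponent -/
theorem CHN.powS {a e : W → ℕ} (ha : CHN a) (he : CHN e) (q : Polynomial ℕ)
    (hq : ∀ w, e w ≤ q.eval w.length) : CHN (fun w => a w ^ e w) := by
  obtain ⟨r, hr⟩ := ha.bound
  refine CHN.powN ha he (r * q + 1) fun w => ?_
  rw [Polynomial.eval_add, Polynomial.eval_mul, Polynomial.eval_one]
  exact pow_lt_of_bounds (hr w) (hq w)

/-- digits are computable (also for a huge index: the digit is `0` if `p ^ j > A`) -/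
theorem CHN.dgt {p A j : W → ℕ} (hp : CHN p) (hA : CHN A) (hj : CHN j) :
    CHN (fun w => if 2 ≤ p w then dgt' (p w) (A w) (j w) else 0) := by
  obtain ⟨q, hq⟩ := hA.bound
  have hmin : CHN (fun w => Min.min (j w) (q.eval w.length)) := hj.min (CHN.polyLen CHF.id q)
  have h1 : CHN (fun w => p w ^ (Min.min (j w) (q.eval w.length))) :=
    CHN.powS hp hmin q fun w => min_le_right _ _
  refine (CHN.iteD (CHN.le (CHN.const 2) hp) ((hA.div h1).mod hp) (CHN.const 0)).congr fun w => ?_
  by_cases h2 : 2 ≤ p w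
  · rw [if_pos h2, if_pos h2]
    unfold dgt'
    rcases le_total (j w) (q.eval w.length) with h | h
    · rw [min_eq_left h]
    · rw [min_eq_right h]
      have e1 : A w < p w ^ (q.eval w.length) :=
        (hq w).trans_le (Nat.pow_le_pow_left h2 _)
      have e2 : A w < p w ^ (j w) :=
        e1.trans_le (Nat.pow_le_pow_right (by omega) h)
      rw [Nat.div_eq_of_lt e1, Nat.div_eq_of_lt e2]
  · rw [if_neg h2, if_neg h2]

/-- the number with given digits -/
def fromD (p L : ℕ) (d : ℕ → ℕ) : ℕ := ∑ j ∈ range L, d j * p ^ j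

theorem fromD_lt {p L : ℕ} {d : ℕ → ℕ} (hd : ∀ j < L, d j < p) : fromD p L d < p ^ L := by
  unfold fromD
  induction L with
  | zero => simp
  | succ L ih =>
    rw [sum_range_succ, pow_succ]
    have h1 := ih fun j hj => hd j (by omega)
    have h2 := hd L (by omega)
    calc ∑ j ∈ range L, d j * p ^ j + d L * p ^ L < p ^ L + d L * p ^ L := by omega
      _ = (d L + 1) * p ^ L := by ring
      _ ≤ p * p ^ L := Nat.mul_le_mul_right _ h2
      _ = p ^ L * p := by ring

theorem dgt_fromD {p L j : ℕ} {d : ℕ → ℕ} (hd : ∀ j < L, d j < p) (hj : j < L) :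
    dgt' p (fromD p L d) j = d j := by
  induction L with
  | zero => omega
  | succ L ih =>
    have h1 : fromD p (L + 1) d = fromD p L d + d L * p ^ L := by
      unfold fromD
      rw [sum_range_succ]
    have hp : 0 < p := lt_of_le_of_lt (Nat.zero_le _) (hd j hj)
    rw [h1]
    rcases Nat.lt_succ_iff_lt_or_eq.1 hj with h | h
    · rw [← ih (fun k hk => hd k (by omega)) h]
      unfold dgt'
      obtain ⟨m, rfl⟩ : ∃ m, L = j + 1 + m := ⟨L - (j + 1), by omega⟩
      have e : d (j + 1 + m) * p ^ (j + 1 + m) = p ^ j * (p * (d (j + 1 + m) * p ^ m)) := by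
        rw [pow_add, pow_succ]
        ring
      rw [e, Nat.add_mul_div_left _ _ (by positivity), Nat.add_mul_mod_self_left]
    · subst h
      unfold dgt'
      have h2 := fromD_lt (p := p) (L := j) (d := d) fun k hk => hd k (by omega)
      rw [Nat.add_mul_div_right _ _ (by positivity), Nat.div_eq_of_lt h2, zero_add,
        Nat.mod_eq_of_lt (hd j hj)]

theorem asg_fromD {p L j : ℕ} {d : ℕ → ℕ} (hd : ∀ j < L, d j < p) (hj : j < L) :
    asg p (fromD p L d) j = ((d j : ℕ) : ZMod p) := by
  rw [asg_eq, dgt_fromD hd hj]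

/-- numbers with polynomially many computable digits -/
theorem CHN.fromD {p L d : W → ℕ} (hp : CHN p) (hL : CHN L) (hd : CHN d) (q : Polynomial ℕ)
    (hq : ∀ w, L w ≤ q.eval w.length) : CHN (fun w => fromD (p w) (L w) (fun j => d (pn w j))) := by
  have h1 : CHN (fun z => d (Crest.Agent.CHR.pn (fstB z) (val (sndB z)))) :=
    hd.comp (CHF.pn CHF.fst CHN.var)
  have h2 : CHN (fun z => p (fstB z) ^ (Min.min (val (sndB z)) (q.eval (fstB z).length))) := by
    refine CHN.powS hp.fst (CHN.var.min (CHN.polyLen CHF.fst q)) q fun w => ?_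
    exact (min_le_right _ _).trans (pmono q (len_fstB_le w))
  refine (CHN.sum2 (F := fun w j => d (Crest.Agent.CHR.pn w j) *
    p w ^ (Min.min j (q.eval w.length))) hL (h1.mul h2)).congr fun w => ?_
  unfold Crest.Agent.CHR.fromD
  refine sum_congr rfl fun j hj => ?_
  rw [min_eq_left ((mem_range.1 hj).le.trans (hq w))]

end Crest.Agent.CHR
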