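import Crest.Agent.CHR.FamEvp

/-!
CHUNK R316-FAMCOEFP (medium): coefficient extraction modulo `p` by an exponential sum.
PROOF.  `n = hi - lo`; `k < (p-1)^n` codes `y ∈ (F_p^*)^n` by `y_i = k/(p-1)^i % (p-1) + 1`.  By linearity (support sums; the value of
`coefS` is the sum over the monomials `m` of `f` with `m j = a j` on `[lo,hi)`) it suffices, for exponents `e_i, a_i < p - 1`:
`∑_k ∏_{i<n} y_i^(p-1-a_i) y_i^(e_i) = (-1)^n` if `e = a` and `0` otherwise.  The sum over `k` factorises (bijection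
`k ↔` digits in base `p-1`, `finFunctionFinEquiv` / induction on `n` with `k = k' + (p-1)^n d`) into
`∏_i ∑_{y=1}^{p-1} y^(p-1-a_i+e_i)`, and `∑_{y ∈ F_p^*} y^s = -1` if `(p-1) ∣ s`, else `0` (`FiniteField.sum_pow_units`,
`FiniteField.sum_pow_lt_card_sub_one`-type lemmas); `s = p-1-a_i+e_i` with `0 < s < 2(p-1)`, so `(p-1) ∣ s` iff `s = p-1` iff
`e_i = a_i`.
Suggested auxiliary lemma first: `sum_digits`: for `g : ℕ → ℕ → ZMod p`,
`∑ k ∈ range ((p-1)^n), ∏ i ∈ range n, g i (k/(p-1)^i % (p-1)) = ∏ i ∈ range n, ∑ d ∈ range (p-1), g i d`.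
-/

set_option autoImplicit false

namespace Crest.Agent.CHR

open MvPolynomial Finset

/-- general digit sum -/
theorem sum_digits {R : Type*} [CommSemiring R] (b n : ℕ) (g : ℕ → ℕ → R) :
    ∑ k ∈ range (b ^ n), ∏ i ∈ range n, g i (k / b ^ i % b) =
      ∏ i ∈ range n, ∑ d ∈ range b, g i d := by
  induction n with
  | zero => simp
  | succ n ih =>
    rcases Nat.eq_zero_or_pos b with hb | hb
    · subst hb
      simp [prod_range_succ]
    have hbn : 0 < b ^ n := pow_pos hb n
    rw [prod_range_succ, ← ih, sum_mul_sum, ← sum_product']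
    symm
    refine sum_nbij' (fun q => q.1 + b ^ n * q.2) (fun k => (k % b ^ n, k / b ^ n)) ?_ ?_ ?_ ?_ ?_
    · rintro ⟨k, d⟩ hq
      simp only [mem_product, mem_range] at hq ⊢
      calc k + b ^ n * d < b ^ n + b ^ n * d := by omega
        _ = b ^ n * (d + 1) := by ring
        _ ≤ b ^ n * b := Nat.mul_le_mul_left _ hq.2
        _ = b ^ (n + 1) := (pow_succ b n).symm
    · intro k hk
      simp only [mem_product, mem_range] at hk ⊢
      refine ⟨Nat.mod_lt _ hbn, ?_⟩
      rw [Nat.div_lt_iff_lt_mul hbn, ← pow_succ']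
      exact hk
    · rintro ⟨k, d⟩ hq
      simp only [mem_product, mem_range] at hq ⊢
      rw [Nat.add_mul_mod_self_left, Nat.mod_eq_of_lt hq.1, Nat.add_mul_div_left _ _ hbn,
        Nat.div_eq_of_lt hq.1, zero_add]
    · intro k _
      exact Nat.mod_add_div k (b ^ n)
    · rintro ⟨k, d⟩ hq
      simp only [mem_product, mem_range] at hq ⊢
      rw [prod_range_succ]
      congr 1
      · refine prod_congr rfl fun i hi => ?_
        rw [mem_range] at hi
        have e1 : b ^ n * d = b ^ i * (b * (b ^ (n - 1 - i) * d)) := by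
          have : n = i + (1 + (n - 1 - i)) := by omega
          calc b ^ n * d = b ^ (i + (1 + (n - 1 - i))) * d := by rw [← this]
            _ = b ^ i * (b * (b ^ (n - 1 - i) * d)) := by
              rw [pow_add, pow_add, pow_one]; ring
        rw [e1, Nat.add_mul_div_left _ _ (pow_pos hb i), Nat.add_mul_mod_self_left]
      · rw [Nat.add_mul_div_left _ _ hbn, Nat.div_eq_of_lt hq.1, zero_add,
          Nat.mod_eq_of_lt hq.2]

/-- the `i`-th coordinate of the point number `k` of `(F_p^*)^n` -/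
def dg (p k i : ℕ) : ℕ := k / (p - 1) ^ i % (p - 1) + 1

private theorem FamCoefP_sum {p : ℕ} [hp : Fact p.Prime] (s : ℕ) :
    ∑ d ∈ range (p - 1), (((d + 1 : ℕ) : ZMod p)) ^ s = if (p - 1) ∣ s then -1 else 0 := by
  have h := FiniteField.sum_pow_units (ZMod p) s
  rw [ZMod.card] at h
  rw [← h]
  have hp1 := hp.1.one_lt
  have hne : ∀ d, d < p - 1 → (((d + 1 : ℕ) : ZMod p)) ≠ 0 := by
    intro d hd h0
    rw [ZMod.natCast_eq_zero_iff] at h0
    have := Nat.le_of_dvd (by omega) h0
    omega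
  refine sum_bij' (fun d hd => Units.mk0 ((d + 1 : ℕ) : ZMod p) (hne d (mem_range.1 hd)))
    (fun u _ => (u : ZMod p).val - 1) ?_ ?_ ?_ ?_ ?_
  · intro d hd
    exact mem_univ _
  · intro u _
    rw [mem_range]
    have h1 := ZMod.val_lt (u : ZMod p)
    omega
  · intro d hd
    rw [mem_range] at hd
    simp only [Units.val_mk0]
    rw [ZMod.val_natCast, Nat.mod_eq_of_lt (by omega)]
    omega
  · intro u _
    ext
    simp only [Units.val_mk0]
    have h1 : 0 < (u : ZMod p).val := by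
      rw [Nat.pos_iff_ne_zero]
      intro h0
      exact u.ne_zero ((ZMod.val_eq_zero _).1 h0)
    have h2 : (u : ZMod p).val - 1 + 1 = (u : ZMod p).val := by omega
    rw [h2, ZMod.natCast_zmod_val]
  · intro d hd
    simp

private theorem FamCoefP_mono {p : ℕ} [hp : Fact p.Prime] (z : ℕ → ZMod p) (m : ℕ →₀ ℕ) (c : ℚ) :
    evp p z (monomial m c) = (c : ZMod p) * ∏ j ∈ m.support, z j ^ m j := by
  classical
  unfold evp
  by_cases hc : c = 0
  · subst hc
    simp
  · rw [support_monomial, if_neg hc, sum_singleton, coeff_monomial, if_pos rfl]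

private theorem FamCoefP_PI {p : ℕ} [hp : Fact p.Prime] {c : ℚ} (hc : PI p (MvPolynomial.C c))
    (m : ℕ →₀ ℕ) : PI p (monomial m c) := by
  rw [monomial_eq]
  refine hc.mul ?_
  exact PI.prod _ fun j _ => (PI.X j).pow _

private theorem FamCoefP_split {p : ℕ} [hp : Fact p.Prime] (lo hi : ℕ) (hlh : lo ≤ hi)
    (z : ℕ → ZMod p) (y : ℕ → ZMod p) (m : ℕ →₀ ℕ) :
    ∏ j ∈ m.support, (if lo ≤ j ∧ j < hi then y (j - lo) else z j) ^ m j =
      (∏ j ∈ (Finsupp.filter (fun i => i ∉ Ico lo hi) m).support,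
        z j ^ (Finsupp.filter (fun i => i ∉ Ico lo hi) m) j) *
        ∏ i ∈ range (hi - lo), y i ^ m (lo + i) := by
  classical
  rw [← prod_filter_mul_prod_filter_not m.support (fun j => j ∉ Ico lo hi)]
  congr 1
  · rw [Finsupp.support_filter]
    refine prod_congr rfl fun j hj => ?_
    rw [mem_filter] at hj
    rw [Finsupp.filter_apply_pos (fun i => i ∉ Ico lo hi) m hj.2, if_neg (by
      intro h; exact hj.2 (mem_Ico.2 h))]
  · have e1 : ∏ i ∈ range (hi - lo), y i ^ m (lo + i) =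
        ∏ j ∈ Ico lo hi, (if lo ≤ j ∧ j < hi then y (j - lo) else z j) ^ m j := by
      rw [prod_Ico_eq_prod_range]
      refine prod_congr rfl fun i hi' => ?_
      rw [mem_range] at hi'
      rw [if_pos (by omega), Nat.add_sub_cancel_left]
    rw [e1]
    have e2 : ∀ j ∈ Ico lo hi, j ∉ (m.support.filter fun j => ¬ j ∉ Ico lo hi) →
        (if lo ≤ j ∧ j < hi then y (j - lo) else z j) ^ m j = 1 := by
      intro j hj hj2
      have : m j = 0 := by
        by_contra h0
        exact hj2 (mem_filter.2 ⟨Finsupp.mem_support_iff.2 h0, not_not.2 hj⟩)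
      rw [this, pow_zero]
    refine prod_subset ?_ e2
    intro j hj
    exact not_not.1 (mem_filter.1 hj).2

private theorem FamCoefP_key {p : ℕ} [hp : Fact p.Prime] (lo n : ℕ)
    (a : ℕ → ℕ) (e : ℕ → ℕ) (he : ∀ i < n, e (lo + i) < p - 1) (ha : ∀ i < n, a (lo + i) < p - 1) :
    (-1 : ZMod p) ^ n * ∑ k ∈ range ((p - 1) ^ n),
      (∏ i ∈ range n, ((dg p k i : ℕ) : ZMod p) ^ (p - 1 - a (lo + i))) *
        ∏ i ∈ range n, ((dg p k i : ℕ) : ZMod p) ^ e (lo + i) =
      if ∀ i < n, e (lo + i) = a (lo + i) then 1 else 0 := by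
  have h1 : ∑ k ∈ range ((p - 1) ^ n),
      (∏ i ∈ range n, ((dg p k i : ℕ) : ZMod p) ^ (p - 1 - a (lo + i))) *
        ∏ i ∈ range n, ((dg p k i : ℕ) : ZMod p) ^ e (lo + i) =
      ∏ i ∈ range n, ∑ d ∈ range (p - 1),
        (((d + 1 : ℕ) : ZMod p)) ^ (p - 1 - a (lo + i) + e (lo + i)) := by
    rw [← sum_digits (p - 1) n
      (fun i d => (((d + 1 : ℕ) : ZMod p)) ^ (p - 1 - a (lo + i) + e (lo + i)))]
    refine sum_congr rfl fun k _ => ?_
    rw [← prod_mul_distrib]
    refine prod_congr rfl fun i _ => ?_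
    rw [← pow_add]
    rfl
  rw [h1]
  simp only [FamCoefP_sum]
  split_ifs with h
  · have : ∏ i ∈ range n, (if (p - 1) ∣ (p - 1 - a (lo + i) + e (lo + i)) then (-1 : ZMod p) else 0)
        = ∏ i ∈ range n, (-1 : ZMod p) := by
      refine prod_congr rfl fun i hi => ?_
      rw [mem_range] at hi
      rw [if_pos]
      rw [h i hi]
      have := ha i hi
      have e2 : p - 1 - a (lo + i) + a (lo + i) = p - 1 := by omega
      rw [e2]
    rw [this, prod_const, card_range, ← mul_pow]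
    simp
  · push Not at h
    obtain ⟨i, hi, hne⟩ := h
    rw [prod_eq_zero (mem_range.2 hi), mul_zero]
    rw [if_neg]
    intro hdvd
    obtain ⟨c, hc⟩ := hdvd
    have h2 := ha i hi
    have h3 := he i hi
    have h4 : c < 2 := by
      by_contra hc2
      have : (p - 1) * 2 ≤ (p - 1) * c := Nat.mul_le_mul_left _ (by omega)
      omega
    have h5 : 0 < c := by
      rw [Nat.pos_iff_ne_zero]
      intro h0
      rw [h0, mul_zero] at hc
      omega
    have h6 : c = 1 := by omega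
    rw [h6, mul_one] at hc
    omega

theorem evp_coefS {p : ℕ} [hp : Fact p.Prime] {f : P} (hf : PI p f) (lo hi : ℕ) (hlh : lo ≤ hi)
    (a : ℕ → ℕ) (hdeg : f.totalDegree < p - 1) (ha : ∀ j ∈ Ico lo hi, a j < p - 1)
    (z : ℕ → ZMod p) :
    evp p z (coefS (Ico lo hi) a f) = (-1) ^ (hi - lo) *
      ∑ k ∈ range ((p - 1) ^ (hi - lo)),
        (∏ i ∈ range (hi - lo), ((dg p k i : ℕ) : ZMod p) ^ (p - 1 - a (lo + i))) *
          evp p (fun j => if lo ≤ j ∧ j < hi then ((dg p k (j - lo) : ℕ) : ZMod p) else z j) f := by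
  classical
  have hL : evp p z (coefS (Ico lo hi) a f) =
      ∑ m ∈ f.support, ((coeff m f : ℚ) : ZMod p) *
        (∏ j ∈ (Finsupp.filter (fun i => i ∉ Ico lo hi) m).support,
          z j ^ (Finsupp.filter (fun i => i ∉ Ico lo hi) m) j) *
        (if ∀ i ∈ Ico lo hi, m i = a i then 1 else 0) := by
    unfold coefS
    rw [evp_sum _ (fun m _ => FamCoefP_PI (hf.coef m) _)]
    rw [sum_filter]
    refine sum_congr rfl fun m _ => ?_
    rw [FamCoefP_mono]
    split_ifs with h
    · rw [mul_one]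
    · rw [mul_zero]
  rw [hL]
  have hR : ∀ k, (∏ i ∈ range (hi - lo), ((dg p k i : ℕ) : ZMod p) ^ (p - 1 - a (lo + i))) *
      evp p (fun j => if lo ≤ j ∧ j < hi then ((dg p k (j - lo) : ℕ) : ZMod p) else z j) f =
      ∑ m ∈ f.support, ((coeff m f : ℚ) : ZMod p) *
        (∏ j ∈ (Finsupp.filter (fun i => i ∉ Ico lo hi) m).support,
          z j ^ (Finsupp.filter (fun i => i ∉ Ico lo hi) m) j) *
        ((∏ i ∈ range (hi - lo), ((dg p k i : ℕ) : ZMod p) ^ (p - 1 - a (lo + i))) *
          ∏ i ∈ range (hi - lo), ((dg p k i : ℕ) : ZMod p) ^ m (lo + i)) := by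
    intro k
    unfold evp
    rw [mul_sum]
    refine sum_congr rfl fun m _ => ?_
    rw [FamCoefP_split lo hi hlh z (fun i => ((dg p k i : ℕ) : ZMod p)) m]
    ring
  simp only [hR]
  rw [sum_comm, mul_sum]
  refine sum_congr rfl fun m hm => ?_
  rw [← mul_sum]
  have hdegm : ∀ j, m j ≤ f.totalDegree := by
    intro j
    have h1 := le_totalDegree hm
    rw [Finsupp.sum] at h1
    by_cases hj : m j = 0
    · omega
    · exact (single_le_sum (f := fun j => m j) (fun _ _ => Nat.zero_le _)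
        (Finsupp.mem_support_iff.2 hj)).trans h1
  have hk := FamCoefP_key (p := p) lo (hi - lo) a (fun j => m j)
    (fun i _ => (hdegm _).trans_lt hdeg)
    (fun i hi' => ha _ (mem_Ico.2 ⟨by omega, by omega⟩))
  have hiff : (∀ i ∈ Ico lo hi, m i = a i) ↔ (∀ i < hi - lo, m (lo + i) = a (lo + i)) := by
    constructor
    · intro h i hi'
      exact h _ (mem_Ico.2 ⟨by omega, by omega⟩)
    · intro h j hj
      rw [mem_Ico] at hj
      have := h (j - lo) (by omega)
      rwa [Nat.add_sub_cancel' hj.1] at this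
  rw [if_congr hiff rfl rfl, ← hk]
  ring

theorem PI.coefS {p : ℕ} [hp : Fact p.Prime] {f : P} (hf : PI p f) (S : Finset ℕ) (a : ℕ → ℕ) :
    PI p (Crest.Agent.CHR.coefS S a f) := by
  unfold Crest.Agent.CHR.coefS
  exact PI.sum _ fun m _ => FamCoefP_PI (hf.coef m) _

end Crest.Agent.CHR
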