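import Mathlib

/-!
# Row 316, module M4: Pham systems.  Definitions.

Variables are natural numbers; `S` is the finite block of unknowns, the other variables are
parameters.  The system is `X_j ^ m j = q j`, `j ∈ S`, where `q j` has `S`-degree `< m j`.
-/

set_option autoImplicit false

namespace Crest.Agent.CHR

open MvPolynomial Finset

/-- polynomials in countably many variables -/
abbrev P := MvPolynomial ℕ ℚ

/-- total degree in the variables of the block `S` -/
noncomputable def sdeg (S : Finset ℕ) (f : P) : ℕ :=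
  f.support.sup (fun m => ∑ i ∈ S, m i)

/-- coefficient extraction: the coefficient of `∏_{i ∈ S} X_i ^ a i`, a polynomial in the other
variables -/
noncomputable def coefS (S : Finset ℕ) (a : ℕ → ℕ) (f : P) : P :=
  ∑ m ∈ f.support.filter (fun m => ∀ i ∈ S, m i = a i),
    monomial (Finsupp.filter (fun i => i ∉ S) m) (coeff m f)

/-- `∏_{j ∈ S} ∑_{k ≤ K} q_j^k X_j^{m_j (K-k)}` -/
noncomputable def denS (S : Finset ℕ) (m : ℕ → ℕ) (q : ℕ → P) (K : ℕ) : P :=
  ∏ j ∈ S, ∑ k ∈ range (K + 1), q j ^ k * X j ^ (m j * (K - k))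

/-- residue functional -/
noncomputable def resS (S : Finset ℕ) (m : ℕ → ℕ) (q : ℕ → P) (K : ℕ) (g : P) : P :=
  coefS S (fun j => m j * K + m j - 1) (g * denS S m q K)

/-- Jacobian determinant of the system, as a Leibniz sum over all maps `σ : S → S`
(`prodSgn σ = 0` if `σ` is not injective) -/
noncomputable def jacS (S : Finset ℕ) (m : ℕ → ℕ) (q : ℕ → P) : P :=
  Matrix.det (fun i j : S => pderiv (j : ℕ) (X (i : ℕ) ^ m i - q i))

/-- trace -/
noncomputable def trS (S : Finset ℕ) (m : ℕ → ℕ) (q : ℕ → P) (K : ℕ) (g : P) : P :=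
  resS S m q K (g * jacS S m q)

/-- the product over the solutions (norm), computed from the traces of the powers; `N` = number of
solutions, `y` = an auxiliary variable -/
noncomputable def nrS (S : Finset ℕ) (m : ℕ → ℕ) (q : ℕ → P) (y K N : ℕ) (g : P) : P :=
  coefS {y} (fun _ => N) (∑ k ∈ range (N + 1), C (1 / (k.factorial : ℚ)) *
    (∑ l ∈ Icc 1 N, C ((-1 : ℚ) ^ (l - 1) / (l : ℚ)) * trS S m q K (g ^ l) * X y ^ l) ^ k)

/-- The points `Z i` (`i < N`) are the solutions of the system over the parameter point `v`, with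
multiplicity. -/
structure Sol (S : Finset ℕ) (m : ℕ → ℕ) (q : ℕ → P) (v : ℕ → ℂ) {N : ℕ} (Z : Fin N → ℕ → ℂ) :
    Prop where
  off : ∀ i, ∀ j ∉ S, Z i j = v j
  sol : ∀ i, ∀ j ∈ S, Z i j ^ m j = aeval (Z i) (q j)
  all : ∀ x : ℕ → ℂ, (∀ j ∉ S, x j = v j) → (∀ j ∈ S, x j ^ m j = aeval x (q j)) → ∃ i, Z i = x
  tr : ∀ K g, sdeg S g ≤ K → ∑ i, aeval (Z i) g = aeval v (trS S m q K g)

/-- Pham system -/
def IsPham (S : Finset ℕ) (m : ℕ → ℕ) (q : ℕ → P) : Prop :=
  ∀ j ∈ S, 0 < m j ∧ sdeg S (q j) < m j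

end Crest.Agent.CHR
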