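import Crest.Agent.CHR.Arith
import Crest.Agent.CHR.PhamDefs

/-!
# Row 316, module M7: families of polynomials computable in the counting hierarchy.  Definitions.
-/

set_option autoImplicit false

namespace Crest.Agent.CHR

open MvPolynomial Finset

/-- L1 norm -/
noncomputable def l1q (f : P) : ℚ := ∑ m ∈ f.support, |coeff m f|

/-- quantitative bounds: variables, degree, denominators, L1 norm -/
structure Bnd (B : ℕ) (f : P) : Prop where
  vars : ∀ j ∈ f.vars, j < B
  deg : f.totalDegree ≤ 2 ^ B
  int : ∃ G : MvPolynomial ℕ ℤ, map (Int.castRingHom ℚ) G = C ((((2 ^ B).factorial : ℚ)) ^ (2 ^ B)) * f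
  l1 : l1q f ≤ 2 ^ (2 ^ B)

/-- evaluation of a rational polynomial modulo `p` (meaningful if `p` does not divide the
denominators) -/
noncomputable def evp (p : ℕ) [Fact p.Prime] (z : ℕ → ZMod p) (f : P) : ZMod p :=
  ∑ m ∈ f.support, ((coeff m f : ℚ) : ZMod p) * ∏ j ∈ m.support, z j ^ m j

/-- the assignment coded by the number `A`: the digits of `A` in base `p` -/
def asg (p A : ℕ) : ℕ → ZMod p := fun j => ((A / p ^ j : ℕ) : ZMod p)

open Classical in
/-- the value at `z = ⟨w, ⟨p, A⟩⟩` (`0` if `p` is not a prime `> 2 ^ b(|w|)`) -/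
noncomputable def famVal (F : W → P) (b : Polynomial ℕ) (z : W) : ℕ :=
  if h : (val (fstB (sndB z))).Prime ∧ 2 ^ (b.eval (fstB z).length) < val (fstB (sndB z)) then
    (haveI := Fact.mk h.1
     (evp (val (fstB (sndB z))) (asg (val (fstB (sndB z))) (val (sndB (sndB z)))) (F (fstB z))).val)
  else 0

/-- good families -/
def IsFam (F : W → P) : Prop :=
  ∃ b : Polynomial ℕ, (∀ w, Bnd (b.eval w.length) (F w)) ∧ CHN (famVal F b)

end Crest.Agent.CHR
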