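import Crest.Agent.CHR.FamCoefP

/-!
CHUNK R316-FAMDETM (medium): the determinant as a Leibniz sum over all maps, coded by numbers.
PROOF.  `k < n^n` codes the map `σ_k : i ↦ k / n^i % n` (bijection `range (n^n) ≃ (Fin n → Fin n)`, `finFunctionFinEquiv`).  `sgw n k = 0` if `σ_k` is
not injective (a factor `i < j` with `σ i = σ j`), and the sign of the permutation otherwise (`Equiv.Perm.sign` =
product over pairs: `Equiv.Perm.prod_Ioi_comp_eq_sign_mul_prod`, `Equiv.Perm.sign_eq_prod_prod_Ioi` or similar).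
`Matrix.det_apply'` (with the transpose: `det M = ∑ σ, sign σ * ∏ i, M (σ i) i`, `Matrix.det_transpose`).
For `detM_Ico`: reindex `Ico lo hi ≃ Fin (hi - lo)` (`Matrix.det_submatrix_equiv_self`).
-/

set_option autoImplicit false

namespace Crest.Agent.CHR

open Finset

/-- `-1`, `0` or `1` -/
def sg2 (a b : ℕ) : ℤ := if a < b then 1 else if a = b then 0 else -1

/-- sign weight of the map number `k` -/
def sgw (n k : ℕ) : ℤ :=
  ∏ i ∈ range n, ∏ j ∈ range n, if i < j then sg2 (k / n ^ i % n) (k / n ^ j % n) else 1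

private def sgF (n : ℕ) (f : Fin n → Fin n) : ℤ :=
  ∏ i : Fin n, ∏ j : Fin n, if i < j then sg2 (f i) (f j) else 1

private theorem sgF_perm {n : ℕ} (σ : Equiv.Perm (Fin n)) :
    sgF n σ = ((Equiv.Perm.sign σ : ℤˣ) : ℤ) := by
  rw [Equiv.Perm.sign_eq_prod_prod_Ioi]
  unfold sgF
  rw [Units.coe_prod]
  refine Finset.prod_congr rfl (fun i _ => ?_)
  rw [Units.coe_prod]
  have h1 : (Finset.univ.filter (fun j : Fin n => i < j)) = Finset.Ioi i := by
    ext j
    simp
  rw [← h1, Finset.prod_filter]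
  refine Finset.prod_congr rfl (fun j _ => ?_)
  split_ifs with h2 h3
  · unfold sg2
    rw [if_pos (by exact_mod_cast h3)]
    simp
  · have h4 : σ i ≠ σ j := fun h => h2.ne (σ.injective h)
    have h5 : ¬ ((σ i : ℕ) < (σ j : ℕ)) := by exact_mod_cast h3
    have h6 : ¬ ((σ i : ℕ) = (σ j : ℕ)) := fun h => h4 (Fin.ext h)
    unfold sg2
    rw [if_neg h5, if_neg h6]
    simp
  · simp

private theorem sgF_zero {n : ℕ} (f : Fin n → Fin n) (hf : ¬ Function.Injective f) :
    sgF n f = 0 := by
  unfold Function.Injective at hf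
  push Not at hf
  obtain ⟨a, b, hab, hne⟩ := hf
  unfold sgF
  rcases lt_or_gt_of_ne hne with h | h
  · refine Finset.prod_eq_zero (Finset.mem_univ a) (Finset.prod_eq_zero (Finset.mem_univ b) ?_)
    rw [if_pos h, hab]
    simp [sg2]
  · refine Finset.prod_eq_zero (Finset.mem_univ b) (Finset.prod_eq_zero (Finset.mem_univ a) ?_)
    rw [if_pos h, hab]
    simp [sg2]

private theorem sgw_eq {n : ℕ} (k : Fin (n ^ n)) :
    sgw n k = sgF n (finFunctionFinEquiv.symm k) := by
  unfold sgw sgF
  rw [← Fin.prod_univ_eq_prod_range (fun i => ∏ j ∈ range n, if i < j then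
    sg2 ((k : ℕ) / n ^ i % n) ((k : ℕ) / n ^ j % n) else 1) n]
  refine Finset.prod_congr rfl (fun i _ => ?_)
  rw [← Fin.prod_univ_eq_prod_range (fun j => if (i : ℕ) < j then
    sg2 ((k : ℕ) / n ^ (i : ℕ) % n) ((k : ℕ) / n ^ j % n) else 1) n]
  refine Finset.prod_congr rfl (fun j _ => ?_)
  rfl

theorem detM_fin {R : Type*} [CommRing R] (n : ℕ) (M : ℕ → ℕ → R) :
    Matrix.det (fun i j : Fin n => M i j) =
      ∑ k ∈ range (n ^ n), (sgw n k : R) * ∏ i ∈ range n, M i (k / n ^ i % n) := by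
  rw [← Fin.sum_univ_eq_sum_range (fun k => (sgw n k : R) * ∏ i ∈ range n, M i (k / n ^ i % n))
    (n ^ n)]
  have h1 : ∀ k : Fin (n ^ n), (sgw n k : R) * ∏ i ∈ range n, M i ((k : ℕ) / n ^ i % n) =
      (fun f : Fin n → Fin n => (sgF n f : R) * ∏ i : Fin n, M i (f i))
        (finFunctionFinEquiv.symm k) := by
    intro k
    rw [sgw_eq, ← Fin.prod_univ_eq_prod_range (fun i => M i ((k : ℕ) / n ^ i % n)) n]
    rfl
  rw [Finset.sum_congr rfl (fun k _ => h1 k)]
  rw [Equiv.sum_comp finFunctionFinEquiv.symm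
    (fun f : Fin n → Fin n => (sgF n f : R) * ∏ i : Fin n, M i (f i))]
  have h0 : Matrix.det (Matrix.of (fun i j : Fin n => M i j)) =
      ∑ f : Fin n → Fin n, (sgF n f : R) * ∏ i : Fin n, M i (f i) := ?_
  · exact h0
  rw [← Matrix.det_transpose, Matrix.det_apply']
  refine Finset.sum_of_injOn (fun σ : Equiv.Perm (Fin n) => (σ : Fin n → Fin n)) ?_ ?_ ?_ ?_
  · intro σ _ τ _ h
    exact Equiv.coe_fn_injective h
  · intro σ _
    exact Finset.mem_coe.2 (Finset.mem_univ _)
  · intro f _ hf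
    have h2 : ¬ Function.Injective f := by
      intro hinj
      apply hf
      exact ⟨Equiv.ofBijective f (Finite.injective_iff_bijective.1 hinj),
        Finset.mem_coe.2 (Finset.mem_univ _), rfl⟩
    simp only [sgF_zero f h2, Int.cast_zero, zero_mul]
  · intro σ _
    simp only [sgF_perm]
    rfl

theorem detM_Ico {R : Type*} [CommRing R] (lo hi : ℕ) (M : ℕ → ℕ → R) :
    Matrix.det (fun i j : Ico lo hi => M i j) =
      ∑ k ∈ range ((hi - lo) ^ (hi - lo)), (sgw (hi - lo) k : R) *
        ∏ i ∈ range (hi - lo), M (lo + i) (lo + k / (hi - lo) ^ i % (hi - lo)) := by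
  have h1 := detM_fin (hi - lo) (fun a b => M (lo + a) (lo + b))
  rw [← h1]
  let e : Fin (hi - lo) ≃ Ico lo hi :=
    { toFun := fun i => ⟨lo + i, by
        have := i.2
        rw [mem_Ico]
        omega⟩
      invFun := fun x => ⟨(x : ℕ) - lo, by
        have := mem_Ico.1 x.2
        omega⟩
      left_inv := fun i => by
        ext
        simp
      right_inv := fun x => by
        have := mem_Ico.1 x.2
        apply Subtype.ext
        simp only
        omega }
  exact (Matrix.det_submatrix_equiv_self e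
    (Matrix.of (fun i j : Ico lo hi => M i j))).symm

end Crest.Agent.CHR
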