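import Crest.Agent.CHR.FamInt

/-!
CHUNK R316-FAMEVP: evaluation modulo `p` is a ring homomorphism on `p`-integral polynomials.
-/

set_option autoImplicit false

namespace Crest.Agent.CHR

open MvPolynomial Finset

/-- `p`-integral polynomials -/
def PI (p : ℕ) (f : P) : Prop := ∃ D : ℕ, ¬ p ∣ D ∧ IntD D f

theorem Bnd.pi {B p : ℕ} {f : P} (h : Bnd B f) (hp : p.Prime) (hB : 2 ^ B < p) : PI p f :=
  ⟨dnB B, dnB_not_dvd hp hB, h.intD⟩

section
variable {p : ℕ} [hp : Fact p.Prime]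

theorem PI.zero : PI p 0 := ⟨1, fun h => hp.1.one_lt.ne' (Nat.dvd_one.mp h), IntD.zero 1⟩

theorem PI.add {f g : P} (hf : PI p f) (hg : PI p g) : PI p (f + g) := by
  obtain ⟨D, hD, h1⟩ := hf
  obtain ⟨E, hE, h2⟩ := hg
  exact ⟨D * E, fun h => (hp.1.dvd_mul.1 h).elim hD hE,
    (h1.mono (dvd_mul_right D E)).add (h2.mono (dvd_mul_left E D))⟩

theorem PI.neg {f : P} (hf : PI p f) : PI p (-f) := by
  obtain ⟨D, hD, h1⟩ := hf
  exact ⟨D, hD, h1.neg⟩

theorem PI.mul {f g : P} (hf : PI p f) (hg : PI p g) : PI p (f * g) := by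
  obtain ⟨D, hD, h1⟩ := hf
  obtain ⟨E, hE, h2⟩ := hg
  exact ⟨D * E, fun h => (hp.1.dvd_mul.1 h).elim hD hE, h1.mul h2⟩

theorem PI.sum {ι : Type*} (s : Finset ι) {f : ι → P} (h : ∀ i ∈ s, PI p (f i)) :
    PI p (∑ i ∈ s, f i) :=
  Finset.sum_induction f (PI p) (fun _ _ ha hb => ha.add hb) PI.zero h

theorem PI.C {a b : ℕ} (hb : ¬ p ∣ b) : PI p (MvPolynomial.C ((a : ℚ) / (b : ℚ))) := by
  refine ⟨b, hb, IntD.C ⟨a, ?_⟩⟩
  have hb0 : (b : ℚ) ≠ 0 := by
    intro h
    have : b = 0 := by exact_mod_cast h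
    exact hb (this ▸ dvd_zero p)
  push_cast
  field_simp

theorem PI.one : PI p 1 := by
  have h := PI.C (p := p) (a := 1) (b := 1) (fun h => hp.1.one_lt.ne' (Nat.dvd_one.mp h))
  simpa using h

theorem PI.prod {ι : Type*} (s : Finset ι) {f : ι → P} (h : ∀ i ∈ s, PI p (f i)) :
    PI p (∏ i ∈ s, f i) :=
  Finset.prod_induction f (PI p) (fun _ _ ha hb => ha.mul hb) PI.one h

theorem PI.pow {f : P} (hf : PI p f) (n : ℕ) : PI p (f ^ n) := by
  induction n with
  | zero => simpa using PI.one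
  | succ n ih => rw [pow_succ]; exact ih.mul hf

theorem PI.X (j : ℕ) : PI p (MvPolynomial.X j) :=
  ⟨1, fun h => hp.1.one_lt.ne' (Nat.dvd_one.mp h), IntD.X j⟩

theorem PI.coef {f : P} (hf : PI p f) (m : ℕ →₀ ℕ) : PI p (MvPolynomial.C (coeff m f)) := by
  obtain ⟨D, hD, h1⟩ := hf
  exact ⟨D, hD, IntD.C (IntD.iff.1 h1 m)⟩

theorem cast_of_den {D : ℕ} (hD : ¬ p ∣ D) {a : ℚ} {k : ℤ} (h : (k : ℚ) = D * a) :
    ((a : ℚ) : ZMod p) = (D : ZMod p)⁻¹ * (k : ZMod p) := by
  have hD0 : (D : ZMod p) ≠ 0 := fun h => hD ((ZMod.natCast_eq_zero_iff _ _).1 h)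
  have hden0 : (a.den : ℚ) ≠ 0 := by exact_mod_cast a.den_ne_zero
  have e1 : (k : ℚ) * a.den = D * a.num := by
    rw [h, mul_assoc]
    congr 1
    exact Rat.mul_den_eq_num a
  have e2 : k * (a.den : ℤ) = D * a.num := by exact_mod_cast e1
  have hdvd : a.den ∣ D := by
    have h1 : (a.den : ℤ) ∣ (D : ℤ) * a.num := ⟨k, by rw [← e2]; ring⟩
    have h2 : IsCoprime (a.den : ℤ) a.num := by
      rw [Int.isCoprime_iff_nat_coprime]
      simpa using a.reduced.symm
    exact_mod_cast h2.dvd_of_dvd_mul_right h1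
  have hden : (a.den : ZMod p) ≠ 0 := fun h =>
    hD (((ZMod.natCast_eq_zero_iff _ _).1 h).trans hdvd)
  have e3 : (k : ZMod p) * (a.den : ZMod p) = (D : ZMod p) * (a.num : ZMod p) := by
    have := congrArg (Int.cast : ℤ → ZMod p) e2
    push_cast at this
    exact this
  rw [Rat.cast_def, div_eq_iff hden, mul_assoc, e3, ← mul_assoc, inv_mul_cancel₀ hD0, one_mul]

theorem evp_eq {D : ℕ} (hD : ¬ p ∣ D) {f : P} {G : MvPolynomial ℕ ℤ}
    (h : map (Int.castRingHom ℚ) G = MvPolynomial.C (D : ℚ) * f) (z : ℕ → ZMod p) :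
    evp p z f = (D : ZMod p)⁻¹ * eval₂ (Int.castRingHom (ZMod p)) z G := by
  have hc : ∀ m, ((coeff m G : ℤ) : ℚ) = D * coeff m f := by
    intro m
    have := congrArg (coeff m) h
    rwa [coeff_map, coeff_C_mul] at this
  have hD0 : (D : ℚ) ≠ 0 := by
    intro h
    have : D = 0 := by exact_mod_cast h
    exact hD (this ▸ dvd_zero p)
  have hs : f.support = G.support := by
    ext m
    rw [mem_support_iff, mem_support_iff, not_iff_not]
    constructor
    · intro h0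
      have := hc m
      rw [h0, mul_zero] at this
      exact_mod_cast this
    · intro h0
      have := hc m
      rw [h0, Int.cast_zero] at this
      exact (mul_eq_zero.1 this.symm).resolve_left hD0
  rw [evp, eval₂_eq, hs, Finset.mul_sum]
  refine Finset.sum_congr rfl (fun m _ => ?_)
  rw [cast_of_den hD (hc m), ← mul_assoc]
  rfl

theorem evp_zero (z : ℕ → ZMod p) : evp p z 0 = 0 := by
  simp [evp]

theorem evp_add {f g : P} (hf : PI p f) (hg : PI p g) (z : ℕ → ZMod p) :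
    evp p z (f + g) = evp p z f + evp p z g := by
  obtain ⟨D, hD, h1⟩ := hf
  obtain ⟨E, hE, h2⟩ := hg
  have hDE : ¬ p ∣ D * E := fun h => (hp.1.dvd_mul.1 h).elim hD hE
  obtain ⟨G₁, e1⟩ := h1.mono (dvd_mul_right D E)
  obtain ⟨G₂, e2⟩ := h2.mono (dvd_mul_left E D)
  rw [evp_eq hDE e1, evp_eq hDE e2, evp_eq hDE (G := G₁ + G₂) (by rw [map_add, e1, e2, mul_add]),
    eval₂_add, mul_add]

theorem evp_neg {f : P} (hf : PI p f) (z : ℕ → ZMod p) : evp p z (-f) = -evp p z f := by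
  obtain ⟨D, hD, G, e⟩ := hf
  rw [evp_eq hD e, evp_eq hD (G := -G) (by rw [map_neg, e, mul_neg])]
  rw [← coe_eval₂Hom, map_neg, mul_neg]

theorem evp_mul {f g : P} (hf : PI p f) (hg : PI p g) (z : ℕ → ZMod p) :
    evp p z (f * g) = evp p z f * evp p z g := by
  obtain ⟨D, hD, G₁, e1⟩ := hf
  obtain ⟨E, hE, G₂, e2⟩ := hg
  have hDE : ¬ p ∣ D * E := fun h => (hp.1.dvd_mul.1 h).elim hD hE
  rw [evp_eq hD e1, evp_eq hE e2, evp_eq hDE (G := G₁ * G₂) (by
    rw [map_mul, e1, e2, Nat.cast_mul, MvPolynomial.C_mul]; ring), eval₂_mul]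
  push_cast
  rw [mul_inv]
  ring

theorem evp_sum {ι : Type*} (s : Finset ι) {f : ι → P} (h : ∀ i ∈ s, PI p (f i))
    (z : ℕ → ZMod p) : evp p z (∑ i ∈ s, f i) = ∑ i ∈ s, evp p z (f i) := by
  classical
  induction s using Finset.induction_on with
  | empty => simp [evp_zero]
  | insert a s ha ih =>
    rw [Finset.sum_insert ha, Finset.sum_insert ha,
      evp_add (h a (Finset.mem_insert_self a s)) (PI.sum s (fun i hi => h i (Finset.mem_insert_of_mem hi))),
      ih (fun i hi => h i (Finset.mem_insert_of_mem hi))]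

theorem evp_C (a : ℚ) (z : ℕ → ZMod p) : evp p z (MvPolynomial.C a) = (a : ZMod p) := by
  rw [evp]
  by_cases ha : a = 0
  · simp [ha]
  · have : (MvPolynomial.C a : P).support = {0} := by
      rw [← monomial_zero', support_monomial, if_neg ha]
    rw [this]
    simp

theorem evp_one (z : ℕ → ZMod p) : evp p z 1 = 1 := by
  rw [← MvPolynomial.C_1, evp_C]; simp

theorem evp_prod {ι : Type*} (s : Finset ι) {f : ι → P} (h : ∀ i ∈ s, PI p (f i))
    (z : ℕ → ZMod p) : evp p z (∏ i ∈ s, f i) = ∏ i ∈ s, evp p z (f i) := by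
  classical
  induction s using Finset.induction_on with
  | empty => simp [evp_one]
  | insert a s ha ih =>
    rw [Finset.prod_insert ha, Finset.prod_insert ha,
      evp_mul (h a (Finset.mem_insert_self a s)) (PI.prod s (fun i hi => h i (Finset.mem_insert_of_mem hi))),
      ih (fun i hi => h i (Finset.mem_insert_of_mem hi))]

theorem evp_pow {f : P} (hf : PI p f) (n : ℕ) (z : ℕ → ZMod p) :
    evp p z (f ^ n) = evp p z f ^ n := by
  induction n with
  | zero => rw [pow_zero, pow_zero, evp_one]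
  | succ n ih => rw [pow_succ, pow_succ, evp_mul (hf.pow n) hf, ih]

theorem evp_div {a b : ℕ} (hb : ¬ p ∣ b) (z : ℕ → ZMod p) :
    evp p z (MvPolynomial.C ((a : ℚ) / (b : ℚ))) = (a : ZMod p) * (b : ZMod p)⁻¹ := by
  have hb0 : (b : ℚ) ≠ 0 := by
    intro h
    have : b = 0 := by exact_mod_cast h
    exact hb (this ▸ dvd_zero p)
  rw [evp_C, cast_of_den hb (k := (a : ℤ)) (by push_cast; field_simp)]
  push_cast
  ring

theorem evp_X (j : ℕ) (z : ℕ → ZMod p) : evp p z (MvPolynomial.X j) = z j := by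
  rw [evp_eq (D := 1) (fun h => hp.1.one_lt.ne' (Nat.dvd_one.mp h)) (G := MvPolynomial.X j) (by simp)]
  simp

theorem evp_congr {f : P} {z z' : ℕ → ZMod p} (h : ∀ j ∈ f.vars, z j = z' j) :
    evp p z f = evp p z' f := by
  rw [evp, evp]
  refine Finset.sum_congr rfl (fun m hm => ?_)
  congr 1
  refine Finset.prod_congr rfl (fun j hj => ?_)
  rw [h j ((mem_vars_iff_mem_support j).2 ⟨m, hm, hj⟩)]

end

end Crest.Agent.CHR
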