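import Crest.Agent.CHR.MkDefs

/-!
CHUNK R316-FAMG1 (medium): numbers and the families `χ`, `h`.
PROOF HINTS.  `CHN_tW`: `CHN.polyLen CHF.id tPoly`.  `CHN_powLen`: `a w ^ (q(|w|))` is computed by bounded recursion
(`CHN.rec'` in ArPow.lean, number of steps `q(|w|)`, all values `< 2^(q(|w|) * r(|w|))`), or `CHN.powMod` with the modulus
`2^(r(|w|) q(|w|)) + 1` larger than the value.
`chi_fam`: `IsFam.nr` with `lo = |w|`, `hi = tW w`, `m = 5`, `K = 6 * 5^mY`, `N = 5^mY`, `y = tW w + 7`,
`q z = qY` of `fstB z` at the index `val (sndB z)` (`IsFam.pderiv`, `IsFam.mul`, `IsFam.const`, `IsFam.neg`, `IsFam.var`),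
then `.congr` (`fstB_pnD`, `val_sndB_pnD`).  Sums over `Ico |w| (tW w)`: `∑ j ∈ Ico n (n+m), F j = ∑ i ∈ range m, F (n+i)`.
`h_fam`: `IsFam.coef` for the family `z ↦ chi (fstB (fstB z))`, exponents `a u = if val (sndB u) = vt then i else j`.
`CHF.fst`, `CHF.snd`, `IsFam.comp` for reindexing.
-/

set_option autoImplicit false

namespace Crest.Agent.CHR

open MvPolynomial Finset

theorem CHN_tW : CHN tW := (CHN.polyLen CHF.id tPoly).congr tPoly_eval

theorem CHN_mY : CHN mY :=
  (CHN.polyLen CHF.id (9 * (Polynomial.X + 1) ^ 2)).congr (fun w => by simp [mY])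

/-- powers with polynomially bounded exponent -/
theorem CHN_powLen {b : W → ℕ} (hb : CHN b) {e : W → ℕ} (he : CHN e) (q : Polynomial ℕ)
    (hq : ∀ w, e w ≤ q.eval w.length) : CHN (fun w => b w ^ e w) := by
  obtain ⟨p, hp⟩ := hb.bound
  have hM : CHN (fun w => 2 ^ ((p * q).eval w.length) + 1) :=
    (CHN.twoPow CHF.id (p * q)).add (CHN.const 1)
  refine (CHN.powMod hb he hM (fun _ => Nat.succ_pos _)).congr (fun w => ?_)
  refine Nat.mod_eq_of_lt (Nat.lt_succ_of_le ?_)
  rw [Polynomial.eval_mul, pow_mul]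
  calc b w ^ e w ≤ (2 ^ p.eval w.length) ^ e w := Nat.pow_le_pow_left (hp w).le _
    _ ≤ (2 ^ p.eval w.length) ^ q.eval w.length :=
        Nat.pow_le_pow_right (by positivity) (hq w)

/-- shorter index: `w = fstB z` -/
theorem tW_fst_le (z : W) : tW (fstB z) ≤ tPoly.eval z.length := by
  rw [← tPoly_eval]
  exact poly_mono tPoly (len_fstB_le z)

theorem isFam_one : IsFam (fun _ => (1 : P)) :=
  (IsFam.const (CHN.const 1) (CHN.const 1) (fun _ => one_pos)).congr (fun w => by simp)

variable (nb D : W → ℕ) (c : Polynomial ℕ)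

theorem sentQ_pderiv_fam : IsFam (fun z => pderiv (val (sndB z)) (sentQ (fstB z))) :=
  IsFam.pderiv CHN.var (sentQ_fam.comp CHF.fst)

theorem qY_fam {th : W → P} (hth : IsFam th) :
    IsFam (fun z => (mkA nb D c (fstB z)).qY (th (fstB z)) (val (sndB z))) := by
  have h6 : IsFam (fun _ : W => (C (-1 / 6) : P)) :=
    ((IsFam.const (CHN.const 1) (CHN.const 6) (fun _ => by norm_num)).neg).congr (fun w => by
      rw [← map_neg]
      congr 1
      norm_num)
  exact ((h6.mul (hth.comp CHF.fst)).mul sentQ_pderiv_fam).congr (fun w => rfl)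

theorem GY_fam : IsFam (fun w => (mkA nb D c w).GY) := by
  have h1 : IsFam (fun w => ∑ i ∈ range (mY w),
      (X (Min.min (w.length + i) (tPoly.eval w.length)) : P) ^ 6) := by
    refine IsFam.sum2 (N := mY)
      (F := fun w i => (X (Min.min (w.length + i) (tPoly.eval w.length)) : P) ^ 6) CHN_mY ?_
    refine IsFam.pow (N := fun _ => 6) (CHN.const 6) ?_
    exact IsFam.varMin (CHN.len.fst.add CHN.var) CHF.fst tPoly len_fstB_le
  refine (isFam_one.add h1).congr (fun w => ?_)
  unfold Asm.GY Asm.SY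
  rw [mkA_n, mkA_tt]
  congr 1
  unfold tW
  rw [Finset.sum_Ico_eq_sum_range, Nat.add_sub_cancel_left]
  refine Finset.sum_congr rfl fun i hi => ?_
  rw [min_eq_left]
  rw [tPoly_eval]
  unfold tW
  have := Finset.mem_range.1 hi
  omega

private theorem FamG1_var (s : ℕ) : IsFam (fun w => (X (tW w + s) : P)) := by
  refine IsFam.var (CHN_tW.add (CHN.const s)) (tPoly + Polynomial.C s) (fun w => ?_)
  rw [Polynomial.eval_add, tPoly_eval, Polynomial.eval_C]

theorem chi_fam : IsFam (fun w => (mkA nb D c w).chi) := by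
  have h5 : CHN (fun w => 5 ^ mY w) := by
    refine CHN_powLen (CHN.const 5) CHN_mY (9 * (Polynomial.X + 1) ^ 2) (fun w => ?_)
    simp [mY]
  have hr : ∀ w : W, (tPoly + Polynomial.C 7).eval w.length = tW w + 7 := fun w => by
    rw [Polynomial.eval_add, tPoly_eval, Polynomial.eval_C]
  have h := IsFam.nr (lo := fun w => w.length) (hi := tW) (m := fun _ => 5)
    (K := fun w => 6 * 5 ^ mY w) (N := fun w => 5 ^ mY w) (y := fun w => tW w + 7)
    (q := fun z => (mkA nb D c (fstB z)).qY (X (tW (fstB z) + 5)) (val (sndB z)))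
    (g := fun w => X (tW w + 6) - (X (tW w + 5) * sentQ w + (mkA nb D c w).GY))
    CHN.len CHN_tW (CHN.const 5) ((CHN.const 6).mul h5) h5 (CHN_tW.add (CHN.const 7))
    (tPoly + Polynomial.C 7) (fun w => by rw [hr]; omega) (fun w => by rw [hr])
    (qY_fam nb D c (th := fun w => X (tW w + 5)) (FamG1_var 5))
    ((FamG1_var 6).sub (((FamG1_var 5).mul sentQ_fam).add (GY_fam nb D c)))
  refine h.congr (fun w => ?_)
  simp only [fstB_pnD, val_sndB_pnD]
  rfl

/-- `z = pn (pn w i) j` -/
theorem h_fam : IsFam (fun z =>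
    (mkA nb D c (fstB (fstB z))).h (val (sndB (fstB z))) (val (sndB z))) := by
  classical
  have hff : CHF (fun z => fstB (fstB z)) := CHF.fst.comp CHF.fst
  have htt : CHN (fun z => tW (fstB (fstB z))) := CHN_tW.comp hff
  have ha : CHN (fun u => if val (sndB u) = tW (fstB (fstB (fstB u))) + 5
      then val (sndB (fstB (fstB u))) else val (sndB (fstB u))) := by
    refine CHN.iteD (CHN.eq CHN.var ?_) ?_ CHN.var.fst
    · exact (CHN_tW.comp (hff.comp CHF.fst)).add (CHN.const 5)
    · exact CHN.var.comp hff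
  have h := IsFam.coef (lo := fun z => tW (fstB (fstB z)) + 5)
    (hi := fun z => tW (fstB (fstB z)) + 5 + 2)
    (htt.add (CHN.const 5)) ((htt.add (CHN.const 5)).add (CHN.const 2)) ha
    (tPoly + Polynomial.C 7) (fun z => by
      rw [Polynomial.eval_add, Polynomial.eval_C]
      have h1 : tW (fstB (fstB z)) ≤ tPoly.eval z.length :=
        (tW_fst_le (fstB z)).trans (poly_mono tPoly (len_fstB_le z))
      omega) ((chi_fam nb D c).comp hff)
  refine h.congr (fun z => ?_)
  simp only [fstB_pnD, val_sndB_pnD]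
  rfl

end Crest.Agent.CHR
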