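import Crest.Agent.CHR.FamG1

/-!
CHUNK R316-FAMG2 (medium): the families `χ_R`, `H`, `G_D`, `Rt`.
PROOF HINTS.  Double sums/products over `range nb`: `IsFam.sum`, `IsFam.prod` twice, inner index `pn (pn w i) j`.
`X i ^ k`: `IsFam.pow`, `IsFam.var`.  `Rt_fam`: `IsFam.nr` with `lo = 0` (`range n = Ico 0 n`), `m = 2 D - 1`,
`K = K1`, `N = (2D-1)^|w|` (`CHN_powLen`), `q z = C (1/(2D)) * X vK * pderiv (val (sndB z)) (H ^ 2)` of `fstB z`
(`IsFam.const` needs positive denominators: use `2 * D w` if `0 < D w`; hypothesis `hD0`).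
-/

set_option autoImplicit false

namespace Crest.Agent.CHR

open MvPolynomial Finset

variable {nb D : W → ℕ} {c : Polynomial ℕ}

private theorem FamG2_dsum {N : W → ℕ} (hN : CHN N) {G : W → P} (hG : IsFam G) :
    IsFam (fun w => ∑ i ∈ range (N w), ∑ j ∈ range (N w), G (pn (pn w i) j)) := by
  have h1 : IsFam (fun z => ∑ j ∈ range (N (fstB z)), G (pn z j)) :=
    IsFam.sum (CHN.fst hN) hG
  refine (IsFam.sum hN h1).congr fun w => ?_
  simp only [fstB_pn]

private theorem FamG2_dprod {N : W → ℕ} (hN : CHN N) {G : W → P} (hG : IsFam G) :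
    IsFam (fun w => ∏ i ∈ range (N w), ∏ j ∈ range (N w), G (pn (pn w i) j)) := by
  have h1 : IsFam (fun z => ∏ j ∈ range (N (fstB z)), G (pn z j)) :=
    IsFam.prod (CHN.fst hN) hG
  refine (IsFam.prod hN h1).congr fun w => ?_
  simp only [fstB_pn]

private theorem FamG2_var (k : ℕ) {g : W → W} (hg : CHF g)
    (hl : ∀ z, (g z).length ≤ z.length) : IsFam (fun z => (X (tW (g z) + k) : P)) := by
  refine IsFam.var ((CHN_tW.comp hg).add (CHN.const k)) (tPoly + Polynomial.C k) fun z => ?_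
  rw [Polynomial.eval_add, Polynomial.eval_C, ← tPoly_eval]
  exact Nat.add_le_add_right (pmono _ (hl z)) k

private theorem FamG2_ff : CHF (fun z => fstB (fstB z)) := CHF.fst.comp CHF.fst

private theorem FamG2_ffl (z : W) : (fstB (fstB z)).length ≤ z.length :=
  (len_fstB_le _).trans (len_fstB_le _)

private theorem FamG2_i : CHN (fun z => val (sndB (fstB z))) := CHN.fst CHN.var

theorem chiR_fam (hnb : CHN nb) : IsFam (fun w => (mkA nb D c w).chiR) := by
  have hG : IsFam (fun z => (mkA nb D c (fstB (fstB z))).h (val (sndB (fstB z))) (val (sndB z)) *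
      X (tW (fstB (fstB z)) + 2) ^ (val (sndB (fstB z))) *
      X (tW (fstB (fstB z)) + 1) ^ (val (sndB z))) :=
    ((h_fam nb D c).mul ((FamG2_var 2 FamG2_ff FamG2_ffl).pow FamG2_i)).mul
      ((FamG2_var 1 FamG2_ff FamG2_ffl).pow CHN.var)
  refine (FamG2_dsum hnb hG).congr fun w => ?_
  simp only [fstB_pn, sndB_pn, val_bits]
  rfl

/-- sums and products over `i < |w|` -/
private theorem FamG2_sumx {e : W → ℕ} (he : CHN e) :
    IsFam (fun w => ∑ i ∈ range w.length, (X i : P) ^ e w) := by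
  have h1 : IsFam (fun z => (X (min (val (sndB z)) z.length) : P) ^ e (fstB z)) :=
    (IsFam.var (CHN.var.min CHN.len) Polynomial.X fun z => by
      rw [Polynomial.eval_X]; exact min_le_right _ _).pow (CHN.fst he)
  refine (IsFam.sum CHN.len h1).congr fun w => ?_
  refine Finset.sum_congr rfl fun i hi => ?_
  have h2 : w.length ≤ (pn w i).length := by
    have := len_fstB_le (pn w i)
    rwa [fstB_pn] at this
  rw [fstB_pn, sndB_pn, val_bits, min_eq_left ((Finset.mem_range.1 hi).le.trans h2)]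

/-- `Δ² - ∑ x_i²`-like sums -/
theorem sumsq_fam : IsFam (fun w => ∑ i ∈ range w.length, (X i : P) ^ 2) :=
  FamG2_sumx (CHN.const 2)

private theorem FamG2_sq {F : W → P} (hF : IsFam F) : IsFam (fun w => F w ^ 2) :=
  (CHN.const 2 |> fun h => hF.pow h)

theorem H_fam (hnb : CHN nb) : IsFam (fun w => (mkA nb D c w).H) := by
  have hh := h_fam nb D c
  have h1 : IsFam (fun w => (X (tW w + 0) : P) ^ 2 - ∑ i ∈ range w.length, (X i : P) ^ 2) :=
    (FamG2_sq (FamG2_var 0 CHF.id fun _ => le_rfl)).sub sumsq_fam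
  have hG : IsFam (fun z => (1 - (X (tW (fstB (fstB z)) + 3) : P) ^ 2 *
      (mkA nb D c (fstB (fstB z))).h (val (sndB (fstB z))) (val (sndB z)) ^ 2) *
      ((X (tW (fstB (fstB z)) + 0) : P) ^ 2 *
      (mkA nb D c (fstB (fstB z))).h (val (sndB (fstB z))) (val (sndB z)) ^ 2 - 1)) :=
    (isFam_one.sub ((FamG2_sq (FamG2_var 3 FamG2_ff FamG2_ffl)).mul (FamG2_sq hh))).mul
      (((FamG2_sq (FamG2_var 0 FamG2_ff FamG2_ffl)).mul (FamG2_sq hh)).sub isFam_one)
  refine ((h1.mul (FamG2_dprod hnb hG)).mul (chiR_fam (D := D) (c := c) hnb)).congr fun w => ?_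
  simp only [fstB_pn, sndB_pn, val_bits]
  rfl

theorem GD_fam (hD : CHN D) : IsFam (fun w => (mkA nb D c w).GD) := by
  refine (isFam_one.add (FamG2_sumx ((CHN.const 2).mul hD))).congr fun w => ?_
  rfl

theorem qX_fam (hD : CHN D) (hD0 : ∀ w, 0 < D w) {ka Hp : W → P} (hka : IsFam ka) (hH : IsFam Hp) :
    IsFam (fun z => (mkA nb D c (fstB z)).qX (ka (fstB z)) (Hp (fstB z)) (val (sndB z))) := by
  have h1 : IsFam (fun z => (C (((1 : ℕ) : ℚ) / ((2 * D (fstB z) : ℕ) : ℚ)) : P)) :=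
    IsFam.const (CHN.const 1) ((CHN.const 2).mul (CHN.fst hD)) fun z =>
      Nat.mul_pos two_pos (hD0 _)
  have h2 : IsFam (fun z => pderiv (val (sndB z)) (Hp (fstB z) ^ 2)) :=
    IsFam.pderiv CHN.var (FamG2_sq (hH.comp CHF.fst))
  refine ((h1.mul (hka.comp CHF.fst)).mul h2).congr fun z => ?_
  unfold Asm.qX
  rw [mkA_D]
  push_cast
  rfl

theorem Rt_fam (hnb : CHN nb) (hD : CHN D) (hD0 : ∀ w, 0 < D w) :
    IsFam (fun w => (mkA nb D c w).Rt) := by
  have hm : CHN (fun w => 2 * D w - 1) := ((CHN.const 2).mul hD).sub (CHN.const 1)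
  have hN : CHN (fun w => (2 * D w - 1) ^ w.length) :=
    CHN_powLen hm CHN.len Polynomial.X fun w => by rw [Polynomial.eval_X]
  have hK : CHN (fun w => 2 * D w * (2 * D w - 1) ^ w.length) := ((CHN.const 2).mul hD).mul hN
  have hka : IsFam (fun w => (X (tW w + 4) : P)) := FamG2_var 4 CHF.id fun _ => le_rfl
  have hH := H_fam (D := D) (c := c) hnb
  have hq := qX_fam (nb := nb) (c := c) hD hD0 hka hH
  have hg : IsFam (fun w => (mkA nb D c w).GD - X (tW w + 4) * (mkA nb D c w).H ^ 2) :=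
    (GD_fam hD).sub (hka.mul (FamG2_sq hH))
  have h := IsFam.nr (lo := fun _ => 0) (hi := fun w => w.length)
    (m := fun z => 2 * D (fstB z) - 1) (K := fun w => 2 * D w * (2 * D w - 1) ^ w.length)
    (N := fun w => (2 * D w - 1) ^ w.length) (y := fun w => tW w + 7) (CHN.const 0) CHN.len
    (CHN.fst hm) hK hN (CHN_tW.add (CHN.const 7)) (Polynomial.X + tPoly + 7)
    (fun w => by
      rw [Polynomial.eval_add, Polynomial.eval_add, Polynomial.eval_X]
      omega)
    (fun w => by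
      rw [Polynomial.eval_add, Polynomial.eval_add, Polynomial.eval_X, tPoly_eval]
      simp only [Polynomial.eval_ofNat]
      omega) hq hg
  refine h.congr fun w => ?_
  simp only [fstB_pn, sndB_pn, val_bits, ← Finset.range_eq_Ico]
  rfl

end Crest.Agent.CHR
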