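import Crest.Agent.CHR.FamG2

/-!
CHUNK R316-FAMG3 (medium): the families with concrete parameters.
PROOF HINTS.  `pc_fam`: `IsFam.pow` of the constant `2` with the exponent `2^(k * c(|w|))` (`CHN.twoPow CHF.id (k * c)`).
`H0_fam`: `IsFam.bind` with `G z = sub0` of `fstB z` at `val (sndB z)` (`IsFam.ite` with conditions `val (sndB z) = tW (fstB z) + k`; the last
case `X (val (sndB z))` is NOT bounded polynomially: use `IsFam.bind` only for variables below a bound `b(|w|)` of `H`
(`IsFam.bnd`), i.e. replace `X j` by `if j < b(|w|) then X j else 0` and `bind₁_congr'` (FamBnd.lean) with `Bnd.vars`).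
`tu_fam`, `tv_fam`: `k = val (sndB z)`, `h_fam` composed with `z ↦ pn (pn (fstB z) (k / nb)) (k % nb)`.
`mJ`, `qJ`: definition by cases.
-/

set_option autoImplicit false

namespace Crest.Agent.CHR

open MvPolynomial Finset

variable {nb D : W → ℕ} {c : Polynomial ℕ}

theorem pc_fam (k : ℕ) : IsFam (fun w => (mkA nb D c w).pc k) := by
  have h2 : IsFam (fun _ => (C 2 : P)) :=
    (IsFam.const (CHN.const 2) (CHN.const 1) (fun _ => Nat.one_pos)).congr fun _ => by norm_num
  have h3 : CHN (fun w => 2 ^ (k * c.eval w.length)) :=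
    (CHN.twoPow CHF.id (Polynomial.C k * c)).congr fun w => by
      rw [Polynomial.eval_mul, Polynomial.eval_C]
  exact IsFam.pow h3 h2

theorem H0_fam (hnb : CHN nb) : IsFam (fun w => (mkA nb D c w).H0) := by
  have hH : IsFam (fun w => (mkA nb D c w).H) := H_fam hnb
  obtain ⟨b, hb⟩ := hH.bnd
  have hT : ∀ k : ℕ, CHP (fun z => val (sndB z) = tW (fstB z) + k) := fun k =>
    CHN.var.eq ((CHN_tW.comp CHF.fst).add (CHN.const k))
  have hpc : ∀ k : ℕ, IsFam (fun z => (mkA nb D c (fstB z)).pc k) := fun k =>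
    (pc_fam (nb := nb) (D := D) (c := c) k).comp CHF.fst
  have hG : IsFam (fun z => if val (sndB z) = tW (fstB z) + 0 then (mkA nb D c (fstB z)).pc 1 else
      if val (sndB z) = tW (fstB z) + 1 then (mkA nb D c (fstB z)).pc 2 else
      if val (sndB z) = tW (fstB z) + 2 then (mkA nb D c (fstB z)).pc 3 else
      if val (sndB z) = tW (fstB z) + 3 then (mkA nb D c (fstB z)).pc 4 else
        X (Min.min (val (sndB z)) (b.eval (fstB z).length))) := by
    refine IsFam.iteD (hT 0) (hpc 1) (IsFam.iteD (hT 1) (hpc 2) (IsFam.iteD (hT 2) (hpc 3)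
      (IsFam.iteD (hT 3) (hpc 4) ?_)))
    exact IsFam.varMin CHN.var CHF.fst b fun w => len_fstB_le w
  refine (hH.bind hG).congr fun w => ?_
  show bind₁ _ _ = bind₁ _ _
  apply bind₁_congr'
  intro j hj
  have hj' : j < b.eval w.length := (hb w).vars j hj
  simp only [fstB_pn, val_sndB_pnD, min_eq_left hj'.le]
  rfl

theorem t0_fam : IsFam (fun w => (mkA nb D c w).t0) :=
  (IsFam.sq' (pc_fam (nb := nb) (D := D) (c := c) 1)).sub sumsq_fam

private theorem hk_fam (hnb : CHN nb) : IsFam (fun z => (mkA nb D c (fstB z)).h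
    (val (sndB z) / nb (fstB z)) (val (sndB z) % nb (fstB z))) := by
  have h1 : CHF (fun z => pn (pn (fstB z) (val (sndB z) / nb (fstB z)))
      (val (sndB z) % nb (fstB z))) :=
    CHF.pn (CHF.pn CHF.fst (CHN.var.div (hnb.comp CHF.fst))) (CHN.var.mod (hnb.comp CHF.fst))
  refine ((h_fam nb D c).comp h1).congr fun z => ?_
  simp only [fstB_pn, val_sndB_pnD]

theorem tu_fam (hnb : CHN nb) : IsFam (fun z => (mkA nb D c (fstB z)).tu (val (sndB z))) :=
  IsFam.one.sub ((IsFam.sq' ((pc_fam (nb := nb) (D := D) (c := c) 4).comp CHF.fst)).mul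
    (IsFam.sq' (hk_fam (D := D) (c := c) hnb)))

theorem tv_fam (hnb : CHN nb) : IsFam (fun z => (mkA nb D c (fstB z)).tv (val (sndB z))) :=
  ((IsFam.sq' ((pc_fam (nb := nb) (D := D) (c := c) 1).comp CHF.fst)).mul
    (IsFam.sq' (hk_fam (D := D) (c := c) hnb))).sub IsFam.one

theorem tb_fam : IsFam (fun w => (mkA nb D c w).tb) :=
  (((pc_fam (nb := nb) (D := D) (c := c) 3).mul sentQ_fam).add (GY_fam nb D c)).sub
    (pc_fam (nb := nb) (D := D) (c := c) 2)

theorem mJ_CHN (hD : CHN D) : CHN (fun z => (mkA nb D c (fstB z)).mJ (val (sndB z))) := by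
  have h1 : CHN (fun z => 2 * D (fstB z) - 1) :=
    ((CHN.const 2).mul (hD.comp CHF.fst)).sub (CHN.const 1)
  have h2 : CHP (fun z => val (sndB z) < (fstB z).length) := CHN.var.lt (CHN.len.comp CHF.fst)
  have h3 : CHN (fun z => if val (sndB z) < (fstB z).length then 2 * D (fstB z) - 1 else 5) :=
    CHN.iteD h2 h1 (CHN.const 5)
  refine h3.congr fun z => ?_
  unfold Asm.mJ
  rw [mkA_n, mkA_D]

theorem qJ_fam (hnb : CHN nb) (hD : CHN D) (hD0 : ∀ w, 0 < D w) :
    IsFam (fun z => (mkA nb D c (fstB z)).qJ (val (sndB z))) := by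
  have h2 : CHP (fun z => val (sndB z) < (fstB z).length) := CHN.var.lt (CHN.len.comp CHF.fst)
  have h3 := qX_fam (nb := nb) (c := c) hD hD0 (pc_fam (nb := nb) (D := D) (c := c) 5)
      (H0_fam (D := D) (c := c) hnb)
  have h4 := qY_fam nb D c (pc_fam (nb := nb) (D := D) (c := c) 3)
  have h5 := IsFam.iteD h2 h3 h4
  refine h5.congr fun z => ?_
  unfold Asm.qJ
  rw [mkA_n]

/-- the number of solutions of the joint system -/
theorem NN_CHN (hD : CHN D) : CHN (fun w => (mkA nb D c w).N1 * (mkA nb D c w).N2) := by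
  have h0 : CHN (fun w => 2 * D w - 1) := ((CHN.const 2).mul hD).sub (CHN.const 1)
  have h1 : CHN (fun w => (2 * D w - 1) ^ w.length) :=
    CHN_powLen h0 CHN.len Polynomial.X fun w => by simp
  have h2 : CHN (fun w => 5 ^ mY w) :=
    CHN_powLen (CHN.const 5) CHN_mY (9 * (Polynomial.X + 1) ^ 2) fun w => by simp [mY]
  refine (h1.mul h2).congr fun w => ?_
  unfold Asm.N1 Asm.N2
  rw [mkA_n, mkA_D, mkA_m]

end Crest.Agent.CHR
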