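import Crest.Agent.CHR.FamG3

/-!
CHUNK R316-FAMG4 (medium): the families `gapv`, `gapd`.
PROOF HINTS.  `IsFam.nr` with `lo = 0`, `hi = tW`, `m`, `q` from FamG3 (`mJ_CHN`, `qJ_fam`), `y = tW + 1`.
`gapF`: `nrS .. N N (X tW + X k)`, `k = val (sndB z)` must be polynomially bounded: the statement is for the family
with `if k < tW then .. else 0`.
`gapd_fam`: `IsFam.bind` with `G z = X tW - X k` (constant in the variable), `IsFam.nr`.
Everything is a composition with `CHF.fst`, `CHF.snd` (`IsFam.comp`) and a `congr`.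
-/

set_option autoImplicit false

namespace Crest.Agent.CHR

open MvPolynomial Finset

variable {nb D : W → ℕ} {c : Polynomial ℕ}

private theorem tW_le_r (w : W) : tW w ≤ (tPoly + 1).eval w.length := by
  rw [Polynomial.eval_add, tPoly_eval]; exact Nat.le_add_right _ _

private theorem tW1_le_r (w : W) : tW w + 1 ≤ (tPoly + 1).eval w.length := by
  rw [Polynomial.eval_add, tPoly_eval, Polynomial.eval_one]

private theorem tW_le_p (w : W) : tW w ≤ tPoly.eval w.length := (tPoly_eval w).ge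

/-- the general norm family over the joint system, context `z`, data string `fstB z` -/
private theorem nrJ_fam2 (hnb : CHN nb) (hD : CHN D) (hD0 : ∀ w, 0 < D w) {K N : W → ℕ} (hK : CHN K)
    (hN : CHN N) {g : W → P} (hg : IsFam g) :
    IsFam (fun z => nrS (range (tW (fstB z))) (mkA nb D c (fstB z)).mJ (mkA nb D c (fstB z)).qJ
      (tW (fstB z) + 1) (K z) (N z) (g z)) := by
  have hff : CHF (fun u => pn (fstB (fstB u)) (val (sndB u))) :=
    CHF.pn (CHF.fst.comp CHF.fst) CHN.var
  have h1 := IsFam.nr (lo := fun _ => 0) (hi := fun z => tW (fstB z))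
    (m := fun u => (mkA nb D c (fstB (pn (fstB (fstB u)) (val (sndB u))))).mJ
      (val (sndB (pn (fstB (fstB u)) (val (sndB u)))))) (K := K) (N := N)
    (y := fun z => tW (fstB z) + 1)
    (q := fun u => (mkA nb D c (fstB (pn (fstB (fstB u)) (val (sndB u))))).qJ
      (val (sndB (pn (fstB (fstB u)) (val (sndB u))))))
    (g := g) (CHN.const 0) CHN_tW.fst ((mJ_CHN hD).comp hff) hK hN
    (CHN.add CHN_tW.fst (CHN.const 1)) (tPoly + 1)
    (fun z => (tW_le_r _).trans (pmono _ (len_fstB_le z)))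
    (fun z => (tW1_le_r _).trans (pmono _ (len_fstB_le z)))
    ((qJ_fam hnb hD hD0).comp hff) hg
  refine h1.congr fun z => ?_
  simp only [fstB_pn, sndB_pn, val_bits, Finset.range_eq_Ico]

/-- the general norm family over the joint system -/
private theorem nrJ_fam (hnb : CHN nb) (hD : CHN D) (hD0 : ∀ w, 0 < D w) {K N : W → ℕ} (hK : CHN K)
    (hN : CHN N) {g : W → P} (hg : IsFam g) :
    IsFam (fun w => nrS (range (tW w)) (mkA nb D c w).mJ (mkA nb D c w).qJ
      (tW w + 1) (K w) (N w) (g w)) := by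
  have h1 := IsFam.nr (lo := fun _ => 0) (hi := fun w => tW w)
    (m := fun u => (mkA nb D c (fstB u)).mJ (val (sndB u))) (K := K) (N := N)
    (y := fun w => tW w + 1)
    (q := fun u => (mkA nb D c (fstB u)).qJ (val (sndB u)))
    (g := g) (CHN.const 0) CHN_tW (mJ_CHN hD) hK hN
    (CHN.add CHN_tW (CHN.const 1)) (tPoly + 1) tW_le_r tW1_le_r (qJ_fam hnb hD hD0) hg
  refine h1.congr fun w => ?_
  simp only [fstB_pn, sndB_pn, val_bits, Finset.range_eq_Ico]

/-- `s z` = tested polynomial, the string is `g z` -/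
theorem gapv_fam (hnb : CHN nb) (hD : CHN D) (hD0 : ∀ w, 0 < D w) {K N : W → ℕ} (hK : CHN K) (hN : CHN N)
    {s : W → P} (hs : IsFam s) :
    IsFam (fun w => gapv (tW w) (mkA nb D c w).mJ (mkA nb D c w).qJ (K w) (N w) (s w)) := by
  have h1 := nrJ_fam (c := c) hnb hD hD0 hK hN (g := fun w => X (tW w) - s w)
    (IsFam.sub (IsFam.var CHN_tW tPoly tW_le_p) hs)
  exact h1

/-- with an index -/
theorem gapv_fam2 (hnb : CHN nb) (hD : CHN D) (hD0 : ∀ w, 0 < D w) {K N : W → ℕ} (hK : CHN K) (hN : CHN N)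
    {s : W → P} (hs : IsFam s) :
    IsFam (fun z => gapv (tW (fstB z)) (mkA nb D c (fstB z)).mJ (mkA nb D c (fstB z)).qJ
      (K (fstB z)) (N (fstB z)) (s z)) := by
  have h1 := nrJ_fam2 (c := c) hnb hD hD0 hK.fst hN.fst (g := fun z => X (tW (fstB z)) - s z)
    (IsFam.sub (IsFam.var CHN_tW.fst tPoly fun z => (tW_le_p _).trans (pmono _ (len_fstB_le z))) hs)
  exact h1

open Classical in
theorem gapF_fam (hnb : CHN nb) (hD : CHN D) (hD0 : ∀ w, 0 < D w) {N : W → ℕ} (hN : CHN N) :
    IsFam (fun z => if val (sndB z) < tW (fstB z) then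
      nrS (range (tW (fstB z))) (mkA nb D c (fstB z)).mJ (mkA nb D c (fstB z)).qJ (tW (fstB z) + 1)
        (N (fstB z)) (N (fstB z)) (X (tW (fstB z)) + X (val (sndB z))) else 0) := by
  have hv : IsFam (fun z : W => (X (tW (fstB z)) : P)) :=
    IsFam.var CHN_tW.fst tPoly fun z => (tW_le_p _).trans (pmono _ (len_fstB_le z))
  have hv2 : IsFam (fun z : W => (X (Min.min (val (sndB z)) (tPoly.eval (fstB z).length)) : P)) :=
    IsFam.varMin CHN.var CHF.fst tPoly fun z => len_fstB_le z
  have h1 := IsFam.iteD (p := fun z : W => val (sndB z) < tW (fstB z)) (CHN.lt CHN.var CHN_tW.fst)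
    (nrJ_fam2 (c := c) hnb hD hD0 hN.fst hN.fst (hv.add hv2)) IsFam.zero
  refine h1.congr fun z => ?_
  by_cases h : val (sndB z) < tW (fstB z)
  · rw [if_pos h, if_pos h, min_eq_left (h.le.trans (tW_le_p _))]
  · rw [if_neg h, if_neg h]

open Classical in
theorem gapd_fam (hnb : CHN nb) (hD : CHN D) (hD0 : ∀ w, 0 < D w) {K N : W → ℕ} (hK : CHN K) (hN : CHN N) :
    IsFam (fun z => if val (sndB z) < tW (fstB z) then
      gapd (tW (fstB z)) (mkA nb D c (fstB z)).mJ (mkA nb D c (fstB z)).qJ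
        (K (fstB z)) (N (fstB z)) (val (sndB z)) else 0) := by
  have hv : IsFam (fun z : W => (X (tW (fstB z)) : P)) :=
    IsFam.var CHN_tW.fst tPoly fun z => (tW_le_p _).trans (pmono _ (len_fstB_le z))
  have hv2 : IsFam (fun z : W => (X (Min.min (val (sndB z)) (tPoly.eval (fstB z).length)) : P)) :=
    IsFam.varMin CHN.var CHF.fst tPoly fun z => len_fstB_le z
  have hG : IsFam (fun u : W => (X (tW (fstB (fstB u))) -
      X (Min.min (val (sndB (fstB u))) (tPoly.eval (fstB (fstB u)).length)) : P)) :=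
    (hv.sub hv2).comp CHF.fst
  have hb := IsFam.bind (gapF_fam (c := c) hnb hD hD0 hN) hG
  have h1 := IsFam.iteD (p := fun z : W => val (sndB z) < tW (fstB z)) (CHN.lt CHN.var CHN_tW.fst)
    (nrJ_fam2 (c := c) hnb hD hD0 hK.fst hN.fst hb) IsFam.zero
  refine h1.congr fun z => ?_
  by_cases h : val (sndB z) < tW (fstB z)
  · rw [if_pos h, if_pos h, if_pos h]
    simp only [fstB_pn]
    rw [min_eq_left (h.le.trans (tW_le_p _))]
    rfl
  · rw [if_neg h, if_neg h]

end Crest.Agent.CHR
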