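import Crest.Agent.CHR.FamDefs

/-!
CHUNK R316-FAML1 (easy/medium): the L1 norm of rational polynomials.
PROOF HINTS. `l1q_eq_sum`: extra terms are `0`.  `l1q_mul_le`: `coeff m (f*g) = ∑ over antidiagonal m`; or expand
`f = ∑ m ∈ f.support, monomial m (coeff m f)` (`MvPolynomial.support_sum_monomial_coeff`), `f * g` = double sum of monomials and
`l1q_sum_le`, `l1q (monomial m a) = |a|`.  `l1q_coefS_le`: triangle inequality `l1q_sum_le` for the defining sum.
-/

set_option autoImplicit false

namespace Crest.Agent.CHR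

open MvPolynomial Finset

theorem l1q_eq_sum {f : P} {T : Finset (ℕ →₀ ℕ)} (h : f.support ⊆ T) :
    l1q f = ∑ m ∈ T, |coeff m f| := by
  unfold l1q
  apply Finset.sum_subset h
  intro m _ hm
  rw [MvPolynomial.notMem_support_iff.1 hm, abs_zero]

theorem l1q_nonneg (f : P) : 0 ≤ l1q f := Finset.sum_nonneg fun _ _ => abs_nonneg _

theorem l1q_monomial (m : ℕ →₀ ℕ) (a : ℚ) : l1q (monomial m a) = |a| := by
  classical
  rw [l1q_eq_sum (T := {m}) MvPolynomial.support_monomial_subset]
  simp

theorem l1q_C (a : ℚ) : l1q (C a) = |a| := l1q_monomial 0 a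

theorem l1q_X (j : ℕ) : l1q (X j) = 1 := by
  rw [show (X j : P) = monomial (Finsupp.single j 1) 1 from rfl, l1q_monomial, abs_one]

theorem l1q_neg (f : P) : l1q (-f) = l1q f := by
  unfold l1q
  rw [MvPolynomial.support_neg]
  simp

theorem l1q_add_le (f g : P) : l1q (f + g) ≤ l1q f + l1q g := by
  classical
  rw [l1q_eq_sum (f := f) (T := f.support ∪ g.support) Finset.subset_union_left,
    l1q_eq_sum (f := g) (T := f.support ∪ g.support) Finset.subset_union_right,
    l1q_eq_sum (f := f + g) (T := f.support ∪ g.support) MvPolynomial.support_add,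
    ← Finset.sum_add_distrib]
  apply Finset.sum_le_sum
  intro m _
  rw [MvPolynomial.coeff_add]
  exact abs_add_le _ _

theorem l1q_zero : l1q (0 : P) = 0 := by simp [l1q]

theorem l1q_sum_le {ι : Type*} (s : Finset ι) (f : ι → P) :
    l1q (∑ i ∈ s, f i) ≤ ∑ i ∈ s, l1q (f i) := by
  classical
  induction s using Finset.induction_on with
  | empty => simp [l1q_zero]
  | insert a s ha ih =>
    rw [Finset.sum_insert ha, Finset.sum_insert ha]
    exact (l1q_add_le _ _).trans (by linarith)

theorem l1q_mul_le (f g : P) : l1q (f * g) ≤ l1q f * l1q g := by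
  classical
  have e : f * g = ∑ m ∈ f.support, ∑ n ∈ g.support, monomial (m + n) (coeff m f * coeff n g) := by
    conv_lhs => rw [← MvPolynomial.support_sum_monomial_coeff f,
      ← MvPolynomial.support_sum_monomial_coeff g]
    rw [Finset.sum_mul_sum]
    refine Finset.sum_congr rfl fun m _ => Finset.sum_congr rfl fun n _ => ?_
    rw [MvPolynomial.monomial_mul]
  rw [e]
  refine (l1q_sum_le _ _).trans ?_
  unfold l1q
  rw [Finset.sum_mul_sum]
  refine Finset.sum_le_sum fun m _ => ?_
  refine (l1q_sum_le _ _).trans ?_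
  refine Finset.sum_le_sum fun n _ => ?_
  rw [l1q_monomial, abs_mul]

theorem l1q_prod_le {ι : Type*} (s : Finset ι) (f : ι → P) {c : ℚ} (hc : 0 ≤ c)
    (h : ∀ i ∈ s, l1q (f i) ≤ c) : l1q (∏ i ∈ s, f i) ≤ c ^ s.card := by
  classical
  induction s using Finset.induction_on with
  | empty =>
    simp only [Finset.prod_empty, Finset.card_empty, pow_zero]
    rw [← MvPolynomial.C_1, l1q_C, abs_one]
  | insert a s ha ih =>
    rw [Finset.prod_insert ha, Finset.card_insert_of_notMem ha, pow_succ']
    refine (l1q_mul_le _ _).trans ?_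
    exact mul_le_mul (h a (Finset.mem_insert_self _ _))
      (ih fun i hi => h i (Finset.mem_insert_of_mem hi)) (l1q_nonneg _) hc

theorem l1q_pow_le (f : P) (n : ℕ) : l1q (f ^ n) ≤ l1q f ^ n := by
  have h := l1q_prod_le (Finset.range n) (fun _ => f) (l1q_nonneg f) (fun _ _ => le_rfl)
  simpa using h

theorem l1q_coefS_le (S : Finset ℕ) (a : ℕ → ℕ) (f : P) : l1q (coefS S a f) ≤ l1q f := by
  classical
  unfold coefS
  refine (l1q_sum_le _ _).trans ?_
  simp only [l1q_monomial]
  exact Finset.sum_le_sum_of_subset_of_nonneg (Finset.filter_subset _ _) fun _ _ _ => abs_nonneg _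

end Crest.Agent.CHR
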