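import Crest.Agent.CHR.FamCode

/-!
CHUNK R316-FAMOPA (easy/medium): first closure properties of good families.
PROOF.  Everywhere `IsFam.elim` gives `b, g` and `IsFam.intro b' .. g'` finishes (bounds by `Bnd.mono`, `pmono`).
`comp`: `|φ w| ≤ q(|w|)`; `b' = b.comp q`, `g' z = g (arg (φ (fstB z)) (pA z) (AA z))` (CHN by `CHN.comp`, `CHF.arg`, `CHF.comp`).
`const`: `a w < 2^qa`, `b w < 2^qb` (`CHN.bound`), `b' = qa + qb`, `Bnd.const`; `g' z = a (fstB z) * mnv (b (fstB z)) (pA z) % pA z` (`mnv_spec`,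
`evp_div`; `p ∤ b w` as `0 < b w < p`).
`var`: `b' = q + 1`, `Bnd.var`; `g' z = if 2 ≤ pA z then dgt' (pA z) (AA z) (j (fstB z)) else 0`; `evp_X`, `asg_eq`.
`ite`: `b' = bF + bG`, `g' z = if p (fstB z) then gF z else gG z`.
`neg`: `g' z = (pA z - gF z % pA z) % pA z` (`evp_neg`, `Bnd.pi`).  `add`, `mul`: `b' = bF + bG + 1`, `g' = (gF z + gG z) % pA z`,
`gF z * gG z % pA z` (`evp_add`, `evp_mul`, `ZMod.val_add`, `ZMod.val_mul`).
-/

set_option autoImplicit false

namespace Crest.Agent.CHR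

open MvPolynomial Finset

theorem IsFam.comp {F : W → P} {φ : W → W} (hF : IsFam F) (hφ : CHF φ) : IsFam (fun w => F (φ w)) := by
  obtain ⟨b, g, hb, hg, h⟩ := hF.elim
  obtain ⟨q, hq⟩ := hφ.1
  have key : ∀ w, b.eval (φ w).length ≤ (b.comp q).eval w.length := fun w => by
    rw [Polynomial.eval_comp]
    exact pmono b (hq w)
  refine IsFam.intro (b.comp q) (fun w => (hb (φ w)).mono (key w))
    (g := fun z => g (arg (φ (fstB z)) (pA z) (AA z)))
    (hg.comp (CHF.arg (hφ.comp CHF.fst) CHN.pA CHN.AA)) (fun w p A _ hp => ?_)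
  simp only [fstB_arg, pA_arg, AA_arg]
  exact h (φ w) p A (lt_of_le_of_lt (Nat.pow_le_pow_right (by norm_num) (key w)) hp)

/-- rational constants with poly-bit numerator and denominator -/
theorem IsFam.const {a b : W → ℕ} (ha : CHN a) (hb : CHN b) (h0 : ∀ w, 0 < b w) :
    IsFam (fun w => C ((a w : ℚ) / (b w : ℚ))) := by
  obtain ⟨qa, hqa⟩ := ha.bound
  obtain ⟨qb, hqb⟩ := hb.bound
  refine IsFam.intro (qa + qb) (fun w => ?_)
    (g := fun z => a (fstB z) * mnv (b (fstB z)) (pA z) % pA z)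
    (((ha.comp CHF.fst).mul (CHN_mnv (hb.comp CHF.fst) CHN.pA)).mod CHN.pA)
    (fun w p A hp hlt => ?_)
  · rw [Polynomial.eval_add]
    refine Bnd.const ?_ ?_ (h0 w)
    · calc a w ≤ 2 ^ (qa.eval w.length) := (hqa w).le
        _ ≤ 2 ^ (2 ^ (qa.eval w.length + qb.eval w.length)) := by
          apply Nat.pow_le_pow_right (by norm_num)
          calc qa.eval w.length ≤ qa.eval w.length + qb.eval w.length := Nat.le_add_right _ _
            _ ≤ 2 ^ (qa.eval w.length + qb.eval w.length) := Nat.lt_two_pow_self.le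
    · exact (hqb w).le.trans (Nat.pow_le_pow_right (by norm_num) (Nat.le_add_left _ _))
  · simp only [fstB_arg, pA_arg]
    rw [Polynomial.eval_add] at hlt
    have hbp : b w < p := lt_of_lt_of_le (hqb w)
      ((Nat.pow_le_pow_right (by norm_num) (Nat.le_add_left _ _)).trans hlt.le)
    have hnd : ¬ p ∣ b w := fun hd => absurd (Nat.le_of_dvd (h0 w) hd) (not_le.2 hbp)
    obtain ⟨h1, h2⟩ := mnv_spec hp.1 hnd
    have h4 : (b w : ZMod p) * ((mnv (b w) p : ℕ) : ZMod p) = 1 := by
      have h5 : ((b w * mnv (b w) p : ℕ) : ZMod p) = ((1 : ℕ) : ZMod p) := by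
        rw [ZMod.natCast_eq_natCast_iff', h2, Nat.mod_eq_of_lt hp.1.one_lt]
      simpa using h5
    have h6 : ((mnv (b w) p : ℕ) : ZMod p) = (b w : ZMod p)⁻¹ := eq_inv_of_mul_eq_one_right h4
    rw [evp_div hnd, ← h6, ← Nat.cast_mul, ZMod.val_natCast]

theorem IsFam.var {j : W → ℕ} (hj : CHN j) (q : Polynomial ℕ) (hq : ∀ w, j w ≤ q.eval w.length) :
    IsFam (fun w => X (j w)) := by
  refine IsFam.intro (q + 1) (fun w => Bnd.var ?_)
    (g := fun z => if 2 ≤ pA z then dgt' (pA z) (AA z) (j (fstB z)) else 0)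
    (CHN.dgt CHN.pA CHN.AA (hj.comp CHF.fst)) (fun w p A hp hlt => ?_)
  · rw [Polynomial.eval_add, Polynomial.eval_one]
    exact Nat.lt_succ_of_le (hq w)
  · simp only [fstB_arg, pA_arg, AA_arg]
    rw [if_pos hp.1.two_le, evp_X, asg_eq, ZMod.val_natCast]
    exact Nat.mod_eq_of_lt (Nat.mod_lt _ hp.1.pos)

theorem IsFam.neg {F : W → P} (hF : IsFam F) : IsFam (fun w => - F w) := by
  obtain ⟨b, g, hb, hg, h⟩ := hF.elim
  refine IsFam.intro b (fun w => (hb w).neg) (g := fun z => (pA z - g z % pA z) % pA z)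
    ((CHN.pA.sub (hg.mod CHN.pA)).mod CHN.pA) (fun w p A hp hlt => ?_)
  simp only [pA_arg]
  rw [← h w p A hlt, evp_neg ((hb w).pi hp.1 hlt)]
  have h1 : (evp p (asg p A) (F w)).val % p = (evp p (asg p A) (F w)).val :=
    Nat.mod_eq_of_lt (ZMod.val_lt _)
  rw [h1, ZMod.neg_val']

theorem IsFam.add {F G : W → P} (hF : IsFam F) (hG : IsFam G) : IsFam (fun w => F w + G w) := by
  obtain ⟨b, g, hb, hg, h⟩ := hF.elim
  obtain ⟨b', g', hb', hg', h'⟩ := hG.elim
  have e : ∀ w : W, (b + b' + 1).eval w.length = b.eval w.length + b'.eval w.length + 1 := fun w => by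
    simp only [Polynomial.eval_add, Polynomial.eval_one]
  refine IsFam.intro (b + b' + 1) (fun w => ?_) (g := fun z => (g z + g' z) % pA z)
    ((hg.add hg').mod CHN.pA) (fun w p A hp hlt => ?_)
  · rw [e]
    exact ((hb w).mono (Nat.le_add_right _ _)).add ((hb' w).mono (Nat.le_add_left _ _))
  · rw [e] at hlt
    have l1 : 2 ^ b.eval w.length < p :=
      lt_of_le_of_lt (Nat.pow_le_pow_right (by norm_num) (by omega)) hlt
    have l2 : 2 ^ b'.eval w.length < p :=
      lt_of_le_of_lt (Nat.pow_le_pow_right (by norm_num) (by omega)) hlt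
    simp only [pA_arg]
    rw [← h w p A l1, ← h' w p A l2, evp_add ((hb w).pi hp.1 l1) ((hb' w).pi hp.1 l2), ZMod.val_add]

theorem IsFam.mul {F G : W → P} (hF : IsFam F) (hG : IsFam G) : IsFam (fun w => F w * G w) := by
  obtain ⟨b, g, hb, hg, h⟩ := hF.elim
  obtain ⟨b', g', hb', hg', h'⟩ := hG.elim
  have e : ∀ w : W, (b + b' + 1).eval w.length = b.eval w.length + b'.eval w.length + 1 := fun w => by
    simp only [Polynomial.eval_add, Polynomial.eval_one]
  refine IsFam.intro (b + b' + 1) (fun w => ?_) (g := fun z => (g z * g' z) % pA z)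
    ((hg.mul hg').mod CHN.pA) (fun w p A hp hlt => ?_)
  · rw [e]
    exact ((hb w).mono (Nat.le_add_right _ _)).mul ((hb' w).mono (Nat.le_add_left _ _))
  · rw [e] at hlt
    have l1 : 2 ^ b.eval w.length < p :=
      lt_of_le_of_lt (Nat.pow_le_pow_right (by norm_num) (by omega)) hlt
    have l2 : 2 ^ b'.eval w.length < p :=
      lt_of_le_of_lt (Nat.pow_le_pow_right (by norm_num) (by omega)) hlt
    simp only [pA_arg]
    rw [← h w p A l1, ← h' w p A l2, evp_mul ((hb w).pi hp.1 l1) ((hb' w).pi hp.1 l2), ZMod.val_mul]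

theorem IsFam.sub {F G : W → P} (hF : IsFam F) (hG : IsFam G) : IsFam (fun w => F w - G w) :=
  (hF.add hG.neg).congr (fun w => (sub_eq_add_neg _ _).symm)

open Classical in
theorem IsFam.ite {p : W → Prop} {F G : W → P} (hp : CHP p) (hF : IsFam F) (hG : IsFam G) :
    IsFam (fun w => if p w then F w else G w) := by
  obtain ⟨b, g, hb, hg, h⟩ := hF.elim
  obtain ⟨b', g', hb', hg', h'⟩ := hG.elim
  have e : ∀ w : W, (b + b').eval w.length = b.eval w.length + b'.eval w.length := fun w => by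
    simp only [Polynomial.eval_add]
  refine IsFam.intro (b + b') (fun w => ?_) (g := fun z => if p (fstB z) then g z else g' z)
    (CHN.ite (hp.comp CHF.fst) hg hg') (fun w r A hr hlt => ?_)
  · rw [e]
    by_cases hw : p w
    · rw [if_pos hw]
      exact (hb w).mono (Nat.le_add_right _ _)
    · rw [if_neg hw]
      exact (hb' w).mono (Nat.le_add_left _ _)
  · rw [e] at hlt
    have l1 : 2 ^ b.eval w.length < r :=
      lt_of_le_of_lt (Nat.pow_le_pow_right (by norm_num) (by omega)) hlt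
    have l2 : 2 ^ b'.eval w.length < r :=
      lt_of_le_of_lt (Nat.pow_le_pow_right (by norm_num) (by omega)) hlt
    simp only [fstB_arg]
    by_cases hw : p w
    · rw [if_pos hw, if_pos hw]
      exact h w r A l1
    · rw [if_neg hw, if_neg hw]
      exact h' w r A l2

/-- `IsFam.ite` with any decidability instance -/
theorem IsFam.iteD {p : W → Prop} [∀ w, Decidable (p w)] {F G : W → P} (hp : CHP p)
    (hF : IsFam F) (hG : IsFam G) : IsFam (fun w => if p w then F w else G w) := by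
  refine (IsFam.ite hp hF hG).congr (fun w => ?_)
  by_cases h : p w <;> simp [h]

/-- integer constants `0`, `1` -/
theorem IsFam.zero : IsFam (fun _ => (0 : P)) :=
  (IsFam.const (CHN.const 0) (CHN.const 1) (fun _ => Nat.one_pos)).congr (fun _ => by simp)

theorem IsFam.one : IsFam (fun _ => (1 : P)) :=
  (IsFam.const (CHN.const 1) (CHN.const 1) (fun _ => Nat.one_pos)).congr (fun _ => by simp)

end Crest.Agent.CHR
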