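import Crest.Agent.CHR.FamOpS

/-!
CHUNK R316-FAMOPB (medium): substitution.
PROOF.  `IsFam.elim`: `bF, gF`, `bG, gG`.  `L w = bF(|w|)` (`CHN.polyLen CHF.id bF`): the variables of `F w` are `< L w`.  `|pn w j| ≤ r(|w|)` for
`j < L w` (`exists_len_pn`).  `b' = bF + bG.comp r + 1` (`Bnd.bind`).
`g' z = gF (arg (fstB z) (pA z) (fromD (pA z) (L (fstB z)) (fun j => gG (arg (pn (fstB z) j) (pA z) (AA z)))))` (`CHN.fromD`: with `d y =
gG (arg (pn (fstB (fstB y)) (val (sndB y))) (pA (fstB y)) (AA (fstB y)))`, `simp [fstB_pn, sndB_pn]`).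
Value: `evp_bind`, `evp_congr` and `asg_fromD` (digits `= (evp ..).val < p`, `ZMod.val_lt`, `ZMod.natCast_zmod_val`).
-/

set_option autoImplicit false

namespace Crest.Agent.CHR

open MvPolynomial Finset

/-- substitution -/
theorem IsFam.bind {F G : W → P} (hF : IsFam F) (hG : IsFam G) :
    IsFam (fun w => bind₁ (fun j => G (pn w j)) (F w)) := by
  obtain ⟨bF, gF, hbF, hgF, hvF⟩ := hF.elim
  obtain ⟨bG, gG, hbG, hgG, hvG⟩ := hG.elim
  have hL : CHN (fun w => bF.eval w.length) := CHN.polyLen CHF.id bF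
  obtain ⟨r, hr⟩ := exists_len_pn hL
  have hd : CHN (fun y => gG (arg (pn (fstB (fstB y)) (val (sndB y))) (pA (fstB y)) (AA (fstB y)))) :=
    hgG.comp (CHF.arg (CHF.pn (CHF.fst.comp CHF.fst) CHN.var) CHN.pA.fst CHN.AA.fst)
  have hfD : CHN (fun z => fromD (pA z) (bF.eval (fstB z).length)
      (fun j => gG (arg (pn (fstB z) j) (pA z) (AA z)))) := by
    refine (CHN.fromD CHN.pA hL.fst hd bF
      (fun z => pmono bF (len_fstB_le z))).congr (fun z => ?_)
    simp
  refine IsFam.intro (bF + bG.comp r + 1) (fun w => ?_)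
    (g := fun z => gF (arg (fstB z) (pA z) (fromD (pA z) (bF.eval (fstB z).length)
      (fun j => gG (arg (pn (fstB z) j) (pA z) (AA z))))))
    (hgF.comp (CHF.arg CHF.fst CHN.pA hfD)) ?_
  · have h := Bnd.bind (hbF w) (g := fun j => G (pn w j)) (B' := bG.eval (r.eval w.length))
      (fun j hj => (hbG (pn w j)).mono (pmono bG (hr w j hj)))
    simpa using h
  · intro w p A hp hlt
    have he : (bF + bG.comp r + 1).eval w.length
        = bF.eval w.length + bG.eval (r.eval w.length) + 1 := by simp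
    rw [he] at hlt
    have h1 : 2 ^ (bF.eval w.length) < p :=
      lt_of_le_of_lt (Nat.pow_le_pow_right (by norm_num) (by omega)) hlt
    have h2 : ∀ j < bF.eval w.length, 2 ^ (bG.eval (pn w j).length) < p := by
      intro j hj
      refine lt_of_le_of_lt (Nat.pow_le_pow_right (by norm_num) ?_) hlt
      have := pmono bG (hr w j hj)
      omega
    have hval : ∀ j < bF.eval w.length,
        gG (arg (pn w j) p A) = (evp p (asg p A) (G (pn w j))).val := fun j hj =>
      (hvG (pn w j) p A (h2 j hj)).symm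
    have hdig : ∀ j < bF.eval w.length, gG (arg (pn w j) p A) < p := by
      intro j hj
      rw [hval j hj]
      exact ZMod.val_lt _
    rw [fstB_arg, pA_arg, AA_arg]
    rw [← hvF w p _ h1]
    congr 1
    rw [evp_bind ((hbF w).pi hp.1 h1)
      (fun j hj => (hbG (pn w j)).pi hp.1 (h2 j ((hbF w).vars j hj)))]
    refine evp_congr (fun j hj => ?_)
    have hj' := (hbF w).vars j hj
    rw [asg_fromD hdig hj', hval j hj', ZMod.natCast_zmod_val]

end Crest.Agent.CHR
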