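import Crest.Agent.CHR.FamOpS
import Crest.Agent.CHR.FamCoefP

/-!
CHUNK R316-FAMOPC (medium/long): coefficient extraction.
PROOF.  Replace `lo` by `lo' = min lo hi` (`Ico lo hi = Ico lo' hi`).  `n = hi - lo'`.  `IsFam.elim`: `bF, gF`.  `a y < 2^(qa |y|)`
(`CHN.bound`), `|pn w j| ≤ r(|w|)` for `j < hi w` (`exists_len_pn`).  `b' = bF + qa.comp r + 1`, so for a prime `p > 2^b'`: degree `≤ 2^bF < p - 1`
and `a (pn w j) < p - 1` for `j < hi w`.  `Bnd.coefS`, `Bnd.mono`.  By `evp_coefS`, with `z ↦ w = fstB z, p = pA z, A = AA z`: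
`g' z = ((p-1)^n * ∑_{k < (p-1)^n} (∏_{i<n} (dg p k i)^(p-1-a (pn w (lo'+i))) % p) * gF (arg w p A_k)) % p`,
`A_k = fromD p (L w) (fun j => if lo' ≤ j ∧ j < hi then dg p k (j - lo') else dgt' p A j)`, `L w = max (bF |w|) (hi w)` (`dg p k i ≤ p - 1 < p`).
`(-1)^n = (p-1)^n` mod `p`.  CHN: `(p-1)^n < 2^(|z| q(|z|))` by `CHN.powN`; `dg p k i = k / (p-1)^i % (p-1) + 1` with `i < n` (use
`CHN.powN` with `min i n`, or `CHN.dgt` for the base `p - 1`), inner product `CHN.prodMod` (only for `p` prime) or `CHN.sum2/CHN.rec'`; sum `CHN.sum2`;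
`CHN.fromD`.  Suggestion: first a lemma with 3-argument contexts for `A_k`.
-/

set_option autoImplicit false

namespace Crest.Agent.CHR

open MvPolynomial Finset

private theorem foc_pow_lt {p e P Q : ℕ} (hp : p < 2 ^ P) (he : e ≤ Q) : (p - 1) ^ e < 2 ^ (P * Q + 1) := by
  have h1 : (p - 1) ^ e ≤ (2 ^ P) ^ e := Nat.pow_le_pow_left (by omega) e
  have h2 : (2 ^ P) ^ e ≤ (2 ^ P) ^ Q := Nat.pow_le_pow_right (by positivity) he
  rw [(pow_mul 2 P Q).symm] at h2
  have h3 : 2 ^ (P * Q) < 2 ^ (P * Q + 1) := Nat.pow_lt_pow_right (by norm_num) (by omega)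
  omega

private theorem foc_powC {p e : W → ℕ} (hp : CHN p) (he : CHN e) (q : Polynomial ℕ)
    (hq : ∀ w, e w ≤ q.eval w.length) : CHN (fun w => (p w - 1) ^ e w) := by
  obtain ⟨P1, hP⟩ := hp.bound
  refine CHN.powN (hp.sub (CHN.const 1)) he (P1 * q + 1) (fun w => ?_)
  rw [Polynomial.eval_add, Polynomial.eval_mul, Polynomial.eval_one]
  exact foc_pow_lt (hP w) (hq w)

private theorem foc_dgC {p k i m : W → ℕ} (hp : CHN p) (hk : CHN k) (hi : CHN i) (hm : CHN m)
    (q : Polynomial ℕ) (hq : ∀ w, m w ≤ q.eval w.length) :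
    CHN (fun w => dg (p w) (k w) (Min.min (i w) (m w))) :=
  ((hk.div (foc_powC hp (hi.min hm) q (fun w => (min_le_right _ _).trans (hq w)))).mod
    (hp.sub (CHN.const 1))).add (CHN.const 1)

/-- the digits of the modified assignment -/
private def focD (lo hi : W → ℕ) (z : W) (k j : ℕ) : ℕ :=
  if lo (fstB z) ≤ j ∧ j < hi (fstB z) then
    dg (pA z) k (Min.min (j - lo (fstB z)) (hi (fstB z) - lo (fstB z)))
  else (if 2 ≤ pA z then dgt' (pA z) (AA z) j else 0)

/-- the factors -/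
private def focP (lo hi a : W → ℕ) (z : W) (k i : ℕ) : ℕ :=
  if pA z = 0 then 0 else dg (pA z) k (Min.min i (hi (fstB z) - lo (fstB z))) ^
    (pA z - 1 - a (Crest.Agent.CHR.pn (fstB z) (lo (fstB z) + i))) % pA z

private def focA (lo hi : W → ℕ) (b : Polynomial ℕ) (z : W) (k : ℕ) : ℕ :=
  fromD (pA z) (b.eval (fstB z).length) (fun j => focD lo hi z k j)

open Classical in
private noncomputable def focPR (lo hi a : W → ℕ) (z : W) (k : ℕ) : ℕ :=
  if (pA z).Prime then (∏ i ∈ range (hi (fstB z) - lo (fstB z)), focP lo hi a z k i) % pA z else 0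

private noncomputable def focG (lo hi a : W → ℕ) (b : Polynomial ℕ) (g : W → ℕ) (z : W) : ℕ :=
  ((pA z - 1) ^ (hi (fstB z) - lo (fstB z)) *
    ∑ k ∈ range ((pA z - 1) ^ (hi (fstB z) - lo (fstB z))),
      focPR lo hi a z k * g (arg (fstB z) (pA z) (focA lo hi b z k))) % pA z

private theorem focD_CHN {lo hi : W → ℕ} (hlo : CHN lo) (hhi : CHN hi) (q : Polynomial ℕ)
    (hq : ∀ w, hi w ≤ q.eval w.length) :
    CHN (fun u => focD lo hi (fstB (fstB u)) (val (sndB (fstB u))) (val (sndB u))) := by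
  have hZ : CHF (fun u : W => fstB (fstB u)) := CHF.fst.comp CHF.fst
  have hw : CHF (fun u : W => fstB (fstB (fstB u))) := CHF.fst.comp hZ
  have hp : CHN (fun u => pA (fstB (fstB u))) := CHN.pA.comp hZ
  have hA : CHN (fun u => AA (fstB (fstB u))) := CHN.AA.comp hZ
  have hK : CHN (fun u => val (sndB (fstB u))) := CHN.ofVal (CHF.snd.comp CHF.fst)
  have hJ : CHN (fun u => val (sndB u)) := CHN.var
  have hl : CHN (fun u => lo (fstB (fstB (fstB u)))) := hlo.comp hw
  have hh : CHN (fun u => hi (fstB (fstB (fstB u)))) := hhi.comp hw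
  unfold focD
  refine CHN.iteD ((hl.le hJ).and (hJ.lt hh)) ?_ ?_
  · refine foc_dgC hp hK (hJ.sub hl) (hh.sub hl) q (fun u => ?_)
    refine (Nat.sub_le _ _).trans ((hq _).trans (pmono q ?_))
    exact (len_fstB_le _).trans ((len_fstB_le _).trans (len_fstB_le _))
  · exact CHN.dgt hp hA hJ

private theorem focP_CHN {lo hi a : W → ℕ} (hlo : CHN lo) (hhi : CHN hi) (ha : CHN a)
    (q : Polynomial ℕ) (hq : ∀ w, hi w ≤ q.eval w.length) :
    CHN (fun u => focP lo hi a (fstB (fstB u)) (val (sndB (fstB u))) (val (sndB u))) := by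
  have hZ : CHF (fun u : W => fstB (fstB u)) := CHF.fst.comp CHF.fst
  have hw : CHF (fun u : W => fstB (fstB (fstB u))) := CHF.fst.comp hZ
  have hp : CHN (fun u => pA (fstB (fstB u))) := CHN.pA.comp hZ
  have hK : CHN (fun u => val (sndB (fstB u))) := CHN.ofVal (CHF.snd.comp CHF.fst)
  have hJ : CHN (fun u => val (sndB u)) := CHN.var
  have hl : CHN (fun u => lo (fstB (fstB (fstB u)))) := hlo.comp hw
  have hh : CHN (fun u => hi (fstB (fstB (fstB u)))) := hhi.comp hw
  unfold focP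
  refine CHN.powMod0 ?_ ?_ hp
  · refine foc_dgC hp hK hJ (hh.sub hl) q (fun u => ?_)
    refine (Nat.sub_le _ _).trans ((hq _).trans (pmono q ?_))
    exact (len_fstB_le _).trans ((len_fstB_le _).trans (len_fstB_le _))
  · exact (hp.sub (CHN.const 1)).sub (ha.comp (CHF.pn hw (hl.add hJ)))

private theorem focA_CHN {lo hi : W → ℕ} (hlo : CHN lo) (hhi : CHN hi) (q : Polynomial ℕ)
    (hq : ∀ w, hi w ≤ q.eval w.length) (b : Polynomial ℕ) :
    CHN (fun y => focA lo hi b (fstB y) (val (sndB y))) := by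
  have h1 : CHN (fun y : W => pA (fstB y)) := CHN.pA.comp CHF.fst
  have h2 : CHN (fun y : W => b.eval (fstB (fstB y)).length) := CHN.polyLen (CHF.fst.comp CHF.fst) b
  refine (CHN.fromD h1 h2 (focD_CHN hlo hhi q hq) b (fun y => ?_)).congr (fun y => ?_)
  · exact pmono b ((len_fstB_le _).trans (len_fstB_le _))
  · simp only [fstB_pn, sndB_pn, val_bits]
    rfl

private theorem focPR_CHN {lo hi a : W → ℕ} (hlo : CHN lo) (hhi : CHN hi) (ha : CHN a)
    (q : Polynomial ℕ) (hq : ∀ w, hi w ≤ q.eval w.length) :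
    CHN (fun y => focPR lo hi a (fstB y) (val (sndB y))) := by
  have h1 : CHN (fun y : W => pA (fstB y)) := CHN.pA.comp CHF.fst
  have h2 : CHN (fun y : W => hi (fstB (fstB y)) - lo (fstB (fstB y))) :=
    (hhi.comp (CHF.fst.comp CHF.fst)).sub (hlo.comp (CHF.fst.comp CHF.fst))
  refine (CHN.prodMod h2 (focP_CHN hlo hhi ha q hq) h1).congr (fun y => ?_)
  simp only [fstB_pn, sndB_pn, val_bits]
  unfold focPR
  by_cases h : (pA (fstB y)).Prime
  · rw [if_pos h]
  · rw [if_neg h]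

private theorem focG_CHN {lo hi a : W → ℕ} (hlo : CHN lo) (hhi : CHN hi) (ha : CHN a)
    (q : Polynomial ℕ) (hq : ∀ w, hi w ≤ q.eval w.length) (b : Polynomial ℕ) {g : W → ℕ}
    (hg : CHN g) : CHN (focG lo hi a b g) := by
  have hn : CHN (fun z : W => hi (fstB z) - lo (fstB z)) :=
    (hhi.comp CHF.fst).sub (hlo.comp CHF.fst)
  have hN : CHN (fun z : W => (pA z - 1) ^ (hi (fstB z) - lo (fstB z))) := by
    refine foc_powC CHN.pA hn q (fun z => ?_)
    exact (Nat.sub_le _ _).trans ((hq _).trans (pmono q (len_fstB_le z)))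
  unfold focG
  refine (hN.mul (CHN.sum2 hN ?_)).mod CHN.pA
  refine (focPR_CHN hlo hhi ha q hq).mul (hg.comp ?_)
  exact CHF.arg (CHF.fst.comp CHF.fst) (CHN.pA.comp CHF.fst) (focA_CHN hlo hhi q hq b)

private theorem foc_value {lo hi a : W → ℕ} {F : W → P} (hlh : ∀ w, lo w ≤ hi w) (b : Polynomial ℕ)
    {g : W → ℕ} (hb : ∀ w, Bnd (b.eval w.length) (F w))
    (hg : ∀ (w : W) (p A : ℕ) [Fact p.Prime], 2 ^ (b.eval w.length) < p →
        (evp p (asg p A) (F w)).val = g (arg w p A))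
    (w : W) (p A : ℕ) [hp : Fact p.Prime] (h1 : 2 ^ (b.eval w.length) < p - 1)
    (h2 : ∀ j < hi w, a (Crest.Agent.CHR.pn w j) < p - 1) :
    (evp p (asg p A) (coefS (Ico (lo w) (hi w)) (fun j => a (Crest.Agent.CHR.pn w j)) (F w))).val =
      focG lo hi a b g (arg w p A) := by
  have hp1 : 1 < p := hp.1.one_lt
  have h1' : 2 ^ (b.eval w.length) < p := by omega
  have hPI : PI p (F w) := (hb w).pi hp.1 h1'
  rw [evp_coefS hPI (lo w) (hi w) (hlh w) _ ((hb w).deg.trans_lt h1) (fun j hj => h2 j (mem_Ico.1 hj).2)]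
  have hcast : (-1 : ZMod p) = ((p - 1 : ℕ) : ZMod p) := by
    rw [Nat.cast_sub hp1.le]; simp
  have hA : ∀ k, ((g (arg w p (focA lo hi b (arg w p A) k)) : ℕ) : ZMod p) =
      evp p (fun j => if lo w ≤ j ∧ j < hi w then ((dg p k (j - lo w) : ℕ) : ZMod p) else
        asg p A j) (F w) := by
    intro k
    rw [← hg w p _ h1', ZMod.natCast_zmod_val]
    refine evp_congr (fun j hj => ?_)
    have hjb : j < b.eval w.length := (hb w).vars j hj
    have hd : ∀ j < b.eval w.length, focD lo hi (arg w p A) k j < p := by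
      intro j _
      unfold focD
      simp only [fstB_arg, pA_arg, AA_arg]
      split_ifs with c1 c2
      · unfold dg
        have := Nat.mod_lt (k / (p - 1) ^ Min.min (j - lo w) (hi w - lo w)) (show 0 < p - 1 by omega)
        omega
      · exact Nat.mod_lt _ (by omega)
      · omega
    unfold focA
    simp only [fstB_arg, pA_arg]
    rw [asg_fromD hd hjb]
    unfold focD
    simp only [fstB_arg, pA_arg, AA_arg]
    by_cases c : lo w ≤ j ∧ j < hi w
    · rw [if_pos c, if_pos c, min_eq_left (by omega)]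
    · rw [if_neg c, if_neg c, if_pos (by omega), asg_eq]
  have hPR : ∀ k, ((focPR lo hi a (arg w p A) k : ℕ) : ZMod p) =
      ∏ i ∈ range (hi w - lo w), ((dg p k i : ℕ) : ZMod p) ^ (p - 1 - a (Crest.Agent.CHR.pn w (lo w + i))) := by
    intro k
    unfold focPR
    simp only [fstB_arg, pA_arg]
    rw [if_pos hp.1, ZMod.natCast_mod, Nat.cast_prod]
    refine prod_congr rfl fun i hi' => ?_
    rw [mem_range] at hi'
    unfold focP
    simp only [fstB_arg, pA_arg]
    rw [if_neg (by omega), ZMod.natCast_mod, Nat.cast_pow, min_eq_left (by omega)]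
  have key : ((-1 : ZMod p)) ^ (hi w - lo w) * ∑ k ∈ range ((p - 1) ^ (hi w - lo w)),
      (∏ i ∈ range (hi w - lo w), ((dg p k i : ℕ) : ZMod p) ^ (p - 1 - a (Crest.Agent.CHR.pn w (lo w + i)))) *
        evp p (fun j => if lo w ≤ j ∧ j < hi w then ((dg p k (j - lo w) : ℕ) : ZMod p) else
          asg p A j) (F w) =
      (((p - 1) ^ (hi w - lo w) * ∑ k ∈ range ((p - 1) ^ (hi w - lo w)),
        focPR lo hi a (arg w p A) k * g (arg w p (focA lo hi b (arg w p A) k)) : ℕ) : ZMod p) := by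
    rw [Nat.cast_mul, Nat.cast_pow, ← hcast, Nat.cast_sum]
    congr 1
    refine sum_congr rfl fun k _ => ?_
    rw [Nat.cast_mul, hPR, hA]
  rw [key, ZMod.val_natCast]
  unfold focG
  simp only [fstB_arg, pA_arg]

/-- coefficient extraction in the block of variables `[lo, hi)` -/
theorem IsFam.coef {lo hi a : W → ℕ} {F : W → P} (hlo : CHN lo) (hhi : CHN hi) (ha : CHN a)
    (q : Polynomial ℕ) (hq : ∀ w, hi w ≤ q.eval w.length) (hF : IsFam F) :
    IsFam (fun w => coefS (Ico (lo w) (hi w)) (fun j => a (pn w j)) (F w)) := by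
  obtain ⟨bF, gF, hb, hg, hgF⟩ := hF.elim
  obtain ⟨qa, hqa⟩ := ha.bound
  obtain ⟨r, hr⟩ := exists_len_pn hhi
  set lo' : W → ℕ := fun w => Min.min (lo w) (hi w) with hlo'
  have hlo'C : CHN lo' := hlo.min hhi
  have hIco : ∀ w, Ico (lo w) (hi w) = Ico (lo' w) (hi w) := by
    intro w
    ext j
    simp only [mem_Ico, hlo']
    omega
  refine IsFam.congr (F := fun w => coefS (Ico (lo' w) (hi w))
    (fun j => a (Crest.Agent.CHR.pn w j)) (F w)) ?_ (fun w => by rw [hIco])
  refine IsFam.intro (bF + qa.comp r + 1) (fun w => ?_) (focG_CHN hlo'C hhi ha q hq bF hg)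
    (fun w p A _ hp => ?_)
  · refine Bnd.mono (Bnd.coefS (hb w) _ _) ?_
    rw [Polynomial.eval_add, Polynomial.eval_add]
    omega
  · rw [Polynomial.eval_add, Polynomial.eval_add, Polynomial.eval_one, Polynomial.eval_comp, pow_succ,
      pow_add] at hp
    have e1 : 1 ≤ 2 ^ bF.eval w.length := Nat.one_le_two_pow
    have e2 : 1 ≤ 2 ^ qa.eval (r.eval w.length) := Nat.one_le_two_pow
    have e3 : 2 ^ bF.eval w.length ≤ 2 ^ bF.eval w.length * 2 ^ qa.eval (r.eval w.length) :=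
      Nat.le_mul_of_pos_right _ e2
    have e4 : 2 ^ qa.eval (r.eval w.length) ≤ 2 ^ bF.eval w.length * 2 ^ qa.eval (r.eval w.length) :=
      Nat.le_mul_of_pos_left _ e1
    refine foc_value (fun w => min_le_right _ _) bF hb hgF w p A (by omega) (fun j hj => ?_)
    have e5 := hqa (Crest.Agent.CHR.pn w j)
    have e6 : 2 ^ qa.eval (Crest.Agent.CHR.pn w j).length ≤ 2 ^ qa.eval (r.eval w.length) :=
      Nat.pow_le_pow_right (by norm_num) (pmono qa (hr w j hj))
    omega

end Crest.Agent.CHR
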