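import Crest.Agent.CHR.FamDefs

/-!
CHUNK R316-FAMPDER (easy/medium): derivative = coefficient of an increment.
PROOF.  Both sides are additive in `f` (for the right side: `bind₁` and `coefS {t}` are additive; `coefS` additive: coefficients), so take
a monomial `f = C a * ∏ X_i^{m_i}`, `m_t = 0`, `e = m_j`.  `bind₁` gives `C a * (X_j + X_t)^e * ∏_{i≠j} X_i^{m_i}`, whose
coefficient of `X_t^1` is `C a * e X_j^{e-1} ∏_{i≠j} X_i^{m_i}` (binomial theorem).  Alternative: use `coeff` of both sides.
General lemmas on `coefS` that help: `coefS_add`, `coefS_mul_of_no_S_vars` (`g` without variables of `S`: `coefS S a (g*f) = g * coefS S a f`),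
`coefS_monomial`.  (helper22's files PhamA/PhamB may contain such lemmas.)
-/

set_option autoImplicit false

namespace Crest.Agent.CHR

open MvPolynomial Finset

private theorem FamPder_eq_sum (S : Finset ℕ) (a : ℕ → ℕ) (f : P) {T : Finset (ℕ →₀ ℕ)}
    (hT : f.support ⊆ T) : coefS S a f = ∑ m ∈ T, if ∀ i ∈ S, m i = a i then
      monomial (Finsupp.filter (fun i => i ∉ S) m) (coeff m f) else 0 := by
  unfold coefS
  rw [Finset.sum_filter]
  refine Finset.sum_subset hT fun m _ hm => ?_
  rw [notMem_support_iff.1 hm]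
  simp

theorem coefS_add (S : Finset ℕ) (a : ℕ → ℕ) (f g : P) :
    coefS S a (f + g) = coefS S a f + coefS S a g := by
  classical
  rw [FamPder_eq_sum S a (f + g) (MvPolynomial.support_add),
    FamPder_eq_sum S a f (T := f.support ∪ g.support) Finset.subset_union_left,
    FamPder_eq_sum S a g (T := f.support ∪ g.support) Finset.subset_union_right,
    ← Finset.sum_add_distrib]
  refine Finset.sum_congr rfl fun m _ => ?_
  split_ifs
  · rw [coeff_add, map_add]
  · simp

theorem coefS_monomial (S : Finset ℕ) (a : ℕ → ℕ) (m : ℕ →₀ ℕ) (c : ℚ) :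
    coefS S a (monomial m c) =
      if ∀ i ∈ S, m i = a i then monomial (Finsupp.filter (fun i => i ∉ S) m) c else 0 := by
  classical
  rw [FamPder_eq_sum S a (monomial m c) (T := {m}) MvPolynomial.support_monomial_subset,
    Finset.sum_singleton, coeff_monomial, if_pos rfl]

private theorem FamPder_zero (S : Finset ℕ) (a : ℕ → ℕ) : coefS S a 0 = 0 := by
  simp [coefS]

private theorem FamPder_sum (S : Finset ℕ) (a : ℕ → ℕ) {ι : Type*} (T : Finset ι) (F : ι → P) :
    coefS S a (∑ i ∈ T, F i) = ∑ i ∈ T, coefS S a (F i) := by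
  classical
  induction T using Finset.induction_on with
  | empty => simp [FamPder_zero]
  | insert i T hi ih => rw [Finset.sum_insert hi, Finset.sum_insert hi, coefS_add, ih]

private theorem FamPder_vars {f : P} {t : ℕ} (ht : t ∉ f.vars) {m : ℕ →₀ ℕ}
    (hm : m ∈ f.support) : m t = 0 := by
  by_contra h
  exact ht ((mem_vars_iff_mem_support t).2 ⟨m, hm, Finsupp.mem_support_iff.2 h⟩)

private theorem FamPder_1 {f : P} {t : ℕ} (ht : t ∉ f.vars) :
    coefS {t} (fun _ => 1) f = 0 := by
  unfold coefS
  refine Finset.sum_eq_zero fun m hm => ?_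
  have h1 := FamPder_vars ht (Finset.mem_filter.1 hm).1
  have h2 : m t = 1 := (Finset.mem_filter.1 hm).2 t (Finset.mem_singleton_self t)
  omega

private theorem FamPder_2 {g : P} {t : ℕ} (ht : t ∉ g.vars) :
    coefS {t} (fun _ => 1) (X t * g) = g := by
  conv_lhs => rw [← support_sum_monomial_coeff g, Finset.mul_sum]
  rw [FamPder_sum]
  conv_rhs => rw [← support_sum_monomial_coeff g]
  refine Finset.sum_congr rfl fun m hm => ?_
  have h0 := FamPder_vars ht hm
  have h1 : (X t : P) * monomial m (coeff m g) =
      monomial (Finsupp.single t 1 + m) (coeff m g) := by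
    rw [X, monomial_mul, one_mul]
  rw [h1, coefS_monomial, if_pos]
  · have h2 : Finsupp.filter (fun i => i ∉ ({t} : Finset ℕ)) (Finsupp.single t 1 + m) = m := by
      refine Finsupp.ext fun i => ?_
      rw [Finsupp.filter_apply]
      by_cases hi : i = t
      · subst hi; simp [h0]
      · simp [hi]
    rw [h2]
  · intro i hi
    rw [Finset.mem_singleton.1 hi]
    simp [h0]

private theorem FamPder_3 (h : P) (t : ℕ) :
    coefS {t} (fun _ => 1) (X t ^ 2 * h) = 0 := by
  conv_lhs => rw [← support_sum_monomial_coeff h, Finset.mul_sum]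
  rw [FamPder_sum]
  refine Finset.sum_eq_zero fun m hm => ?_
  have h1 : (X t : P) ^ 2 * monomial m (coeff m h) =
      monomial (Finsupp.single t 2 + m) (coeff m h) := by
    rw [X_pow_eq_monomial, monomial_mul, one_mul]
  rw [h1, coefS_monomial, if_neg]
  intro h2
  have := h2 t (Finset.mem_singleton_self t)
  simp at this
  omega

private theorem FamPder_taylor (f : P) (j t : ℕ) : ∃ h : P,
    bind₁ (fun i => if i = j then X j + X t else X i) f =
      f + X t * pderiv j f + X t ^ 2 * h := by
  induction f using MvPolynomial.induction_on with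
  | C a => exact ⟨0, by simp⟩
  | add p q hp hq =>
    obtain ⟨h1, e1⟩ := hp
    obtain ⟨h2, e2⟩ := hq
    refine ⟨h1 + h2, ?_⟩
    rw [map_add, e1, e2, map_add]
    ring
  | mul_X p i hp =>
    obtain ⟨h1, e1⟩ := hp
    by_cases hi : i = j
    · subst hi
      refine ⟨pderiv i p + h1 * X i + X t * h1, ?_⟩
      rw [map_mul, e1, bind₁_X_right, if_pos rfl, Derivation.leibniz, pderiv_X_self]
      simp only [smul_eq_mul]
      ring
    · refine ⟨h1 * X i, ?_⟩
      rw [map_mul, e1, bind₁_X_right, if_neg hi, Derivation.leibniz, pderiv_X_of_ne hi]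
      simp only [smul_eq_mul]
      ring

theorem pderiv_eq_coefS {f : P} {j t : ℕ} (hjt : j ≠ t) (ht : t ∉ f.vars) :
    pderiv j f = coefS {t} (fun _ => 1) (bind₁ (fun i => if i = j then X j + X t else X i) f) := by
  obtain ⟨h, e⟩ := FamPder_taylor f j t
  have hd : t ∉ (pderiv j f).vars := by
    classical
    intro h1
    have h2 : pderiv j f =
        ∑ m ∈ f.support, monomial (m - Finsupp.single j 1) (coeff m f * (m j : ℚ)) := by
      conv_lhs => rw [← support_sum_monomial_coeff f, map_sum]
      exact Finset.sum_congr rfl fun m _ => pderiv_monomial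
    rw [h2] at h1
    have h3 := vars_sum_subset _ _ h1
    rw [Finset.mem_biUnion] at h3
    obtain ⟨m, hm, h4⟩ := h3
    have h5 : t ∈ (m - Finsupp.single j 1).support := by
      by_cases hr : coeff m f * (m j : ℚ) = 0
      · rw [hr, monomial_zero, vars_0] at h4
        exact absurd h4 (Finset.notMem_empty _)
      · rwa [vars_monomial hr] at h4
    have h0 := FamPder_vars ht hm
    rw [Finsupp.mem_support_iff] at h5
    apply h5
    simp [h0]
  rw [e, coefS_add, coefS_add, FamPder_1 ht, FamPder_2 hd, FamPder_3, zero_add, add_zero]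

end Crest.Agent.CHR
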