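import Crest.Agent.CHR.FamOpB
import Crest.Agent.CHR.FamOpC
import Crest.Agent.CHR.FamPder

/-!
CHUNK R316-FAMOPD (easy/medium): derivatives.
PROOF.  `b` = bound of `F` (`IsFam.bnd`), `t w = b(|w|)` (`CHN.polyLen`), all variables of `F w` are `< t w`.  If `t w ≤ j w` then `pderiv = 0`
(`pderiv_eq_zero_of_notMem_vars`).  If `j w < t w`: `pderiv_eq_coefS` with `t = t w`; `{t} = Ico t (t+1)` (`Nat.Ico_succ_singleton`);
`IsFam.coef` with `a = 1`, `hi = t + 1`; the substituted polynomial is `IsFam.bind` with
`G y = if i = j w then X (min (j w) (t w)) + X (t w) else X (min i (t w))`, `w = fstB y`, `i = val (sndB y)` (`IsFam.iteD`, `IsFam.var`; equal to the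
right substitution on the variables of `F w`: `bind₁_congr'`).  Finally `IsFam.iteD` on `j w < t w`.
-/

set_option autoImplicit false

namespace Crest.Agent.CHR

open MvPolynomial Finset

theorem IsFam.pderiv {j : W → ℕ} {F : W → P} (hj : CHN j) (hF : IsFam F) :
    IsFam (fun w => MvPolynomial.pderiv (j w) (F w)) := by
  obtain ⟨b, hb⟩ := hF.bnd
  have ht : CHN (fun w => b.eval w.length) := CHN.polyLen CHF.id b
  have ht1 : CHN (fun w => b.eval w.length + 1) := ht.add (CHN.const 1)
  have hlen : ∀ y : W, b.eval (fstB y).length ≤ b.eval y.length := fun y => pmono b (len_fstB_le y)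
  -- the substitution
  have hG1 : IsFam (fun y => (X (Min.min (j (fstB y)) (b.eval (fstB y).length)) : P)) :=
    IsFam.var ((hj.comp CHF.fst).min (ht.comp CHF.fst)) b (fun y => (min_le_right _ _).trans (hlen y))
  have hG2 : IsFam (fun y => (X (b.eval (fstB y).length) : P)) :=
    IsFam.var (ht.comp CHF.fst) b hlen
  have hG3 : IsFam (fun y => (X (Min.min (val (sndB y)) (b.eval (fstB y).length)) : P)) :=
    IsFam.var (CHN.var.min (ht.comp CHF.fst)) b (fun y => (min_le_right _ _).trans (hlen y))
  have hG : IsFam (fun y => if val (sndB y) = j (fstB y) then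
      (X (Min.min (j (fstB y)) (b.eval (fstB y).length)) : P) + X (b.eval (fstB y).length) else
      X (Min.min (val (sndB y)) (b.eval (fstB y).length))) :=
    IsFam.iteD (CHN.var.eq (hj.comp CHF.fst)) (hG1.add hG2) hG3
  have hB := hF.bind hG
  have hC := IsFam.coef ht ht1 (CHN.const 1) (b + 1) (fun w => by
    rw [Polynomial.eval_add, Polynomial.eval_one]) hB
  refine (IsFam.iteD (hj.lt ht) hC IsFam.zero).congr (fun w => ?_)
  have htv : b.eval w.length ∉ (F w).vars := fun h => lt_irrefl _ ((hb w).vars _ h)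
  split_ifs with hlt
  · rw [pderiv_eq_coefS (ne_of_lt hlt) htv, Nat.Ico_succ_singleton]
    congr 1
    refine bind₁_congr' (fun i hi => ?_)
    have hi' : i < b.eval w.length := (hb w).vars i hi
    simp only [fstB_pnD, val_sndB_pnD]
    rw [min_eq_left hlt.le, min_eq_left hi'.le]
  · rw [pderiv_eq_zero_of_notMem_vars]
    exact fun h => hlt ((hb w).vars _ h)

end Crest.Agent.CHR
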