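import Crest.Agent.CHR.FamOpS
import Crest.Agent.CHR.FamDetM

/-!
CHUNK R316-FAMOPDET (medium): determinants of polynomial size.
PROOF.  `detM_Ico` with `M i j = F (pn (pn w i) j)`; `n = hi - lo ≤ q(|w|)`.  `IsFam.sum2` with `N w = n^n` (`CHN.powN`: `n^n < 2^((q+1)^2)`-ish) and
the term (context `y = pn w k`) `C (sgw n k) * ∏_{i<n} F (pn (pn w (lo+i)) (lo + k/n^i%n))`: `IsFam.prod2`, `IsFam.comp` (`CHF.pn`), digits
`k / n^i % n` CHN (`CHN.dgt` if `2 ≤ n`; for `n ≤ 1` the digit is `0` resp. `k`, but only `i < n` matters); `C (sgw n k)` = product over `i < n`, `j < n` of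
`if i < j then (if σ i < σ j then 1 else if σ i = σ j then 0 else -1) else 1` (`IsFam.prod2` twice, `IsFam.iteD`, `IsFam.one`, `IsFam.zero`,
`IsFam.neg`).
-/

set_option autoImplicit false

namespace Crest.Agent.CHR

open MvPolynomial Finset

/-- the digit, `0` if the base is `≤ 1` -/
def dgd (n k i : ℕ) : ℕ := if 2 ≤ n then dgt' n k i else 0

theorem dgd_eq {n : ℕ} (hn : n ≠ 0) (k i : ℕ) : dgd n k i = k / n ^ i % n := by
  unfold dgd dgt'
  split_ifs with h
  · rfl
  · have : n = 1 := by omega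
    subst this
    rw [Nat.mod_one]

/-- the sign factor -/
noncomputable def sgP (n k i j : ℕ) : P :=
  if i < j then (if dgd n k i < dgd n k j then 1 else if dgd n k i = dgd n k j then 0 else -1)
  else 1

theorem sgw_eq (n k : ℕ) : ((sgw n k : ℤ) : P) = ∏ i ∈ range n, ∏ j ∈ range n, sgP n k i j := by
  unfold sgw
  rw [Int.cast_prod]
  refine Finset.prod_congr rfl fun i hi => ?_
  rw [Int.cast_prod]
  refine Finset.prod_congr rfl fun j _ => ?_
  have hn : n ≠ 0 := by
    rintro rfl
    simp at hi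
  unfold sgP sg2
  rw [dgd_eq hn, dgd_eq hn]
  split_ifs <;> simp

/-- determinants of polynomial size -/
theorem IsFam.det {lo hi : W → ℕ} {F : W → P} (hlo : CHN lo) (hhi : CHN hi)
    (q : Polynomial ℕ) (hq : ∀ w, hi w ≤ q.eval w.length) (hF : IsFam F) :
    IsFam (fun w => Matrix.det (fun i j : Ico (lo w) (hi w) => F (pn (pn w i) j))) := by
  have hn : CHN (fun w => hi w - lo w) := CHN.sub hhi hlo
  have hN : CHN (fun w => (hi w - lo w) ^ (hi w - lo w)) := by
    refine CHN.powN hn hn (q * q + 1) fun w => ?_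
    have h1 : hi w - lo w ≤ q.eval w.length := (Nat.sub_le _ _).trans (hq w)
    calc (hi w - lo w) ^ (hi w - lo w) ≤ (2 ^ (hi w - lo w)) ^ (hi w - lo w) :=
          Nat.pow_le_pow_left (Nat.lt_two_pow_self).le _
      _ = 2 ^ ((hi w - lo w) * (hi w - lo w)) := by rw [← pow_mul]
      _ ≤ 2 ^ (q.eval w.length * q.eval w.length) :=
          Nat.pow_le_pow_right (by norm_num) (Nat.mul_le_mul h1 h1)
      _ < 2 ^ ((q * q + 1).eval w.length) := by
          apply Nat.pow_lt_pow_right (by norm_num)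
          simp
  have hmain : IsFam (fun w => ∑ k ∈ range ((hi w - lo w) ^ (hi w - lo w)),
      (∏ i ∈ range (hi w - lo w), ∏ j ∈ range (hi w - lo w), sgP (hi w - lo w) k i j) *
        ∏ i ∈ range (hi w - lo w),
          F (pn (pn w (lo w + i)) (lo w + dgd (hi w - lo w) k i))) := by
    refine IsFam.sum2 hN (F := fun w k =>
      (∏ i ∈ range (hi w - lo w), ∏ j ∈ range (hi w - lo w), sgP (hi w - lo w) k i j) *
        ∏ i ∈ range (hi w - lo w),
          F (pn (pn w (lo w + i)) (lo w + dgd (hi w - lo w) k i))) ?_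
    refine IsFam.mul ?_ ?_
    · refine IsFam.prod2 (N := fun y => hi (fstB y) - lo (fstB y)) (F := fun y i =>
        ∏ j ∈ range (hi (fstB y) - lo (fstB y)),
          sgP (hi (fstB y) - lo (fstB y)) (val (sndB y)) i j) hn.fst ?_
      refine IsFam.prod2 (N := fun z => hi (fstB (fstB z)) - lo (fstB (fstB z)))
        (F := fun z j => sgP (hi (fstB (fstB z)) - lo (fstB (fstB z))) (val (sndB (fstB z)))
          (val (sndB z)) j) hn.fst.fst ?_
      have hn3 : CHN (fun u => hi (fstB (fstB (fstB u))) - lo (fstB (fstB (fstB u)))) :=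
        hn.fst.fst.fst
      have hk : CHN (fun u => val (sndB (fstB (fstB u)))) := CHN.var.fst.fst
      have hi' : CHN (fun u => val (sndB (fstB u))) := CHN.var.fst
      have hj' : CHN (fun u => val (sndB u)) := CHN.var
      have hdi : CHN (fun u => dgd (hi (fstB (fstB (fstB u))) - lo (fstB (fstB (fstB u))))
          (val (sndB (fstB (fstB u)))) (val (sndB (fstB u)))) := CHN.dgt hn3 hk hi'
      have hdj : CHN (fun u => dgd (hi (fstB (fstB (fstB u))) - lo (fstB (fstB (fstB u))))
          (val (sndB (fstB (fstB u)))) (val (sndB u))) := CHN.dgt hn3 hk hj'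
      exact IsFam.iteD (CHN.lt hi' hj')
        (IsFam.iteD (CHN.lt hdi hdj) IsFam.one
          (IsFam.iteD (CHN.eq hdi hdj) IsFam.zero IsFam.one.neg)) IsFam.one
    · refine IsFam.prod2 (N := fun y => hi (fstB y) - lo (fstB y)) (F := fun y i =>
        F (pn (pn (fstB y) (lo (fstB y) + i))
          (lo (fstB y) + dgd (hi (fstB y) - lo (fstB y)) (val (sndB y)) i))) hn.fst ?_
      refine hF.comp (CHF.pn (CHF.pn (CHF.fst.comp CHF.fst) (CHN.add hlo.fst.fst CHN.var))
        (CHN.add hlo.fst.fst ?_))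
      exact CHN.dgt hn.fst.fst CHN.var.fst CHN.var
  refine hmain.congr fun w => ?_
  rw [detM_Ico (lo w) (hi w) (fun i j => F (pn (pn w i) j))]
  refine Finset.sum_congr rfl fun k _ => ?_
  rw [sgw_eq]
  congr 1
  refine Finset.prod_congr rfl fun i hi' => ?_
  have hn0 : hi w - lo w ≠ 0 := by
    intro h0
    rw [h0] at hi'
    simp at hi'
  rw [dgd_eq hn0]

end Crest.Agent.CHR
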