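import Crest.Agent.CHR.FamOpA

/-!
CHUNK R316-FAMOPS (medium): exponential sums, products and powers of good families.
PROOF.  `IsFam.elim` gives `b, g`; `N w < 2^(q |w|)` (`CHN.bound`), `|pn w i| ≤ r(|w|)` for `i < N w` (`exists_len_pn`).  `b' = b.comp r + q`
(`Bnd.sum`, `Bnd.prod` with `k = q(|w|)`).
`sum`: `g' z = (∑ i < N (fstB z), g (arg (pn (fstB z) i) (pA z) (AA z))) % pA z` (`CHN.sum2`, `CHN.mod`; `evp_sum`,
`ZMod.val_natCast`, `ZMod.natCast_val`).  `prod`: `CHN.prodMod` with the factor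
`f y = g (arg (pn (fstB (fstB y)) (val (sndB y))) (pA (fstB y)) (AA (fstB y)))`, modulus `pA`; `evp_prod`.
`pow`: `F w ^ N w = ∏ i < N w, F (fstB (pn w i))`: `IsFam.prod` and `IsFam.comp .. CHF.fst`.
`sum2`, `prod2`: the same with `F` given in the context form.
-/

set_option autoImplicit false

namespace Crest.Agent.CHR

open MvPolynomial Finset

/-- the quantitative part, common to sums and products -/
private theorem bnd_aux {N : W → ℕ} {F : W → P} (hN : CHN N) {b : Polynomial ℕ}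
    (hb : ∀ w, Bnd (b.eval w.length) (F w)) :
    ∃ r q : Polynomial ℕ, (∀ w, N w ≤ 2 ^ q.eval w.length) ∧
      (∀ w i, i < N w → b.eval (pn w i).length ≤ (b.comp r).eval w.length) ∧
      (∀ w i, i < N w → Bnd ((b.comp r).eval w.length) (F (pn w i))) := by
  obtain ⟨q, hq⟩ := hN.bound
  obtain ⟨r, hr⟩ := exists_len_pn hN
  have key : ∀ w i, i < N w → b.eval (pn w i).length ≤ (b.comp r).eval w.length := fun w i hi => by
    rw [Polynomial.eval_comp]
    exact pmono b (hr w i hi)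
  exact ⟨r, q, fun w => (hq w).le, key, fun w i hi => (hb _).mono (key w i hi)⟩

private theorem CHN_pnarg {g : W → ℕ} (hg : CHN g) :
    CHN (fun y => g (arg (pn (fstB (fstB y)) (val (sndB y))) (pA (fstB y)) (AA (fstB y)))) :=
  hg.comp (CHF.arg (CHF.pn (CHF.fst.comp CHF.fst) CHN.var) CHN.pA.fst CHN.AA.fst)

theorem IsFam.sum {N : W → ℕ} {F : W → P} (hN : CHN N) (hF : IsFam F) :
    IsFam (fun w => ∑ i ∈ range (N w), F (pn w i)) := by
  obtain ⟨b, g, hb, hg, h⟩ := hF.elim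
  obtain ⟨r, q, hq, hr, hB⟩ := bnd_aux hN hb
  refine IsFam.intro (b.comp r + q) (fun w => ?_)
    (g := fun z => (∑ i ∈ range (N (fstB z)), g (arg (pn (fstB z) i) (pA z) (AA z))) % pA z)
    ((CHN.sum2 (F := fun z i => g (arg (pn (fstB z) i) (pA z) (AA z))) hN.fst
      (CHN_pnarg hg)).mod CHN.pA) (fun w p A hp hlt => ?_)
  · rw [Polynomial.eval_add]
    exact Bnd.sum (fun i hi => hB w i hi) (hq w)
  · rw [Polynomial.eval_add] at hlt
    have l1 : ∀ i < N w, 2 ^ b.eval (pn w i).length < p := fun i hi =>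
      lt_of_le_of_lt (Nat.pow_le_pow_right (by norm_num) ((hr w i hi).trans (Nat.le_add_right _ _))) hlt
    simp only [fstB_arg, pA_arg, AA_arg]
    have e : ∑ i ∈ range (N w), g (arg (pn w i) p A) =
        ∑ i ∈ range (N w), (evp p (asg p A) (F (pn w i))).val :=
      sum_congr rfl (fun i hi => (h (pn w i) p A (l1 i (mem_range.1 hi))).symm)
    rw [e, ← ZMod.val_natCast, Nat.cast_sum,
      evp_sum _ (fun i hi => (hb _).pi hp.1 (l1 i (mem_range.1 hi)))]
    congr 1
    refine sum_congr rfl (fun i _ => ?_)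
    rw [ZMod.natCast_zmod_val]

theorem IsFam.prod {N : W → ℕ} {F : W → P} (hN : CHN N) (hF : IsFam F) :
    IsFam (fun w => ∏ i ∈ range (N w), F (pn w i)) := by
  obtain ⟨b, g, hb, hg, h⟩ := hF.elim
  obtain ⟨r, q, hq, hr, hB⟩ := bnd_aux hN hb
  obtain ⟨f, hf, hf2⟩ : ∃ f : W → ℕ, CHN f ∧ ∀ w p A i,
      f (pn (arg w p A) i) = g (arg (pn w i) p A) :=
    ⟨_, CHN_pnarg hg, fun w p A i => by simp only [fstB_pn, val_sndB_pnD, fstB_arg, pA_arg, AA_arg]⟩
  obtain ⟨G, hG, hG2⟩ : ∃ G : W → ℕ, CHN G ∧ ∀ w p A, p.Prime →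
      G (arg w p A) = (∏ i ∈ range (N w), g (arg (pn w i) p A)) % p := by
    refine ⟨_, CHN.prodMod hN.fst hf CHN.pA, fun w p A hp => ?_⟩
    have e : (pA (arg w p A)).Prime := by rw [pA_arg]; exact hp
    rw [if_pos e, pA_arg, fstB_arg]
    simp only [hf2]
  refine IsFam.intro (b.comp r + q) (fun w => ?_) hG (fun w p A hp hlt => ?_)
  · rw [Polynomial.eval_add]
    exact Bnd.prod (fun i hi => hB w i hi) (hq w)
  · rw [Polynomial.eval_add] at hlt
    have l1 : ∀ i < N w, 2 ^ b.eval (pn w i).length < p := fun i hi =>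
      lt_of_le_of_lt (Nat.pow_le_pow_right (by norm_num) ((hr w i hi).trans (Nat.le_add_right _ _))) hlt
    rw [hG2 w p A hp.1]
    have e : ∏ i ∈ range (N w), g (arg (pn w i) p A) =
        ∏ i ∈ range (N w), (evp p (asg p A) (F (pn w i))).val :=
      prod_congr rfl (fun i hi => (h (pn w i) p A (l1 i (mem_range.1 hi))).symm)
    rw [e, ← ZMod.val_natCast, Nat.cast_prod,
      evp_prod _ (fun i hi => (hb _).pi hp.1 (l1 i (mem_range.1 hi)))]
    congr 1
    refine prod_congr rfl (fun i _ => ?_)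
    rw [ZMod.natCast_zmod_val]

theorem IsFam.pow {N : W → ℕ} {F : W → P} (hN : CHN N) (hF : IsFam F) :
    IsFam (fun w => F w ^ N w) := by
  refine (IsFam.prod hN (hF.comp CHF.fst)).congr (fun w => ?_)
  simp

theorem IsFam.sum2 {N : W → ℕ} {F : W → ℕ → P} (hN : CHN N)
    (hF : IsFam (fun z => F (fstB z) (val (sndB z)))) :
    IsFam (fun w => ∑ i ∈ range (N w), F w i) :=
  (IsFam.sum hN hF).congr (fun w => by simp)

theorem IsFam.prod2 {N : W → ℕ} {F : W → ℕ → P} (hN : CHN N)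
    (hF : IsFam (fun z => F (fstB z) (val (sndB z)))) :
    IsFam (fun w => ∏ i ∈ range (N w), F w i) :=
  (IsFam.prod hN hF).congr (fun w => by simp)

end Crest.Agent.CHR
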