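import Crest.Agent.CHR.FamOpD
import Crest.Agent.CHR.FamOpDet
import Crest.Agent.CHR.PhamDefs

/-!
CHUNK R316-FAMRES (medium): residues, traces and norms of Pham systems.
PROOF.  `denS = ∏_{i < hi-lo} ∑_{k < K+1} q_j^k X_j^(m_j (K-k))`, `j = lo+i` (`Finset.prod_Ico_eq_prod_range`): `IsFam.prod2`, `IsFam.sum2`,
`IsFam.pow`, `IsFam.var` (index `min j (r |w|)`, as only `j < hi w ≤ r(|w|)` matters), `IsFam.comp`.  `res`: `IsFam.coef` with
`a y = m y * K (fstB y) + m y - 1`.  `tr`: `jacS` = `IsFam.det` of the family `y ↦ pderiv j (X i ^ m (pn w i) - q (pn w i))`, `w = fstB (fstB y)`,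
`i = val (sndB (fstB y))`, `j = val (sndB y)` (again `X (min i (r |w|))`; equal for `i < hi w`).  `nr`: `∑_{k < N+1} C (1/k!) * (∑_{l ∈ Icc 1 N} ...)^k`:
`C (1/k!) = ∏_{i<k} C (1/(i+1))` (`IsFam.prod2`, `IsFam.const`); `Icc 1 N` = `range N` shifted by one; `C ((-1)^(l-1)/l)` = `IsFam.const` with sign by
`IsFam.iteD` (parity of `l`: `CHN.mod`); `trS .. (g ^ l)`: `IsFam.tr` in the context `pn (pn w k) l` (apply `IsFam.tr` to the family
`z ↦ g (fstB z) ^ val (sndB z)` and then `IsFam.comp`); outer `coefS {y}`: `{y} = Ico y (y+1)`, `IsFam.coef`.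
-/

set_option autoImplicit false

namespace Crest.Agent.CHR

open MvPolynomial Finset

/-- a variable with truncated index -/
theorem IsFam.varMin {j : W → ℕ} {f : W → W} (hj : CHN j) (hf : CHF f) (r : Polynomial ℕ)
    (hlen : ∀ w, (f w).length ≤ w.length) :
    IsFam (fun w => X (Min.min (j w) (r.eval (f w).length))) :=
  IsFam.var (CHN.min hj (CHN.polyLen hf r)) r fun w => (min_le_right _ _).trans (pmono r (hlen w))

theorem IsFam.den {lo hi m K : W → ℕ} {q : W → P} (hlo : CHN lo) (hhi : CHN hi) (hm : CHN m)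
    (hK : CHN K) (r : Polynomial ℕ) (hr : ∀ w, hi w ≤ r.eval w.length) (hq : IsFam q) :
    IsFam (fun w => denS (Ico (lo w) (hi w)) (fun j => m (pn w j)) (fun j => q (pn w j)) (K w)) := by
  have hn : CHN (fun w => hi w - lo w) := CHN.sub hhi hlo
  have hmain : IsFam (fun w => ∏ i ∈ range (hi w - lo w), ∑ k ∈ range (K w + 1),
      q (pn w (lo w + i)) ^ k * X (Min.min (lo w + i) (r.eval w.length)) ^
        (m (pn w (lo w + i)) * (K w - k))) := by
    refine IsFam.prod2 (N := fun w => hi w - lo w) (F := fun w i => ∑ k ∈ range (K w + 1),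
      q (pn w (lo w + i)) ^ k * X (Min.min (lo w + i) (r.eval w.length)) ^
        (m (pn w (lo w + i)) * (K w - k))) hn ?_
    refine IsFam.sum2 (N := fun z => K (fstB z) + 1) (F := fun z k =>
      q (pn (fstB z) (lo (fstB z) + val (sndB z))) ^ k *
        X (Min.min (lo (fstB z) + val (sndB z)) (r.eval (fstB z).length)) ^
        (m (pn (fstB z) (lo (fstB z) + val (sndB z))) * (K (fstB z) - k)))
      (CHN.add hK.fst (CHN.const 1)) ?_
    have hidx : CHN (fun u => lo (fstB (fstB u)) + val (sndB (fstB u))) :=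
      CHN.add hlo.fst.fst CHN.var.fst
    have hff : CHF (fun u => fstB (fstB u)) := CHF.fst.comp CHF.fst
    refine IsFam.mul ?_ ?_
    · exact IsFam.pow (N := fun u => val (sndB u)) CHN.var (hq.comp (CHF.pn hff hidx))
    · refine IsFam.pow (N := fun u => m (pn (fstB (fstB u)) (lo (fstB (fstB u)) +
        val (sndB (fstB u)))) * (K (fstB (fstB u)) - val (sndB u))) ?_ ?_
      · exact CHN.mul (hm.comp (CHF.pn hff hidx)) (CHN.sub hK.fst.fst CHN.var)
      · exact IsFam.varMin hidx hff r fun w => (len_fstB_le _).trans (len_fstB_le _)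
  refine hmain.congr fun w => ?_
  unfold denS
  rw [Finset.prod_Ico_eq_prod_range]
  refine Finset.prod_congr rfl fun i hi' => ?_
  have h1 : lo w + i ≤ r.eval w.length := by
    have := Finset.mem_range.mp hi'
    have := hr w
    omega
  rw [min_eq_left h1]

theorem IsFam.res {lo hi m K : W → ℕ} {q g : W → P} (hlo : CHN lo) (hhi : CHN hi) (hm : CHN m)
    (hK : CHN K) (r : Polynomial ℕ) (hr : ∀ w, hi w ≤ r.eval w.length) (hq : IsFam q) (hg : IsFam g) :
    IsFam (fun w => resS (Ico (lo w) (hi w)) (fun j => m (pn w j)) (fun j => q (pn w j)) (K w) (g w)) := by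
  have h1 := IsFam.coef (a := fun y => m y * K (fstB y) + m y - 1) hlo hhi
    (CHN.sub (CHN.add (CHN.mul hm hK.fst) hm) (CHN.const 1)) r hr
    (hg.mul (IsFam.den hlo hhi hm hK r hr hq))
  refine h1.congr fun w => ?_
  unfold resS
  simp only [fstB_pn]

theorem IsFam.jac {lo hi m : W → ℕ} {q : W → P} (hlo : CHN lo) (hhi : CHN hi) (hm : CHN m)
    (r : Polynomial ℕ) (hr : ∀ w, hi w ≤ r.eval w.length) (hq : IsFam q) :
    IsFam (fun w => jacS (Ico (lo w) (hi w)) (fun j => m (pn w j)) (fun j => q (pn w j))) := by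
  have hF : IsFam (fun y => MvPolynomial.pderiv (val (sndB y))
      (X (Min.min (val (sndB (fstB y))) (r.eval (fstB (fstB y)).length)) ^ m (fstB y) -
        q (fstB y))) := by
    refine IsFam.pderiv CHN.var (IsFam.sub ?_ (hq.comp CHF.fst))
    refine IsFam.pow (N := fun y => m (fstB y)) hm.fst ?_
    exact IsFam.varMin CHN.var.fst (CHF.fst.comp CHF.fst) r
      fun w => (len_fstB_le _).trans (len_fstB_le _)
  have h1 := IsFam.det hlo hhi r hr hF
  refine h1.congr fun w => ?_
  unfold jacS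
  congr 1
  funext i j
  have hi' : (i : ℕ) ≤ r.eval w.length := (Finset.mem_Ico.mp i.2).2.le.trans (hr w)
  simp only [fstB_pn, sndB_pn, val_bits]
  rw [min_eq_left hi']

theorem IsFam.tr {lo hi m K : W → ℕ} {q g : W → P} (hlo : CHN lo) (hhi : CHN hi) (hm : CHN m)
    (hK : CHN K) (r : Polynomial ℕ) (hr : ∀ w, hi w ≤ r.eval w.length) (hq : IsFam q) (hg : IsFam g) :
    IsFam (fun w => trS (Ico (lo w) (hi w)) (fun j => m (pn w j)) (fun j => q (pn w j)) (K w) (g w)) :=
  IsFam.res hlo hhi hm hK r hr hq (hg.mul (IsFam.jac hlo hhi hm r hr hq))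

/-- `1/(i+1)` -/
theorem IsFam.inv_succ {j : W → ℕ} (hj : CHN j) :
    IsFam (fun w => C (1 / ((j w : ℚ) + 1))) :=
  (IsFam.const (CHN.const 1) (CHN.add hj (CHN.const 1)) (fun _ => Nat.succ_pos _)).congr
    fun w => by push_cast; rfl

theorem IsFam.inv_factorial {j : W → ℕ} (hj : CHN j) :
    IsFam (fun w => C (1 / ((j w).factorial : ℚ))) := by
  have h1 : IsFam (fun w => ∏ i ∈ range (j w), (C (1 / ((i : ℚ) + 1)) : P)) :=
    IsFam.prod2 (N := j) (F := fun _ i => (C (1 / ((i : ℚ) + 1)) : P)) hj (IsFam.inv_succ CHN.var)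
  refine h1.congr fun w => ?_
  rw [← map_prod]
  congr 1
  rw [Finset.prod_div_distrib, Finset.prod_const_one]
  congr 1
  rw [← Finset.prod_range_add_one_eq_factorial]
  push_cast
  rfl

theorem IsFam.nr {lo hi m K N y : W → ℕ} {q g : W → P} (hlo : CHN lo) (hhi : CHN hi) (hm : CHN m)
    (hK : CHN K) (hN : CHN N) (hy : CHN y) (r : Polynomial ℕ) (hr : ∀ w, hi w ≤ r.eval w.length)
    (hry : ∀ w, y w ≤ r.eval w.length) (hq : IsFam q) (hg : IsFam g) :
    IsFam (fun w => nrS (Ico (lo w) (hi w)) (fun j => m (pn w j)) (fun j => q (pn w j))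
      (y w) (K w) (N w) (g w)) := by
  -- the traces
  have htr : IsFam (fun z => trS (Ico (lo (fstB z)) (hi (fstB z))) (fun j => m (pn (fstB z) j))
      (fun j => q (pn (fstB z) j)) (K (fstB z)) (g (fstB z) ^ (val (sndB z) + 1))) := by
    have hff : CHF (fun u => pn (fstB (fstB u)) (val (sndB u))) :=
      CHF.pn (CHF.fst.comp CHF.fst) CHN.var
    have h1 := IsFam.tr (lo := fun z => lo (fstB z)) (hi := fun z => hi (fstB z))
      (m := fun u => m (pn (fstB (fstB u)) (val (sndB u)))) (K := fun z => K (fstB z))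
      (q := fun u => q (pn (fstB (fstB u)) (val (sndB u))))
      (g := fun z => g (fstB z) ^ (val (sndB z) + 1)) hlo.fst hhi.fst (hm.comp hff) hK.fst r
      (fun z => (hr _).trans (pmono r (len_fstB_le _))) (hq.comp hff)
      (IsFam.pow (N := fun z => val (sndB z) + 1) (CHN.add CHN.var (CHN.const 1))
        (hg.comp CHF.fst))
    refine h1.congr fun z => ?_
    simp only [fstB_pn, sndB_pn, val_bits]
  have hcoef : IsFam (fun z => (C ((-1 : ℚ) ^ (val (sndB z)) / ((val (sndB z) : ℚ) + 1)) : P)) := by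
    have h1 := IsFam.iteD (p := fun z => val (sndB z) % 2 = 0)
      (CHN.eq (CHN.mod CHN.var (CHN.const 2)) (CHN.const 0))
      (IsFam.inv_succ CHN.var) (IsFam.inv_succ CHN.var).neg
    refine h1.congr fun z => ?_
    split_ifs with h
    · rw [Even.neg_one_pow (Nat.even_iff.mpr h)]
    · rw [Odd.neg_one_pow (Nat.odd_iff.mpr (by omega)), ← map_neg, neg_div]
  have hinner : IsFam (fun w => ∑ i ∈ range (N w), C ((-1 : ℚ) ^ i / ((i : ℚ) + 1)) *
      trS (Ico (lo w) (hi w)) (fun j => m (pn w j)) (fun j => q (pn w j)) (K w) (g w ^ (i + 1)) *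
        X (y w) ^ (i + 1)) := by
    refine IsFam.sum2 (N := N) (F := fun w i => C ((-1 : ℚ) ^ i / ((i : ℚ) + 1)) *
      trS (Ico (lo w) (hi w)) (fun j => m (pn w j)) (fun j => q (pn w j)) (K w) (g w ^ (i + 1)) *
        X (y w) ^ (i + 1)) hN ?_
    refine IsFam.mul (IsFam.mul hcoef htr) ?_
    refine IsFam.pow (N := fun z => val (sndB z) + 1) (CHN.add CHN.var (CHN.const 1)) ?_
    exact IsFam.var hy.fst r fun z => (hry _).trans (pmono r (len_fstB_le _))
  have houter : IsFam (fun w => ∑ k ∈ range (N w + 1), C (1 / (k.factorial : ℚ)) *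
      (∑ i ∈ range (N w), C ((-1 : ℚ) ^ i / ((i : ℚ) + 1)) *
      trS (Ico (lo w) (hi w)) (fun j => m (pn w j)) (fun j => q (pn w j)) (K w) (g w ^ (i + 1)) *
        X (y w) ^ (i + 1)) ^ k) := by
    refine IsFam.sum2 (N := fun w => N w + 1) (F := fun w k => C (1 / (k.factorial : ℚ)) *
      (∑ i ∈ range (N w), C ((-1 : ℚ) ^ i / ((i : ℚ) + 1)) *
      trS (Ico (lo w) (hi w)) (fun j => m (pn w j)) (fun j => q (pn w j)) (K w) (g w ^ (i + 1)) *
        X (y w) ^ (i + 1)) ^ k) (CHN.add hN (CHN.const 1)) ?_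
    exact IsFam.mul (IsFam.inv_factorial CHN.var)
      (IsFam.pow (N := fun z => val (sndB z)) CHN.var (hinner.comp CHF.fst))
  have h1 := IsFam.coef (lo := y) (hi := fun w => y w + 1) (a := fun z => N (fstB z)) hy
    (CHN.add hy (CHN.const 1)) hN.fst (r + 1) (fun w => by
      have := hry w
      simp only [Polynomial.eval_add, Polynomial.eval_one]
      omega) houter
  refine h1.congr fun w => ?_
  have hin : ∑ i ∈ range (N w), C ((-1 : ℚ) ^ i / ((i : ℚ) + 1)) *
      trS (Ico (lo w) (hi w)) (fun j => m (pn w j)) (fun j => q (pn w j)) (K w) (g w ^ (i + 1)) *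
        X (y w) ^ (i + 1) = ∑ l ∈ Icc 1 (N w), C ((-1 : ℚ) ^ (l - 1) / (l : ℚ)) *
      trS (Ico (lo w) (hi w)) (fun j => m (pn w j)) (fun j => q (pn w j)) (K w) (g w ^ l) *
        X (y w) ^ l := by
    refine Finset.sum_bij (fun i _ => i + 1) (fun i hi' => ?_) (fun a _ b _ hab => ?_)
      (fun b hb => ?_) (fun i _ => ?_)
    · have := Finset.mem_range.mp hi'
      exact Finset.mem_Icc.mpr ⟨by omega, by omega⟩
    · omega
    · have := Finset.mem_Icc.mp hb
      exact ⟨b - 1, Finset.mem_range.mpr (by omega), by omega⟩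
    · rw [Nat.add_sub_cancel, Nat.cast_add, Nat.cast_one]
  have hS : Ico (y w) (y w + 1) = {y w} := Nat.Ico_succ_singleton _
  have ha : (fun j => N (fstB (pn w j))) = (fun _ : ℕ => N w) := by
    funext j; rw [fstB_pn]
  show coefS (Ico (y w) (y w + 1)) (fun j => N (fstB (pn w j))) _ = _
  rw [hS, ha, hin]
  rfl

end Crest.Agent.CHR
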