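import Crest.Agent.CHR.CHcl

/-!
# Row 316: counting seeds
-/

set_option autoImplicit false

namespace Crest.Agent.CHR

open Finset

theorem cnt_val_filter (l : ℕ) (Q : ℕ → Prop) [DecidablePred Q] :
    cnt l {y | Q (val y)} = ((range (2 ^ l)).filter Q).card := by
  have h := cnt_prod l 0 (fun i _ => Q i)
  have h1 : cnt (l + 0) {y : W | Q (val (y.take l))} = cnt l {y | Q (val y)} := by
    refine cnt_congr fun y hy => ?_
    simp only [Set.mem_ofPred_eq]
    rw [List.take_of_length_le (by omega)]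
  rw [← h1, h, card_filter]
  refine sum_congr rfl fun i _ => ?_
  rw [cnt_zero]
  simp only [Set.mem_ofPred_eq]
  split_ifs <;> rfl

/-- the triple of digits of a number -/
def trip (V s : ℕ) : ℕ × ℕ × ℕ := (s % V, s / V % V, s / V / V % V)

theorem card_trip (V : ℕ) (hV : 0 < V) (G : ℕ × ℕ × ℕ → Prop) [DecidablePred G] :
    ((range (V ^ 3)).filter (fun s => G (trip V s))).card =
      ((range V ×ˢ range V ×ˢ range V).filter G).card := by
  refine card_nbij' (fun s => trip V s) (fun k => k.1 + V * (k.2.1 + V * k.2.2)) ?_ ?_ ?_ ?_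
  · intro s hs
    rw [mem_coe, mem_filter, mem_range] at hs
    rw [mem_coe, mem_filter, mem_product, mem_product, mem_range, mem_range, mem_range]
    exact ⟨⟨Nat.mod_lt _ hV, Nat.mod_lt _ hV, Nat.mod_lt _ hV⟩, hs.2⟩
  · rintro ⟨a, b, c⟩ hk
    simp only [mem_coe, mem_filter, mem_product, mem_range] at hk ⊢
    obtain ⟨⟨ha, hb, hc⟩, hG⟩ := hk
    have h1 : (a + V * (b + V * c)) % V = a := by
      rw [Nat.add_mul_mod_self_left, Nat.mod_eq_of_lt ha]
    have h2 : (a + V * (b + V * c)) / V = b + V * c := by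
      rw [Nat.add_mul_div_left _ _ hV, Nat.div_eq_of_lt ha, zero_add]
    have h3 : (b + V * c) % V = b := by
      rw [Nat.add_mul_mod_self_left, Nat.mod_eq_of_lt hb]
    have h4 : (b + V * c) / V = c := by
      rw [Nat.add_mul_div_left _ _ hV, Nat.div_eq_of_lt hb, zero_add]
    refine ⟨?_, ?_⟩
    · have e1 : b + V * c + 1 ≤ V * V := by
        calc b + V * c + 1 ≤ V + V * c := by omega
          _ = V * (c + 1) := by ring
          _ ≤ V * V := Nat.mul_le_mul_left _ hc
      calc a + V * (b + V * c) < V + V * (b + V * c) := by omega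
        _ = V * (b + V * c + 1) := by ring
        _ ≤ V * (V * V) := Nat.mul_le_mul_left _ e1
        _ = V ^ 3 := by ring
    · simp only [trip, h1, h2, h3, h4, Nat.mod_eq_of_lt hc]
      exact hG
  · intro s hs
    rw [mem_coe, mem_filter, mem_range] at hs
    simp only [trip]
    have h1 := Nat.mod_add_div s V
    have h2 := Nat.mod_add_div (s / V) V
    have h3 : s / V / V < V := by
      rw [Nat.div_div_eq_div_mul, Nat.div_lt_iff_lt_mul (by positivity)]
      calc s < V ^ 3 := hs.1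
        _ = V * (V * V) := by ring
    rw [Nat.mod_eq_of_lt h3, h2, h1]
  · rintro ⟨a, b, c⟩ hk
    simp only [mem_coe, mem_filter, mem_product, mem_range] at hk ⊢
    obtain ⟨⟨ha, hb, hc⟩, hG⟩ := hk
    have h1 : (a + V * (b + V * c)) % V = a := by
      rw [Nat.add_mul_mod_self_left, Nat.mod_eq_of_lt ha]
    have h2 : (a + V * (b + V * c)) / V = b + V * c := by
      rw [Nat.add_mul_div_left _ _ hV, Nat.div_eq_of_lt ha, zero_add]
    have h3 : (b + V * c) % V = b := by
      rw [Nat.add_mul_mod_self_left, Nat.mod_eq_of_lt hb]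
    have h4 : (b + V * c) / V = c := by
      rw [Nat.add_mul_div_left _ _ hV, Nat.div_eq_of_lt hb, zero_add]
    simp only [trip, h1, h2, h3, h4, Nat.mod_eq_of_lt hc]

theorem cnt_mono {n : ℕ} {S T : Set W} (h : ∀ y : W, y.length = n → y ∈ S → y ∈ T) :
    cnt n S ≤ cnt n T := by
  refine Set.ncard_le_ncard ?_ (cnt_finite n T)
  rintro y ⟨h1, h2⟩
  exact ⟨h1, h y h1 h2⟩

/-- the majority argument -/
theorem maj_lemma (v : ℕ) (G : ℕ × ℕ × ℕ → Prop) [DecidablePred G] (R : W → Prop) (Pr : Prop)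
    (hG : (2 ^ v) ^ 3 < 2 * ((range (2 ^ v) ×ˢ range (2 ^ v) ×ˢ range (2 ^ v)).filter G).card)
    (hR : ∀ y : W, y.length = 3 * v → G (trip (2 ^ v) (val y)) → (R y ↔ Pr)) :
    2 ^ (3 * v) < 2 * {y : W | y.length = 3 * v ∧ R y}.ncard ↔ Pr := by
  have e : (2 ^ v) ^ 3 = 2 ^ (3 * v) := by rw [← pow_mul, mul_comm]
  have hc := card_trip (2 ^ v) (by positivity) G
  rw [e] at hc hG
  have h1 := cnt_val_filter (3 * v) (fun s => G (trip (2 ^ v) s))
  rw [hc] at h1
  rw [← h1] at hG
  change _ < 2 * cnt (3 * v) {y | R y} ↔ Pr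
  by_cases hP : Pr
  · refine iff_of_true ?_ hP
    have h2 : cnt (3 * v) {y | G (trip (2 ^ v) (val y))} ≤ cnt (3 * v) {y | R y} :=
      cnt_mono fun y hy hy' => (hR y hy hy').2 hP
    omega
  · refine iff_of_false ?_ hP
    have h2 : cnt (3 * v) {y | R y} ≤ cnt (3 * v) {y | G (trip (2 ^ v) (val y))}ᶜ :=
      cnt_mono fun y hy hy' hg => hP ((hR y hy hg).1 hy')
    have h3 := cnt_compl (3 * v) {y | G (trip (2 ^ v) (val y))}
    omega

end Crest.Agent.CHR
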