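import Crest.Agent.CHR.FamG4

/-!
# Row 316: choice of the parameters
-/

set_option autoImplicit false

namespace Crest.Agent.CHR

open MvPolynomial Finset

/-- uniform bounds for indexed families -/
theorem Bnd_pn {F : W → P} (hF : IsFam F) {N : W → ℕ} (hN : CHN N) :
    ∃ b : Polynomial ℕ, ∀ w, ∀ k < N w, Bnd (b.eval w.length) (F (Crest.Agent.CHR.pn w k)) := by
  obtain ⟨b, hb⟩ := hF.bnd
  obtain ⟨p, hp⟩ := hN.bound
  refine ⟨b.comp (2 * Polynomial.X + 1 + p), fun w k hk => (hb _).mono ?_⟩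
  rw [Polynomial.eval_comp]
  apply poly_mono
  have h1 : (Nat.bits k).length ≤ p.eval w.length := by
    rw [Nat.size_eq_bits_len, Nat.size_le]
    exact hk.trans (hp w)
  simp only [Crest.Agent.CHR.pn, length_pairBits, Polynomial.eval_add, Polynomial.eval_mul,
    Polynomial.eval_ofNat, Polynomial.eval_X, Polynomial.eval_one]
  omega

theorem exists_params : ∃ (nb D : W → ℕ) (c b : Polynomial ℕ), CHN nb ∧ CHN D ∧ (∀ w, 0 < D w) ∧
    ∀ w, (mkA nb D c w).Ok (b.eval w.length) := by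
  obtain ⟨b1, h1⟩ := (chi_fam (fun _ => 0) (fun _ => 0) 0).bnd
  obtain ⟨nb, hnbd⟩ : ∃ nb : W → ℕ, nb = fun w => 2 ^ (b1.eval w.length) + 1 := ⟨_, rfl⟩
  have hnb : CHN nb := by
    rw [hnbd]; exact (CHN.twoPow CHF.id b1).add (CHN.const 1)
  obtain ⟨b2, h2⟩ := (H_fam (D := fun _ => 0) (c := 0) hnb).bnd
  obtain ⟨D, hDd⟩ : ∃ D : W → ℕ, D = fun w => 2 ^ (b2.eval w.length) + 1 := ⟨_, rfl⟩
  have hD : CHN D := by
    rw [hDd]; exact (CHN.twoPow CHF.id b2).add (CHN.const 1)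
  have hD0 : ∀ w, 0 < D w := fun w => by rw [hDd]; positivity
  obtain ⟨b3, h3⟩ := (chiR_fam (D := D) (c := 0) hnb).bnd
  obtain ⟨b4, h4⟩ := (Rt_fam (c := 0) hnb hD hD0).bnd
  refine ⟨nb, D, 4 * (b1 + b2 + b3 + b4) + 20, b1 + b2 + b3 + b4, hnb, hD, hD0, fun w => ?_⟩
  have e : (b1 + b2 + b3 + b4).eval w.length = b1.eval w.length + b2.eval w.length +
    b3.eval w.length + b4.eval w.length := by simp
  have l1 : b1.eval w.length ≤ (b1 + b2 + b3 + b4).eval w.length := by rw [e]; omega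
  have l3 : b3.eval w.length ≤ (b1 + b2 + b3 + b4).eval w.length := by rw [e]; omega
  have l4 : b4.eval w.length ≤ (b1 + b2 + b3 + b4).eval w.length := by rw [e]; omega
  have hc := h1 w
  exact
    { Qv := fun j hj => by
        have := sentQ_vars w j hj
        show j < w.length + mY w
        unfold mY
        omega
      Qd := sentQ_deg w
      Qn := sentQ_nonneg w
      K2 := le_refl _
      nb := by
        show (mkA (fun _ => 0) (fun _ => 0) 0 w).chi.totalDegree < nb w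
        rw [hnbd]
        exact Nat.lt_succ_of_le hc.deg
      D := by
        show (mkA nb (fun _ => 0) 0 w).H.totalDegree < D w
        rw [hDd]
        exact Nat.lt_succ_of_le (h2 w).deg
      K1 := le_refl _
      bc := (h1 w).mono l1
      bh := fun i _ j _ => ((h1 w).coefS _ _).mono l1
      bcR := (h3 w).mono l3
      bR := (h4 w).mono l4
      c := by
        show 4 * _ + 20 ≤ (4 * (b1 + b2 + b3 + b4) + 20 : Polynomial ℕ).eval w.length
        simp only [Polynomial.eval_add, Polynomial.eval_mul, Polynomial.eval_ofNat]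
        exact le_refl _ }

/-- all bounds needed in `Asm.dat_ok` -/
structure Bds (a : Asm) (N K b₀ b : ℕ) : Prop where
  hq : ∀ j < a.tt, Bnd b₀ (a.qJ j)
  h0 : Bnd b₀ a.t0
  hu : ∀ k < a.nb ^ 2, Bnd b₀ (a.tu k)
  hv : ∀ k < a.nb ^ 2, Bnd b₀ (a.tv k)
  hb : Bnd b₀ a.tb
  hF : ∀ k < a.tt, Bnd b₀ (nrS (range a.tt) a.mJ a.qJ (a.tt + 1) N N (X a.tt + X k))
  hK : 2 ^ b₀ * N ≤ K
  hbb : b₀ ≤ b
  g0 : Bnd b (gapv a.tt a.mJ a.qJ K N a.t0)
  gu : ∀ k < a.nb ^ 2, Bnd b (gapv a.tt a.mJ a.qJ K N (a.tu k))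
  gv : ∀ k < a.nb ^ 2, Bnd b (gapv a.tt a.mJ a.qJ K N (a.tv k))
  gb : Bnd b (gapv a.tt a.mJ a.qJ K N a.tb)
  gd : ∀ k < a.tt, Bnd b (gapd a.tt a.mJ a.qJ K N k)
  hN : N ≤ 2 ^ b

theorem exists_bounds {nb D : W → ℕ} {c : Polynomial ℕ} (hnb : CHN nb) (hD : CHN D)
    (hD0 : ∀ w, 0 < D w) :
    ∃ (K : W → ℕ) (b₀ b : Polynomial ℕ), CHN K ∧ ∀ w,
      Bds (mkA nb D c w) ((mkA nb D c w).N1 * (mkA nb D c w).N2) (K w) (b₀.eval w.length)
        (b.eval w.length) := by
  classical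
  have hnb2 : CHN (fun w => nb w ^ 2) := (hnb.mul hnb).congr (fun w => (sq (nb w)).symm)
  have hNN : CHN (fun w => (mkA nb D c w).N1 * (mkA nb D c w).N2) := NN_CHN hD
  obtain ⟨a1, h1⟩ := Bnd_pn (qJ_fam (c := c) hnb hD hD0) CHN_tW
  obtain ⟨a2, h2⟩ := (t0_fam (nb := nb) (D := D) (c := c)).bnd
  obtain ⟨a3, h3⟩ := Bnd_pn (tu_fam (D := D) (c := c) hnb) hnb2
  obtain ⟨a4, h4⟩ := Bnd_pn (tv_fam (D := D) (c := c) hnb) hnb2
  obtain ⟨a5, h5⟩ := (tb_fam (nb := nb) (D := D) (c := c)).bnd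
  obtain ⟨a6, h6⟩ := Bnd_pn (gapF_fam (c := c) hnb hD hD0 hNN) CHN_tW
  obtain ⟨b₀, hb₀⟩ : ∃ b₀ : Polynomial ℕ, b₀ = a1 + a2 + a3 + a4 + a5 + a6 := ⟨_, rfl⟩
  obtain ⟨K, hKd⟩ : ∃ K : W → ℕ, K = fun w => 2 ^ (b₀.eval w.length) *
    ((mkA nb D c w).N1 * (mkA nb D c w).N2) := ⟨_, rfl⟩
  have hK : CHN K := by
    rw [hKd]; exact (CHN.twoPow CHF.id b₀).mul hNN
  obtain ⟨c1, k1⟩ := (gapv_fam (c := c) hnb hD hD0 hK hNN (t0_fam (nb := nb) (D := D) (c := c))).bnd
  obtain ⟨c2, k2⟩ := Bnd_pn (gapv_fam2 (c := c) hnb hD hD0 hK hNN (tu_fam (D := D) (c := c) hnb)) hnb2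
  obtain ⟨c3, k3⟩ := Bnd_pn (gapv_fam2 (c := c) hnb hD hD0 hK hNN (tv_fam (D := D) (c := c) hnb)) hnb2
  obtain ⟨c4, k4⟩ := (gapv_fam (c := c) hnb hD hD0 hK hNN (tb_fam (nb := nb) (D := D) (c := c))).bnd
  obtain ⟨c5, k5⟩ := Bnd_pn (gapd_fam (c := c) hnb hD hD0 hK hNN) CHN_tW
  obtain ⟨c6, k6⟩ := hNN.bound
  refine ⟨K, b₀, b₀ + c1 + c2 + c3 + c4 + c5 + c6, hK, fun w => ?_⟩
  have eb : b₀.eval w.length = a1.eval w.length + a2.eval w.length + a3.eval w.length +
    a4.eval w.length + a5.eval w.length + a6.eval w.length := by rw [hb₀]; simp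
  have ec : (b₀ + c1 + c2 + c3 + c4 + c5 + c6).eval w.length = b₀.eval w.length +
    c1.eval w.length + c2.eval w.length + c3.eval w.length +
    c4.eval w.length + c5.eval w.length + c6.eval w.length := by simp
  exact
    { hq := fun j hj => by
        have := h1 w j hj
        rw [fstB_pnD, val_sndB_pnD] at this
        exact this.mono (by rw [eb]; omega)
      h0 := (h2 w).mono (by rw [eb]; omega)
      hu := fun k hk => by
        have := h3 w k hk
        rw [fstB_pnD, val_sndB_pnD] at this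
        exact this.mono (by rw [eb]; omega)
      hv := fun k hk => by
        have := h4 w k hk
        rw [fstB_pnD, val_sndB_pnD] at this
        exact this.mono (by rw [eb]; omega)
      hb := (h5 w).mono (by rw [eb]; omega)
      hF := fun k hk => by
        have := h6 w k hk
        rw [fstB_pnD, val_sndB_pnD, if_pos (show k < tW w from hk)] at this
        exact this.mono (by rw [eb]; omega)
      hK := by rw [hKd]
      hbb := by rw [ec]; omega
      g0 := (k1 w).mono (by rw [ec]; omega)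
      gu := fun k hk => by
        have := k2 w k hk
        rw [fstB_pnD, val_sndB_pnD] at this
        exact this.mono (by rw [ec]; omega)
      gv := fun k hk => by
        have := k3 w k hk
        rw [fstB_pnD, val_sndB_pnD] at this
        exact this.mono (by rw [ec]; omega)
      gb := (k4 w).mono (by rw [ec]; omega)
      gd := fun k hk => by
        have := k5 w k hk
        rw [fstB_pnD, val_sndB_pnD, if_pos (show k < tW w from hk)] at this
        exact this.mono (by rw [ec]; omega)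
      hN := (k6 w).le.trans (Nat.pow_le_pow_right (by norm_num) (by rw [ec]; omega)) }

end Crest.Agent.CHR
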