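import Crest.Agent.CHR.FinA
import Crest.Agent.CHR.Params
import Crest.Agent.CHR.Thr
import Crest.Agent.CHR.Cnt

/-!
# Row 316: the final assembly
-/

set_option autoImplicit false

namespace Crest.Agent.CHR

open MvPolynomial Finset

/-- the seeds for which everything works -/
def GdS {p : Par} (D : CData p) (k : ℕ × ℕ × ℕ) : Prop :=
  open Classical in
      ‖D.count (seedA p.V k.1) (seedA p.V k.2.1) (seedA p.V k.2.2) -
        ((univ.filter (fun i => D.Good i)).card : ℂ)‖ ≤ 1 / 4 ∧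
      (∀ κ ∈ D.S, ∀ t < p.T, ∀ i j,
        1 + (seedA p.V k.1 * ((D.α κ j - D.α κ i) / p.R t)) ^ p.M ≠ 0) ∧
      (∀ κ ∈ D.S, ∀ t < p.T, ∀ i,
        ∑ j, thr (seedA p.V k.1) p.M ((D.α κ j - D.α κ i) / p.R t) ≠ 0) ∧
      (∀ κ ∈ D.S, ∀ t < p.T, ∀ i, ∀ l ≤ p.L,
        1 + (seedA p.V k.2.1 * ((wT p (seedA p.V k.1) (D.α κ) t i - (-1 + l * p.th)) / p.th)) ^ p.M
          ≠ 0) ∧
      (∀ i, ∀ s : ℂ, (s = D.s₀ i ∨ s = D.b i ∨ ∃ a < D.na, s = D.u a i ∨ s = D.v a i) →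
        ∀ κ ≤ 2 * p.P + 2, 1 + (seedA p.V k.2.2 * ((s - 2 ^ κ / 2 ^ (p.P + 1)) /
          (3 / 4 * (2 ^ κ / 2 ^ (p.P + 1))))) ^ p.M ≠ 0) ∧
      (∀ κ ∈ D.Sx, ∀ i j, 1 + (1 * ((D.α κ i - D.α κ j) * 2 ^ (p.P + 1))) ^ p.M ≠ 0) ∧
      (∀ i, 1 + (1 * (4 / 3 * D.bad (seedA p.V k.1) (seedA p.V k.2.1) (seedA p.V k.2.2) i)) ^ p.M
        ≠ 0)

open Classical in
theorem GdS_many {p : Par} (D : CData p) (h : D.Ok)
    (hV : 100 * (p.N ^ 2 * p.T * (p.L + 1) * (D.S.card + 1) + p.N * (2 * D.na + 2) * (2 * p.P + 3) + 1)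
      ≤ p.V)
    (hM : 8 * p.V * (p.N + p.T + p.L + p.P + D.S.card + D.na + 100) ^ 2 ≤ p.M) :
    p.V ^ 3 < 2 * ((range p.V ×ˢ range p.V ×ˢ range p.V).filter (fun k => GdS D k)).card := by
  refine (CData.main D h hV hM).trans_eq ?_
  congr 2
  ext k
  rw [mem_filter, mem_filter]
  exact Iff.rfl

/-- close to the number of good points: comparison with `1/2` -/
theorem GdS_half {p : Par} (D : CData p) {k : ℕ × ℕ × ℕ} (h : GdS D k) :
    1 / 2 < (D.count (seedA p.V k.1) (seedA p.V k.2.1) (seedA p.V k.2.2)).re ↔ ∃ i, D.Good i := by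
  classical
  obtain ⟨h1, -⟩ := h
  set z := D.count (seedA p.V k.1) (seedA p.V k.2.1) (seedA p.V k.2.2) with hz
  set n := (univ.filter (fun i => D.Good i)).card with hn
  have h2 : |z.re - n| ≤ 1 / 4 := by
    have h3 := Complex.abs_re_le_norm (z - (n : ℂ))
    have h4 : (z - (n : ℂ)).re = z.re - n := by simp
    rw [h4] at h3
    exact h3.trans (by exact_mod_cast h1)
  rw [abs_le] at h2
  constructor
  · intro h3
    by_contra h4
    have h5 : n = 0 := by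
      rw [hn, card_eq_zero, filter_eq_empty_iff]
      intro i _ hi
      exact h4 ⟨i, hi⟩
    rw [h5] at h2
    push_cast at h2
    linarith [h2.2]
  · rintro ⟨i, hi⟩
    have h5 : 1 ≤ n := by
      rw [hn, Nat.one_le_iff_ne_zero, Ne, card_eq_zero, filter_eq_empty_iff]
      push Not
      exact ⟨i, mem_univ i, hi⟩
    have h6 : (1 : ℝ) ≤ n := by exact_mod_cast h5
    linarith [h2.1]

/-- numerical parameters -/
structure NumP (nb D : W → ℕ) (c : Polynomial ℕ) (NN : W → ℕ) (pP : Polynomial ℕ) where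
  v : Polynomial ℕ
  M : W → ℕ
  hM : CHN M
  hV1 : ∀ w, 100 * (NN w ^ 2 * (64 * NN w * (2 * 2 ^ pP.eval w.length + NN w + 4)) *
    (40 * NN w + 1) * (tW w + 1) + NN w * (2 * nb w ^ 2 + 2) * (2 * 2 ^ pP.eval w.length + 3) + 1)
      ≤ 2 ^ v.eval w.length
  hM1 : ∀ w, 8 * 2 ^ v.eval w.length * (NN w + 64 * NN w * (2 * 2 ^ pP.eval w.length + NN w + 4) +
    40 * NN w + 2 ^ pP.eval w.length + tW w + nb w ^ 2 + 100) ^ 2 ≤ M w

theorem CHN_pow2 {f : W → ℕ} (hf : CHN f) : CHN (fun w => f w ^ 2) :=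
  (hf.mul hf).congr (fun w => (sq (f w)).symm)

theorem exists_numP {nb : W → ℕ} (D : W → ℕ) (c : Polynomial ℕ) {NN : W → ℕ} (hnb : CHN nb)
    (hNN : CHN NN) (pP : Polynomial ℕ) : Nonempty (NumP nb D c NN pP) := by
  have hP : CHN (fun w => 2 ^ pP.eval w.length) := CHN.twoPow CHF.id pP
  have hT : CHN (fun w => 64 * NN w * (2 * 2 ^ pP.eval w.length + NN w + 4)) :=
    ((CHN.const 64).mul hNN).mul ((((CHN.const 2).mul hP).add hNN).add (CHN.const 4))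
  have h1 : CHN (fun w => 100 * (NN w ^ 2 * (64 * NN w * (2 * 2 ^ pP.eval w.length + NN w + 4)) *
    (40 * NN w + 1) * (tW w + 1) + NN w * (2 * nb w ^ 2 + 2) * (2 * 2 ^ pP.eval w.length + 3) + 1)) :=
    (CHN.const 100).mul ((((((CHN_pow2 hNN).mul hT).mul (((CHN.const 40).mul hNN).add
      (CHN.const 1))).mul (CHN_tW.add (CHN.const 1))).add
      ((hNN.mul (((CHN.const 2).mul (CHN_pow2 hnb)).add (CHN.const 2))).mul
        (((CHN.const 2).mul hP).add (CHN.const 3)))).add (CHN.const 1))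
  obtain ⟨v, hv⟩ := h1.bound
  have h2 : CHN (fun w => 8 * 2 ^ v.eval w.length *
    (NN w + 64 * NN w * (2 * 2 ^ pP.eval w.length + NN w + 4) +
    40 * NN w + 2 ^ pP.eval w.length + tW w + nb w ^ 2 + 100) ^ 2) :=
    ((CHN.const 8).mul (CHN.twoPow CHF.id v)).mul (CHN_pow2 ((((((hNN.add hT).add
      ((CHN.const 40).mul hNN)).add hP).add CHN_tW).add (CHN_pow2 hnb)).add (CHN.const 100)))
  exact ⟨⟨v, _, h2, fun w => (hv w).le, fun w => le_refl _⟩⟩

end Crest.Agent.CHR
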