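import Crest.Agent.CHR.FinB

/-!
# Row 316: the final assembly, part 2
-/

set_option autoImplicit false

namespace Crest.Agent.CHR

open MvPolynomial Finset

/-- everything chosen -/
structure Setup where
  nb : W → ℕ
  D : W → ℕ
  c : Polynomial ℕ
  bb : Polynomial ℕ
  hnb : CHN nb
  hD : CHN D
  hD0 : ∀ w, 0 < D w
  hok : ∀ w, (mkA nb D c w).Ok (bb.eval w.length)
  K : W → ℕ
  b₀ : Polynomial ℕ
  b : Polynomial ℕ
  hB : ∀ w, Bds (mkA nb D c w) ((mkA nb D c w).N1 * (mkA nb D c w).N2) (K w) (b₀.eval w.length)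
        (b.eval w.length)
  pP : Polynomial ℕ
  hpP : pP = 4 * b + 10
  nu : NumP nb D c (fun w => (mkA nb D c w).N1 * (mkA nb D c w).N2) pP

theorem exists_setup : Nonempty Setup := by
  obtain ⟨nb, D, c, bb, hnb, hD, hD0, hok⟩ := exists_params
  obtain ⟨K, b₀, b, hK, hB⟩ := exists_bounds (c := c) hnb hD hD0
  obtain ⟨nu⟩ := exists_numP D c hnb (NN_CHN (nb := nb) (c := c) hD) (4 * b + 10)
  exact ⟨⟨nb, D, c, bb, hnb, hD, hD0, hok, K, b₀, b, hB, 4 * b + 10, rfl, nu⟩⟩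

namespace Setup
variable (s : Setup)

/-- the polynomial data at `w` -/
noncomputable def A (w : W) : Asm := mkA s.nb s.D s.c w

noncomputable def NN (w : W) : ℕ := (s.A w).N1 * (s.A w).N2

noncomputable def V (w : W) : ℕ := 2 ^ s.nu.v.eval w.length

/-- the numerical parameters at `w` -/
noncomputable def pw (w : W) : Par := ⟨s.NN w, 2 ^ s.pP.eval w.length, s.V w, s.nu.M w⟩

theorem exists_Z (w : W) : ∃ Z : Fin (s.NN w) → ℕ → ℂ, Sol0 (s.A w).tt (s.A w).mJ (s.A w).qJ Z := by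
  obtain ⟨Z, hZ⟩ := exists_sol0 (Asm.isPham_joint (s.hok w)) (Asm.qJ_vars (s.hok w))
  have e : ∏ j ∈ range (mkA s.nb s.D s.c w).tt, (mkA s.nb s.D s.c w).mJ j = s.NN w := Asm.prod_mJ
  rw [← e]
  exact ⟨Z, hZ⟩

/-- the solutions of the joint system -/
noncomputable def Z (w : W) : Fin (s.NN w) → ℕ → ℂ := (s.exists_Z w).choose

theorem Z_sol (w : W) : Sol0 (s.A w).tt (s.A w).mJ (s.A w).qJ (s.Z w) := (s.exists_Z w).choose_spec

theorem NN_pos (w : W) : 1 ≤ s.NN w := by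
  have h : 0 < s.D w := s.hD0 w
  have h1 : 0 < (s.A w).N1 := Nat.pow_pos (by show 0 < 2 * s.D w - 1; omega)
  have h2 : 0 < (s.A w).N2 := Nat.pow_pos (by norm_num)
  exact Nat.mul_pos h1 h2

noncomputable def dt (w : W) : CData (s.pw w) := (s.A w).dat (s.pw w) (s.Z w)

theorem dt_ok (w : W) : (s.dt w).Ok := by
  have h := s.hB w
  refine Asm.dat_ok (s.hok w) (s.Z_sol w) (b₀ := s.b₀.eval w.length) (b := s.b.eval w.length)
    (K := s.K w) h.hq h.h0 h.hu h.hv h.hb h.hF h.hK h.hbb h.g0 h.gu h.gv h.gb h.gd (s.NN_pos w) h.hN ?_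
  show _ ≤ 2 ^ s.pP.eval w.length
  rw [s.hpP]
  refine Nat.pow_le_pow_right (by norm_num) ?_
  simp

open Classical in
theorem dt_many (w : W) : (s.V w) ^ 3 <
    2 * ((range (s.V w) ×ˢ range (s.V w) ×ˢ range (s.V w)).filter (fun k => GdS (s.dt w) k)).card := by
  refine GdS_many (s.dt w) (s.dt_ok w) ?_ ?_
  · have h := s.nu.hV1 w
    have e : (s.dt w).S.card = tW w := card_range _
    rw [e]
    exact h
  · have h := s.nu.hM1 w
    have e : (s.dt w).S.card = tW w := card_range _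
    rw [e]
    exact h

theorem good_iff (w : W) : (∃ i, (s.dt w).Good i) ↔ ∃ x, ∀ Y, 0 < (s.A w).Qr x Y := by
  have h := Asm.main (s.hok w) (s.Z_sol w)
  exact (exists_congr fun i => Asm.dat_good _ _ i).trans h.symm

theorem V_pos (w : W) : 1 ≤ s.V w := Nat.one_le_two_pow

theorem M_pos (w : W) : 1 ≤ s.nu.M w := by
  refine le_trans (Nat.succ_le_of_lt ?_) (s.nu.hM1 w)
  positivity

/-- reindexing of an indexed family: `u = pn z a`, `w = fstB z` -/
theorem CHF_sh : CHF (fun u => Crest.Agent.CHR.pn (fstB (fstB u)) (val (sndB u))) :=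
  CHF.pn (CHF.fst.comp CHF.fst) (CHN.ofVal CHF.snd)

/-- the family of data for module M9b; strings `z = pairBits w y`, `y` = seed string -/
noncomputable def C : CFam where
  n9 := fun z => tW (fstB z)
  nx := fun z => (fstB z).length
  na := fun z => s.nb (fstB z) ^ 2
  NN := fun z => s.NN (fstB z)
  PP := fun z => 2 ^ s.pP.eval (fstB z).length
  VV := fun z => s.V (fstB z)
  MM := fun z => s.nu.M (fstB z)
  k1 := fun z => val (sndB z) % s.V (fstB z)
  k2 := fun z => val (sndB z) / s.V (fstB z) % s.V (fstB z)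
  k3 := fun z => val (sndB z) / s.V (fstB z) / s.V (fstB z) % s.V (fstB z)
  m := fun u => (s.A (fstB (fstB u))).mJ (val (sndB u))
  q := fun u => (s.A (fstB (fstB u))).qJ (val (sndB u))
  s0 := fun z => (s.A (fstB z)).t0
  bb := fun z => (s.A (fstB z)).tb
  uu := fun u => (s.A (fstB (fstB u))).tu (val (sndB u))
  vv := fun u => (s.A (fstB (fstB u))).tv (val (sndB u))
  r := tPoly
  hn9 := CHN_tW.fst
  hn9r := tW_fst_le
  hnx := CHN.len.fst
  hna := (CHN_pow2 s.hnb).fst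
  hNN := (NN_CHN (nb := s.nb) (c := s.c) s.hD).fst
  hPP := CHN.twoPow CHF.fst s.pP
  hVV := CHN.twoPow CHF.fst s.nu.v
  hMM := s.nu.hM.fst
  hk1 := (CHN.ofVal CHF.snd).mod (CHN.twoPow CHF.fst s.nu.v)
  hk2 := ((CHN.ofVal CHF.snd).div (CHN.twoPow CHF.fst s.nu.v)).mod (CHN.twoPow CHF.fst s.nu.v)
  hk3 := (((CHN.ofVal CHF.snd).div (CHN.twoPow CHF.fst s.nu.v)).div
    (CHN.twoPow CHF.fst s.nu.v)).mod (CHN.twoPow CHF.fst s.nu.v)
  hm := ((mJ_CHN (nb := s.nb) (c := s.c) s.hD).comp CHF_sh).congr fun u => by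
    rw [fstB_pnD, val_sndB_pnD]; rfl
  hq := ((qJ_fam (c := s.c) s.hnb s.hD s.hD0).comp CHF_sh).congr fun u => by
    rw [fstB_pnD, val_sndB_pnD]; rfl
  hs0 := (t0_fam (nb := s.nb) (D := s.D) (c := s.c)).comp CHF.fst
  hbb := (tb_fam (nb := s.nb) (D := s.D) (c := s.c)).comp CHF.fst
  huu := ((tu_fam (D := s.D) (c := s.c) s.hnb).comp CHF_sh).congr fun u => by
    rw [fstB_pnD, val_sndB_pnD]; rfl
  hvv := ((tv_fam (D := s.D) (c := s.c) s.hnb).comp CHF_sh).congr fun u => by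
    rw [fstB_pnD, val_sndB_pnD]; rfl

/-- the solutions for the family -/
noncomputable def ZC (z : W) : Fin (s.C.NN z) → ℕ → ℂ := s.Z (fstB z)

theorem C_m (z : W) (j : ℕ) : s.C.m (Crest.Agent.CHR.pn z j) = (s.A (fstB z)).mJ j := by
  show (s.A (fstB (fstB (Crest.Agent.CHR.pn z j)))).mJ (val (sndB (Crest.Agent.CHR.pn z j))) = _
  rw [fstB_pnD, val_sndB_pnD]

theorem C_q (z : W) (j : ℕ) : s.C.q (Crest.Agent.CHR.pn z j) = (s.A (fstB z)).qJ j := by
  show (s.A (fstB (fstB (Crest.Agent.CHR.pn z j)))).qJ (val (sndB (Crest.Agent.CHR.pn z j))) = _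
  rw [fstB_pnD, val_sndB_pnD]

theorem C_uu (z : W) (j : ℕ) : s.C.uu (Crest.Agent.CHR.pn z j) = (s.A (fstB z)).tu j := by
  show (s.A (fstB (fstB (Crest.Agent.CHR.pn z j)))).tu (val (sndB (Crest.Agent.CHR.pn z j))) = _
  rw [fstB_pnD, val_sndB_pnD]

theorem C_vv (z : W) (j : ℕ) : s.C.vv (Crest.Agent.CHR.pn z j) = (s.A (fstB z)).tv j := by
  show (s.A (fstB (fstB (Crest.Agent.CHR.pn z j)))).tv (val (sndB (Crest.Agent.CHR.pn z j))) = _
  rw [fstB_pnD, val_sndB_pnD]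

theorem CData_eq {p : Par} {S Sx : Finset ℕ} {α : ℕ → Fin p.N → ℂ} {na : ℕ} {s₀ b : Fin p.N → ℂ}
    {u u' v v' : ℕ → Fin p.N → ℂ} (hu : u = u') (hv : v = v') :
    (⟨S, Sx, α, na, s₀, u, v, b⟩ : CData p) = ⟨S, Sx, α, na, s₀, u', v', b⟩ := by
  rw [hu, hv]

theorem C_par (z : W) : s.C.par z = s.pw (fstB z) := rfl

theorem C_data1 (z : W) : s.C.data z (s.ZC z) = (⟨range (tW (fstB z)), range (fstB z).length,
    fun k i => s.Z (fstB z) i k, s.nb (fstB z) ^ 2,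
    fun i => aeval (s.Z (fstB z) i) (s.A (fstB z)).t0,
    fun k i => aeval (s.Z (fstB z) i) (s.C.uu (Crest.Agent.CHR.pn z k)),
    fun k i => aeval (s.Z (fstB z) i) (s.C.vv (Crest.Agent.CHR.pn z k)),
    fun i => aeval (s.Z (fstB z) i) (s.A (fstB z)).tb⟩ : CData (s.pw (fstB z))) := rfl

theorem C_data2 (w : W) : s.dt w = (⟨range (tW w), range w.length,
    fun k i => s.Z w i k, s.nb w ^ 2,
    fun i => aeval (s.Z w i) (s.A w).t0,
    fun k i => aeval (s.Z w i) ((s.A w).tu k),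
    fun k i => aeval (s.Z w i) ((s.A w).tv k),
    fun i => aeval (s.Z w i) (s.A w).tb⟩ : CData (s.pw w)) := rfl

theorem C_data (z : W) : s.C.data z (s.ZC z) = s.dt (fstB z) := by
  have hu : (fun (k : ℕ) (i : Fin (s.pw (fstB z)).N) =>
      aeval (s.Z (fstB z) i) (s.C.uu (Crest.Agent.CHR.pn z k))) =
      fun k i => aeval (s.Z (fstB z) i) ((s.A (fstB z)).tu k) := by
    funext k i
    rw [s.C_uu z k]
  have hv : (fun (k : ℕ) (i : Fin (s.pw (fstB z)).N) =>
      aeval (s.Z (fstB z) i) (s.C.vv (Crest.Agent.CHR.pn z k))) =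
      fun k i => aeval (s.Z (fstB z) i) ((s.A (fstB z)).tv k) := by
    funext k i
    rw [s.C_vv z k]
  have h := CData_eq (p := s.pw (fstB z)) (S := range (tW (fstB z))) (Sx := range (fstB z).length)
    (α := fun k i => s.Z (fstB z) i k) (na := s.nb (fstB z) ^ 2)
    (s₀ := fun i => aeval (s.Z (fstB z) i) (s.A (fstB z)).t0)
    (b := fun i => aeval (s.Z (fstB z) i) (s.A (fstB z)).tb) hu hv
  exact (s.C_data1 z).trans (h.trans (s.C_data2 (fstB z)).symm)

theorem C_hyp (z : W) : s.C.Hyp z (s.ZC z) where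
  nx9 := Nat.le_add_right _ _
  sol := by
    have h := s.Z_sol (fstB z)
    have e1 : (fun j => s.C.m (Crest.Agent.CHR.pn z j)) = (s.A (fstB z)).mJ := funext (s.C_m z)
    have e2 : (fun j => s.C.q (Crest.Agent.CHR.pn z j)) = (s.A (fstB z)).qJ := funext (s.C_q z)
    rw [e1, e2]
    exact h
  vs0 := Asm.t0_vars (s.hok (fstB z))
  vbb := Asm.tb_vars (s.hok (fstB z))
  vuu := fun k _ => by
    rw [s.C_uu]
    exact Asm.tu_vars (s.hok (fstB z)) k
  vvv := fun k _ => by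
    rw [s.C_vv]
    exact Asm.tv_vars (s.hok (fstB z)) k
  N1 := s.NN_pos (fstB z)
  V1 := s.V_pos (fstB z)
  M1 := s.M_pos (fstB z)

/-- the predicate computed by the counting expression -/
theorem exists_R : ∃ R : W → Prop, CHP R ∧ ∀ z,
    GdS (s.dt (fstB z)) (trip (s.V (fstB z)) (val (sndB z))) →
      (R z ↔ ∃ x, ∀ Y, 0 < (s.A (fstB z)).Qr x Y) := by
  obtain ⟨R, hR, h⟩ := s.C.count_CHP s.ZC
  refine ⟨R, hR, fun z hz => ?_⟩
  have hnp : s.C.NoPole z (s.ZC z) := by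
    unfold CFam.NoPole
    rw [s.C_data]
    exact hz.2
  rw [h z (s.C_hyp z) hnp, ← s.good_iff, ← GdS_half _ hz, s.C_data]
  exact Iff.rfl

/-- the main result for one string -/
theorem exists_pred : ∃ R : W → Prop, CHP R ∧ ∀ w, (R w ↔ ∃ x, ∀ Y, 0 < (s.A w).Qr x Y) := by
  classical
  obtain ⟨R, hR, h⟩ := s.exists_R
  refine ⟨_, hR.maj (3 * s.nu.v), fun w => ?_⟩
  have e : (3 * s.nu.v).eval w.length = 3 * s.nu.v.eval w.length := by simp
  rw [e]
  refine maj_lemma (s.nu.v.eval w.length) (fun k => GdS (s.dt w) k) (fun y => R (Crest.CountHier.pairBits w y)) _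
    (s.dt_many w) ?_
  intro y _ hg
  have h1 := h (Crest.CountHier.pairBits w y)
  rw [fstB_pairBits, sndB_pairBits] at h1
  exact h1 hg

end Setup

end Crest.Agent.CHR
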