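import Crest.Agent.CHR.FinC
import Crest.Agent.CHR.Compile

/-!
# Row 316: conclusion
-/

set_option autoImplicit false

namespace Crest.Agent.CHR

open MvPolynomial Finset

theorem Qr_iff (s : Setup) (w : W) : (∃ x, ∀ Y, 0 < (s.A w).Qr x Y) ↔
    ∃ x : ℕ → ℝ, ∀ Y : ℕ → ℝ,
      0 < aeval (fun j => if j < w.length then x j else Y j) (sentQ w) := by
  constructor
  · rintro ⟨x, hx⟩
    refine ⟨fun j => if h : j < w.length then x ⟨j, h⟩ else 0, fun Y => ?_⟩
    have h := hx (fun i => Y (w.length + i))
    have e : (s.A w).Qr x (fun i => Y (w.length + i)) =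
        aeval (fun j => if j < w.length then (if h : j < w.length then x ⟨j, h⟩ else 0) else Y j)
          (sentQ w) := by
      show aeval ((s.A w).jn x (fun i => Y (w.length + i))) (sentQ w) = _
      refine aeval_congr_vars fun j hj => ?_
      have h1 := sentQ_vars w j hj
      by_cases h2 : j < w.length
      · have h2' : j < (s.A w).n := h2
        simp only [Asm.jn, h2, h2', dif_pos, if_true]
      · have h2' : ¬ j < (s.A w).n := h2
        have h3 : j - (s.A w).n < (s.A w).m := by
          show j - w.length < mY w
          unfold mY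
          omega
        simp only [Asm.jn, h2, h2', dif_neg, not_false_eq_true, if_false, dif_pos h3]
        congr 1
        show w.length + (j - w.length) = j
        omega
    rw [← e]
    exact h
  · rintro ⟨x, hx⟩
    refine ⟨fun i => x i, fun Y => ?_⟩
    have h := hx (fun j => if h : j - w.length < mY w then Y ⟨j - w.length, h⟩ else 0)
    have e : (s.A w).Qr (fun i => x i) Y =
        aeval (fun j => if j < w.length then x j else
          (if h : j - w.length < mY w then Y ⟨j - w.length, h⟩ else 0)) (sentQ w) := by
      show aeval ((s.A w).jn (fun i => x i) Y) (sentQ w) = _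
      refine aeval_congr_vars fun j hj => ?_
      by_cases h2 : j < w.length
      · have h2' : j < (s.A w).n := h2
        simp only [Asm.jn, h2, h2', dif_pos, if_true]
      · have h2' : ¬ j < (s.A w).n := h2
        simp only [Asm.jn, h2', dif_neg, not_false_eq_true, if_neg h2]
        rfl
    rw [e]
    exact h

theorem EATR_CHP : CHP (fun w => w ∈ Crest.RealEA.EATR) := by
  obtain ⟨s⟩ := exists_setup
  obtain ⟨R, hR, h⟩ := s.exists_pred
  refine (sentWF_CHP.and hR).congr fun w => ?_
  rw [eatr_iff, h, Qr_iff]

theorem EATR_level : ∃ j : ℕ, Crest.RealEA.EATR ∈ Crest.CountHier.level j := by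
  obtain ⟨j, hj⟩ := EATR_CHP
  exact ⟨j, level_sub j hj⟩

end Crest.Agent.CHR
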