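import Crest.Agent.CHR.AsmA

/-!
CHUNK R316-GAPA (medium, ~200 lines): the gap lemma.  Idea 447, C7.
-/

set_option autoImplicit false

namespace Crest.Agent.CHR

open MvPolynomial Finset

theorem gapA_const {f : P} (h : ∀ j, j ∉ f.vars) : f = C (coeff 0 f) := by
  classical
  have h1 : ∀ m ∈ f.support, m = 0 := by
    intro m hm
    ext j
    by_contra hne
    exact h j ((mem_vars_iff_mem_support j).2 ⟨m, hm, Finsupp.mem_support_iff.2 hne⟩)
  ext m
  rw [coeff_C]
  by_cases hm : m = 0
  · subst hm; simp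
  · rw [if_neg (Ne.symm hm)]
    by_contra hne
    exact hm (h1 m (mem_support_iff.2 hne))

theorem gap_abs {M : ℕ} (α : Fin M → ℂ) (f : P) {B : ℕ} (hB : Bnd B f) (T : ℕ)
    (hv : ∀ j ∈ f.vars, j = T) (hf : ∀ t : ℂ, aeval (fun _ => t) f = ∏ i, (t - α i))
    {U : ℝ} (hU : 1 ≤ U) (hα : ∀ i, ‖α i‖ ≤ U) (i : Fin M) :
    α i = 0 ∨ 1 / (((2 ^ B).factorial : ℝ) ^ (2 ^ B) * U ^ M) ≤ ‖α i‖ := by
  classical
  by_cases hi : α i = 0
  · exact Or.inl hi
  right
  -- coefficients
  set x : ℕ → ℚ := fun k => coeff 0 (coefS {T} (fun _ => k) f) with hx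
  have hcx : ∀ k, coefS {T} (fun _ => k) f = C (x k) := by
    intro k
    refine gapA_const fun j hj => ?_
    obtain ⟨h1, h2⟩ := coefS_vars hj
    exact h2 (by rw [hv j h1]; exact Finset.mem_singleton_self T)
  set J : ℕ := degreeOf T f + 1 with hJ
  set g : Polynomial ℂ := ∏ i, (Polynomial.X - Polynomial.C (α i)) with hg
  have hgg : g = ∑ k ∈ range J, Polynomial.C ((x k : ℚ) : ℂ) * Polynomial.X ^ k := by
    refine Polynomial.funext fun t => ?_
    rw [hg, Polynomial.eval_prod, Polynomial.eval_finsetSum]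
    simp only [Polynomial.eval_sub, Polynomial.eval_X, Polynomial.eval_C, Polynomial.eval_mul,
      Polynomial.eval_pow]
    rw [← hf t, coefS_sum1 f T J (Nat.lt_succ_self _) (fun _ => t)]
    refine Finset.sum_congr rfl fun k _ => ?_
    rw [hcx k, aeval_C]
    rfl
  set r : ℕ := (univ.filter fun i => α i = 0).card with hr
  set S : Finset (Fin M) := univ.filter fun i => α i ≠ 0 with hS
  have hsplit : g = Polynomial.X ^ r * ∏ i ∈ S, (Polynomial.X - Polynomial.C (α i)) := by
    rw [hg, ← Finset.prod_filter_mul_prod_filter_not univ (fun i => α i = 0)]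
    congr 1
    rw [Finset.prod_congr rfl (g := fun _ => (Polynomial.X : Polynomial ℂ)), Finset.prod_const]
    intro i hi
    rw [(Finset.mem_filter.1 hi).2, Polynomial.C_0, sub_zero]
  have hcr : g.coeff r = ∏ i ∈ S, (-α i) := by
    have h1 : (Polynomial.X ^ r * ∏ i ∈ S, (Polynomial.X - Polynomial.C (α i))).coeff (0 + r) =
        (∏ i ∈ S, (Polynomial.X - Polynomial.C (α i))).coeff 0 :=
      Polynomial.coeff_X_pow_mul _ _ _
    rw [zero_add] at h1
    rw [hsplit, h1, Polynomial.coeff_zero_eq_eval_zero, Polynomial.eval_prod]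
    refine Finset.prod_congr rfl fun i _ => ?_
    simp
  have hne : g.coeff r ≠ 0 := by
    rw [hcr]
    exact Finset.prod_ne_zero_iff.2 fun i hi => neg_ne_zero.2 (Finset.mem_filter.1 hi).2
  have hcr2 : g.coeff r = ((x r : ℚ) : ℂ) := by
    have h1 : g.coeff r = ∑ k ∈ range J, (if r = k then ((x k : ℚ) : ℂ) else 0) := by
      conv_lhs => rw [hgg]
      rw [Polynomial.finsetSum_coeff]
      refine Finset.sum_congr rfl fun k _ => ?_
      rw [Polynomial.coeff_C_mul_X_pow]
    by_cases hrJ : r ∈ range J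
    · rw [h1, Finset.sum_ite_eq, if_pos hrJ]
    · rw [Finset.sum_ite_eq, if_neg hrJ] at h1
      exact absurd h1 hne
  have hx0 : x r ≠ 0 := by
    intro h0
    rw [hcr2, h0] at hne
    exact hne (by simp)
  have hbx : Bnd B (C (x r)) := by
    rw [← hcx r]
    exact hB.coefS _ _
  have hlow := Bnd.lower hbx hx0
  have hnorm : (|x r| : ℝ) = ∏ i ∈ S, ‖α i‖ := by
    have h1 : ‖((x r : ℚ) : ℂ)‖ = |((x r : ℚ) : ℝ)| := by
      have : ((x r : ℚ) : ℂ) = (((x r : ℚ) : ℝ) : ℂ) := by simp
      rw [this, Complex.norm_real, Real.norm_eq_abs]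
    rw [← h1, ← hcr2, hcr, norm_prod]
    exact Finset.prod_congr rfl fun i _ => norm_neg _
  have hiS : i ∈ S := Finset.mem_filter.2 ⟨mem_univ _, hi⟩
  have hup : ∏ i ∈ S, ‖α i‖ ≤ ‖α i‖ * U ^ M := by
    rw [← Finset.mul_prod_erase S _ hiS]
    refine mul_le_mul_of_nonneg_left ?_ (norm_nonneg _)
    calc ∏ i ∈ S.erase i, ‖α i‖ ≤ ∏ _i ∈ S.erase i, U :=
          Finset.prod_le_prod (fun _ _ => norm_nonneg _) fun j _ => hα j
      _ = U ^ (S.erase i).card := Finset.prod_const U
      _ ≤ U ^ M := pow_le_pow_right₀ hU (by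
          refine (Finset.card_le_univ _).trans ?_
          simp)
  have hlow' : 1 / (((2 ^ B).factorial : ℝ) ^ (2 ^ B)) ≤ |((x r : ℚ) : ℝ)| := by
    have h5 : (((1 : ℚ) / (((2 ^ B).factorial : ℚ) ^ (2 ^ B)) : ℚ) : ℝ) ≤
        ((|x r| : ℚ) : ℝ) := by exact_mod_cast hlow
    push_cast at h5
    exact h5
  rw [hnorm] at hlow'
  have hUM : 0 < U ^ M := pow_pos (zero_lt_one.trans_le hU) _
  rw [← div_div, div_le_iff₀ hUM]
  exact hlow'.trans hup

variable {n N : ℕ} {m : ℕ → ℕ} {q : ℕ → P} {Z : Fin N → ℕ → ℂ}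

/-- the characteristic polynomial of a value -/
noncomputable def gapv (n : ℕ) (m : ℕ → ℕ) (q : ℕ → P) (K N : ℕ) (s : P) : P :=
  nrS (range n) m q (n + 1) K N (X n - s)

/-- the characteristic polynomial of the differences of the coordinate `k` -/
noncomputable def gapd (n : ℕ) (m : ℕ → ℕ) (q : ℕ → P) (K N : ℕ) (k : ℕ) : P :=
  nrS (range n) m q (n + 1) K N
    (bind₁ (fun _ => X n - X k) (nrS (range n) m q (n + 1) N N (X n + X k)))

theorem gap_val (hZ : Sol0 n m q Z) (hq : ∀ j < n, ∀ k ∈ (q j).vars, k < n) (s : P)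
    (hs : ∀ j ∈ s.vars, j < n) {K B : ℕ} (hK : s.totalDegree * N ≤ K)
    (hB : Bnd B (gapv n m q K N s)) {U : ℝ} (hU : 1 ≤ U) (hb : ∀ i, ‖aeval (Z i) s‖ ≤ U)
    (i : Fin N) :
    aeval (Z i) s = 0 ∨ 1 / (((2 ^ B).factorial : ℝ) ^ (2 ^ B) * U ^ N) ≤ ‖aeval (Z i) s‖ := by
  classical
  refine gap_abs (fun i => aeval (Z i) s) _ hB n ?_ ?_ hU hb i
  · intro j hj
    obtain ⟨h1, h2, h3⟩ := nrS_vars hj
    rcases h3 with h3 | ⟨i, hi, h3⟩
    · rcases Finset.mem_union.1 (vars_sub_subset _ h3) with h4 | h4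
      · rw [vars_X, Finset.mem_singleton] at h4; exact h4
      · exact absurd (Finset.mem_range.2 (hs j h4)) h1
    · exact absurd (Finset.mem_range.2 (hq i (Finset.mem_range.1 hi) j h3)) h1
  · intro t
    have hsol := hZ (fun _ => t)
    have h1 := Sol.norm hsol (X n - s) (y := n + 1) (K := K) (by simp)
      (fun j hj hk => by have := hq j (Finset.mem_range.1 hj) _ hk; omega)
      (fun hk => by
        rcases Finset.mem_union.1 (vars_sub_subset _ hk) with h4 | h4
        · rw [vars_X, Finset.mem_singleton] at h4; omega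
        · have := hs _ h4; omega)
      (by
        refine le_trans (Nat.mul_le_mul_right _ ?_) hK
        refine (sdeg_sub' _ _ _).trans (max_le ?_ (sdeg_le_td _ _))
        rw [sdeg_zero_of_vars]
        · exact Nat.zero_le _
        · intro j hj
          rw [vars_X, Finset.mem_singleton] at hj
          subst hj; simp)
    unfold gapv
    rw [← h1]
    refine Finset.prod_congr rfl fun i _ => ?_
    rw [map_sub, aeval_X]
    congr 1
    · simp [mixv]
    · refine aeval_congr_vars fun j hj => ?_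
      simp [mixv, hs j hj]

theorem gap_diff (hZ : Sol0 n m q Z) (hq : ∀ j < n, ∀ k ∈ (q j).vars, k < n) (k : ℕ) (hk : k < n)
    {K B : ℕ} (hK' : (nrS (range n) m q (n + 1) N N (X n + X k)).totalDegree * N ≤ K)
    (hB : Bnd B (gapd n m q K N k)) {U : ℝ} (hU : 1 ≤ U) (hb : ∀ i j, ‖Z i k - Z j k‖ ≤ U)
    (i j : Fin N) :
    Z i k = Z j k ∨ 1 / (((2 ^ B).factorial : ℝ) ^ (2 ^ B) * U ^ (N * N)) ≤ ‖Z i k - Z j k‖ := by
  classical
  set F := nrS (range n) m q (n + 1) N N (X n + X k) with hF
  have hvnk : ∀ j ∈ (X n + X k : P).vars, j = n ∨ j = k := by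
    intro j hj
    rcases Finset.mem_union.1 (vars_add_subset _ _ hj) with h4 | h4
    · rw [vars_X, Finset.mem_singleton] at h4; exact Or.inl h4
    · rw [vars_X, Finset.mem_singleton] at h4; exact Or.inr h4
  have hFv : ∀ v : ℕ → ℂ, aeval v F = ∏ j, (v n + Z j k) := by
    intro v
    have h1 := Sol.norm (hZ v) (X n + X k) (y := n + 1) (K := N) (by simp)
      (fun j hj hk => by have := hq j (Finset.mem_range.1 hj) _ hk; omega)
      (fun hk' => by rcases hvnk _ hk' with h | h <;> omega)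
      (by
        have h2 : sdeg (range n) (X n + X k : P) ≤ 1 := by
          refine (sdeg_le_td _ _).trans ((totalDegree_add _ _).trans ?_)
          rw [totalDegree_X, totalDegree_X, max_self]
        calc sdeg (range n) (X n + X k : P) * N ≤ 1 * N := Nat.mul_le_mul_right _ h2
          _ = N := one_mul N)
    rw [hF, ← h1]
    refine Finset.prod_congr rfl fun j _ => ?_
    rw [map_add, aeval_X, aeval_X]
    simp [mixv, hk]
  set G := bind₁ (fun _ => X n - X k : ℕ → P) F with hG
  have hGv : ∀ v : ℕ → ℂ, aeval v G = ∏ j, (v n - v k + Z j k) := by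
    intro v
    rw [hG, aeval_bind₁]
    simp only [map_sub, aeval_X]
    rw [hFv]
  have hGvars : ∀ j ∈ G.vars, j = n ∨ j = k := by
    intro j hj
    obtain ⟨i, _, hj⟩ := Finset.mem_biUnion.1 (vars_bind₁ _ _ hj)
    rcases Finset.mem_union.1 (vars_sub_subset _ hj) with h4 | h4
    · rw [vars_X, Finset.mem_singleton] at h4; exact Or.inl h4
    · rw [vars_X, Finset.mem_singleton] at h4; exact Or.inr h4
  have hGdeg : G.totalDegree ≤ F.totalDegree := by
    rw [hG, fb_bind₁_eq_sum]
    refine totalDegree_finsetSum_le fun e he => ?_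
    refine (totalDegree_mul _ _).trans ?_
    rw [totalDegree_C, zero_add]
    refine (totalDegree_finsetProd _ _).trans ?_
    calc ∑ j ∈ e.support, ((X n - X k : P) ^ e j).totalDegree
        ≤ ∑ j ∈ e.support, e j := by
          refine Finset.sum_le_sum fun j _ => (totalDegree_pow _ _).trans ?_
          have : (X n - X k : P).totalDegree ≤ 1 := by
            refine (totalDegree_sub _ _).trans ?_
            rw [totalDegree_X, totalDegree_X, max_self]
          calc e j * (X n - X k : P).totalDegree ≤ e j * 1 := Nat.mul_le_mul_left _ this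
            _ = e j := mul_one _
      _ ≤ F.totalDegree := le_totalDegree he
  have key := gap_abs (fun p : Fin (N * N) => Z (finProdFinEquiv.symm p).1 k -
    Z (finProdFinEquiv.symm p).2 k) _ hB n ?_ ?_ hU (fun p => hb _ _) (finProdFinEquiv (i, j))
  · simp only [Equiv.symm_apply_apply] at key
    rcases key with h | h
    · exact Or.inl (sub_eq_zero.1 h)
    · exact Or.inr h
  · intro j hj
    obtain ⟨h1, h2, h3⟩ := nrS_vars hj
    rcases h3 with h3 | ⟨i, hi, h3⟩
    · rcases hGvars j h3 with h4 | h4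
      · exact h4
      · exact absurd (Finset.mem_range.2 (by rw [h4]; exact hk)) h1
    · exact absurd (Finset.mem_range.2 (hq i (Finset.mem_range.1 hi) j h3)) h1
  · intro t
    have h1 := Sol.norm (hZ (fun _ => t)) G (y := n + 1) (K := K) (by simp)
      (fun j hj hk => by have := hq j (Finset.mem_range.1 hj) _ hk; omega)
      (fun hk' => by rcases hGvars _ hk' with h | h <;> omega)
      (le_trans (Nat.mul_le_mul_right _ ((sdeg_le_td _ _).trans hGdeg)) hK')
    show aeval (fun _ => t) (nrS (range n) m q (n + 1) K N G) = _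
    rw [← h1]
    rw [← Equiv.prod_comp finProdFinEquiv]
    simp only [Equiv.symm_apply_apply]
    rw [Fintype.prod_prod_type]
    refine Finset.prod_congr rfl fun i _ => ?_
    rw [hGv]
    refine Finset.prod_congr rfl fun j _ => ?_
    simp only [mixv, lt_irrefl, if_false, hk, if_true]
    ring

end Crest.Agent.CHR
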