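import Crest.Agent.CHR.SentSemC

/-!
# MODULE M8 (row 316): sentences (chunk R316-SentSemD)
-/

set_option autoImplicit false

namespace Crest.Agent.CHR

open MvPolynomial Finset Crest.RealEA

/-! ## sentences -/

private theorem circ_congr (r s : ℕ) (c : List AGate) (hc : CircuitWF r s c) (x y x' y' : ℕ → ℝ)
    (hx : ∀ k < r, k ∈ circuitToNats c → x k = x' k)
    (hy : ∀ k < s, k ∈ circuitToNats c → y k = y' k) :
    circuitValue x y c = circuitValue x' y' c := by
  have h : circuitValues x y c = circuitValues x' y' c := by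
    unfold circuitValues
    refine List.foldl_ext _ _ _ fun prev g hg => ?_
    obtain ⟨i, hi⟩ := List.mem_iff_get.1 hg
    have hw := hc.2 i
    rw [hi] at hw
    have hmem : ∀ k ∈ g.toNats, k ∈ circuitToNats c := fun k hk => by
      unfold circuitToNats
      exact List.mem_cons_of_mem _ (List.mem_flatMap.2 ⟨g, hg, hk⟩)
    have hv : g.value x y prev = g.value x' y' prev := by
      cases g with
      | const z => rfl
      | varX i => exact hx i hw (hmem i (by simp [AGate.toNats]))
      | varY i => exact hy i hw (hmem i (by simp [AGate.toNats]))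
      | add a b => rfl
      | sub a b => rfl
      | mul a b => rfl
    rw [hv]
  unfold circuitValue
  rw [h]

/-- the truth of a well-formed condition depends only on the variables that occur -/
theorem Holds_congr (r s : ℕ) (φ : Form) (hφ : φ.WF r s) (x y x' y' : ℕ → ℝ)
    (hx : ∀ k < r, k ∈ φ.toNats → x k = x' k) (hy : ∀ k < s, k ∈ φ.toNats → y k = y' k) :
    φ.Holds x y ↔ φ.Holds x' y' := by
  induction φ with
  | eqZero c =>
    have h := circ_congr r s c hφ x y x' y' (fun k hk hk' => hx k hk (List.mem_cons_of_mem _ hk'))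
      (fun k hk hk' => hy k hk (List.mem_cons_of_mem _ hk'))
    simp only [Form.Holds, h]
  | pos c =>
    have h := circ_congr r s c hφ x y x' y' (fun k hk hk' => hx k hk (List.mem_cons_of_mem _ hk'))
      (fun k hk hk' => hy k hk (List.mem_cons_of_mem _ hk'))
    simp only [Form.Holds, h]
  | and φ ψ ih1 ih2 =>
    have h1 := ih1 hφ.1
      (fun k hk hk' => hx k hk (List.mem_cons_of_mem _ (List.mem_append_left _ hk')))
      (fun k hk hk' => hy k hk (List.mem_cons_of_mem _ (List.mem_append_left _ hk')))
    have h2 := ih2 hφ.2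
      (fun k hk hk' => hx k hk (List.mem_cons_of_mem _ (List.mem_append_right _ hk')))
      (fun k hk hk' => hy k hk (List.mem_cons_of_mem _ (List.mem_append_right _ hk')))
    simp only [Form.Holds, h1, h2]
  | or φ ψ ih1 ih2 =>
    have h1 := ih1 hφ.1
      (fun k hk hk' => hx k hk (List.mem_cons_of_mem _ (List.mem_append_left _ hk')))
      (fun k hk hk' => hy k hk (List.mem_cons_of_mem _ (List.mem_append_left _ hk')))
    have h2 := ih2 hφ.2
      (fun k hk hk' => hx k hk (List.mem_cons_of_mem _ (List.mem_append_right _ hk')))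
      (fun k hk hk' => hy k hk (List.mem_cons_of_mem _ (List.mem_append_right _ hk')))
    simp only [Form.Holds, h1, h2]
  | not φ ih =>
    have h1 := ih hφ (fun k hk hk' => hx k hk (List.mem_cons_of_mem _ hk'))
      (fun k hk hk' => hy k hk (List.mem_cons_of_mem _ hk'))
    simp only [Form.Holds, h1]

/-- the tokens of an encoded sentence -/
private theorem enc_facts (S : Sentence) :
    tk S.encode 0 = S.r ∧ tk S.encode 1 = S.s ∧ At (tk S.encode) 2 S.body.toNats ∧
      ntk S.encode = 2 + S.body.toNats.length ∧ ntk S.encode ≤ S.encode.length := by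
  have h1 : ∀ i, tk S.encode i = S.toNats.getD i 0 := fun i => tk_flatMap _ _
  refine ⟨by rw [h1]; rfl, by rw [h1]; rfl, ?_, ?_, ntk_le _⟩
  · rw [At_iff]
    intro j hj
    rw [h1]
    unfold Sentence.toNats
    rw [show 2 + j = j + 1 + 1 by omega, List.getD_cons_succ, List.getD_cons_succ,
      List.getD_eq_getElem _ _ hj]
  · have := ntk_flatMap S.toNats
    unfold Sentence.encode
    rw [this]
    unfold Sentence.toNats
    simp only [List.length_cons]
    omega

private theorem occ (S : Sentence) (k : ℕ) (hk : k ∈ S.body.toNats) :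
    fx (tk S.encode) S.encode.length k < S.encode.length ∧
      tk S.encode (fx (tk S.encode) S.encode.length k) = k := by
  obtain ⟨_, _, hA, hm, hle⟩ := enc_facts S
  obtain ⟨j, hj, hjk⟩ := List.mem_iff_getElem.1 hk
  rw [At_iff] at hA
  exact fx_spec _ _ _ (2 + j) (by omega) (by rw [hA j hj, hjk])

/-- PROOF. `w ∈ EATR ↔ ∃ S, S.WF ∧ S.IsTrue ∧ S.encode = w`; `sentWF_iff`.  With `ts = S.toNats`,
`tk w i = ts.getD i 0`, `ntk w = ts.length`, `r = ts[0]`, `s = ts[1]`, `At (tk w) 2 S.body.toNats`.
`→`: `x j = extend x0 (tk w j)` for `j < n`; if `Q = 0` then `V (ix n 3 0 2) = 0`, so the body is false at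
`xx, yy` by `form_sound`; compare with `extend` by `Holds_congr` (`fx_spec`).
`←`: `x0 k = x (fx (tk w) n k)`; if the body fails at `extend x0, extend y0`, take `exists_V` with
`xh = x`, `yh k = extend y0 (tk w k)` for `k < n`; then `sentQ w` vanishes at `V`, contradiction. -/
theorem eatr_iff (w : W) : w ∈ Crest.RealEA.EATR ↔
    sentWF w ∧ ∃ x : ℕ → ℝ, ∀ Y : ℕ → ℝ,
      0 < aeval (fun j => if j < w.length then x j else Y j) (sentQ w) := by
  constructor
  · rintro ⟨S, hS, ⟨x0, hx0⟩, rfl⟩
    refine ⟨(sentWF_iff _).2 ⟨S, hS, rfl⟩, fun j => extend x0 (tk S.encode j), fun Y => ?_⟩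
    obtain ⟨h0, h1, hA, hm, hle⟩ := enc_facts S
    set w := S.encode with hw
    set V : ℕ → ℝ := fun j => if j < w.length then extend x0 (tk w j) else Y j with hV
    unfold sentQ
    rw [h0, h1]
    refine lt_of_le_of_ne (sQ_nonneg _ _ _ _ _ _) fun h => ?_
    obtain ⟨hG, hF, hroot⟩ := (sQ_zero_iff _ _ _ _ _ _).1 h.symm
    have hnot := (form_sound (tk w) w.length (ntk w) S.r S.s hle V hG hF S.body hS 2 hA
      (by omega)).2 hroot
    apply hnot
    refine (Holds_congr S.r S.s S.body hS _ _ _ _ ?_ ?_).1
      (hx0 (fun k => yy (tk w) w.length V k))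
    · intro k hk hk'
      obtain ⟨h2, h3⟩ := occ S k hk'
      unfold xx
      rw [← hw] at h2 h3
      simp only [hV, h2, if_true, h3]
    · intro k hk _
      simp [extend, hk]
  · rintro ⟨hwf, x, hx⟩
    obtain ⟨S, hS, rfl⟩ := (sentWF_iff _).1 hwf
    obtain ⟨h0, h1, hA, hm, hle⟩ := enc_facts S
    refine ⟨S, hS, ⟨fun k => x (fx (tk S.encode) S.encode.length k), fun y0 => ?_⟩, rfl⟩
    set w := S.encode with hw
    by_contra hne
    obtain ⟨V, hV1, hV2, hG, hF, hV5⟩ := exists_V (tk w) w.length (ntk w) S.r S.s hle x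
      (fun k => extend y0 (tk w k))
    have h3 := (hV5 S.body hS 2 hA (by omega)).2 (fun hH => hne (by
      refine (Holds_congr S.r S.s S.body hS _ _ _ _ ?_ ?_).1 hH
      · intro k hk hk'
        obtain ⟨h2, h3⟩ := occ S k hk'
        rw [← hw] at h2 h3
        unfold xx
        rw [hV1 _ h2]
        simp [extend, hk]
      · intro k hk hk'
        obtain ⟨h2, h3⟩ := occ S k hk'
        rw [← hw] at h2 h3
        unfold yy
        rw [hV2 _ h2.le]
        simp only [h3]))
    have h4 := hx V
    have h5 : (fun j => if j < w.length then x j else V j) = V := by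
      funext j
      split_ifs with hj
      · exact (hV1 j hj).symm
      · rfl
    rw [h5] at h4
    unfold sentQ at h4
    rw [h0, h1, (sQ_zero_iff _ _ _ _ _ _).2 ⟨hG, hF, h3⟩] at h4
    exact lt_irrefl _ h4

end Crest.Agent.CHR
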