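import Crest.Agent.CHR.SentFam
import Crest.Agent.CHR.SentSem

/-!
# MODULE M8 (row 316): from sentences to sums of squares.  Interface.  Idea 447, part B1.

Files: `SentTok.lean` (tokens), `SentDefs.lean` (definitions: `sentQ`, `sentWF`), `SentPar.lean` (parser),
`SentCH.lean`, `SentFam.lean` (computability), `SentSem.lean` (meaning; contains `eatr_iff`).

Design.  `t i` = value of token `i` of `w`, `n = |w|`.  Variables: `X_j`, `j < n`: the variable `x_k` is `X_j` with
`j` = first position of the token value `k` (`fx`); auxiliary variables `ix n κ c k`: `κ = 0`: `y_v` (`c = 0`, index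
`fx v`); `κ = 1`: value of gate `k` of the circuit whose length token is at `c`; `κ = 2, 3`: truth variables
`t⁺_i`, `t⁻_i`; `κ = 4, 5, 6, 7`: witnesses.  The equations are written for ALL positions `c, k, i < n` (also
meaningless ones); they are a triangular system, so the meaningless ones do no harm.

Exported: `sentQ`, `sentWF`, `sentQ_fam`, `sentWF_CHP`, `sentQ_vars`, `sentQ_deg`, `sentQ_nonneg`, `eatr_iff`.
-/

set_option autoImplicit false

namespace Crest.Agent.CHR

open MvPolynomial Finset

theorem sentQ_vars (w : W) : ∀ j ∈ (sentQ w).vars, j < 9 * (w.length + 1) ^ 2 :=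
  sQ_vars _ _ _ _ _

theorem sentQ_deg (w : W) : (sentQ w).totalDegree ≤ 4 :=
  sQ_deg _ _ _ _ _

theorem sentQ_nonneg (w : W) (z : ℕ → ℝ) : 0 ≤ aeval z (sentQ w) :=
  sQ_nonneg _ _ _ _ _ _

end Crest.Agent.CHR
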