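import Crest.Agent.CHR.AsmOk
import Crest.Agent.CHR.AsmE
import Crest.Agent.CHR.Sent
import Crest.Agent.CHR.Cnt

/-!
# Row 316, module M9d: the data as families indexed by strings.  Definitions.
-/

set_option autoImplicit false

namespace Crest.Agent.CHR

open MvPolynomial Finset

/-- the number of `Y`-variables -/
def mY (w : W) : ℕ := 9 * (w.length + 1) ^ 2

/-- the numerical data for the string `w` -/
noncomputable def mkA (nb D : W → ℕ) (c : Polynomial ℕ) (w : W) : Asm where
  n := w.length
  m := mY w
  Q := sentQ w
  K2 := 6 * 5 ^ mY w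
  nb := nb w
  D := D w
  K1 := 2 * D w * (2 * D w - 1) ^ w.length
  c := c.eval w.length

variable (nb D : W → ℕ) (c : Polynomial ℕ)

/-- the total number of variables -/
def tW (w : W) : ℕ := w.length + mY w

@[simp] theorem mkA_tt (w : W) : (mkA nb D c w).tt = tW w := rfl
@[simp] theorem mkA_n (w : W) : (mkA nb D c w).n = w.length := rfl
@[simp] theorem mkA_m (w : W) : (mkA nb D c w).m = mY w := rfl
@[simp] theorem mkA_Q (w : W) : (mkA nb D c w).Q = sentQ w := rfl
@[simp] theorem mkA_nb (w : W) : (mkA nb D c w).nb = nb w := rfl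
@[simp] theorem mkA_D (w : W) : (mkA nb D c w).D = D w := rfl

/-- the polynomial `q(|w|)` giving the number of variables -/
noncomputable def tPoly : Polynomial ℕ := Polynomial.X + 9 * (Polynomial.X + 1) ^ 2

theorem tPoly_eval (w : W) : tPoly.eval w.length = tW w := by
  simp [tPoly, tW, mY]

end Crest.Agent.CHR
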