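import Mathlib

/-!
# MODULE M4 (row 316): Pham systems, part A: degree calculus
-/

set_option autoImplicit false

namespace Crest.Agent.CHR4

open MvPolynomial

section DLt

variable {σ : Type*} {R : Type*} [CommRing R]

/-- all monomials of `p` have degree `< d` (so `DLt 0 p ↔ p = 0`) -/
def DLt (d : ℕ) (p : MvPolynomial σ R) : Prop := ∀ b ∈ p.support, Finsupp.degree b < d

theorem DLt.coeff_eq_zero {d : ℕ} {p : MvPolynomial σ R} (h : DLt d p) {b : σ →₀ ℕ}
    (hb : d ≤ Finsupp.degree b) : coeff b p = 0 := by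
  by_contra hc
  exact absurd (h b (mem_support_iff.2 hc)) (not_lt.2 hb)

theorem DLt_of_coeff {d : ℕ} {p : MvPolynomial σ R}
    (h : ∀ b, d ≤ Finsupp.degree b → coeff b p = 0) : DLt d p := by
  intro b hb
  by_contra hc
  exact (mem_support_iff.1 hb) (h b (not_lt.1 hc))

theorem DLt.zero (d : ℕ) : DLt d (0 : MvPolynomial σ R) := by
  intro b hb; simp at hb

theorem DLt_zero_iff {p : MvPolynomial σ R} : DLt 0 p ↔ p = 0 := by
  constructor
  · intro h
    ext b
    simpa using h.coeff_eq_zero (Nat.zero_le (Finsupp.degree b))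
  · rintro rfl; exact DLt.zero 0

theorem DLt.mono {d e : ℕ} {p : MvPolynomial σ R} (h : DLt d p) (hde : d ≤ e) : DLt e p :=
  fun b hb => (h b hb).trans_le hde

theorem DLt.add {d : ℕ} {p q : MvPolynomial σ R} (hp : DLt d p) (hq : DLt d q) : DLt d (p + q) :=
  DLt_of_coeff fun b hb => by rw [coeff_add, hp.coeff_eq_zero hb, hq.coeff_eq_zero hb, add_zero]

theorem DLt.neg {d : ℕ} {p : MvPolynomial σ R} (hp : DLt d p) : DLt d (-p) :=
  DLt_of_coeff fun b hb => by rw [coeff_neg, hp.coeff_eq_zero hb, neg_zero]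

theorem DLt.sub {d : ℕ} {p q : MvPolynomial σ R} (hp : DLt d p) (hq : DLt d q) : DLt d (p - q) := by
  rw [sub_eq_add_neg]; exact hp.add hq.neg

theorem DLt.sum {ι : Type*} {d : ℕ} (s : Finset ι) {p : ι → MvPolynomial σ R}
    (h : ∀ i ∈ s, DLt d (p i)) : DLt d (∑ i ∈ s, p i) :=
  DLt_of_coeff fun b hb => by
    rw [coeff_sum]
    exact Finset.sum_eq_zero fun i hi => (h i hi).coeff_eq_zero hb

theorem DLt.mul {a b : ℕ} {p q : MvPolynomial σ R} (hp : DLt a p) (hq : DLt (b + 1) q) :
    DLt (a + b) (p * q) := by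
  classical
  intro c hc
  obtain ⟨u, hu, v, hv, rfl⟩ := Finset.mem_add.1 (support_mul p q hc)
  rw [map_add]
  have h1 := hp u hu
  have h2 := hq v hv
  omega

theorem DLt.mul' {a b : ℕ} {p q : MvPolynomial σ R} (hp : DLt (a + 1) p) (hq : DLt b q) :
    DLt (a + b) (p * q) := by
  rw [mul_comm, add_comm]; exact hq.mul hp

theorem DLt_monomial (b : σ →₀ ℕ) (c : R) : DLt (Finsupp.degree b + 1) (monomial b c) := by
  classical
  intro a ha
  have := support_monomial_subset ha
  rw [Finset.mem_singleton] at this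
  rw [this]; omega

theorem DLt_C (c : R) : DLt 1 (C c : MvPolynomial σ R) := by
  have := DLt_monomial (R := R) (0 : σ →₀ ℕ) c
  simpa using this

theorem DLt_one : DLt 1 (1 : MvPolynomial σ R) := DLt_C 1

theorem DLt_X (i : σ) : DLt 2 (X i : MvPolynomial σ R) := by
  have := DLt_monomial (Finsupp.single i 1) (1 : R)
  rw [Finsupp.degree_single] at this
  exact this

theorem DLt.pow {a : ℕ} {p : MvPolynomial σ R} (hp : DLt (a + 1) p) (k : ℕ) :
    DLt (k * a + 1) (p ^ k) := by
  induction k with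
  | zero => simpa using DLt_one
  | succ k ih =>
    rw [pow_succ]
    exact (ih.mul hp).mono (by ring_nf; omega)

theorem DLt_X_pow (i : σ) (k : ℕ) : DLt (k + 1) (X i ^ k : MvPolynomial σ R) := by
  have := (DLt_X (R := R) i).pow k
  simpa using this

theorem DLt.prod {ι : Type*} (s : Finset ι) {a : ι → ℕ} {p : ι → MvPolynomial σ R}
    (h : ∀ i ∈ s, DLt (a i + 1) (p i)) : DLt (∑ i ∈ s, a i + 1) (∏ i ∈ s, p i) := by
  classical
  induction s using Finset.induction_on with
  | empty => simpa using DLt_one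
  | insert i s hi ih =>
    rw [Finset.sum_insert hi, Finset.prod_insert hi]
    have h1 := h i (Finset.mem_insert_self _ _)
    have h2 := ih fun j hj => h j (Finset.mem_insert_of_mem hj)
    exact (h1.mul h2).mono (by omega)

/-- a product one of whose factors has smaller degree -/
theorem DLt.prod_lt {ι : Type*} (s : Finset ι) {a : ι → ℕ} {p : ι → MvPolynomial σ R}
    (h : ∀ i ∈ s, DLt (a i + 1) (p i)) (hlt : ∃ i ∈ s, DLt (a i) (p i)) :
    DLt (∑ i ∈ s, a i) (∏ i ∈ s, p i) := by
  classical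
  obtain ⟨i, hi, hi'⟩ := hlt
  rw [← Finset.mul_prod_erase s p hi, ← Finset.add_sum_erase s a hi]
  exact hi'.mul (DLt.prod (s.erase i) fun j hj => h j (Finset.mem_of_mem_erase hj))

/-- difference of products -/
theorem DLt.prod_sub_prod {ι : Type*} (s : Finset ι) {a : ι → ℕ} {p q : ι → MvPolynomial σ R}
    (hp : ∀ i ∈ s, DLt (a i + 1) (p i)) (hq : ∀ i ∈ s, DLt (a i + 1) (q i))
    (h : ∀ i ∈ s, DLt (a i) (p i - q i)) :
    DLt (∑ i ∈ s, a i) (∏ i ∈ s, p i - ∏ i ∈ s, q i) := by
  classical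
  induction s using Finset.induction_on with
  | empty => simpa using DLt.zero 0
  | insert i s hi ih =>
    rw [Finset.sum_insert hi, Finset.prod_insert hi, Finset.prod_insert hi]
    have e : p i * ∏ j ∈ s, p j - q i * ∏ j ∈ s, q j =
        (p i - q i) * ∏ j ∈ s, p j + q i * (∏ j ∈ s, p j - ∏ j ∈ s, q j) := by ring
    rw [e]
    have ih' := ih (fun j hj => hp j (Finset.mem_insert_of_mem hj))
      (fun j hj => hq j (Finset.mem_insert_of_mem hj)) (fun j hj => h j (Finset.mem_insert_of_mem hj))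
    exact ((h i (Finset.mem_insert_self _ _)).mul
      (DLt.prod s fun j hj => hp j (Finset.mem_insert_of_mem hj))).add
      ((hq i (Finset.mem_insert_self _ _)).mul' ih')

theorem DLt_iff_totalDegree {K : ℕ} {p : MvPolynomial σ R} :
    DLt (K + 1) p ↔ p.totalDegree ≤ K := by
  unfold MvPolynomial.totalDegree
  rw [Finset.sup_le_iff]
  exact forall₂_congr fun b _ => Nat.lt_succ_iff

theorem DLt.map {S : Type*} [CommRing S] (φ : R →+* S) {d : ℕ} {p : MvPolynomial σ R}
    (h : DLt d p) : DLt d (MvPolynomial.map φ p) :=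
  DLt_of_coeff fun b hb => by rw [coeff_map, h.coeff_eq_zero hb, map_zero]

end DLt

end Crest.Agent.CHR4
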