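import Crest.Agent.CHR.P4A

/-!
# MODULE M4 (row 316): Pham systems, part B: the residue as a coefficient
-/

set_option autoImplicit false
set_option linter.unusedSectionVars false

namespace Crest.Agent.CHR4

open MvPolynomial

/-- difference of products, with slack -/
theorem DLt.prod_sub_prod_slack {σ R : Type*} [CommRing R] {ι : Type*} (s : Finset ι) (e : ℕ)
    {a : ι → ℕ} {p q : ι → MvPolynomial σ R}
    (hp : ∀ i ∈ s, DLt (a i + 1) (p i)) (hq : ∀ i ∈ s, DLt (a i + 1) (q i))
    (h : ∀ i ∈ s, DLt (a i + 1 - e) (p i - q i)) :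
    DLt (∑ i ∈ s, a i + 1 - e) (∏ i ∈ s, p i - ∏ i ∈ s, q i) := by
  classical
  induction s using Finset.induction_on with
  | empty => simpa using DLt.zero _
  | insert i s hi ih =>
    rw [Finset.sum_insert hi, Finset.prod_insert hi, Finset.prod_insert hi]
    have e0 : p i * ∏ j ∈ s, p j - q i * ∏ j ∈ s, q j =
        (p i - q i) * ∏ j ∈ s, p j + q i * (∏ j ∈ s, p j - ∏ j ∈ s, q j) := by ring
    rw [e0]
    have ih' := ih (fun j hj => hp j (Finset.mem_insert_of_mem hj))
      (fun j hj => hq j (Finset.mem_insert_of_mem hj)) (fun j hj => h j (Finset.mem_insert_of_mem hj))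
    have h1 := h i (Finset.mem_insert_self _ _)
    have h2 : DLt (∑ j ∈ s, a j + 1) (∏ j ∈ s, p j) :=
      DLt.prod s fun j hj => hp j (Finset.mem_insert_of_mem hj)
    have h3 := hq i (Finset.mem_insert_self _ _)
    refine DLt.add ?_ ?_
    · by_cases hc : e ≤ a i + 1
      · exact (h1.mul h2).mono (by omega)
      · have : a i + 1 - e = 0 := by omega
        rw [this, DLt_zero_iff] at h1
        rw [h1, zero_mul]
        exact DLt.zero _
    · by_cases hc : e ≤ ∑ j ∈ s, a j + 1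
      · exact (h3.mul' ih').mono (by omega)
      · have : ∑ j ∈ s, a j + 1 - e = 0 := by omega
        rw [this, DLt_zero_iff] at ih'
        rw [ih', mul_zero]
        exact DLt.zero _

/-- A Pham system `x_i ^ m_i = q_i(x)`, all monomials of `q_i` of degree `< m_i`. -/
structure Pham (σ : Type*) (R : Type*) [CommRing R] where
  m : σ → ℕ
  q : σ → MvPolynomial σ R
  m_pos : ∀ i, 1 ≤ m i
  hq : ∀ i, DLt (m i) (q i)

namespace Pham

variable {σ : Type*} [Fintype σ] {R : Type*} [CommRing R] (S : Pham σ R)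

/-- the equations -/
noncomputable def f (i : σ) : MvPolynomial σ R := X i ^ S.m i - S.q i

noncomputable def ser (K : ℕ) (i : σ) : MvPolynomial σ R :=
  ∑ k ∈ Finset.range (K + 1), S.q i ^ k * X i ^ (S.m i * (K - k))

noncomputable def ex (K : ℕ) : σ →₀ ℕ :=
  Finsupp.equivFunOnFinite.symm (fun i => S.m i * K + (S.m i - 1))

/-- THE RESIDUE AS A COEFFICIENT: `[∏ x_i ^ (m_i K + m_i - 1)] g ∏_i ∑_{k≤K} q_i^k x_i^(m_i (K-k))` -/
noncomputable def RK (K : ℕ) (g : MvPolynomial σ R) : R :=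
  coeff (S.ex K) (g * ∏ i, S.ser K i)

noncomputable def res (g : MvPolynomial σ R) : R := S.RK g.totalDegree g

theorem ex_apply (K : ℕ) (i : σ) : S.ex K i = S.m i * K + (S.m i - 1) := rfl

theorem degree_ex (K : ℕ) : Finsupp.degree (S.ex K) = ∑ i, S.m i * K + ∑ i, (S.m i - 1) := by
  rw [Finsupp.degree_eq_sum, ← Finset.sum_add_distrib]
  rfl

theorem q_pow (i : σ) (k : ℕ) : DLt (k * (S.m i - 1) + 1) (S.q i ^ k) := by
  have h : DLt (S.m i - 1 + 1) (S.q i) := (S.hq i).mono (by have := S.m_pos i; omega)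
  exact h.pow k

theorem f_mul_ser (K : ℕ) (i : σ) :
    S.f i * S.ser K i = X i ^ (S.m i * (K + 1)) - S.q i ^ (K + 1) := by
  have h := geom_sum₂_mul (S.q i) (X i ^ S.m i : MvPolynomial σ R) (K + 1)
  have e : S.ser K i =
      ∑ k ∈ Finset.range (K + 1), S.q i ^ k * (X i ^ S.m i) ^ (K + 1 - 1 - k) := by
    refine Finset.sum_congr rfl fun k _ => ?_
    rw [← pow_mul, Nat.add_sub_cancel]
  rw [e, f, pow_mul]
  linear_combination -h

theorem ser_succ (K : ℕ) (i : σ) :
    S.ser (K + 1) i = X i ^ S.m i * S.ser K i + S.q i ^ (K + 1) := by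
  rw [ser, Finset.sum_range_succ, ser, Finset.mul_sum]
  congr 1
  · refine Finset.sum_congr rfl fun k hk => ?_
    have hk' : k ≤ K := Nat.lt_succ_iff.1 (Finset.mem_range.1 hk)
    have : S.m i * (K + 1 - k) = S.m i + S.m i * (K - k) := by
      rw [Nat.succ_sub hk', Nat.mul_succ, add_comm]
    rw [this, pow_add]; ring
  · simp

theorem term_DLt (K k : ℕ) (hk : k ≤ K) (i : σ) :
    DLt (S.m i * K + 1 - k) (S.q i ^ k * X i ^ (S.m i * (K - k))) := by
  have h := (S.q_pow i k).mul (DLt_X_pow (R := R) i (S.m i * (K - k)))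
  refine h.mono ?_
  obtain ⟨d, rfl⟩ := Nat.exists_eq_add_of_le hk
  obtain ⟨c, hc⟩ := Nat.exists_eq_add_of_le (S.m_pos i)
  rw [hc, Nat.add_sub_cancel_left, Nat.add_sub_cancel_left]
  have : (1 + c) * (k + d) + 1 - k = c * k + (1 + c) * d + 1 := by
    have : (1 + c) * (k + d) + 1 = (c * k + (1 + c) * d + 1) + k := by ring
    omega
  rw [this]
  have : k * c = c * k := mul_comm _ _
  omega

theorem DLt_ser (K : ℕ) (i : σ) : DLt (S.m i * K + 1) (S.ser K i) := by
  refine DLt.sum _ fun k hk => ?_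
  exact (S.term_DLt K k (Nat.lt_succ_iff.1 (Finset.mem_range.1 hk)) i).mono (Nat.sub_le _ _)

theorem DLt_ser_sub (K : ℕ) (i : σ) : DLt (S.m i * K) (S.ser K i - X i ^ (S.m i * K)) := by
  rw [ser, Finset.sum_range_succ']
  simp only [pow_zero, one_mul, Nat.sub_zero, add_sub_cancel_right]
  refine DLt.sum _ fun k hk => ?_
  have hk' := Finset.mem_range.1 hk
  exact (S.term_DLt K (k + 1) (by omega) i).mono (by omega)

theorem RK_succ {K : ℕ} {g : MvPolynomial σ R} (h : DLt (K + 1 + ∑ i, (S.m i - 1)) g) :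
    S.RK (K + 1) g = S.RK K g := by
  classical
  have h1 : DLt (∑ i, S.m i * (K + 1) + 1 - (K + 1))
      (∏ i, S.ser (K + 1) i - ∏ i, (X i ^ S.m i * S.ser K i)) := by
    refine DLt.prod_sub_prod_slack _ (K + 1) ?_ ?_ ?_
    · intro i _; exact S.DLt_ser (K + 1) i
    · intro i _
      exact ((DLt_X_pow (R := R) i (S.m i)).mul' (S.DLt_ser K i)).mono (by ring_nf; omega)
    · intro i _
      rw [S.ser_succ, add_sub_cancel_left]
      refine (S.q_pow i (K + 1)).mono ?_
      obtain ⟨c, hc⟩ := Nat.exists_eq_add_of_le (S.m_pos i)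
      rw [hc, Nat.add_sub_cancel_left]
      have : (1 + c) * (K + 1) + 1 = ((K + 1) * c + 1) + (K + 1) := by ring
      omega
  have h2 : coeff (S.ex (K + 1)) (g * (∏ i, S.ser (K + 1) i - ∏ i, (X i ^ S.m i * S.ser K i))) = 0 := by
    by_cases hσ : Nonempty σ
    · have hpos : K + 1 ≤ ∑ i, S.m i * (K + 1) := by
        obtain ⟨i⟩ := hσ
        calc K + 1 ≤ S.m i * (K + 1) := Nat.le_mul_of_pos_left _ (S.m_pos i)
          _ ≤ _ := Finset.single_le_sum (f := fun i => S.m i * (K + 1)) (fun _ _ => Nat.zero_le _)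
            (Finset.mem_univ i)
      have h1' : DLt (∑ i, S.m i * (K + 1) - (K + 1) + 1)
          (∏ i, S.ser (K + 1) i - ∏ i, (X i ^ S.m i * S.ser K i)) := h1.mono (by omega)
      refine (h.mul h1').coeff_eq_zero ?_
      rw [degree_ex]
      omega
    · have : IsEmpty σ := not_nonempty_iff.1 hσ
      simp
  have h3 : S.RK (K + 1) g = coeff (S.ex (K + 1)) (g * ∏ i, (X i ^ S.m i * S.ser K i)) := by
    rw [RK, ← sub_eq_zero, ← coeff_sub, ← mul_sub, h2]
  rw [h3, RK, Finset.prod_mul_distrib]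
  have hmon : (∏ i, (X i : MvPolynomial σ R) ^ S.m i) =
      monomial (Finsupp.equivFunOnFinite.symm S.m) 1 := by
    rw [monomial_eq, C_1, one_mul, Finsupp.prod_fintype _ _ (fun i => pow_zero _)]
    rfl
  rw [hmon]
  have e1 : g * (monomial (Finsupp.equivFunOnFinite.symm S.m) (1 : R) * ∏ i, S.ser K i) =
      monomial (Finsupp.equivFunOnFinite.symm S.m) 1 * (g * ∏ i, S.ser K i) := by ring
  have e2 : S.ex (K + 1) = Finsupp.equivFunOnFinite.symm S.m + S.ex K := by
    ext i
    show S.m i * (K + 1) + (S.m i - 1) = S.m i + (S.m i * K + (S.m i - 1))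
    ring
  rw [e1, e2, coeff_monomial_mul, one_mul]

theorem RK_eq_of_le {K L : ℕ} (hKL : K ≤ L) {g : MvPolynomial σ R}
    (h : DLt (K + 1 + ∑ i, (S.m i - 1)) g) :
    S.RK L g = S.RK K g := by
  induction L, hKL using Nat.le_induction with
  | base => rfl
  | succ L hL ih => rw [S.RK_succ (h.mono (by omega)), ih]

theorem RK_eq_res {K : ℕ} {g : MvPolynomial σ R} (h : DLt (K + 1) g) : S.RK K g = S.res g :=
  S.RK_eq_of_le (DLt_iff_totalDegree.1 h)
    ((DLt_iff_totalDegree.2 (le_refl g.totalDegree)).mono (Nat.le_add_right _ _))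

/-- strong form: degree at most `K + ∑ (m_i - 1)` suffices -/
theorem RK_eq_res_strong {K : ℕ} {g : MvPolynomial σ R}
    (h : DLt (K + 1 + ∑ i, (S.m i - 1)) g) : S.RK K g = S.res g := by
  have h1 : S.RK (max K g.totalDegree) g = S.RK K g := S.RK_eq_of_le (le_max_left _ _) h
  have h2 : DLt (max K g.totalDegree + 1) g := DLt_iff_totalDegree.2 (le_max_right _ _)
  rw [← h1, S.RK_eq_res h2]

theorem RK_eq_res' {K : ℕ} {g : MvPolynomial σ R} (h : g.totalDegree ≤ K) : S.RK K g = S.res g :=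
  S.RK_eq_res (DLt_iff_totalDegree.2 h)

theorem RK_add (K : ℕ) (g h : MvPolynomial σ R) : S.RK K (g + h) = S.RK K g + S.RK K h := by
  rw [RK, RK, RK, add_mul, coeff_add]

theorem RK_C_mul (K : ℕ) (c : R) (g : MvPolynomial σ R) : S.RK K (C c * g) = c * S.RK K g := by
  rw [RK, RK, mul_assoc, coeff_C_mul]

theorem res_add (g h : MvPolynomial σ R) : S.res (g + h) = S.res g + S.res h := by
  have hg : DLt (max g.totalDegree h.totalDegree + 1) g := DLt_iff_totalDegree.2 (le_max_left _ _)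
  have hh : DLt (max g.totalDegree h.totalDegree + 1) h := DLt_iff_totalDegree.2 (le_max_right _ _)
  rw [← S.RK_eq_res hg, ← S.RK_eq_res hh, ← S.RK_eq_res (hg.add hh), RK_add]

theorem res_C_mul (c : R) (g : MvPolynomial σ R) : S.res (C c * g) = c * S.res g := by
  have hg : DLt (g.totalDegree + 1) g := DLt_iff_totalDegree.2 le_rfl
  have hc : DLt (g.totalDegree + 1) (C c * g) := by
    have := (DLt_C c).mul' (a := 0) hg
    simpa using this
  rw [← S.RK_eq_res hg, ← S.RK_eq_res hc, RK_C_mul]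

/-- the residue as a linear functional -/
noncomputable def resL : MvPolynomial σ R →ₗ[R] R where
  toFun := S.res
  map_add' := S.res_add
  map_smul' c g := by
    rw [RingHom.id_apply, smul_eq_mul, ← S.res_C_mul, ← smul_eq_C_mul]

theorem resL_apply (g : MvPolynomial σ R) : S.resL g = S.res g := rfl

/-- (C1) the residue vanishes on the ideal -/
theorem res_f_mul (j : σ) (h : MvPolynomial σ R) : S.res (S.f j * h) = 0 := by
  classical
  -- a large K
  set K := S.m j + h.totalDegree + 1 with hK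
  have hh : DLt K h := by
    have : DLt (h.totalDegree + 1) h := DLt_iff_totalDegree.2 le_rfl
    exact this.mono (by omega)
  have hf : DLt (S.m j + 1) (S.f j) :=
    (DLt_X_pow j (S.m j)).sub ((S.hq j).mono (by omega))
  have hfh : DLt (K + 1) (S.f j * h) := (hf.mul' (DLt_iff_totalDegree.2 (le_refl h.totalDegree))).mono
    (by omega)
  rw [← S.RK_eq_res hfh, RK, ← Finset.mul_prod_erase Finset.univ (S.ser K) (Finset.mem_univ j)]
  have e1 : S.f j * h * (S.ser K j * ∏ i ∈ Finset.univ.erase j, S.ser K i) =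
      (h * ∏ i ∈ Finset.univ.erase j, S.ser K i) * (X j ^ (S.m j * (K + 1))) -
      h * (S.q j ^ (K + 1) * ∏ i ∈ Finset.univ.erase j, S.ser K i) := by
    have := S.f_mul_ser K j
    linear_combination (h * ∏ i ∈ Finset.univ.erase j, S.ser K i) * this
  rw [e1, coeff_sub, X_pow_eq_monomial, coeff_mul_monomial', if_neg]
  · rw [zero_sub, neg_eq_zero]
    have h1 : DLt (∑ i ∈ Finset.univ.erase j, S.m i * K + 1)
        (∏ i ∈ Finset.univ.erase j, S.ser K i) := DLt.prod _ fun i _ => S.DLt_ser K i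
    have h2 := (S.q_pow j (K + 1)).mul h1
    have h3 := hh.mul (h2.mono (show _ ≤ (K + 1) * (S.m j - 1) +
      ∑ i ∈ Finset.univ.erase j, S.m i * K + 1 by omega))
    refine h3.coeff_eq_zero ?_
    rw [degree_ex, ← Finset.add_sum_erase Finset.univ (fun i => S.m i * K) (Finset.mem_univ j),
      ← Finset.add_sum_erase Finset.univ (fun i => S.m i - 1) (Finset.mem_univ j)]
    obtain ⟨c, hc⟩ := Nat.exists_eq_add_of_le (S.m_pos j)
    rw [hc, Nat.add_sub_cancel_left]
    have e2 : K + (K + 1) * c = (1 + c) * K + c := by ring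
    omega
  · rw [Finsupp.single_le_iff, ex_apply, not_le]
    have h1 := S.m_pos j
    have h2 : S.m j * (K + 1) = S.m j * K + S.m j := by ring
    rw [h2]
    omega

/-- the ideal of the system -/
noncomputable def I : Ideal (MvPolynomial σ R) := Ideal.span (Set.range S.f)

theorem res_of_mem {g : MvPolynomial σ R} (hg : g ∈ S.I) : S.res g = 0 := by
  rw [← resL_apply]
  refine Submodule.span_induction (p := fun g _ => ∀ h, S.resL (h * g) = 0) ?_ ?_ ?_ ?_ hg 1 |> fun h => by
    rwa [one_mul] at h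
  · rintro _ ⟨j, rfl⟩ h
    rw [mul_comm]; exact S.res_f_mul j h
  · intro h; rw [mul_zero, map_zero]
  · intro x y _ _ hx hy h
    rw [mul_add, map_add, hx, hy, add_zero]
  · intro a x _ hx h
    rw [smul_eq_mul, ← mul_assoc]; exact hx _

/-- (C2) -/
theorem res_of_DLt {g : MvPolynomial σ R} (hg : DLt (∑ i, (S.m i - 1)) g) : S.res g = 0 := by
  rw [res, RK]
  have h1 : DLt (∑ i, S.m i * g.totalDegree + 1) (∏ i, S.ser g.totalDegree i) :=
    DLt.prod _ fun i _ => S.DLt_ser _ i
  refine (hg.mul h1).coeff_eq_zero ?_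
  rw [degree_ex]; omega

/-- (C2) -/
theorem res_top : S.res (∏ i, X i ^ (S.m i - 1)) = 1 := by
  classical
  rw [res]
  set K := (∏ i, (X i : MvPolynomial σ R) ^ (S.m i - 1)).totalDegree
  rw [RK]
  have h1 : DLt (∑ i, S.m i * K) (∏ i, S.ser K i - ∏ i, X i ^ (S.m i * K)) :=
    DLt.prod_sub_prod _ (fun i _ => S.DLt_ser K i) (fun i _ => DLt_X_pow i _)
      (fun i _ => S.DLt_ser_sub K i)
  have h2 : DLt (∑ i, (S.m i - 1) + 1) (∏ i, (X i : MvPolynomial σ R) ^ (S.m i - 1)) :=
    DLt.prod _ fun i _ => DLt_X_pow i _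
  have h3 : coeff (S.ex K) ((∏ i, (X i : MvPolynomial σ R) ^ (S.m i - 1)) *
      (∏ i, S.ser K i - ∏ i, X i ^ (S.m i * K))) = 0 := by
    refine (h2.mul' h1).coeff_eq_zero ?_
    rw [degree_ex]; omega
  rw [mul_sub, coeff_sub, sub_eq_zero] at h3
  rw [h3, ← Finset.prod_mul_distrib]
  have hmon : (∏ i, ((X i : MvPolynomial σ R) ^ (S.m i - 1) * X i ^ (S.m i * K))) =
      monomial (S.ex K) 1 := by
    rw [monomial_eq, C_1, one_mul, Finsupp.prod_fintype _ _ (fun i => pow_zero _)]
    refine Finset.prod_congr rfl fun i _ => ?_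
    rw [ex_apply, ← pow_add, add_comm]
  rw [hmon, coeff_monomial, if_pos rfl]

/-- change of rings -/
noncomputable def map {R' : Type*} [CommRing R'] (φ : R →+* R') : Pham σ R' where
  m := S.m
  q i := MvPolynomial.map φ (S.q i)
  m_pos := S.m_pos
  hq i := (S.hq i).map φ

theorem map_f {R' : Type*} [CommRing R'] (φ : R →+* R') (i : σ) :
    (S.map φ).f i = MvPolynomial.map φ (S.f i) := by
  simp [f, Pham.map]

theorem RK_map {R' : Type*} [CommRing R'] (φ : R →+* R') (K : ℕ) (g : MvPolynomial σ R) :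
    (S.map φ).RK K (MvPolynomial.map φ g) = φ (S.RK K g) := by
  have h1 : ∀ i, (S.map φ).ser K i = MvPolynomial.map φ (S.ser K i) := by
    intro i
    simp [ser, Pham.map]
  have h2 : (S.map φ).ex K = S.ex K := rfl
  rw [RK, RK, h2, ← coeff_map, map_mul, map_prod]
  simp only [h1]

theorem res_map {R' : Type*} [CommRing R'] (φ : R →+* R') (g : MvPolynomial σ R) :
    (S.map φ).res (MvPolynomial.map φ g) = φ (S.res g) := by
  have h : DLt (g.totalDegree + 1) g := DLt_iff_totalDegree.2 le_rfl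
  rw [← (S.map φ).RK_eq_res (h.map φ), RK_map, res]

end Pham

end Crest.Agent.CHR4
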