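import Crest.Agent.CHR.P4B

/-!
# MODULE M4 (row 316): Pham systems, part C: divided differences
-/

set_option autoImplicit false
set_option linter.unusedSectionVars false

namespace Crest.Agent.CHR4

open MvPolynomial

section

variable {σ : Type*} [Fintype σ] [DecidableEq σ] {K A : Type*} [CommRing K] [CommRing A]
  (φ : K →+* A) (u : σ → A)

theorem exists_theta_monomial (n : ℕ) : ∀ (b : σ →₀ ℕ) (c : K), Finsupp.degree b = n →
    ∃ θ : σ → MvPolynomial σ A, (∀ j, DLt n (θ j)) ∧
      MvPolynomial.map φ (monomial b c) - C (eval₂ φ u (monomial b c)) =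
        ∑ j, θ j * (X j - C (u j)) ∧
      ∀ j, eval u (θ j) = eval₂ φ u (pderiv j (monomial b c)) := by
  induction n with
  | zero =>
    intro b c hb
    have hb0 : b = 0 := by
      ext i
      have := Finsupp.le_degree i b
      rw [hb] at this
      simpa using this
    subst hb0
    refine ⟨fun _ => 0, fun _ => DLt.zero 0, ?_, ?_⟩
    · simp
    · intro j
      have : (monomial (0 : σ →₀ ℕ) c : MvPolynomial σ K) = C c := rfl
      rw [this, pderiv_C]; simp
  | succ n ih =>
    intro b c hb
    have hk : ∃ k, b k ≠ 0 := by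
      by_contra hcon
      push Not at hcon
      have : b = 0 := by ext i; simpa using hcon i
      rw [this] at hb
      simp at hb
    obtain ⟨k, hk⟩ := hk
    set b' := b - Finsupp.single k 1 with hb'
    have hbb : b = Finsupp.single k 1 + b' := by
      rw [hb', add_tsub_cancel_of_le]
      rw [Finsupp.single_le_iff]; omega
    have hdeg : Finsupp.degree b' = n := by
      rw [hbb, map_add, Finsupp.degree_single] at hb
      omega
    obtain ⟨θ, h1, h2, h3⟩ := ih b' c hdeg
    have hmon : (monomial b c : MvPolynomial σ K) = X k * monomial b' c := by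
      rw [hbb, X, monomial_mul, one_mul]
    set e := eval₂ φ u (monomial b' c) with he
    refine ⟨fun j => X k * θ j + if j = k then C e else 0, ?_, ?_, ?_⟩
    · intro j
      refine DLt.add ?_ ?_
      · exact ((DLt_X (R := A) k).mul' (a := 1) (h1 j)).mono (by omega)
      · split_ifs
        · exact (DLt_C e).mono (by omega)
        · exact DLt.zero _
    · rw [hmon, map_mul, map_X, eval₂_mul, eval₂_X, ← he]
      have : ∑ j, (X k * θ j + if j = k then C e else 0) * (X j - C (u j)) =
          X k * ∑ j, θ j * (X j - C (u j)) + C e * (X k - C (u k)) := by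
        simp only [add_mul, Finset.sum_add_distrib, ite_mul, zero_mul, Finset.sum_ite_eq',
          Finset.mem_univ, if_true, Finset.mul_sum, mul_assoc]
      rw [this, ← h2, C_mul]
      ring
    · intro j
      rw [hmon, (pderiv j).leibniz, smul_eq_mul, smul_eq_mul, eval₂_add, eval₂_mul, eval₂_mul,
        eval₂_X, ← h3 j, ← he, pderiv_X]
      simp only [map_add, map_mul, eval_X]
      congr 1
      by_cases hj : j = k
      · subst hj; simp
      · rw [if_neg hj, Pi.single_eq_of_ne (Ne.symm hj)]; simp

/-- DIVIDED DIFFERENCES -/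
theorem exists_theta (p : MvPolynomial σ K) (d : ℕ) (hp : DLt (d + 1) p) :
    ∃ θ : σ → MvPolynomial σ A, (∀ j, DLt d (θ j)) ∧
      MvPolynomial.map φ p - C (eval₂ φ u p) = ∑ j, θ j * (X j - C (u j)) ∧
      ∀ j, eval u (θ j) = eval₂ φ u (pderiv j p) := by
  choose θ h1 h2 h3 using fun b : σ →₀ ℕ =>
    exists_theta_monomial φ u (Finsupp.degree b) b (coeff b p) rfl
  refine ⟨fun j => ∑ b ∈ p.support, θ b j, ?_, ?_, ?_⟩
  · intro j
    exact DLt.sum _ fun b hb => (h1 b j).mono (by have := hp b hb; omega)
  · have e1 : MvPolynomial.map φ p = ∑ b ∈ p.support, MvPolynomial.map φ (monomial b (coeff b p)) := by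
      conv_lhs => rw [p.as_sum]
      rw [map_sum]
    have e2 : eval₂ φ u p = ∑ b ∈ p.support, eval₂ φ u (monomial b (coeff b p)) := by
      conv_lhs => rw [p.as_sum]
      rw [eval₂_sum]
    rw [e1, e2, map_sum, ← Finset.sum_sub_distrib, Finset.sum_congr rfl fun b _ => h2 b,
      Finset.sum_comm]
    refine Finset.sum_congr rfl fun j _ => ?_
    rw [Finset.sum_mul]
  · intro j
    have e3 : pderiv j p = ∑ b ∈ p.support, pderiv j (monomial b (coeff b p)) := by
      conv_lhs => rw [p.as_sum]
      rw [map_sum]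
    rw [e3, eval₂_sum, map_sum]
    exact Finset.sum_congr rfl fun b _ => h3 b j

theorem exists_theta_pow (k : σ) (m : ℕ) (hm : 1 ≤ m) :
    ∃ θ : σ → MvPolynomial σ A, (∀ j, DLt (m - 1) (θ j - if k = j then X k ^ (m - 1) else 0)) ∧
      MvPolynomial.map φ (X k ^ m) - C (eval₂ φ u (X k ^ m)) = ∑ j, θ j * (X j - C (u j)) ∧
      ∀ j, eval u (θ j) = eval₂ φ u (pderiv j (X k ^ m : MvPolynomial σ K)) := by
  obtain ⟨n, rfl⟩ : ∃ n, m = n + 1 := ⟨m - 1, by omega⟩
  simp only [Nat.add_sub_cancel]
  set g : MvPolynomial σ A := ∑ i ∈ Finset.range (n + 1), X k ^ i * C (u k) ^ (n + 1 - 1 - i) with hg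
  have hgeom := geom_sum₂_mul (X k : MvPolynomial σ A) (C (u k)) (n + 1)
  refine ⟨fun j => if k = j then g else 0, ?_, ?_, ?_⟩
  · intro j
    show DLt n ((if k = j then g else 0) - if k = j then X k ^ n else 0)
    by_cases hj : k = j
    · rw [if_pos hj, if_pos hj, hg, Finset.sum_range_succ]
      simp only [Nat.add_sub_cancel, Nat.sub_self, pow_zero, mul_one, add_sub_cancel_right]
      refine DLt.sum _ fun i hi => ?_
      have hi' := Finset.mem_range.1 hi
      rw [← C_pow]
      exact ((DLt_X_pow (R := A) k i).mul (b := 0) (DLt_C _)).mono (by omega)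
    · rw [if_neg hj, if_neg hj, sub_zero]; exact DLt.zero _
  · simp only [map_pow, map_X, eval₂_pow, eval₂_X, ite_mul, zero_mul, Finset.sum_ite_eq,
      Finset.mem_univ, if_true]
    rw [hgeom]
  · intro j
    show eval u (if k = j then g else 0) = _
    rw [(pderiv j).leibniz_pow, pderiv_X]
    by_cases hj : k = j
    · subst hj
      rw [if_pos rfl, hg, map_sum]
      simp only [map_mul, map_pow, eval_X, eval_C, Pi.single_eq_same, smul_eq_mul, mul_one,
        nsmul_eq_mul, eval₂_mul, eval₂_pow, eval₂_X, Nat.add_sub_cancel, eval₂_natCast]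
      have : ∀ i ∈ Finset.range (n + 1), u k ^ i * u k ^ (n - i) = u k ^ n := by
        intro i hi
        rw [← pow_add]
        congr 1
        have := Finset.mem_range.1 hi
        omega
      rw [Finset.sum_congr rfl this, Finset.sum_const, Finset.card_range, nsmul_eq_mul]
    · rw [if_neg hj, Pi.single_eq_of_ne hj]; simp

/-- the matrix of divided differences of a Pham system at a solution `u` -/
theorem Pham.exists_Theta (S : Pham σ K) (hu : ∀ i, eval₂ φ u (S.f i) = 0) :
    ∃ θ : Matrix σ σ (MvPolynomial σ A),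
      (∀ i j, DLt (S.m i - 1) (θ i j - if i = j then X i ^ (S.m i - 1) else 0)) ∧
      (∀ i, MvPolynomial.map φ (S.f i) = ∑ j, θ i j * (X j - C (u j))) ∧
      ∀ i j, eval u (θ i j) = eval₂ φ u (pderiv j (S.f i)) := by
  choose α a1 a2 a3 using fun i : σ => exists_theta_pow φ u i (S.m i) (S.m_pos i)
  choose β b1 b2 b3 using fun i : σ => exists_theta φ u (S.q i) (S.m i - 1)
    ((S.hq i).mono (by have := S.m_pos i; omega))
  refine ⟨fun i j => α i j - β i j, ?_, ?_, ?_⟩
  · intro i j
    have : α i j - β i j - (if i = j then X i ^ (S.m i - 1) else 0) =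
        (α i j - if i = j then X i ^ (S.m i - 1) else 0) - β i j := by ring
    rw [this]
    exact (a1 i j).sub (b1 i j)
  · intro i
    have h := hu i
    rw [Pham.f] at h ⊢
    rw [eval₂_sub] at h
    have h' : eval₂ φ u (X i ^ S.m i) = eval₂ φ u (S.q i) := sub_eq_zero.1 h
    simp only [sub_mul, Finset.sum_sub_distrib]
    rw [← a2 i, ← b2 i, h', map_sub]
    ring
  · intro i j
    rw [Pham.f, map_sub, map_sub, a3, b3, eval₂_sub]

end

end Crest.Agent.CHR4
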