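import Crest.Agent.CHR.P4C

/-!
# MODULE M4 (row 316): Pham systems, part D: Bezoutian, frame, trace formula
-/

set_option autoImplicit false
set_option linter.unusedSectionVars false

namespace Crest.Agent.CHR4

open MvPolynomial

/-- top degree part of a determinant -/
theorem det_top {ι σ A : Type*} [Fintype ι] [DecidableEq ι] [CommRing A] (a : ι → ℕ)
    (θ : Matrix ι ι (MvPolynomial σ A)) (t : ι → MvPolynomial σ A) (ht : ∀ i, DLt (a i + 1) (t i))
    (hθ : ∀ i j, DLt (a i) (θ i j - if i = j then t i else 0)) :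
    DLt (∑ i, a i) (θ.det - ∏ i, t i) := by
  have hd : ∀ i, DLt (a i) (θ i i - t i) := fun i => by simpa using hθ i i
  have ho : ∀ i j, i ≠ j → DLt (a i) (θ i j) := fun i j hij => by simpa [hij] using hθ i j
  have hall : ∀ i j, DLt (a i + 1) (θ i j) := by
    intro i j
    by_cases hij : i = j
    · subst hij
      have := ((hd i).mono (Nat.le_succ _)).add (ht i)
      simpa using this
    · exact (ho i j hij).mono (Nat.le_succ _)
  rw [Matrix.det_apply', ← Finset.add_sum_erase Finset.univ _ (Finset.mem_univ (1 : Equiv.Perm ι))]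
  have e : ∀ (x y z : MvPolynomial σ A), x + y - z = (x - z) + y := fun x y z => by ring
  rw [e]
  refine DLt.add ?_ (DLt.sum _ fun π hπ => ?_)
  · simp only [Equiv.Perm.sign_one, Units.val_one, Int.cast_one, one_mul, Equiv.Perm.coe_one, id_eq]
    exact DLt.prod_sub_prod _ (fun i _ => hall i i) (fun i _ => ht i) (fun i _ => hd i)
  · have hne : π ≠ 1 := Finset.ne_of_mem_erase hπ
    have hi : ∃ i, π i ≠ i := by
      by_contra hcon
      push Not at hcon
      exact hne (Equiv.ext hcon)
    obtain ⟨i, hi⟩ := hi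
    have h1 : DLt (∑ i, a (π i)) (∏ i, θ (π i) i) :=
      DLt.prod_lt _ (fun i _ => hall (π i) i) ⟨i, Finset.mem_univ _, ho _ _ hi⟩
    rw [Equiv.sum_comp π a] at h1
    have h2 : DLt 1 (((Equiv.Perm.sign π : ℤˣ) : ℤ) : MvPolynomial σ A) := by
      have := DLt_C (σ := σ) ((((Equiv.Perm.sign π : ℤˣ) : ℤ) : A))
      simpa using this
    have := h2.mul' (a := 0) h1
    simpa using this

theorem DLt.pderiv {σ R : Type*} [CommRing R] {d : ℕ} {p : MvPolynomial σ R} (hp : DLt (d + 1) p)
    (j : σ) : DLt d (MvPolynomial.pderiv j p) := by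
  classical
  rw [p.as_sum, map_sum]
  refine DLt.sum _ fun b hb => ?_
  rw [pderiv_monomial]
  by_cases hbj : b j = 0
  · rw [hbj]; simp only [Nat.cast_zero, mul_zero, monomial_zero]; exact DLt.zero _
  · refine (DLt_monomial _ _).mono ?_
    have h1 := hp b hb
    have h2 : b = Finsupp.single j 1 + (b - Finsupp.single j 1) := by
      rw [add_tsub_cancel_of_le]
      rw [Finsupp.single_le_iff]; omega
    have h3 : Finsupp.degree b = 1 + Finsupp.degree (b - Finsupp.single j 1) := by
      conv_lhs => rw [h2]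
      rw [map_add, Finsupp.degree_single]
    omega

namespace Pham

section
variable {σ : Type*} [Fintype σ] [DecidableEq σ] {K : Type*} [CommRing K]

/-- the Jacobian -/
noncomputable def jac (S : Pham σ K) : MvPolynomial σ K :=
  (Matrix.of fun i j => MvPolynomial.pderiv j (S.f i)).det

theorem jac_top (S : Pham σ K) :
    DLt (∑ i, (S.m i - 1)) (S.jac - ∏ i, (C (S.m i : K) * X i ^ (S.m i - 1))) := by
  refine det_top (fun i => S.m i - 1) (Matrix.of fun i j => MvPolynomial.pderiv j (S.f i))
    (fun i => C (S.m i : K) * X i ^ (S.m i - 1))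
    (fun i => ((DLt_C (σ := σ) (S.m i : K)).mul' (a := 0) (DLt_X_pow i (S.m i - 1))).mono
      (by omega)) ?_
  · intro i j
    have hq : DLt (S.m i - 1) (MvPolynomial.pderiv j (S.q i)) :=
      DLt.pderiv ((S.hq i).mono (by have := S.m_pos i; omega)) j
    have : (Matrix.of fun i j => MvPolynomial.pderiv j (S.f i)) i j -
        (if i = j then C (S.m i : K) * X i ^ (S.m i - 1) else 0) =
        - MvPolynomial.pderiv j (S.q i) := by
      rw [Matrix.of_apply, Pham.f, map_sub, pderiv_pow]
      by_cases hij : i = j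
      · subst hij
        rw [pderiv_X_self, if_pos rfl, map_natCast]; ring
      · rw [pderiv_X_of_ne hij, if_neg hij]; ring
    rw [this]
    exact hq.neg

theorem DLt_jac (S : Pham σ K) : DLt (∑ i, (S.m i - 1) + 1) S.jac := by
  have h1 : DLt (∑ i, (S.m i - 1) + 1) (∏ i, (C (S.m i : K) * X i ^ (S.m i - 1) : MvPolynomial σ K)) :=
    DLt.prod _ fun i _ =>
      ((DLt_C (σ := σ) (S.m i : K)).mul' (a := 0) (DLt_X_pow i (S.m i - 1))).mono (by omega)
  have := (S.jac_top.mono (Nat.le_succ _)).add h1
  simpa using this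

/-- the residue of the Jacobian -/
theorem res_jac (S : Pham σ K) : S.res S.jac = ((∏ i, S.m i : ℕ) : K) := by
  have h1 : S.res (S.jac - ∏ i, (C (S.m i : K) * X i ^ (S.m i - 1))) = 0 := S.res_of_DLt S.jac_top
  rw [← S.resL_apply, map_sub, sub_eq_zero] at h1
  rw [← S.resL_apply, h1, Finset.prod_mul_distrib, ← map_prod, S.resL_apply, S.res_C_mul,
    S.res_top, mul_one]
  push_cast
  rfl

variable {A : Type*} [CommRing A] (φ : K →+* A) (u : σ → A)

theorem frame (S : Pham σ K) (hu : ∀ i, eval₂ φ u (S.f i) = 0) :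
    ∃ D : MvPolynomial σ A, eval u D = eval₂ φ u S.jac ∧
      ∀ g : MvPolynomial σ K, eval₂ φ u g =
        ∑ b ∈ D.support, coeff b D * φ (S.res (g * monomial b 1)) := by
  obtain ⟨θ, h1, h2, h3⟩ := S.exists_Theta φ u hu
  refine ⟨θ.det, ?_, ?_⟩
  · rw [jac, RingHom.map_det, ← coe_eval₂Hom, RingHom.map_det]
    congr 1
    ext i j
    simp only [RingHom.mapMatrix_apply, Matrix.map_apply, Matrix.of_apply, coe_eval₂Hom]
    exact h3 i j
  · intro g
    -- the residue over `A`
    set T := S.map φ with hT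
    have hTf : ∀ i, T.f i = MvPolynomial.map φ (S.f i) := fun i => S.map_f φ i
    have hD1 : T.res θ.det = 1 := by
      have h4 : DLt (∑ i, (T.m i - 1)) (θ.det - ∏ i, X i ^ (T.m i - 1)) :=
        det_top (fun i => S.m i - 1) θ (fun i => X i ^ (S.m i - 1)) (fun i => DLt_X_pow i _) h1
      have h5 := T.res_of_DLt h4
      rw [← T.resL_apply, map_sub, sub_eq_zero] at h5
      rw [← T.resL_apply, h5, T.resL_apply, T.res_top]
    -- Cramer
    have hcr : ∀ j, (X j - C (u j)) * θ.det ∈ T.I := by
      intro j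
      have h6 : (θ.adjugate * θ) = θ.det • (1 : Matrix σ σ (MvPolynomial σ A)) :=
        Matrix.adjugate_mul θ
      have h7 : (θ.adjugate.mulVec (θ.mulVec fun k => X k - C (u k))) j =
          θ.det * (X j - C (u j)) := by
        rw [Matrix.mulVec_mulVec, h6, Matrix.smul_mulVec, Matrix.one_mulVec]
        rfl
      rw [mul_comm, ← h7]
      have h8 : (θ.mulVec fun k => X k - C (u k)) = fun i => T.f i := by
        funext i
        rw [hTf i, h2 i]
        rfl
      rw [h8]
      exact Ideal.sum_mem _ fun i _ => Ideal.mul_mem_left _ _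
        (Ideal.subset_span ⟨i, rfl⟩)
    obtain ⟨τ, _, t2, _⟩ := exists_theta φ u g g.totalDegree (DLt_iff_totalDegree.2 le_rfl)
    have hmem : (MvPolynomial.map φ g - C (eval₂ φ u g)) * θ.det ∈ T.I := by
      rw [t2, Finset.sum_mul]
      refine Ideal.sum_mem _ fun j _ => ?_
      rw [mul_assoc]
      exact Ideal.mul_mem_left _ _ (hcr j)
    have h9 := T.res_of_mem hmem
    rw [sub_mul, ← T.resL_apply, map_sub, sub_eq_zero, T.resL_apply, T.resL_apply, T.res_C_mul,
      hD1, mul_one] at h9
    rw [← h9]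
    have h10 : MvPolynomial.map φ g * θ.det =
        ∑ b ∈ θ.det.support, C (coeff b θ.det) * MvPolynomial.map φ (g * monomial b 1) := by
      conv_lhs => rw [θ.det.as_sum]
      rw [Finset.mul_sum]
      refine Finset.sum_congr rfl fun b _ => ?_
      rw [map_mul, map_monomial, map_one]
      have : (monomial b (coeff b θ.det) : MvPolynomial σ A) = C (coeff b θ.det) * monomial b 1 := by
        rw [C_mul_monomial, mul_one]
      rw [this]; ring
    rw [h10, ← T.resL_apply, map_sum]
    refine Finset.sum_congr rfl fun b _ => ?_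
    rw [T.resL_apply, T.res_C_mul, hT, S.res_map]

end

section Field

theorem trace_of_frame {K V ι : Type*} [Field K] [AddCommGroup V] [Module K V] (s : Finset ι)
    (δ : ι → V) (ψ : ι → V →ₗ[K] K) (h : ∀ v, v = ∑ b ∈ s, ψ b v • δ b) :
    Module.Finite K V ∧ ∀ T : V →ₗ[K] V, LinearMap.trace K V T = ∑ b ∈ s, ψ b (T (δ b)) := by
  classical
  have hfin : Module.Finite K V := by
    refine ⟨⟨s.image δ, ?_⟩⟩
    rw [eq_top_iff]
    intro v _
    rw [h v]
    refine Submodule.sum_mem _ fun b hb => Submodule.smul_mem _ _ (Submodule.subset_span ?_)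
    simp only [Finset.coe_image]
    exact ⟨b, hb, rfl⟩
  refine ⟨hfin, fun T => ?_⟩
  have hT : T = ∑ b ∈ s, (ψ b).smulRight (T (δ b)) := by
    ext v
    simp only [LinearMap.sum_apply, LinearMap.smulRight_apply]
    conv_lhs => rw [h v, map_sum]
    exact Finset.sum_congr rfl fun b _ => map_smul _ _ _
  conv_lhs => rw [hT, map_sum]
  exact Finset.sum_congr rfl fun b _ => LinearMap.trace_smulRight _ _

variable {σ : Type*} [Fintype σ] [DecidableEq σ] {K : Type*} [Field K] (S : Pham σ K)

section abstract_algebra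

variable {A : Type*} [CommRing A] [Algebra K A] (π : MvPolynomial σ K →ₐ[K] A)
  (hπ : Function.Surjective π) (hker : ∀ g, π g = 0 ↔ g ∈ S.I)

theorem pi_eq_eval₂ (g : MvPolynomial σ K) :
    π g = eval₂ (algebraMap K A) (fun i => π (X i)) g := by
  induction g using MvPolynomial.induction_on with
  | C a =>
    rw [eval₂_C]
    exact π.commutes a
  | add p q hp hq => rw [map_add, hp, hq, eval₂_add]
  | mul_X p i hp => rw [map_mul, hp, eval₂_mul, eval₂_X]

include hπ hker in
/-- the residue on the quotient -/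
theorem exists_resA : ∃ r : A →ₗ[K] K, ∀ g, r (π g) = S.res g := by
  have key : ∀ g h, π g = π h → S.res g = S.res h := by
    intro g h hgh
    have h0 : π (g - h) = 0 := by rw [map_sub, hgh, sub_self]
    have := S.res_of_mem ((hker _).1 h0)
    rwa [← S.resL_apply, map_sub, sub_eq_zero] at this
  have hinv : ∀ a, π (Function.surjInv hπ a) = a := Function.surjInv_eq hπ
  refine ⟨{ toFun := fun a => S.res (Function.surjInv hπ a)
            map_add' := ?_
            map_smul' := ?_ }, ?_⟩
  · intro a b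
    rw [← S.res_add]
    apply key
    rw [map_add, hinv, hinv, hinv]
  · intro c a
    rw [RingHom.id_apply, smul_eq_mul, ← S.res_C_mul]
    apply key
    rw [map_mul, hinv, hinv, Algebra.smul_def]
    congr 1
    exact (π.commutes c).symm
  · intro g
    apply key
    rw [hinv]

include hπ hker in
/-- TRACE FORMULA, abstract form -/
theorem trace_formula' : Module.Finite K A ∧ ∀ h : MvPolynomial σ K,
    LinearMap.trace K A (LinearMap.mulLeft K (π h)) = S.res (h * S.jac) := by
  obtain ⟨r, hr⟩ := exists_resA S π hπ hker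
  set φ := algebraMap K A with hφ
  set u : σ → A := fun i => π (X i) with hu
  have hev : ∀ g, π g = eval₂ φ u g := fun g => pi_eq_eval₂ π g
  have hsol : ∀ i, eval₂ φ u (S.f i) = 0 := by
    intro i
    rw [← hev, hker]
    exact Ideal.subset_span ⟨i, rfl⟩
  obtain ⟨D, hD, hfr⟩ := S.frame φ u hsol
  let ψ : (σ →₀ ℕ) → A →ₗ[K] K := fun b =>
    r ∘ₗ LinearMap.mulRight K (π (monomial b 1))
  have hψ : ∀ b a, ψ b a = r (a * π (monomial b 1)) := fun b a => rfl
  have hid : ∀ v : A, v = ∑ b ∈ D.support, ψ b v • coeff b D := by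
    intro v
    obtain ⟨g, rfl⟩ := hπ v
    conv_lhs => rw [hev, hfr g]
    refine Finset.sum_congr rfl fun b _ => ?_
    rw [hψ, ← map_mul, hr, Algebra.smul_def, mul_comm]
  obtain ⟨hfin, htr⟩ := trace_of_frame D.support (fun b => coeff b D) ψ hid
  refine ⟨hfin, fun h => ?_⟩
  rw [htr]
  have e2 : ∑ b ∈ D.support, π h * coeff b D * π (monomial b 1) = π (h * S.jac) := by
    rw [map_mul, hev S.jac, ← hD]
    conv_rhs => rw [D.as_sum, map_sum, Finset.mul_sum]
    refine Finset.sum_congr rfl fun b _ => ?_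
    rw [mul_assoc, eval_monomial, hev (monomial b 1), eval₂_monomial, map_one, one_mul]
  rw [← hr, ← e2, map_sum]
  refine Finset.sum_congr rfl fun b _ => ?_
  rw [hψ, LinearMap.mulLeft_apply]

end abstract_algebra

/-- the quotient algebra -/
abbrev Alg : Type _ := MvPolynomial σ K ⧸ S.I

theorem trace_formula : Module.Finite K S.Alg ∧ ∀ h : MvPolynomial σ K,
    LinearMap.trace K S.Alg (LinearMap.mulLeft K (Ideal.Quotient.mk S.I h)) =
      S.res (h * S.jac) :=
  trace_formula' S (Ideal.Quotient.mkₐ K S.I) Ideal.Quotient.mk_surjective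
    (fun _ => Ideal.Quotient.eq_zero_iff_mem)

/-- dimension -/
theorem finrank_alg [CharZero K] : Module.finrank K S.Alg = ∏ i, S.m i := by
  obtain ⟨hfin, htr⟩ := S.trace_formula
  have h := htr 1
  rw [one_mul, map_one, LinearMap.mulLeft_one, LinearMap.trace_id, S.res_jac] at h
  exact_mod_cast h

end Field

end Pham

end Crest.Agent.CHR4
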