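import Crest.Agent.CHR.P4D

/-!
# MODULE M4 (row 316): Pham systems, part E: characters of a finite-dimensional algebra
-/

set_option autoImplicit false
set_option linter.unusedSectionVars false

namespace Crest.Agent.CHR4

open Module.End

theorem PhamE_tr {V : Type*} [AddCommGroup V] [Module ℂ V] [Module.Finite ℂ V]
    (f : Module.End ℂ V) (μ : ℂ) (h : IsNilpotent (f - μ • (1 : Module.End ℂ V))) :
    LinearMap.trace ℂ V f = μ * Module.finrank ℂ V := by
  have h := (LinearMap.isNilpotent_trace_of_isNilpotent h).eq_zero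
  rw [map_sub, map_smul, LinearMap.trace_one, sub_eq_zero] at h
  rw [h, smul_eq_mul]

theorem PhamE_trmul {V : Type*} [AddCommGroup V] [Module ℂ V] [Module.Finite ℂ V]
    (f g : Module.End ℂ V) (hc : Commute f g) (μ : ℂ)
    (h : IsNilpotent (g - μ • (1 : Module.End ℂ V))) :
    LinearMap.trace ℂ V (f * g) = μ * LinearMap.trace ℂ V f := by
  have e : f * g = f * (g - μ • (1 : Module.End ℂ V)) + μ • f := by
    rw [mul_sub, mul_smul_comm, mul_one, sub_add_cancel]
  have hc' : Commute f (g - μ • (1 : Module.End ℂ V)) :=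
    hc.sub_right ((Commute.one_right _).smul_right _)
  have hn := hc'.isNilpotent_mul_left h
  have h0 := (LinearMap.isNilpotent_trace_of_isNilpotent hn).eq_zero
  rw [e, map_add, h0, zero_add, map_smul, smul_eq_mul]

section

variable {A : Type*} [CommRing A] [Algebra ℂ A]

/-- joint generalized eigenspaces -/
noncomputable def WE (A : Type*) [CommRing A] [Algebra ℂ A] (χ : A → ℂ) : Submodule ℂ A :=
  ⨅ a : A, maxGenEigenspace (LinearMap.mulLeft ℂ a) (χ a)

theorem mulLeft_comm' (a b : A) : Commute (LinearMap.mulLeft ℂ a) (LinearMap.mulLeft ℂ b) := by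
  ext x
  simp only [Module.End.mul_apply, LinearMap.mulLeft_apply]
  ring

theorem WE_mapsTo (χ : A → ℂ) (a : A) :
    Set.MapsTo (LinearMap.mulLeft ℂ a) (WE A χ) (WE A χ) := by
  intro x hx
  simp only [WE, Submodule.coe_iInf, Set.mem_iInter, SetLike.mem_coe] at hx ⊢
  intro b
  exact Module.End.mapsTo_maxGenEigenspace_of_comm (mulLeft_comm' b a) (χ b) (hx b)

theorem WE_indep (A : Type*) [CommRing A] [Algebra ℂ A] : iSupIndep (WE A) :=
  independent_iInf_maxGenEigenspace_of_forall_mapsTo (fun a : A => LinearMap.mulLeft ℂ a)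
    (fun a b φ => Module.End.mapsTo_maxGenEigenspace_of_comm (mulLeft_comm' b a) φ)

variable [Module.Finite ℂ A]

theorem WE_top (A : Type*) [CommRing A] [Algebra ℂ A] [Module.Finite ℂ A] :
    ⨆ χ : A → ℂ, WE A χ = ⊤ :=
  iSup_iInf_maxGenEigenspace_eq_top_of_iSup_maxGenEigenspace_eq_top_of_commute
    (fun a : A => LinearMap.mulLeft ℂ a) (fun a b _ => mulLeft_comm' a b)
    (fun a => iSup_maxGenEigenspace_eq_top _)

/-- multiplication restricted to the joint generalized eigenspace -/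
noncomputable def RE (χ : A → ℂ) (a : A) : Module.End ℂ (WE A χ) :=
  (LinearMap.mulLeft ℂ a).restrict (WE_mapsTo χ a)

theorem RE_apply (χ : A → ℂ) (a : A) (x : WE A χ) : ((RE χ a x : WE A χ) : A) = a * x := rfl

theorem RE_add (χ : A → ℂ) (a b : A) : RE χ (a + b) = RE χ a + RE χ b := by
  ext x
  simp only [LinearMap.add_apply, Submodule.coe_add, RE_apply, add_mul]

theorem RE_mul (χ : A → ℂ) (a b : A) : RE χ (a * b) = RE χ a * RE χ b := by
  ext x
  simp only [Module.End.mul_apply, RE_apply, mul_assoc]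

theorem RE_alg (χ : A → ℂ) (c : ℂ) : RE χ (algebraMap ℂ A c) = c • 1 := by
  ext x
  show algebraMap ℂ A c * (x : A) = c • (x : A)
  rw [Algebra.smul_def]

theorem RE_nil (χ : A → ℂ) (a : A) : IsNilpotent (RE χ a - χ a • (1 : Module.End ℂ (WE A χ))) := by
  refine ⟨Module.finrank ℂ A, ?_⟩
  ext x
  have hx : (x : A) ∈ maxGenEigenspace (LinearMap.mulLeft ℂ a) (χ a) :=
    (Submodule.mem_iInf _).1 x.2 a
  rw [maxGenEigenspace_eq_genEigenspace_finrank, mem_genEigenspace_nat, LinearMap.mem_ker] at hx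
  have key : ∀ n : ℕ, (((RE χ a - χ a • (1 : Module.End ℂ (WE A χ))) ^ n) x : A) =
      ((LinearMap.mulLeft ℂ a - χ a • (1 : Module.End ℂ A)) ^ n) (x : A) := by
    intro n
    induction n with
    | zero => rfl
    | succ n ih =>
      rw [pow_succ', pow_succ', Module.End.mul_apply, Module.End.mul_apply, ← ih]
      rfl
  rw [key, hx]
  rfl

theorem RE_trace (χ : A → ℂ) (a : A) :
    LinearMap.trace ℂ (WE A χ) (RE χ a) = χ a * Module.finrank ℂ (WE A χ) := by
  exact PhamE_tr (RE χ a) (χ a) (RE_nil χ a)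

theorem trace_mulLeft (a : A) (hN : {χ : A → ℂ | WE A χ ≠ ⊥}.Finite) :
    LinearMap.trace ℂ A (LinearMap.mulLeft ℂ a) =
      ∑ χ ∈ hN.toFinset, χ a * Module.finrank ℂ (WE A χ) := by
  classical
  have h := LinearMap.trace_eq_sum_trace_restrict'
    (DirectSum.isInternal_submodule_of_iSupIndep_of_iSup_eq_top (WE_indep A) (WE_top A)) hN
    (fun χ => WE_mapsTo χ a)
  rw [h]
  exact Finset.sum_congr rfl fun χ _ => RE_trace χ a

theorem WE_hom (χ : A → ℂ) (hχ : WE A χ ≠ ⊥) : ∃ ψ : A →ₐ[ℂ] ℂ, ∀ a, ψ a = χ a := by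
  have hd : (Module.finrank ℂ (WE A χ) : ℂ) ≠ 0 := by
    rw [Nat.cast_ne_zero]
    have : Nontrivial (WE A χ) := Submodule.nontrivial_iff_ne_bot.2 hχ
    exact Module.finrank_pos.ne'
  have hadd : ∀ a b, χ (a + b) = χ a + χ b := by
    intro a b
    have h := RE_trace χ (a + b)
    rw [RE_add, map_add, RE_trace, RE_trace, ← add_mul] at h
    exact (mul_right_cancel₀ hd h).symm
  have hmul : ∀ a b, χ (a * b) = χ a * χ b := by
    intro a b
    have h := RE_trace χ (a * b)
    have hc : Commute (RE χ a) (RE χ b) := by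
      show RE χ a * RE χ b = RE χ b * RE χ a
      rw [← RE_mul, ← RE_mul, mul_comm]
    have h2 := PhamE_trmul (RE χ a) (RE χ b) hc (χ b) (RE_nil χ b)
    rw [RE_mul, h2, RE_trace, ← mul_assoc] at h
    rw [← mul_right_cancel₀ hd h, mul_comm]
  have halg : ∀ c, χ (algebraMap ℂ A c) = c := by
    intro c
    have h := RE_trace χ (algebraMap ℂ A c)
    rw [RE_alg, map_smul, LinearMap.trace_one, smul_eq_mul] at h
    exact (mul_right_cancel₀ hd h).symm
  refine ⟨{ toFun := χ
            map_one' := by rw [← map_one (algebraMap ℂ A), halg]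
            map_mul' := hmul
            map_zero' := by rw [← map_zero (algebraMap ℂ A), halg]
            map_add' := hadd
            commutes' := halg }, fun a => rfl⟩

/-- characters with multiplicities -/
theorem exists_characters (A : Type*) [CommRing A] [Algebra ℂ A] [Module.Finite ℂ A] :
    ∃ Z : Multiset (A →ₐ[ℂ] ℂ),
      (∀ a, LinearMap.trace ℂ A (LinearMap.mulLeft ℂ a) = (Z.map (fun χ => χ a)).sum) ∧
      ∀ χ : A →ₐ[ℂ] ℂ, χ ∈ Z := by
  classical
  have hN : {χ : A → ℂ | WE A χ ≠ ⊥}.Finite :=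
    WellFoundedGT.finite_ne_bot_of_iSupIndep (WE_indep A)
  have hhom : ∀ χ : A → ℂ, ∃ ψ : Multiset (A →ₐ[ℂ] ℂ), χ ∈ hN.toFinset →
      ∃ ψ' : A →ₐ[ℂ] ℂ, (∀ a, ψ' a = χ a) ∧
        ψ = Multiset.replicate (Module.finrank ℂ (WE A χ)) ψ' := by
    intro χ
    by_cases h : χ ∈ hN.toFinset
    · obtain ⟨ψ, hψ⟩ := WE_hom χ (by simpa using h)
      exact ⟨_, fun _ => ⟨ψ, hψ, rfl⟩⟩
    · exact ⟨0, fun h' => absurd h' h⟩
  choose Ψ hΨ using hhom
  refine ⟨∑ χ ∈ hN.toFinset, Ψ χ, ?_, ?_⟩
  · intro a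
    rw [trace_mulLeft a hN]
    have e : ∀ s : Finset (A → ℂ), s ⊆ hN.toFinset →
        ((∑ χ ∈ s, Ψ χ).map (fun ψ => ψ a)).sum = ∑ χ ∈ s, χ a * Module.finrank ℂ (WE A χ) := by
      intro s
      induction s using Finset.induction_on with
      | empty => intro _; simp
      | insert χ s hs ih =>
        intro hsub
        rw [Finset.sum_insert hs, Finset.sum_insert hs, Multiset.map_add, Multiset.sum_add,
          ih (fun x hx => hsub (Finset.mem_insert_of_mem hx))]
        obtain ⟨ψ', h1, h2⟩ := hΨ χ (hsub (Finset.mem_insert_self _ _))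
        rw [h2, Multiset.map_replicate, Multiset.sum_replicate, h1, nsmul_eq_mul, mul_comm]
    exact (e _ (Finset.Subset.refl _)).symm
  · intro χ₀
    -- the joint eigenspace of `χ₀` is non-zero
    by_contra hcon
    have hbot : ∀ χ ∈ hN.toFinset, ∃ b : A, χ b = 0 ∧ χ₀ b = 1 := by
      intro χ hχ
      obtain ⟨ψ', h1, h2⟩ := hΨ χ hχ
      have hpos : Module.finrank ℂ (WE A χ) ≠ 0 := by
        have : Nontrivial (WE A χ) := Submodule.nontrivial_iff_ne_bot.2 (by simpa using hχ)
        exact Module.finrank_pos.ne'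
      have hne : ψ' ≠ χ₀ := by
        intro heq
        apply hcon
        have : χ₀ ∈ Ψ χ := by
          rw [h2, Multiset.mem_replicate]
          exact ⟨hpos, heq.symm⟩
        exact Multiset.mem_of_le (Finset.single_le_sum (f := Ψ) (fun _ _ => Multiset.zero_le _) hχ) this
      obtain ⟨c, hc⟩ : ∃ c, ψ' c ≠ χ₀ c := by
        by_contra hall
        push Not at hall
        exact hne (AlgHom.ext hall)
      have hc' : χ₀ c - ψ' c ≠ 0 := sub_ne_zero.2 (Ne.symm hc)
      have hψb : ψ' ((χ₀ c - ψ' c)⁻¹ • (c - algebraMap ℂ A (ψ' c))) = 0 := by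
        rw [map_smul, map_sub, AlgHom.commutes]
        simp
      refine ⟨(χ₀ c - ψ' c)⁻¹ • (c - algebraMap ℂ A (ψ' c)), ?_, ?_⟩
      · rw [← h1]; exact hψb
      · rw [map_smul, map_sub, AlgHom.commutes, smul_eq_mul]
        exact inv_mul_cancel₀ hc'
    choose! b hb0 hb1 using hbot
    set a := ∏ χ ∈ hN.toFinset, b χ with ha
    have ha1 : χ₀ a = 1 := by
      rw [ha, map_prod]
      exact Finset.prod_eq_one fun χ hχ => hb1 χ hχ
    have ha0 : ∀ χ ∈ hN.toFinset, χ a = 0 := by
      intro χ hχ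
      obtain ⟨ψ', h1, -⟩ := hΨ χ hχ
      rw [← h1, ha, map_prod]
      exact Finset.prod_eq_zero hχ (by rw [h1]; exact hb0 χ hχ)
    have htop : maxGenEigenspace (LinearMap.mulLeft ℂ a) 0 = ⊤ := by
      rw [eq_top_iff, ← WE_top A]
      refine iSup_le fun χ => ?_
      by_cases hχ : WE A χ = ⊥
      · rw [hχ]; exact bot_le
      · have := ha0 χ (by simpa using hχ)
        rw [← this]
        exact iInf_le _ a
    have h1 : (1 : A) ∈ maxGenEigenspace (LinearMap.mulLeft ℂ a) 0 := by rw [htop]; trivial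
    rw [maxGenEigenspace_eq_genEigenspace_finrank, mem_genEigenspace_nat, LinearMap.mem_ker,
      zero_smul, sub_zero] at h1
    have h2 : ∀ n : ℕ, ((LinearMap.mulLeft ℂ a) ^ n) (1 : A) = a ^ n := by
      intro n
      induction n with
      | zero => simp
      | succ n ih => rw [pow_succ', Module.End.mul_apply, ih, LinearMap.mulLeft_apply, pow_succ']
    rw [h2] at h1
    have h3 := congrArg χ₀ h1
    rw [map_pow, ha1, one_pow, map_zero] at h3
    exact one_ne_zero h3

end

end Crest.Agent.CHR4
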