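import Crest.Agent.CHR.P4E

/-!
# MODULE M4 (row 316): Pham systems, part F: the multiset of solutions
-/

set_option autoImplicit false
set_option linter.unusedSectionVars false

namespace Crest.Agent.CHR4

open MvPolynomial

namespace Pham

variable {σ : Type*} [Fintype σ] [DecidableEq σ]

/-- (C4) THE MULTISET OF SOLUTIONS -/
theorem exists_points (S : Pham σ ℂ) : ∃ Z : Multiset (σ → ℂ),
    (Multiset.card Z = ∏ i, S.m i) ∧
    (∀ ξ, ξ ∈ Z ↔ ∀ i, eval ξ (S.f i) = 0) ∧
    ∀ g : MvPolynomial σ ℂ, (Z.map (fun ξ => eval ξ g)).sum = S.res (g * S.jac) := by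
  obtain ⟨hfin, htr⟩ := S.trace_formula
  obtain ⟨Y, hY1, hY2⟩ := exists_characters S.Alg
  have hev : ∀ (χ : S.Alg →ₐ[ℂ] ℂ) (g : MvPolynomial σ ℂ),
      χ (Ideal.Quotient.mk S.I g) = eval (fun i => χ (Ideal.Quotient.mk S.I (X i))) g := by
    intro χ g
    have h := MvPolynomial.aeval_unique (χ.comp (Ideal.Quotient.mkₐ ℂ S.I))
    have h2 := congrArg (fun ψ : MvPolynomial σ ℂ →ₐ[ℂ] ℂ => ψ g) h
    rw [MvPolynomial.aeval_eq_eval] at h2
    exact h2
  have hsum : ∀ g : MvPolynomial σ ℂ, ((Y.map (fun χ i => χ (Ideal.Quotient.mk S.I (X i)))).map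
      (fun ξ => eval ξ g)).sum = S.res (g * S.jac) := by
    intro g
    rw [Multiset.map_map, ← htr g, hY1]
    congr 1
    refine Multiset.map_congr rfl fun χ _ => ?_
    exact (hev χ g).symm
  refine ⟨Y.map (fun χ i => χ (Ideal.Quotient.mk S.I (X i))), ?_, ?_, hsum⟩
  · have h := hsum 1
    rw [one_mul, S.res_jac] at h
    simp only [map_one, Multiset.map_const', Multiset.sum_replicate, nsmul_eq_mul, mul_one] at h
    exact_mod_cast h
  · intro ξ
    constructor
    · intro hξ i
      obtain ⟨χ, _, rfl⟩ := Multiset.mem_map.1 hξ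
      have hmem : S.f i ∈ S.I := Ideal.subset_span (Set.mem_range_self i)
      rw [← hev, Ideal.Quotient.eq_zero_iff_mem.2 hmem, map_zero]
    · intro hξ
      have hle : ∀ a ∈ S.I, (aeval ξ : MvPolynomial σ ℂ →ₐ[ℂ] ℂ) a = 0 := by
        intro a ha
        have : S.I ≤ RingHom.ker (aeval ξ : MvPolynomial σ ℂ →ₐ[ℂ] ℂ) := by
          rw [Pham.I, Ideal.span_le]
          rintro _ ⟨i, rfl⟩
          rw [SetLike.mem_coe, RingHom.mem_ker, MvPolynomial.aeval_eq_eval]
          exact hξ i
        exact this ha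
      refine Multiset.mem_map.2 ⟨Ideal.Quotient.liftₐ S.I (aeval ξ) hle, hY2 _, ?_⟩
      funext i
      show aeval ξ (X i : MvPolynomial σ ℂ) = ξ i
      rw [aeval_X]

/-- the multiset of solutions, with multiplicities -/
noncomputable def Z (S : Pham σ ℂ) : Multiset (σ → ℂ) := Classical.choose S.exists_points

theorem card_Z (S : Pham σ ℂ) : Multiset.card S.Z = ∏ i, S.m i :=
  (Classical.choose_spec S.exists_points).1

theorem mem_Z (S : Pham σ ℂ) (ξ : σ → ℂ) : ξ ∈ S.Z ↔ ∀ i, eval ξ (S.f i) = 0 :=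
  (Classical.choose_spec S.exists_points).2.1 ξ

theorem sum_Z (S : Pham σ ℂ) (g : MvPolynomial σ ℂ) :
    (S.Z.map (fun ξ => eval ξ g)).sum = S.res (g * S.jac) :=
  (Classical.choose_spec S.exists_points).2.2 g

end Pham

/-- polynomials separate points -/
theorem exists_interp {σ : Type*} (T : Finset (σ → ℂ)) (ξ : σ → ℂ) :
    ∃ g : MvPolynomial σ ℂ, eval ξ g = 1 ∧ ∀ η ∈ T, η ≠ ξ → eval η g = 0 := by
  classical
  have h : ∀ η : σ → ℂ, ∃ g : MvPolynomial σ ℂ, eval ξ g = 1 ∧ (η ≠ ξ → eval η g = 0) := by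
    intro η
    by_cases hη : η = ξ
    · exact ⟨1, by simp, fun h => absurd hη h⟩
    · obtain ⟨i, hi⟩ : ∃ i, η i ≠ ξ i := by
        by_contra hcon
        push Not at hcon
        exact hη (funext hcon)
      have hd : ξ i - η i ≠ 0 := sub_ne_zero.2 (Ne.symm hi)
      refine ⟨C (ξ i - η i)⁻¹ * (X i - C (η i)), ?_, fun _ => ?_⟩
      · simp only [map_mul, map_sub, eval_C, eval_X]
        exact inv_mul_cancel₀ hd
      · simp
  choose G h1 h2 using h
  refine ⟨∏ η ∈ T, G η, ?_, fun η hη hne => ?_⟩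
  · rw [map_prod]; exact Finset.prod_eq_one fun η _ => h1 η
  · rw [map_prod]; exact Finset.prod_eq_zero hη (h2 η hne)

/-- a finite multiset of points is determined by the sums of polynomials -/
theorem multiset_ext_of_sums {σ : Type*} (Z₁ Z₂ : Multiset (σ → ℂ))
    (h : ∀ g : MvPolynomial σ ℂ, (Z₁.map (fun ξ => eval ξ g)).sum =
      (Z₂.map (fun ξ => eval ξ g)).sum) : Z₁ = Z₂ := by
  classical
  ext ξ
  obtain ⟨g, g1, g2⟩ := exists_interp (Z₁ + Z₂).toFinset ξ
  have key : ∀ Y : Multiset (σ → ℂ), (∀ η ∈ Y, η ≠ ξ → eval η g = 0) →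
      (Y.map (fun η => eval η g)).sum = (Y.count ξ : ℂ) := by
    intro Y
    induction Y using Multiset.induction_on with
    | empty => intro _; simp
    | cons η Y ih =>
      intro hY
      rw [Multiset.map_cons, Multiset.sum_cons, ih fun x hx => hY x (Multiset.mem_cons_of_mem hx),
        Multiset.count_cons]
      by_cases hη : ξ = η
      · subst hη
        rw [if_pos rfl, g1]; push_cast; ring
      · rw [if_neg hη, hY η (Multiset.mem_cons_self _ _) (Ne.symm hη)]; push_cast; ring
  have e1 := key Z₁ fun η hη => g2 η (by simp [hη])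
  have e2 := key Z₂ fun η hη => g2 η (by simp [hη])
  have := h g
  rw [e1, e2] at this
  exact_mod_cast this

namespace Pham

variable {σ : Type*} [Fintype σ] [DecidableEq σ]

/-- the multiset of solutions of a system with real coefficients is invariant under conjugation -/
theorem Z_conj (S : Pham σ ℂ) (hS : ∀ i, MvPolynomial.map (starRingEnd ℂ) (S.q i) = S.q i) :
    S.Z.map (fun ξ i => starRingEnd ℂ (ξ i)) = S.Z := by
  have hm : S.map (starRingEnd ℂ) = S := by
    cases S with
    | mk m q mp hq =>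
      simp only [Pham.map, Pham.mk.injEq, true_and]
      funext i
      exact hS i
  have hjac : MvPolynomial.map (starRingEnd ℂ) S.jac = S.jac := by
    rw [jac, RingHom.map_det]
    congr 1
    ext i j : 2
    rw [RingHom.mapMatrix_apply, Matrix.map_apply, Matrix.of_apply]
    have h1 : MvPolynomial.map (starRingEnd ℂ) (S.f i) = S.f i := by
      rw [f, map_sub, map_pow, map_X, hS]
    conv_rhs => rw [← h1]
    rw [pderiv_map]
  refine multiset_ext_of_sums _ _ fun g => ?_
  rw [Multiset.map_map, S.sum_Z]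
  have h1 : ∀ ξ : σ → ℂ, eval (fun i => starRingEnd ℂ (ξ i)) g =
      starRingEnd ℂ (eval ξ (MvPolynomial.map (starRingEnd ℂ) g)) := by
    intro ξ
    induction g using MvPolynomial.induction_on with
    | C a => simp
    | add p q hp hq => simp only [map_add, hp, hq]
    | mul_X p i hp => simp only [map_mul, map_X, eval_X, hp]
  have h2 : ((S.Z.map ((fun ξ => eval ξ g) ∘ fun ξ i => starRingEnd ℂ (ξ i))).sum) =
      starRingEnd ℂ ((S.Z.map (fun ξ => eval ξ (MvPolynomial.map (starRingEnd ℂ) g))).sum) := by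
    rw [map_multiset_sum, Multiset.map_map]
    congr 1
    exact Multiset.map_congr rfl fun ξ _ => h1 ξ
  rw [h2, S.sum_Z, ← S.res_map, hm, map_mul, hjac]
  congr 2
  rw [MvPolynomial.map_map]
  have : (starRingEnd ℂ).comp (starRingEnd ℂ) = RingHom.id ℂ := by
    ext z; simp
  rw [this, MvPolynomial.map_id]

end Pham

end Crest.Agent.CHR4
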