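import Crest.Agent.CHR.PhamBase
import Crest.Agent.CHR.P4F

/-!
# MODULE M4 (row 316): bridge from `Crest.Agent.CHR4` to the statement of helper22
-/

set_option autoImplicit false

namespace Crest.Agent.CHR4

/-- enumeration of a multiset -/
theorem exists_fin_enum {α : Type*} (Z : Multiset α) (n : ℕ) (h : Multiset.card Z = n) :
    ∃ z : Fin n → α, Multiset.map z Finset.univ.val = Z := by
  subst h
  obtain ⟨l, rfl⟩ : ∃ l : List α, (l : Multiset α) = Z := ⟨Z.toList, Z.coe_toList⟩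
  refine ⟨fun i => l.get (Fin.cast (by simp) i), ?_⟩
  rw [Fin.univ_val_map]
  congr 1
  apply List.ext_get
  · simp
  · intro n h1 h2
    simp

end Crest.Agent.CHR4

namespace Crest.Agent.CHR.Pham

open MvPolynomial Finset

variable {σ : Type} [Fintype σ] [DecidableEq σ]

/-- the system as a structure of `Crest.Agent.CHR4` -/
noncomputable def toP {m : σ → ℕ} {q : σ → MvPolynomial σ ℂ} (h : Sys m q) :
    Crest.Agent.CHR4.Pham σ ℂ where
  m := m
  q := q
  m_pos := h.pos
  hq i := by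
    have h1 := h.deg i
    have h2 : Crest.Agent.CHR4.DLt ((q i).totalDegree + 1) (q i) :=
      Crest.Agent.CHR4.DLt_iff_totalDegree.2 le_rfl
    exact h2.mono (by omega)

theorem exists_pts {m : σ → ℕ} {q : σ → MvPolynomial σ ℂ} (h : Sys m q) :
    ∃ Z : Fin (∏ j, m j) → σ → ℂ,
      (∀ i j, Z i j ^ m j = eval (Z i) (q j)) ∧
      (∀ x : σ → ℂ, (∀ j, x j ^ m j = eval x (q j)) → ∃ i, Z i = x) ∧
      ∀ (g : MvPolynomial σ ℂ) (K : ℕ), g.totalDegree ≤ K →
        ∑ i, eval (Z i) g = res m q K (g * jac m q) := by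
  set S := toP h with hS
  obtain ⟨z, hz⟩ := Crest.Agent.CHR4.exists_fin_enum S.Z (∏ j, m j) S.card_Z
  have hmem : ∀ x, x ∈ S.Z ↔ ∃ i, z i = x := by
    intro x
    rw [← hz, Multiset.mem_map]
    simp
  have hsol : ∀ x : σ → ℂ, x ∈ S.Z ↔ ∀ j, x j ^ m j = eval x (q j) := by
    intro x
    rw [S.mem_Z]
    refine forall_congr' fun j => ?_
    show eval x (X j ^ m j - q j) = 0 ↔ _
    rw [map_sub, map_pow, eval_X, sub_eq_zero]
  refine ⟨z, fun i j => ?_, fun x hx => ?_, fun g K hg => ?_⟩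
  · exact (hsol (z i)).1 ((hmem _).2 ⟨i, rfl⟩) j
  · exact (hmem x).1 ((hsol x).2 hx)
  · have h1 := S.sum_Z g
    rw [← hz, Multiset.map_map] at h1
    have h2 : ∑ i, eval (z i) g = S.res (g * S.jac) := h1
    rw [h2]
    have h3 : Crest.Agent.CHR4.DLt (K + 1 + ∑ i, (S.m i - 1)) (g * S.jac) :=
      (Crest.Agent.CHR4.DLt_iff_totalDegree.2 hg).mul S.DLt_jac
    rw [← S.RK_eq_res_strong h3]
    have e1 : S.ex K = topE m K := by
      ext i
      show m i * K + (m i - 1) = m i * K + m i - 1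
      have := h.pos i
      omega
    have e2 : S.jac = jac m q := rfl
    rw [Crest.Agent.CHR4.Pham.RK, e1, e2]
    rfl

end Crest.Agent.CHR.Pham
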