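import Crest.Agent.CHR.PTPair

/-!
# Row 316, module M1, chunk LEN: take, drop, unary strings of polynomial length

Explicit programs (see `Prog.lean` for `Prog`, `Ev`, `st`, `mv`, `clr`; `Comb.lean` for `PT.bin`).
Example of a proof for a loop: `Ev.clr`, `Ev.mv` in `Prog.lean`.
-/

set_option autoImplicit false

namespace Crest.Agent.CHR

private theorem ev_dropLoop (B : ℕ) (y x : W) :
    Ev (.loop (B + 1) (.pop (B + 1) ;; .pop 0)) (st B x y [] []) (3 * y.length + 1)
      (st B (x.drop y.length) [] [] []) := by
  induction y generalizing x with
  | nil => exact (Ev.loop_done (by simp)).time (by simp)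
  | cons b y ih =>
    have h1 := Ev.pop (B + 1) (st B x (b :: y) [] [])
    have h2 := Ev.pop 0 (st B x y [] [])
    simp only [st_r0, st_r1, st_u0, st_u1, List.tail_cons] at h1 h2
    have h3 := Ev.loop_step (r := B + 1) (by simp) (Ev.seq h1 h2) (ih x.tail)
    have e : x.tail.drop y.length = x.drop (b :: y).length := by
      cases x <;> simp
    rw [e] at h3
    exact h3.time (by simp; omega)

/-- PROOF. `PT.bin` with `loop (B+1) (pop (B+1) ;; pop 0)`. -/
theorem PT.drop {f g : W → W} (hf : PolyTime f) (hg : PolyTime g) :
    PolyTime (fun w => (f w).drop (g w).length) := by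
  refine PT.bin (h := fun x y => x.drop y.length)
    (fun B => .loop (B + 1) (.pop (B + 1) ;; .pop 0)) 3 1 (fun B x y => ?_) hf hg
  exact ⟨_, by rw [pow_one]; omega, ev_dropLoop B y x⟩

private theorem ev_takeLoop (B : ℕ) (y x c : W) : ∃ t ≤ 5 * y.length + 1,
    Ev (.loop (B + 1) (.pop (B + 1) ;; .case 0 .skip (.pop 0 ;; .push (B + 2) false)
      (.pop 0 ;; .push (B + 2) true))) (st B x y c []) t
      (st B (x.drop y.length) [] ((x.take y.length).reverse ++ c) []) := by
  induction y generalizing x c with
  | nil => exact ⟨1, by simp, (Ev.loop_done (by simp)).time (by simp)⟩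
  | cons b y ih =>
    have h1 := Ev.pop (B + 1) (st B x (b :: y) c [])
    simp only [st_r1, st_u1, List.tail_cons] at h1
    rcases x with _ | ⟨a, x⟩
    · obtain ⟨t, ht, h⟩ := ih [] c
      have h2 : Ev (.case 0 .skip (.pop 0 ;; .push (B + 2) false)
          (.pop 0 ;; .push (B + 2) true)) (st B [] y c []) (1 + 1) (st B [] y c []) :=
        Ev.case_nil (by simp) (Ev.skip _)
      have h3 := Ev.loop_step (r := B + 1) (by simp) (Ev.seq h1 h2) h
      refine ⟨_, ?_, by simpa using h3⟩
      simp only [List.length_cons]; omega
    · obtain ⟨t, ht, h⟩ := ih x (a :: c)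
      have p0 := Ev.pop 0 (st B (a :: x) y c [])
      have p2 := Ev.push (B + 2) a (st B x y c [])
      simp only [st_r0, st_r2, st_u0, st_u2, List.tail_cons] at p0 p2
      have h2 : Ev (.case 0 .skip (.pop 0 ;; .push (B + 2) false)
          (.pop 0 ;; .push (B + 2) true)) (st B (a :: x) y c []) (1 + 1 + 1)
          (st B x y (a :: c) []) := by
        cases a with
        | false => exact Ev.case_false (l := x) (by simp) (Ev.seq p0 p2)
        | true => exact Ev.case_true (l := x) (by simp) (Ev.seq p0 p2)
      have h3 := Ev.loop_step (r := B + 1) (by simp) (Ev.seq h1 h2) h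
      refine ⟨_, ?_, by simpa using h3⟩
      simp only [List.length_cons]; omega

/-- PROOF. `PT.bin` with `loop (B+1) (pop (B+1) ;; case 0 skip (pop 0 ;; push (B+2) false)
(pop 0 ;; push (B+2) true)) ;; clr 0 ;; mv (B+2) 0`. -/
theorem PT.take {f g : W → W} (hf : PolyTime f) (hg : PolyTime g) :
    PolyTime (fun w => (f w).take (g w).length) := by
  refine PT.bin (h := fun x y => x.take y.length)
    (fun B => .loop (B + 1) (.pop (B + 1) ;; .case 0 .skip (.pop 0 ;; .push (B + 2) false)
      (.pop 0 ;; .push (B + 2) true)) ;; clr 0 ;; mv (B + 2) 0) 20 1 (fun B x y => ?_) hf hg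
  obtain ⟨t, ht, h⟩ := ev_takeLoop B y x []
  have h1 := ev_clr0 B (x.drop y.length) [] ((x.take y.length).reverse ++ []) []
  have h2 := ev_mv20 B [] [] ((x.take y.length).reverse ++ []) []
  simp only [List.append_nil, List.reverse_reverse, List.length_reverse] at h h1 h2
  refine ⟨_, ?_, Ev.seq h (Ev.seq h1 h2)⟩
  have e1 : (x.drop y.length).length ≤ x.length := by simp
  have e2 : (x.take y.length).length ≤ x.length := by simp
  rw [pow_one]
  omega

private theorem ev_onesLoop (x c : W) :
    Ev (.loop 0 (.pop 0 ;; .push (0 + 1) true)) (st 0 x c [] []) (3 * x.length + 1)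
      (st 0 [] (List.replicate x.length true ++ c) [] []) := by
  induction x generalizing c with
  | nil => exact (Ev.loop_done (by simp)).time (by simp)
  | cons b x ih =>
    have h1 := Ev.pop 0 (st 0 (b :: x) c [] [])
    have h2 := Ev.push (0 + 1) true (st 0 x c [] [])
    simp only [st_r0, st_r1, st_u0, st_u1, List.tail_cons] at h1 h2
    have h3 := Ev.loop_step (r := 0) (by simp) (Ev.seq h1 h2) (ih (true :: c))
    have e : List.replicate x.length true ++ true :: c =
        List.replicate (b :: x).length true ++ c := by
      rw [List.length_cons, List.replicate_succ', List.append_assoc, List.singleton_append]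
    rw [e] at h3
    exact h3.time (by simp; omega)

/-- PROOF. `PT.un` with `mv 0 1`-like loop writing only `true`:
`loop 0 (pop 0 ;; push 1 true) ;; mv 1 0`. -/
theorem PT.ones {f : W → W} (hf : PolyTime f) :
    PolyTime (fun w => List.replicate (f w).length true) := by
  have h : PolyTime (fun x : W => List.replicate x.length true) := by
    refine PT.un (.loop 0 (.pop 0 ;; .push (0 + 1) true) ;; mv (0 + 1) 0) 9 1 fun x => ?_
    have h1 := ev_onesLoop x []
    have h2 := ev_mv10 0 [] (List.replicate x.length true ++ []) [] []
    simp only [List.append_nil, List.reverse_replicate, List.length_replicate] at h1 h2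
    exact ⟨_, by rw [pow_one]; omega, Ev.seq h1 h2⟩
  exact PT.comp h hf

private theorem ev_mulInner (B : ℕ) (y x c d : W) :
    Ev (.loop (B + 1) (.pop (B + 1) ;; .push (B + 2) true ;; .push (B + 3) true))
      (st B x y c d) (4 * y.length + 1)
      (st B x [] (List.replicate y.length true ++ c) (List.replicate y.length true ++ d)) := by
  induction y generalizing c d with
  | nil => exact (Ev.loop_done (by simp)).time (by simp)
  | cons b y ih =>
    have h1 := Ev.pop (B + 1) (st B x (b :: y) c d)
    have h2 := Ev.push (B + 2) true (st B x y c d)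
    have h3 := Ev.push (B + 3) true (st B x y (true :: c) d)
    simp only [st_r1, st_r2, st_r3, st_u1, st_u2, st_u3, List.tail_cons] at h1 h2 h3
    have h4 := Ev.loop_step (r := B + 1) (by simp) (Ev.seq h1 (Ev.seq h2 h3))
      (ih (true :: c) (true :: d))
    have e : ∀ c : W, List.replicate y.length true ++ true :: c =
        List.replicate (b :: y).length true ++ c := by
      intro c
      rw [List.length_cons, List.replicate_succ', List.append_assoc, List.singleton_append]
    rw [e, e] at h4
    exact h4.time (by simp; omega)

private def mulBody (B : ℕ) : Prog :=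
  .pop 0 ;; .loop (B + 1) (.pop (B + 1) ;; .push (B + 2) true ;; .push (B + 3) true) ;;
    mv (B + 3) (B + 1)

private theorem ev_mulOuter (B : ℕ) (x y c : W) : ∃ y' : W, y'.length = y.length ∧
    Ev (.loop 0 (mulBody B)) (st B x y c []) (x.length * (8 * y.length + 4) + 1)
      (st B [] y' (List.replicate (x.length * y.length) true ++ c) []) := by
  induction x generalizing y c with
  | nil =>
    refine ⟨y, rfl, ?_⟩
    have h : Ev (.loop 0 (mulBody B)) (st B [] y c []) 1 (st B [] y c []) :=
      Ev.loop_done (by simp)
    simpa using h
  | cons b x ih =>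
    obtain ⟨y', hy', h⟩ := ih (List.replicate y.length true) (List.replicate y.length true ++ c)
    rw [List.length_replicate] at hy' h
    refine ⟨y', hy', ?_⟩
    have h1 := Ev.pop 0 (st B (b :: x) y c [])
    simp only [st_r0, st_u0, List.tail_cons] at h1
    have h2 := ev_mulInner B y x c []
    have h3 := ev_mv31 B x [] (List.replicate y.length true ++ c) (List.replicate y.length true)
    simp only [List.append_nil, List.reverse_replicate, List.length_replicate] at h2 h3
    have h4 := Ev.loop_step (r := 0) (by simp) (Ev.seq h1 (Ev.seq h2 h3)) h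
    have e : List.replicate (x.length * y.length) true ++ (List.replicate y.length true ++ c) =
        List.replicate ((b :: x).length * y.length) true ++ c := by
      rw [← List.append_assoc, List.replicate_append_replicate, List.length_cons, Nat.succ_mul]
    rw [e] at h4
    refine h4.time ?_
    simp only [List.length_cons]
    ring

/-- PROOF. `PT.bin` with `loop 0 (pop 0 ;; loop (B+1) (pop (B+1) ;; push (B+2) true ;;
push (B+3) true) ;; mv (B+3) (B+1)) ;; clr (B+1) ;; mv (B+2) 0` (apply it to `PT.ones hf`,
`PT.ones hg` so that all strings are replicates of `true`, or note that only lengths matter). -/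
theorem PT.mulLen {f g : W → W} (hf : PolyTime f) (hg : PolyTime g) :
    PolyTime (fun w => List.replicate ((f w).length * (g w).length) true) := by
  refine PT.bin (h := fun x y => List.replicate (x.length * y.length) true)
    (fun B => .loop 0 (mulBody B) ;; clr (B + 1) ;; mv (B + 2) 0) 20 2 (fun B x y => ?_) hf hg
  obtain ⟨y', hy', h⟩ := ev_mulOuter B x y []
  have h1 := ev_clr1 B [] y' (List.replicate (x.length * y.length) true) []
  have h2 := ev_mv20 B [] [] (List.replicate (x.length * y.length) true) []
  simp only [List.append_nil, List.reverse_replicate, List.length_replicate] at h h1 h2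
  refine ⟨_, ?_, Ev.seq h (Ev.seq h1 h2)⟩
  rw [hy']
  nlinarith [Nat.zero_le (x.length), Nat.zero_le (y.length),
    Nat.zero_le (x.length * y.length), Nat.zero_le (x.length * x.length),
    Nat.zero_le (y.length * y.length)]

/-- a string of polynomial length.  PROOF. `Polynomial.induction_on'`-style induction on `q`:
constants `PT.const`, sums `PT.append`, monomials `a * X^n` by induction on `n` with
`PT.mulLen`. -/
theorem PT.unary {f : W → W} (hf : PolyTime f) (q : Polynomial ℕ) :
    PolyTime (fun w => List.replicate (q.eval (f w).length) true) := by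
  induction q using Polynomial.induction_on' with
  | add p q hp hq =>
    have h := PT.append hp hq
    simpa only [Polynomial.eval_add, List.replicate_append_replicate] using h
  | monomial k a =>
    simp only [Polynomial.eval_monomial]
    induction k with
    | zero =>
      simpa using PT.const (List.replicate a true)
    | succ k ih =>
      have h := PT.mulLen ih hf
      simpa only [List.length_replicate, pow_succ, mul_assoc] using h

end Crest.Agent.CHR
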