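import Crest.Agent.CHR.PTPair

/-!
# Row 316, module M1, chunk NUM: binary successor, length in binary, normal form

Explicit programs (see `Prog.lean` for `Prog`, `Ev`, `st`, `mv`, `clr`; `Comb.lean` for `PT.un`,
`PT.iter`).  Example of a proof for a loop: `Ev.clr`, `Ev.mv` in `Prog.lean`.
-/

set_option autoImplicit false

namespace Crest.Agent.CHR

/-- successor on binary strings, least significant bit first -/
def incB : W → W
  | [] => [true]
  | false :: l => true :: l
  | true :: l => false :: incB l

/-- PROOF. cases on `n` even/odd, `Nat.bits_append_bit`, or `Nat.binaryRec`. -/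
theorem incB_bits (n : ℕ) : incB (Nat.bits n) = Nat.bits (n + 1) := by
  induction n using Nat.binaryRec' with
  | zero => simp [incB]
  | bit b n h ih =>
    rw [Nat.bits_append_bit n b h]
    cases b with
    | false =>
      have e : Nat.bit false n + 1 = Nat.bit true n := by simp [Nat.bit]
      rw [e, Nat.bits_append_bit n true (fun _ => rfl)]
      rfl
    | true =>
      have e : Nat.bit true n + 1 = Nat.bit false (n + 1) := by simp [Nat.bit]; ring
      rw [e, Nat.bits_append_bit (n + 1) false (fun h => absurd h (Nat.succ_ne_zero n)), ← ih]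
      rfl

private def incBody : Prog := .case 0 (.push 0 true ;; .pop 2)
  (.pop 0 ;; .push 0 true ;; .pop 2) (.pop 0 ;; .push 1 false)

private theorem e_pop0 (b : Bool) (x a c : W) :
    Ev (.pop 0) (st 0 (b :: x) a c []) 1 (st 0 x a c []) := by
  have h := Ev.pop 0 (st 0 (b :: x) a c [])
  simpa only [st_r0, st_u0, List.tail_cons] using h

private theorem e_push0 (b : Bool) (x a c : W) :
    Ev (.push 0 b) (st 0 x a c []) 1 (st 0 (b :: x) a c []) := by
  have h := Ev.push 0 b (st 0 x a c [])
  simpa only [st_r0, st_u0] using h

private theorem e_pop1 (b : Bool) (x a c : W) :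
    Ev (.pop 1) (st 0 x (b :: a) c []) 1 (st 0 x a c []) := by
  have h := Ev.pop (0 + 1) (st 0 x (b :: a) c [])
  simpa only [st_r1, st_u1, List.tail_cons, zero_add] using h

private theorem e_push1 (b : Bool) (x a c : W) :
    Ev (.push 1 b) (st 0 x a c []) 1 (st 0 x (b :: a) c []) := by
  have h := Ev.push (0 + 1) b (st 0 x a c [])
  simpa only [st_r1, st_u1, zero_add] using h

private theorem e_pop2 (b : Bool) (x a c : W) :
    Ev (.pop 2) (st 0 x a (b :: c) []) 1 (st 0 x a c []) := by
  have h := Ev.pop (0 + 2) (st 0 x a (b :: c) [])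
  simpa only [st_r2, st_u2, List.tail_cons, zero_add] using h

private theorem e_push2 (b : Bool) (x a c : W) :
    Ev (.push 2 b) (st 0 x a c []) 1 (st 0 x a (b :: c) []) := by
  have h := Ev.push (0 + 2) b (st 0 x a c [])
  simpa only [st_r2, st_u2, zero_add] using h

private theorem r0' (x a c : W) : st 0 x a c [] 0 = x := by simp [st]
private theorem r1' (x a c : W) : st 0 x a c [] 1 = a := by simp [st]
private theorem r2' (x a c : W) : st 0 x a c [] 2 = c := by simp [st]

private theorem ev_incLoop (x a : W) : ∃ t ≤ 4 * x.length + 6, ∃ y a' : W,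
    a'.reverse ++ y = a.reverse ++ incB x ∧ a'.length ≤ a.length + x.length ∧
      Ev (.loop 2 incBody) (st 0 x a [true] []) t (st 0 y a' [] []) := by
  induction x generalizing a with
  | nil =>
    refine ⟨_, ?_, [true], a, rfl, by simp, Ev.loop_step (by rw [r2']; simp)
      (Ev.case_nil (r0' _ _ _) (Ev.seq (e_push0 true [] a [true]) (e_pop2 true [true] a [])))
      (Ev.loop_done (r2' _ _ _))⟩
    omega
  | cons b l ih =>
    cases b with
    | false =>
      refine ⟨_, ?_, true :: l, a, rfl, by simp, Ev.loop_step (by rw [r2']; simp)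
        (Ev.case_false (r0' _ _ _) (Ev.seq (e_pop0 false l a [true])
          (Ev.seq (e_push0 true l a [true]) (e_pop2 true (true :: l) a []))))
        (Ev.loop_done (r2' _ _ _))⟩
      omega
    | true =>
      obtain ⟨t, ht, y, a', h1, h2, h3⟩ := ih (false :: a)
      refine ⟨1 + 1 + 1 + t + 1, by simp only [List.length_cons]; omega, y, a', ?_, ?_, ?_⟩
      · rw [h1]
        simp [incB]
      · simp only [List.length_cons] at h2 ⊢
        omega
      · exact Ev.loop_step (by rw [r2']; simp) (Ev.case_true (r0' _ _ _)
          (Ev.seq (e_pop0 true l a [true]) (e_push1 false l a [true]))) h3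

private theorem incB_length (x : W) : (incB x).length ≤ x.length + 1 := by
  induction x with
  | nil => simp [incB]
  | cons b l ih => cases b <;> simp [incB] <;> omega

/-- PROOF. `PT.un` with `push 2 true ;; loop 2 (case 0 (push 0 true ;; pop 2)
(pop 0 ;; push 0 true ;; pop 2) (pop 0 ;; push 1 false)) ;; mv 1 0`. -/
theorem PT.incB : PolyTime incB := by
  refine PT.un (.push 2 true ;; .loop 2 incBody ;; mv 1 0) 8 1 fun x => ?_
  obtain ⟨t, ht, y, a', h1, h2, h3⟩ := ev_incLoop x []
  have h4 := ev_mv10 0 y a' [] []
  simp only [List.reverse_nil, List.nil_append, zero_add, List.length_nil] at h1 h2 h4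
  rw [h1] at h4
  exact ⟨_, by rw [pow_one]; omega, Ev.seq (e_push2 true x [] []) (Ev.seq h3 h4)⟩

/-- binary notation of the length.  PROOF. `PT.iter` with `s = incB`, `i = []`, `c = f`;
`incB^[k] [] = Nat.bits k`, length at most `k`. -/
theorem PT.lenBin {f : W → W} (hf : PolyTime f) :
    PolyTime (fun w => Nat.bits (f w).length) := by
  have hit : ∀ k : ℕ, Crest.Agent.CHR.incB^[k] [] = Nat.bits k := by
    intro k
    induction k with
    | zero => simp
    | succ k ih => rw [Function.iterate_succ_apply', ih, incB_bits]
  have hlen : ∀ k : ℕ, (Crest.Agent.CHR.incB^[k] []).length ≤ k := by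
    intro k
    induction k with
    | zero => simp
    | succ k ih =>
      rw [Function.iterate_succ_apply']
      exact (incB_length _).trans (Nat.succ_le_succ ih)
  obtain ⟨q, hq⟩ := hf.pb
  have h := PT.iter PT.incB (PT.const []) hf q
    (fun w k hk => (hlen k).trans (hk.trans (hq w)))
  simpa only [hit] using h

private def nBody : Prog := .case 1 (.pop 2) (.pop 1) (.pop 2)

private theorem ev_nLoop (r : W) : ∃ t ≤ 3 * r.length + 5,
    Ev (.loop 2 nBody) (st 0 [] r [true] []) t (st 0 [] (r.dropWhile (fun b => !b)) [] []) := by
  induction r with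
  | nil =>
    refine ⟨_, ?_, Ev.loop_step (by rw [r2']; simp)
      (Ev.case_nil (r1' _ _ _) (e_pop2 true [] [] [])) (Ev.loop_done (r2' _ _ _))⟩
    omega
  | cons b l ih =>
    cases b with
    | false =>
      obtain ⟨t, ht, h⟩ := ih
      refine ⟨1 + 1 + t + 1, by simp only [List.length_cons]; omega, ?_⟩
      have e : (false :: l).dropWhile (fun b => !b) = l.dropWhile (fun b => !b) := by simp
      rw [e]
      exact Ev.loop_step (by rw [r2']; simp)
        (Ev.case_false (r1' _ _ _) (e_pop1 false [] l [true])) h
    | true =>
      have e : (true :: l).dropWhile (fun b => !b) = true :: l := by simp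
      rw [e]
      refine ⟨_, ?_, Ev.loop_step (by rw [r2']; simp)
        (Ev.case_true (r1' _ _ _) (e_pop2 true [] (true :: l) [])) (Ev.loop_done (r2' _ _ _))⟩
      omega

private theorem trim_eq (x : W) : (x.reverse.dropWhile (fun b => !b)).reverse = Nat.bits (val x) := by
  induction x with
  | nil => simp [val]
  | cons b l ih =>
    have hv : val (b :: l) = Nat.bit b (val l) := by
      rw [val]
      cases b <;> simp [Nat.bit, add_comm]
    rw [List.reverse_cons, List.dropWhile_append, hv]
    by_cases h0 : val l = 0
    · have hn : l.reverse.dropWhile (fun b => !b) = [] := by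
        rw [h0, Nat.zero_bits] at ih
        exact List.reverse_eq_nil_iff.1 ih
      rw [hn, h0]
      cases b <;> simp [Nat.bit]
    · have hn : l.reverse.dropWhile (fun b => !b) ≠ [] := by
        intro h
        rw [h, List.reverse_nil] at ih
        have := congrArg val ih
        rw [val_bits] at this
        exact h0 this.symm
      have hn' : (l.reverse.dropWhile (fun b => !b)).isEmpty = false := by
        cases h : l.reverse.dropWhile (fun b => !b) with
        | nil => exact absurd h hn
        | cons _ _ => rfl
      rw [hn', if_neg (by simp), List.reverse_append, ih,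
        Nat.bits_append_bit _ _ (fun h => absurd h h0)]
      rfl

private theorem PT.trim : PolyTime (fun x => Nat.bits (val x)) := by
  refine PT.un (mv 0 1 ;; .push 2 true ;; .loop 2 nBody ;; mv 1 0) 12 1 fun x => ?_
  have h1 := ev_mv01 0 x [] [] []
  obtain ⟨t, ht, h2⟩ := ev_nLoop x.reverse
  have h3 := ev_mv10 0 [] (x.reverse.dropWhile (fun b => !b)) [] []
  simp only [List.append_nil, zero_add, trim_eq] at h1 h3
  rw [List.length_reverse] at ht
  have hl : (x.reverse.dropWhile (fun b => !b)).length ≤ x.length := by
    have := List.length_dropWhile_le (fun b : Bool => !b) x.reverse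
    rwa [List.length_reverse] at this
  exact ⟨_, by rw [pow_one]; omega,
    Ev.seq h1 (Ev.seq (e_push2 true [] x.reverse []) (Ev.seq h2 h3))⟩

/-- removal of leading (most significant) zeros.  PROOF. `PT.comp` with the explicit program
`mv 0 1 ;; push 2 true ;; loop 2 (case 1 (pop 2) (pop 1) (pop 2)) ;; mv 1 0`; it computes
`x ↦ (x.reverse.dropWhile (! ·)).reverse`, which is `Nat.bits (val x)` (it has the same value, and
its last symbol, if any, is `true`; induction on `x`). -/
theorem PT.norm {f : W → W} (hf : PolyTime f) : PolyTime (fun w => Nat.bits (val (f w))) :=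
  PT.comp PT.trim hf

end Crest.Agent.CHR
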