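import Crest.Agent.CHR.PTCmp
import Crest.Agent.CHR.PTLen
import Crest.Agent.CHR.PTNum
import Crest.Agent.CHR.Compile

/-!
# MODULE M1 (row 316): polynomial-time functions

Collection file.  `PolyTime f` (our own class, see `PTDef.lean`): `f : W → W` is computed by a
structured stack program in polynomial time.  `Compile.lean`: it implies the prelude's `PolyTime`,
and `level_sub : level j ⊆ Crest.CountHier.level j`.

Available: `PT.id const comp pair fst snd append tail ite iter take drop ones mulLen unary incB
lenBin norm`, `PTP_iff PTP.comp PTP.ite PTP.not PTP.and PTP.or PTP.eq PTP.lt PTP.lenLe`; explicit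
programs can be added with `PT.un`, `PT.bin`.
-/

set_option autoImplicit false

namespace Crest.Agent.CHR

open Crest.CountHier

/-- predicates = functions with values `[true]` / `[false]` -/
theorem PTP_iff (p : W → Bool) : PolyTimePred p ↔ PolyTime (fun w => [p w]) := Iff.rfl

theorem PTP.comp {p : W → Bool} {f : W → W} (hp : PolyTimePred p) (hf : PolyTime f) :
    PolyTimePred (fun w => p (f w)) := by
  rw [PTP_iff] at hp ⊢
  exact PT.comp hp hf

theorem PTP.ite {p : W → Bool} {f g : W → W} (hp : PolyTimePred p) (hf : PolyTime f)
    (hg : PolyTime g) : PolyTime (fun w => if p w then f w else g w) := by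
  rw [PTP_iff] at hp
  have h := PT.ite hp hf hg
  simpa using h

theorem PTP.const (c : Bool) : PolyTimePred (fun _ => c) := PT.const [c]

theorem PTP.congr {p q : W → Bool} (hp : PolyTimePred p) (h : ∀ w, p w = q w) : PolyTimePred q := by
  have : q = p := by funext w; exact (h w).symm
  rw [this]; exact hp

theorem PT.congr {f g : W → W} (hf : PolyTime f) (h : ∀ w, f w = g w) : PolyTime g := by
  have : g = f := by funext w; exact (h w).symm
  rw [this]; exact hf

theorem PTP.not {p : W → Bool} (hp : PolyTimePred p) : PolyTimePred (fun w => !p w) := by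
  rw [PTP_iff]
  have h := PTP.ite hp (PT.const [false]) (PT.const [true])
  convert h using 2 with w
  cases p w <;> simp

theorem PTP.and {p q : W → Bool} (hp : PolyTimePred p) (hq : PolyTimePred q) :
    PolyTimePred (fun w => p w && q w) := by
  rw [PTP_iff]
  have hq' := (PTP_iff q).1 hq
  have h := PTP.ite hp hq' (PT.const [false])
  convert h using 2 with w
  cases p w <;> simp

theorem PTP.or {p q : W → Bool} (hp : PolyTimePred p) (hq : PolyTimePred q) :
    PolyTimePred (fun w => p w || q w) := by
  rw [PTP_iff]
  have hq' := (PTP_iff q).1 hq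
  have h := PTP.ite hp (PT.const [true]) hq'
  convert h using 2 with w
  cases p w <;> simp

/-- choice between two predicates -/
theorem PTP.iteP {p q r : W → Bool} (hp : PolyTimePred p) (hq : PolyTimePred q)
    (hr : PolyTimePred r) : PolyTimePred (fun w => if p w then q w else r w) := by
  rw [PTP_iff]
  have h := PTP.ite hp ((PTP_iff q).1 hq) ((PTP_iff r).1 hr)
  convert h using 2 with w
  cases p w <;> simp

end Crest.Agent.CHR
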