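import Crest.Agent.CHR.Comb

/-!
# Row 316, module M1, chunk CMP: comparisons

Explicit programs (see `Prog.lean` for `Prog`, `Ev`, `st`, `mv`, `clr`; `Comb.lean` for `PT.bin`).
Example of a proof for a loop: `Ev.clr`, `Ev.mv` in `Prog.lean`.
-/

set_option autoImplicit false

namespace Crest.Agent.CHR

/-! ### basic steps on standard states -/

private theorem cmp_pop0 (B : ℕ) (b : Bool) (w a c d : W) :
    Ev (.pop 0) (st B (b :: w) a c d) 1 (st B w a c d) := by
  simpa using Ev.pop 0 (st B (b :: w) a c d)

private theorem cmp_pop1 (B : ℕ) (b : Bool) (w a c d : W) :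
    Ev (.pop (B + 1)) (st B w (b :: a) c d) 1 (st B w a c d) := by
  simpa using Ev.pop (B + 1) (st B w (b :: a) c d)

private theorem cmp_pop2 (B : ℕ) (w a c d : W) :
    Ev (.pop (B + 2)) (st B w a c d) 1 (st B w a c.tail d) := by
  simpa using Ev.pop (B + 2) (st B w a c d)

private theorem cmp_push0 (B : ℕ) (b : Bool) (w a c d : W) :
    Ev (.push 0 b) (st B w a c d) 1 (st B (b :: w) a c d) := by
  simpa using Ev.push 0 b (st B w a c d)

private theorem cmp_push2 (B : ℕ) (b : Bool) (w a c d : W) :
    Ev (.push (B + 2) b) (st B w a c d) 1 (st B w a (b :: c) d) := by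
  simpa using Ev.push (B + 2) b (st B w a c d)

private theorem cmp_loop0 {B : ℕ} {P : Prog} {b : Bool} {w a c d : W} {s' s'' : St} {t t' : ℕ}
    (h : Ev P (st B (b :: w) a c d) t s') (h' : Ev (.loop 0 P) s' t' s'') :
    Ev (.loop 0 P) (st B (b :: w) a c d) (t + t' + 1) s'' :=
  Ev.loop_step (by simp) h h'

private theorem cmp_loop1 {B : ℕ} {P : Prog} {b : Bool} {w a c d : W} {s' s'' : St} {t t' : ℕ}
    (h : Ev P (st B w (b :: a) c d) t s') (h' : Ev (.loop (B + 1) P) s' t' s'') :
    Ev (.loop (B + 1) P) (st B w (b :: a) c d) (t + t' + 1) s'' :=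
  Ev.loop_step (by simp) h h'

/-- the final test: `[true]` if register `B+2` is empty, else `[false]` -/
private def cmpFin (B : ℕ) : Prog :=
  .case (B + 2) (.push 0 true) (clr (B + 2) ;; .push 0 false) (clr (B + 2) ;; .push 0 false)

private theorem cmp_fin (B : ℕ) (m : W) : ∃ t ≤ 2 * m.length + 3,
    Ev (cmpFin B) (st B [] [] m []) t (st B [decide (m = [])] [] [] []) := by
  rcases m with _ | ⟨b, m⟩
  · refine ⟨2, by simp, ?_⟩
    have h := cmp_push0 B true [] [] [] []
    exact Ev.case_nil (by simp) (by simpa using h)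
  · refine ⟨2 * (b :: m).length + 1 + 1 + 1, by omega, ?_⟩
    have h1 := ev_clr2 B [] [] (b :: m) []
    have h2 := cmp_push0 B false [] [] [] []
    have h3 := Ev.seq h1 h2
    have e : decide (b :: m = []) = false := by simp
    rw [e]
    cases b with
    | false => exact Ev.case_false (l := m) (by simp) h3
    | true => exact Ev.case_true (l := m) (by simp) h3

/-! ### equality -/

private def eqLoop (B : ℕ) : Prog :=
  .loop 0 (.case 0 .skip
    (.pop 0 ;; .case (B + 1) (.push (B + 2) true) (.pop (B + 1))
      (.pop (B + 1) ;; .push (B + 2) true))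
    (.pop 0 ;; .case (B + 1) (.push (B + 2) true) (.pop (B + 1) ;; .push (B + 2) true)
      (.pop (B + 1))))

private theorem ev_eqLoop (B : ℕ) (x : W) : ∀ y m : W, ∃ (t : ℕ) (y' m' : W), t ≤ 6 * x.length + 1 ∧
    Ev (eqLoop B) (st B x y m []) t (st B [] y' m' []) ∧ ((y' = [] ∧ m' = []) ↔ (m = [] ∧ x = y)) ∧
    m'.length + y'.length ≤ m.length + x.length + y.length := by
  induction x with
  | nil =>
    intro y m
    refine ⟨1, y, m, by simp, Ev.loop_done (by simp), ?_, by simp⟩
    constructor
    · rintro ⟨rfl, rfl⟩; exact ⟨rfl, rfl⟩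
    · rintro ⟨rfl, rfl⟩; exact ⟨rfl, rfl⟩
  | cons a x ih =>
    intro y m
    rcases y with _ | ⟨b, y⟩
    · -- `y` is exhausted
      obtain ⟨t, y', m', ht, hE, hiff, hlen⟩ := ih [] (true :: m)
      have h1 := cmp_pop0 B a x [] m []
      have h2 : Ev (.push (B + 2) true) (st B x [] m []) 1 (st B x [] (true :: m) []) :=
        cmp_push2 B true x [] m []
      refine ⟨(1 + (1 + 1) + 1) + t + 1, y', m', by simp; omega, ?_, ?_, by simp at hlen ⊢; omega⟩
      · refine cmp_loop0 ?_ hE
        cases a with
        | false => exact Ev.case_false (l := x) (by simp) (Ev.seq h1 (Ev.case_nil (by simp) h2))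
        | true => exact Ev.case_true (l := x) (by simp) (Ev.seq h1 (Ev.case_nil (by simp) h2))
      · rw [hiff]; simp
    · have h1 := cmp_pop0 B a x (b :: y) m []
      have h2 := cmp_pop1 B b x y m []
      have h3 : Ev (.push (B + 2) true) (st B x y m []) 1 (st B x y (true :: m) []) :=
        cmp_push2 B true x y m []
      by_cases hab : a = b
      · subst hab
        obtain ⟨t, y', m', ht, hE, hiff, hlen⟩ := ih y m
        refine ⟨(1 + (1 + 1) + 1) + t + 1, y', m', by simp; omega, ?_, ?_, by simp at hlen ⊢; omega⟩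
        · refine cmp_loop0 ?_ hE
          cases a with
          | false =>
            exact Ev.case_false (l := x) (by simp) (Ev.seq h1 (Ev.case_false (l := y) (by simp) h2))
          | true =>
            exact Ev.case_true (l := x) (by simp) (Ev.seq h1 (Ev.case_true (l := y) (by simp) h2))
        · rw [hiff]; simp
      · obtain ⟨t, y', m', ht, hE, hiff, hlen⟩ := ih y (true :: m)
        refine ⟨(1 + (1 + 1 + 1) + 1) + t + 1, y', m', by simp; omega, ?_, ?_,
          by simp at hlen ⊢; omega⟩
        · refine cmp_loop0 ?_ hE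
          have h4 := Ev.seq h2 h3
          cases a with
          | false =>
            cases b with
            | false => exact absurd rfl hab
            | true =>
              exact Ev.case_false (l := x) (by simp)
                (Ev.seq h1 (Ev.case_true (l := y) (by simp) h4))
          | true =>
            cases b with
            | true => exact absurd rfl hab
            | false =>
              exact Ev.case_true (l := x) (by simp)
                (Ev.seq h1 (Ev.case_false (l := y) (by simp) h4))
        · rw [hiff]; simp [hab]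

private theorem ev_eqLoop2 (B : ℕ) (y : W) : ∀ m : W,
    Ev (.loop (B + 1) (.pop (B + 1) ;; .push (B + 2) true)) (st B [] y m []) (3 * y.length + 1)
      (st B [] [] (List.replicate y.length true ++ m) []) := by
  induction y with
  | nil => intro m; exact (Ev.loop_done (by simp)).time (by simp)
  | cons b y ih =>
    intro m
    have h1 := cmp_pop1 B b [] y m []
    have h2 := cmp_push2 B true [] y m []
    have h3 := cmp_loop1 (Ev.seq h1 h2) (ih (true :: m))
    have e : List.replicate y.length true ++ true :: m =
        List.replicate (b :: y).length true ++ m := by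
      rw [List.length_cons, List.replicate_succ']
      simp
    rw [e] at h3
    exact h3.time (by simp; omega)

/-- equality of two strings.  PROOF. `PT.bin` with
`loop 0 (case 0 skip (pop 0 ;; case (B+1) (push (B+2) true) (pop (B+1)) (pop (B+1) ;; push (B+2) true))
(pop 0 ;; case (B+1) (push (B+2) true) (pop (B+1) ;; push (B+2) true) (pop (B+1)))) ;;
loop (B+1) (pop (B+1) ;; push (B+2) true) ;;
case (B+2) (push 0 true) (clr (B+2) ;; push 0 false) (clr (B+2) ;; push 0 false)`.
Invariant (induction on `x`, all `y` and contents `m` of `B+2`): at the end `B+2` is empty iff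
`m = []` and `x = y`; its length is at most `m.length + x.length + y.length`. -/
theorem PTP.eq {f g : W → W} (hf : PolyTime f) (hg : PolyTime g) :
    PolyTimePred (fun w => decide (f w = g w)) := by
  refine PT.bin (h := fun x y => [decide (x = y)])
    (fun B => eqLoop B ;; .loop (B + 1) (.pop (B + 1) ;; .push (B + 2) true) ;; cmpFin B) 12 1
    ?_ hf hg
  intro B x y
  obtain ⟨t, y', m', ht, hE, hiff, hlen⟩ := ev_eqLoop B x y []
  have h2 := ev_eqLoop2 B y' m'
  obtain ⟨t3, ht3, h3⟩ := cmp_fin B (List.replicate y'.length true ++ m')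
  refine ⟨t + ((3 * y'.length + 1) + t3), ?_, ?_⟩
  · simp at ht3 hlen ⊢; omega
  · have e : decide (List.replicate y'.length true ++ m' = []) = decide (x = y) := by
      apply decide_eq_decide.2
      have : (List.replicate y'.length true ++ m' = []) ↔ (y' = [] ∧ m' = []) := by
        simp [List.append_eq_nil_iff, List.length_eq_zero_iff]
      rw [this, hiff]; simp
    rw [e] at h3
    exact Ev.seq hE (Ev.seq h2 h3)

/-! ### comparison of values -/

private def fl (b : Bool) : W := if b then [true] else []

private def setF (B : ℕ) : Prog := .case (B + 2) (.push (B + 2) true) .skip .skip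

private theorem ev_setF (B : ℕ) (w a d : W) (b : Bool) :
    Ev (setF B) (st B w a (fl b) d) 2 (st B w a (fl true) d) := by
  cases b with
  | false =>
    have h := cmp_push2 B true w a [] d
    exact Ev.case_nil (by simp [fl]) (by simpa [fl] using h)
  | true => exact Ev.case_true (l := []) (by simp [fl]) (Ev.skip _)

private theorem ev_clrF (B : ℕ) (w a d : W) (b : Bool) :
    Ev (.pop (B + 2)) (st B w a (fl b) d) 1 (st B w a (fl false) d) := by
  have h := cmp_pop2 B w a (fl b) d
  cases b <;> simpa [fl] using h

private def ltLoop (B : ℕ) : Prog :=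
  .loop 0 (.case 0 .skip
    (.pop 0 ;; .case (B + 1) .skip (.pop (B + 1)) (.pop (B + 1) ;; setF B))
    (.pop 0 ;; .case (B + 1) (.pop (B + 2)) (.pop (B + 1) ;; .pop (B + 2)) (.pop (B + 1))))

private theorem ev_ltLoop (B : ℕ) (x : W) : ∀ (y : W) (b : Bool), ∃ (t : ℕ) (y' : W) (b' : Bool),
    t ≤ 7 * x.length + 1 ∧ Ev (ltLoop B) (st B x y (fl b) []) t (st B [] y' (fl b') []) ∧
    ((0 < val y' ∨ (0 = val y' ∧ b' = true)) ↔ (val x < val y ∨ (val x = val y ∧ b = true))) ∧
    y'.length ≤ y.length := by
  induction x with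
  | nil =>
    intro y b
    exact ⟨1, y, b, by simp, Ev.loop_done (by simp), by simp [val], le_rfl⟩
  | cons a x ih =>
    intro y b
    rcases y with _ | ⟨c, y⟩
    · have h1 := cmp_pop0 B a x [] (fl b) []
      cases a with
      | false =>
        obtain ⟨t, y', b', ht, hE, hiff, hlen⟩ := ih [] b
        refine ⟨(1 + (1 + 1) + 1) + t + 1, y', b', by simp; omega, ?_, ?_, hlen⟩
        · exact cmp_loop0 (Ev.case_false (l := x) (by simp)
            (Ev.seq h1 (Ev.case_nil (by simp) (Ev.skip _)))) hE
        · rw [hiff]; simp [val]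
      | true =>
        obtain ⟨t, y', b', ht, hE, hiff, hlen⟩ := ih [] false
        refine ⟨(1 + (1 + 1) + 1) + t + 1, y', b', by simp; omega, ?_, ?_, hlen⟩
        · exact cmp_loop0 (Ev.case_true (l := x) (by simp)
            (Ev.seq h1 (Ev.case_nil (by simp) (ev_clrF B x [] [] b)))) hE
        · rw [hiff]; simp [val]
    · have h1 := cmp_pop0 B a x (c :: y) (fl b) []
      have h2 := cmp_pop1 B c x y (fl b) []
      cases a with
      | false =>
        cases c with
        | false =>
          obtain ⟨t, y', b', ht, hE, hiff, hlen⟩ := ih y b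
          refine ⟨(1 + (1 + 1) + 1) + t + 1, y', b', by simp; omega, ?_, ?_, by simp; omega⟩
          · exact cmp_loop0 (Ev.case_false (l := x) (by simp)
              (Ev.seq h1 (Ev.case_false (l := y) (by simp) h2))) hE
          · rw [hiff]; simp [val]
        | true =>
          obtain ⟨t, y', b', ht, hE, hiff, hlen⟩ := ih y true
          refine ⟨(1 + ((1 + 2) + 1) + 1) + t + 1, y', b', by simp; omega, ?_, ?_, by simp; omega⟩
          · exact cmp_loop0 (Ev.case_false (l := x) (by simp)
              (Ev.seq h1 (Ev.case_true (l := y) (by simp) (Ev.seq h2 (ev_setF B x y [] b))))) hE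
          · rw [hiff]; cases b <;> simp [val] <;> omega
      | true =>
        cases c with
        | false =>
          obtain ⟨t, y', b', ht, hE, hiff, hlen⟩ := ih y false
          refine ⟨(1 + ((1 + 1) + 1) + 1) + t + 1, y', b', by simp; omega, ?_, ?_, by simp; omega⟩
          · exact cmp_loop0 (Ev.case_true (l := x) (by simp)
              (Ev.seq h1 (Ev.case_false (l := y) (by simp) (Ev.seq h2 (ev_clrF B x y [] b))))) hE
          · rw [hiff]; cases b <;> simp [val] <;> omega
        | true =>
          obtain ⟨t, y', b', ht, hE, hiff, hlen⟩ := ih y b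
          refine ⟨(1 + (1 + 1) + 1) + t + 1, y', b', by simp; omega, ?_, ?_, by simp; omega⟩
          · exact cmp_loop0 (Ev.case_true (l := x) (by simp)
              (Ev.seq h1 (Ev.case_true (l := y) (by simp) h2))) hE
          · rw [hiff]; simp [val]

private def ltLoop2 (B : ℕ) : Prog :=
  .loop (B + 1) (.case (B + 1) .skip (.pop (B + 1)) (.pop (B + 1) ;; setF B))

private theorem ev_ltLoop2 (B : ℕ) (y : W) : ∀ b : Bool, ∃ (t : ℕ) (b' : Bool),
    t ≤ 6 * y.length + 1 ∧ Ev (ltLoop2 B) (st B [] y (fl b) []) t (st B [] [] (fl b') []) ∧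
    (b' = true ↔ (0 < val y ∨ (0 = val y ∧ b = true))) := by
  induction y with
  | nil =>
    intro b
    exact ⟨1, b, by simp, Ev.loop_done (by simp), by simp [val]⟩
  | cons c y ih =>
    intro b
    have h2 := cmp_pop1 B c [] y (fl b) []
    cases c with
    | false =>
      obtain ⟨t, b', ht, hE, hiff⟩ := ih b
      refine ⟨(1 + 1) + t + 1, b', by simp; omega, ?_, ?_⟩
      · exact cmp_loop1 (Ev.case_false (l := y) (by simp) h2) hE
      · rw [hiff]; simp [val, eq_comm]
    | true =>
      obtain ⟨t, b', ht, hE, hiff⟩ := ih true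
      refine ⟨((1 + 2) + 1) + t + 1, b', by simp; omega, ?_, ?_⟩
      · exact cmp_loop1 (Ev.case_true (l := y) (by simp) (Ev.seq h2 (ev_setF B [] y [] b))) hE
      · rw [hiff]; simp [val]; omega

private def ltFin (B : ℕ) : Prog :=
  .case (B + 2) (.push 0 false) (.pop (B + 2) ;; .push 0 true) (.pop (B + 2) ;; .push 0 true)

private theorem ev_ltFin (B : ℕ) (b : Bool) : ∃ t ≤ 3,
    Ev (ltFin B) (st B [] [] (fl b) []) t (st B [b] [] [] []) := by
  cases b with
  | false =>
    refine ⟨2, by omega, ?_⟩
    have h := cmp_push0 B false [] [] [] []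
    exact Ev.case_nil (by simp [fl]) (by simpa [fl] using h)
  | true =>
    refine ⟨3, le_rfl, ?_⟩
    have h1 := ev_clrF B [] [] [] true
    have h2 := cmp_push0 B true [] [] [] []
    exact Ev.case_true (l := []) (by simp [fl]) (Ev.seq h1 (by simpa [fl] using h2))

/-- comparison of binary values (least significant bit first).  PROOF. `PT.bin`; register `B+2`
holds `[true]` or `[]` (the flag "`x < y` on the digits read so far").  For each digit `a` of `x`
(loop on `0`) and the corresponding digit `b` of `y` (`b = 0` if `B+1` is empty): `a < b` sets the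
flag (`case (B+2) (push (B+2) true) skip skip`), `b < a` clears it (`pop (B+2)`), `a = b` keeps it.
Then loop on `B+1`: digit `true` sets the flag.  Invariant: final flag = `decide (val x < val y) ||
(decide (val x = val y) && flag)`. -/
theorem PTP.lt {f g : W → W} (hf : PolyTime f) (hg : PolyTime g) :
    PolyTimePred (fun w => decide (val (f w) < val (g w))) := by
  refine PT.bin (h := fun x y => [decide (val x < val y)])
    (fun B => ltLoop B ;; ltLoop2 B ;; ltFin B) 7 1 ?_ hf hg
  intro B x y
  obtain ⟨t, y', b', ht, hE, hiff, hlen⟩ := ev_ltLoop B x y false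
  obtain ⟨t2, b2, ht2, hE2, hiff2⟩ := ev_ltLoop2 B y' b'
  obtain ⟨t3, ht3, hE3⟩ := ev_ltFin B b2
  refine ⟨t + (t2 + t3), by simp; omega, ?_⟩
  have e : decide (val x < val y) = b2 := by
    rw [← hiff2] at hiff
    simp only [Bool.false_eq_true, and_false, or_false] at hiff
    cases b2 with
    | true => exact decide_eq_true (hiff.1 rfl)
    | false =>
      apply decide_eq_false
      intro h
      exact absurd (hiff.2 h) (by simp)
  rw [e]
  have h0 : (fl false : W) = [] := rfl
  rw [h0] at hE
  exact Ev.seq hE (Ev.seq hE2 hE3)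

/-! ### comparison of lengths -/

private def lenLoop (B : ℕ) : Prog :=
  .loop 0 (.pop 0 ;; .case (B + 1) (.push (B + 2) true) (.pop (B + 1)) (.pop (B + 1)))

private theorem ev_lenLoop (B : ℕ) (x : W) : ∀ y m : W, ∃ (t : ℕ) (y' m' : W),
    t ≤ 4 * x.length + 1 ∧ Ev (lenLoop B) (st B x y m []) t (st B [] y' m' []) ∧
    (m' = [] ↔ (m = [] ∧ x.length ≤ y.length)) ∧ m'.length ≤ m.length + x.length ∧
    y'.length ≤ y.length := by
  induction x with
  | nil =>
    intro y m
    exact ⟨1, y, m, by simp, Ev.loop_done (by simp), by simp, by simp, le_rfl⟩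
  | cons a x ih =>
    intro y m
    rcases y with _ | ⟨b, y⟩
    · obtain ⟨t, y', m', ht, hE, hiff, hlen, hlen'⟩ := ih [] (true :: m)
      have h1 := cmp_pop0 B a x [] m []
      have h2 := cmp_push2 B true x [] m []
      refine ⟨(1 + (1 + 1)) + t + 1, y', m', by simp; omega, ?_, ?_, by simp at hlen ⊢; omega, hlen'⟩
      · exact cmp_loop0 (Ev.seq h1 (Ev.case_nil (by simp) h2)) hE
      · rw [hiff]; simp
    · obtain ⟨t, y', m', ht, hE, hiff, hlen, hlen'⟩ := ih y m
      have h1 := cmp_pop0 B a x (b :: y) m []
      have h2 := cmp_pop1 B b x y m []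
      refine ⟨(1 + (1 + 1)) + t + 1, y', m', by simp; omega, ?_, ?_, by simp; omega,
        by simp; omega⟩
      · refine cmp_loop0 (Ev.seq h1 ?_) hE
        cases b with
        | false => exact Ev.case_false (l := y) (by simp) h2
        | true => exact Ev.case_true (l := y) (by simp) h2
      · rw [hiff]; simp

/-- comparison of lengths.  PROOF. `PT.bin` with `loop 0 (pop 0 ;; case (B+1) (push (B+2) true)
(pop (B+1)) (pop (B+1))) ;; clr (B+1) ;; case (B+2) (push 0 true) (..) (clr (B+2) ;; push 0 false)`. -/
theorem PTP.lenLe {f g : W → W} (hf : PolyTime f) (hg : PolyTime g) :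
    PolyTimePred (fun w => decide ((f w).length ≤ (g w).length)) := by
  refine PT.bin (h := fun x y => [decide (x.length ≤ y.length)])
    (fun B => lenLoop B ;; clr (B + 1) ;; cmpFin B) 6 1 ?_ hf hg
  intro B x y
  obtain ⟨t, y', m', ht, hE, hiff, hlen, hlen'⟩ := ev_lenLoop B x y []
  have h2 := ev_clr1 B [] y' m' []
  obtain ⟨t3, ht3, h3⟩ := cmp_fin B m'
  refine ⟨t + ((2 * y'.length + 1) + t3), by simp at hlen ⊢; omega, ?_⟩
  have e : decide (m' = []) = decide (x.length ≤ y.length) := by
    apply decide_eq_decide.2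
    rw [hiff]; simp
  rw [e] at h3
  exact Ev.seq hE (Ev.seq h2 h3)

end Crest.Agent.CHR
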