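import Crest.Agent.CHR.Prog
import Crest.Prelude.Def_Complexity
import Crest.Prelude.Def_CountHier

/-!
# Row 316, module M1: the class of polynomial-time functions used in this development

Inside the namespace `Crest.Agent.CHR` the names `PolyTime`, `PolyTimePred`, `InP`, `level` denote
OUR versions (structured stack programs instead of arbitrary `FinTM2` machines); `Compile.lean`
proves that they imply the ones of the prelude (`level_sub : level j ⊆ Crest.CountHier.level j`).
-/

set_option autoImplicit false

namespace Crest.Agent.CHR

/-- `f` is computed by a structured program in polynomial time. -/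
def PolyTime (f : List Bool → List Bool) : Prop :=
  ∃ (P : Prog) (q : Polynomial ℕ), ∀ w : List Bool, ∃ t ≤ q.eval w.length,
    Ev P (ini w) t (ini (f w))

/-- Predicates: value `[true]` or `[false]`. -/
def PolyTimePred (p : List Bool → Bool) : Prop := PolyTime (fun w => [p w])

/-- Our version of the class P. -/
def InP (L : Set (List Bool)) : Prop :=
  ∃ f : List Bool → Bool, PolyTimePred f ∧ ∀ x, x ∈ L ↔ f x = true

/-- Our version of the levels of the counting hierarchy. -/
def level : ℕ → Set (Set (List Bool))
  | 0 => {L | InP L}
  | j + 1 => Crest.CountHier.countStep (level j)

end Crest.Agent.CHR
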