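import Crest.Agent.CHR.Comb

/-!
# Row 316, module M1, chunk PAIR: constants, append, pairing, projections, tail

Explicit programs (see `Prog.lean` for `Prog`, `Ev`, `st`, `mv`, `clr`; `Comb.lean` for `PT.un`,
`PT.bin`).
-/

set_option autoImplicit false

namespace Crest.Agent.CHR

open Crest.CountHier

/-- push the symbols of `c` on register `0`, last symbol first -/
private def pushAll : W → Prog
  | [] => .skip
  | b :: l => pushAll l ;; .push 0 b

private theorem ev_pushAll (c x : W) :
    Ev (pushAll c) (st 0 x [] [] []) (c.length + 1) (st 0 (c ++ x) [] [] []) := by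
  induction c with
  | nil => exact Ev.skip _
  | cons b l ih =>
    have h := Ev.push 0 b (st 0 (l ++ x) [] [] [])
    simp only [st_r0, st_u0] at h
    exact (Ev.seq ih h).time (by simp)

/-- PROOF. `PT.un` with `clr 0` followed by pushes of the symbols of `c`, last symbol first
(recursion on `c`). -/
theorem PT.const (c : W) : PolyTime (fun _ => c) := by
  refine PT.un (clr 0 ;; pushAll c) (c.length + 4) 1 fun x => ?_
  have h1 := ev_clr0 0 x [] [] []
  have h2 := ev_pushAll c []
  rw [List.append_nil] at h2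
  exact ⟨_, by nlinarith, Ev.seq h1 h2⟩

/-- PROOF. `PT.un` with `.pop 0`. -/
theorem PT.tail : PolyTime List.tail := by
  refine PT.un (.pop 0) 1 1 fun x => ⟨1, by rw [pow_one]; omega, ?_⟩
  have h := Ev.pop 0 (st 0 x [] [] [])
  simpa only [st_r0, st_u0] using h

/-- PROOF. `PT.bin` with: move register `0` to `B+2` (reversed), move `B+1` to `B+3`, `B+3` back to `0`
(now `y` in `0`, `x.reverse` in `B+2`), move `B+2` to `0`. -/
theorem PT.append {f g : W → W} (hf : PolyTime f) (hg : PolyTime g) :
    PolyTime (fun w => f w ++ g w) := by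
  refine PT.bin (h := fun x y => x ++ y)
    (fun B => mv 0 (B + 2) ;; mv (B + 1) (B + 3) ;; mv (B + 3) 0 ;; mv (B + 2) 0) 8 1
    (fun B x y => ?_) hf hg
  have h1 := ev_mv02 B x y [] []
  have h2 := ev_mv13 B [] y (x.reverse) []
  have h3 := ev_mv30 B [] [] (x.reverse) (y.reverse)
  have h4 := ev_mv20 B y [] (x.reverse) []
  simp only [List.append_nil, List.reverse_reverse, List.length_reverse] at h1 h2 h3 h4
  exact ⟨_, by nlinarith, Ev.seq h1 (Ev.seq h2 (Ev.seq h3 h4))⟩

private theorem ev_tagLoop (B : ℕ) (l w : W) :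
    Ev (.loop (B + 2) (.case (B + 2) .skip (.pop (B + 2) ;; .push 0 false ;; .push 0 true)
      (.pop (B + 2) ;; .push 0 true ;; .push 0 true))) (st B w [] l [])
      (5 * l.length + 1) (st B ((l.reverse.flatMap fun b => [true, b]) ++ w) [] [] []) := by
  induction l generalizing w with
  | nil => exact (Ev.loop_done (by simp)).time (by simp)
  | cons b l ih =>
    have h1 := Ev.pop (B + 2) (st B w [] (b :: l) [])
    have h2 := Ev.push 0 b (st B w [] l [])
    have h3 := Ev.push 0 true (st B (b :: w) [] l [])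
    simp only [st_r0, st_r2, st_u0, st_u2, List.tail_cons] at h1 h2 h3
    have h4 : Ev (.case (B + 2) .skip (.pop (B + 2) ;; .push 0 false ;; .push 0 true)
        (.pop (B + 2) ;; .push 0 true ;; .push 0 true)) (st B w [] (b :: l) [])
        (1 + (1 + 1) + 1) (st B (true :: b :: w) [] l []) := by
      cases b with
      | false => exact Ev.case_false (l := l) (by simp) (Ev.seq h1 (Ev.seq h2 h3))
      | true => exact Ev.case_true (l := l) (by simp) (Ev.seq h1 (Ev.seq h2 h3))
    have h5 := Ev.loop_step (r := B + 2) (by simp) h4 (ih (true :: b :: w))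
    have e : (l.reverse.flatMap fun b => [true, b]) ++ true :: b :: w =
        ((b :: l).reverse.flatMap fun b => [true, b]) ++ w := by
      simp [List.flatMap_append]
    rw [e] at h5
    exact h5.time (by simp; omega)

/-- PROOF. `PT.bin`: as for append, but `push 0 false` after `y` has arrived in `0`, and the last
loop is `loop (B+2) (case (B+2) skip (pop (B+2) ;; push 0 false ;; push 0 true)
(pop (B+2) ;; push 0 true ;; push 0 true))`. -/
theorem PT.pair {f g : W → W} (hf : PolyTime f) (hg : PolyTime g) :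
    PolyTime (fun w => pairBits (f w) (g w)) := by
  refine PT.bin (h := fun x y => pairBits x y)
    (fun B => mv 0 (B + 2) ;; mv (B + 1) (B + 3) ;; mv (B + 3) 0 ;; .push 0 false ;;
      .loop (B + 2) (.case (B + 2) .skip (.pop (B + 2) ;; .push 0 false ;; .push 0 true)
      (.pop (B + 2) ;; .push 0 true ;; .push 0 true))) 9 1
    (fun B x y => ?_) hf hg
  have h1 := ev_mv02 B x y [] []
  have h2 := ev_mv13 B [] y (x.reverse) []
  have h3 := ev_mv30 B [] [] (x.reverse) (y.reverse)
  have h4 := Ev.push 0 false (st B y [] x.reverse [])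
  have h5 := ev_tagLoop B x.reverse (false :: y)
  simp only [List.append_nil, List.reverse_reverse, List.length_reverse, st_r0, st_u0]
    at h1 h2 h3 h4 h5
  exact ⟨_, by nlinarith, Ev.seq h1 (Ev.seq h2 (Ev.seq h3 (Ev.seq h4 h5)))⟩

/-- parsing program -/
private def pB : Prog := .case 0 (.pop 2)
  (.pop 0 ;; .pop 2) (.pop 0 ;; .case 0 (.pop 2) (.pop 0 ;; .push 1 false) (.pop 0 ;; .push 1 true))

private def parse : Prog := .push 2 true ;; .loop 2 pB

private theorem ev_parseLoop (z a : W) : ∃ t ≤ 6 * z.length + 10,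
    Ev (.loop 2 pB) (st 0 z a [true] []) t
      (st 0 (sndB z) ((fstB z).reverse ++ a) [] []) := by
  have p2 : ∀ z a : W, Ev (.pop 2) (st 0 z a [true] []) 1 (st 0 z a [] []) := by
    intro z a
    have h := Ev.pop (0 + 2) (st 0 z a [true] [])
    simpa only [st_r2, st_u2, List.tail_cons, zero_add] using h
  have dn : ∀ (P : Prog) (z a : W), Ev (.loop 2 P) (st 0 z a [] []) 1 (st 0 z a [] []) := by
    intro P z a
    exact Ev.loop_done (by simp [st])
  have p0 : ∀ (b : Bool) (z a : W), Ev (.pop 0) (st 0 (b :: z) a [true] []) 1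
      (st 0 z a [true] []) := by
    intro b z a
    have h := Ev.pop 0 (st 0 (b :: z) a [true] [])
    simpa only [st_r0, st_u0, List.tail_cons] using h
  have q1 : ∀ (b : Bool) (z a : W), Ev (.push 1 b) (st 0 z a [true] []) 1
      (st 0 z (b :: a) [true] []) := by
    intro b z a
    have h := Ev.push (0 + 1) b (st 0 z a [true] [])
    simpa only [st_r1, st_u1, zero_add] using h
  have n2 : ∀ z a : W, st 0 z a [true] [] 2 ≠ [] := by
    intro z a
    simp [st]
  have r0 : ∀ z a : W, st 0 z a [true] [] 0 = z := by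
    intro z a
    simp [st]
  match z with
  | [] =>
    refine ⟨1 + 1 + 1 + 1, by simp, ?_⟩
    have h : Ev (.loop 2 pB) (st 0 [] a [true] []) _ _ :=
      Ev.loop_step (n2 [] a) (Ev.case_nil (r0 [] a) (p2 [] a)) (dn _ [] a)
    simpa [sndB, fstB, unpairB] using h
  | false :: l =>
    refine ⟨(1 + 1) + 1 + 1 + 1, by simp, ?_⟩
    have h : Ev (.loop 2 pB) (st 0 (false :: l) a [true] []) _ _ :=
      Ev.loop_step (n2 (false :: l) a) (Ev.case_false (r0 (false :: l) a)
      (Ev.seq (p0 false l a) (p2 l a))) (dn _ l a)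
    simpa [sndB, fstB, unpairB] using h
  | [true] =>
    refine ⟨(1 + (1 + 1)) + 1 + 1 + 1, by simp, ?_⟩
    have h : Ev (.loop 2 pB) (st 0 [true] a [true] []) _ _ :=
      Ev.loop_step (n2 [true] a) (Ev.case_true (r0 [true] a)
      (Ev.seq (p0 true [] a) (Ev.case_nil (r0 [] a) (p2 [] a)))) (dn _ [] a)
    simpa [sndB, fstB, unpairB] using h
  | true :: b :: l =>
    obtain ⟨t, ht, h⟩ := ev_parseLoop l (b :: a)
    have h1 : Ev (.case 0 (.pop 2) (.pop 0 ;; .push 1 false) (.pop 0 ;; .push 1 true))
        (st 0 (b :: l) a [true] []) (1 + 1 + 1) (st 0 l (b :: a) [true] []) := by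
      cases b with
      | false => exact Ev.case_false (r0 _ _) (Ev.seq (p0 _ _ _) (q1 _ _ _))
      | true => exact Ev.case_true (r0 _ _) (Ev.seq (p0 _ _ _) (q1 _ _ _))
    refine ⟨((1 + (1 + 1 + 1)) + 1) + t + 1, ?_, ?_⟩
    · simp only [List.length_cons]; omega
    · have h2 : Ev (.loop 2 pB) (st 0 (true :: b :: l) a [true] []) _ _ :=
        Ev.loop_step (n2 (true :: b :: l) a) (Ev.case_true (r0 (true :: b :: l) a)
        (Ev.seq (p0 true (b :: l) a) h1)) h
      have e1 : sndB (true :: b :: l) = sndB l := rfl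
      have e2 : (fstB (true :: b :: l)).reverse ++ a = (fstB l).reverse ++ b :: a := by
        have : fstB (true :: b :: l) = b :: fstB l := rfl
        rw [this]; simp
      rw [e1, e2]
      exact h2
termination_by z.length

private theorem ev_parse (z : W) : ∃ t ≤ 6 * z.length + 11,
    Ev parse (st 0 z [] [] []) t (st 0 (sndB z) (fstB z).reverse [] []) := by
  obtain ⟨t, ht, h⟩ := ev_parseLoop z []
  have h0 := Ev.push (0 + 2) true (st 0 z [] [] [])
  simp only [st_r2, st_u2] at h0
  rw [List.append_nil] at h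
  exact ⟨1 + t, by omega, Ev.seq h0 h⟩

private theorem parts_len (z : W) : (fstB z).length + (sndB z).length ≤ z.length := by
  match z with
  | [] => simp [sndB, fstB, unpairB]
  | false :: l => simp [sndB, fstB, unpairB]
  | [true] => simp [sndB, fstB, unpairB]
  | true :: b :: l =>
    have h := parts_len l
    have e1 : sndB (true :: b :: l) = sndB l := rfl
    have e2 : fstB (true :: b :: l) = b :: fstB l := rfl
    rw [e1, e2]
    simp only [List.length_cons]
    omega

/-- PROOF (both projections). Parsing program: `push 2 true ;; loop 2 (case 0 (pop 2)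
(pop 0 ;; pop 2) (pop 0 ;; case 0 (pop 2) (pop 0 ;; push 1 false) (pop 0 ;; push 1 true)))`
leads from `st 0 z [] [] []` to `st 0 (sndB z) (fstB z).reverse [] []` (induction following the
recursion of `unpairB`, with an accumulator in register `1`; check the last cases of `unpairB`).
Then for `fst`: `clr 0 ;; mv 1 0`, for `snd`: `clr 1`. -/
theorem PT.fst : PolyTime fstB := by
  refine PT.un (parse ;; clr 0 ;; mv 1 0) 20 1 fun z => ?_
  obtain ⟨t, ht, h⟩ := ev_parse z
  have h1 := ev_clr0 0 (sndB z) (fstB z).reverse [] []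
  have h2 := ev_mv10 0 [] (fstB z).reverse [] []
  simp only [List.append_nil, List.reverse_reverse, List.length_reverse] at h2
  have hl := parts_len z
  exact ⟨_, by nlinarith, Ev.seq h (Ev.seq h1 h2)⟩

theorem PT.snd : PolyTime sndB := by
  refine PT.un (parse ;; clr 1) 20 1 fun z => ?_
  obtain ⟨t, ht, h⟩ := ev_parse z
  have h1 := ev_clr1 0 (sndB z) (fstB z).reverse [] []
  simp only [List.length_reverse] at h1
  have hl := parts_len z
  exact ⟨_, by nlinarith, Ev.seq h h1⟩

end Crest.Agent.CHR
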