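import Crest.Agent.CHR.PhamBase

set_option autoImplicit false

namespace Crest.Agent.CHR.Pham

open MvPolynomial Finset

variable {σ : Type} [Fintype σ] [DecidableEq σ]

omit [DecidableEq σ] in
private theorem pA1_coeff {f : MvPolynomial σ ℂ} {d : σ →₀ ℕ} (h : f.totalDegree < ∑ j, d j) :
    coeff d f = 0 := by
  refine coeff_eq_zero_of_totalDegree_lt ?_
  have : ∑ i ∈ d.support, d i = ∑ j, d j := by
    refine Finset.sum_subset (Finset.subset_univ _) fun i _ hi => ?_
    simpa using hi
  rwa [this]

omit [Fintype σ] [DecidableEq σ] in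
private theorem pA1_deg {m : σ → ℕ} {q : σ → MvPolynomial σ ℂ}
    (hdeg : ∀ j, (q j).totalDegree < m j) (j : σ) (K : ℕ) :
    (∑ k ∈ range (K + 1), q j ^ k * X j ^ (m j * (K - k))).totalDegree ≤ m j * K := by
  refine totalDegree_finsetSum_le fun k hk => ?_
  have hk' : k ≤ K := by
    have := Finset.mem_range.1 hk
    omega
  refine (totalDegree_mul _ _).trans ?_
  have h1 : (q j ^ k).totalDegree ≤ k * m j :=
    (totalDegree_pow _ _).trans (Nat.mul_le_mul_left _ (hdeg j).le)
  have h2 : ((X j : MvPolynomial σ ℂ) ^ (m j * (K - k))).totalDegree ≤ m j * (K - k) := by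
    rw [totalDegree_X_pow]
  calc _ ≤ k * m j + m j * (K - k) := add_le_add h1 h2
    _ = m j * (k + (K - k)) := by ring
    _ = m j * K := by rw [Nat.add_sub_cancel' hk']

/-- CHUNK R316-PHAMA1: the truncated residue is stable. -/
theorem res_succ {m : σ → ℕ} {q : σ → MvPolynomial σ ℂ} (h : Sys m q) (g : MvPolynomial σ ℂ)
    (K : ℕ) (hg : g.totalDegree ≤ K + ∑ j, (m j - 1)) :
    res m q (K + 1) g = res m q K g := by
  set D : σ → MvPolynomial σ ℂ := fun j =>
    ∑ k ∈ range (K + 1), q j ^ k * X j ^ (m j * (K - k)) with hD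
  have hstep : ∀ j, ∑ k ∈ range (K + 1 + 1), q j ^ k * X j ^ (m j * (K + 1 - k)) =
      X j ^ m j * D j + q j ^ (K + 1) := by
    intro j
    rw [Finset.sum_range_succ, Nat.sub_self, mul_zero, pow_zero, mul_one, hD, Finset.mul_sum]
    congr 1
    refine Finset.sum_congr rfl fun k hk => ?_
    have hk' : k ≤ K := by
      have := Finset.mem_range.1 hk
      omega
    have : m j * (K + 1 - k) = m j + m j * (K - k) := by
      rw [Nat.succ_sub hk', Nat.succ_eq_add_one]
      ring
    rw [this, pow_add]
    ring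
  have hden : den m q (K + 1) = ∑ T ∈ (univ : Finset σ).powerset,
      (∏ j ∈ T, (X j ^ m j * D j)) * ∏ j ∈ univ \ T, q j ^ (K + 1) := by
    unfold den
    rw [Finset.prod_congr rfl fun j _ => hstep j, Finset.prod_add]
  have hdenK : den m q K = ∏ j, D j := rfl
  unfold res
  rw [hden, Finset.mul_sum, coeff_sum,
    Finset.sum_eq_single_of_mem (univ : Finset σ) (Finset.mem_powerset_self _)]
  · -- the main term
    rw [Finset.sdiff_self, Finset.prod_empty, mul_one, Finset.prod_mul_distrib, hdenK]
    have h1 : ∏ j : σ, (X j : MvPolynomial σ ℂ) ^ m j =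
        monomial (Finsupp.equivFunOnFinite.symm m) (1 : ℂ) := by
      rw [monomial_eq, C_1, one_mul, Finsupp.prod_fintype _ _ (fun i => by simp)]
      rfl
    have h2 : topE m (K + 1) = Finsupp.equivFunOnFinite.symm m + topE m K := by
      ext j
      have := h.pos j
      simp only [topE_apply, Finsupp.add_apply, Finsupp.equivFunOnFinite_symm_apply_apply]
      rw [mul_add, mul_one]
      omega
    rw [h1, h2]
    have h3 : g * (monomial (Finsupp.equivFunOnFinite.symm m) (1 : ℂ) * ∏ j, D j) =
        monomial (Finsupp.equivFunOnFinite.symm m) (1 : ℂ) * (g * ∏ j, D j) := by ring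
    rw [h3, coeff_monomial_mul, one_mul]
  · -- the other terms
    intro T _ hT
    refine pA1_coeff ?_
    have hne : (univ \ T).Nonempty := by
      rw [Finset.sdiff_nonempty]
      intro hsub
      exact hT (Finset.eq_univ_iff_forall.2 fun x => hsub (Finset.mem_univ x))
    have hcard : 1 ≤ (univ \ T).card := hne.card_pos
    have d1 : (∏ j ∈ T, (X j ^ m j * D j)).totalDegree ≤ ∑ j ∈ T, m j * (K + 1) := by
      refine (totalDegree_finsetProd _ _).trans (Finset.sum_le_sum fun j _ => ?_)
      refine (totalDegree_mul _ _).trans ?_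
      have e1 : ((X j : MvPolynomial σ ℂ) ^ m j).totalDegree = m j := totalDegree_X_pow _ _
      have e2 := pA1_deg h.deg j K
      rw [e1, mul_add, mul_one]
      have e3 : (D j).totalDegree ≤ m j * K := e2
      omega
    have d2 : (∏ j ∈ univ \ T, q j ^ (K + 1)).totalDegree ≤
        ∑ j ∈ univ \ T, (K + 1) * (m j - 1) := by
      refine (totalDegree_finsetProd _ _).trans (Finset.sum_le_sum fun j _ => ?_)
      refine (totalDegree_pow _ _).trans (Nat.mul_le_mul_left _ ?_)
      have := h.deg j
      omega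
    have d3 := (totalDegree_mul g ((∏ j ∈ T, (X j ^ m j * D j)) *
      ∏ j ∈ univ \ T, q j ^ (K + 1))).trans (Nat.add_le_add_left ((totalDegree_mul _ _).trans
        (Nat.add_le_add d1 d2)) _)
    refine lt_of_le_of_lt d3 ?_
    have s1 : ∑ j, topE m (K + 1) j = ∑ j, m j * (K + 1) + ∑ j, (m j - 1) := by
      rw [← Finset.sum_add_distrib]
      refine Finset.sum_congr rfl fun j _ => ?_
      have := h.pos j
      rw [topE_apply]
      omega
    have s2 : ∑ j, m j * (K + 1) = ∑ j ∈ T, m j * (K + 1) + ∑ j ∈ univ \ T, m j * (K + 1) := by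
      rw [add_comm (∑ j ∈ T, m j * (K + 1))]
      exact (Finset.sum_sdiff (Finset.subset_univ T)).symm
    have s3 : ∑ j ∈ univ \ T, m j * (K + 1) =
        ∑ j ∈ univ \ T, (K + 1) * (m j - 1) + (univ \ T).card * (K + 1) := by
      rw [← smul_eq_mul (a := (univ \ T).card), ← Finset.sum_const, ← Finset.sum_add_distrib]
      refine Finset.sum_congr rfl fun j _ => ?_
      have := h.pos j
      obtain ⟨n, hn⟩ : ∃ n, m j = n + 1 := ⟨m j - 1, by omega⟩
      rw [hn]
      simp only [Nat.add_sub_cancel]
      ring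
    rw [s1, s2, s3]
    have s4 : K + 1 ≤ (univ \ T).card * (K + 1) := Nat.le_mul_of_pos_left _ hcard
    omega

end Crest.Agent.CHR.Pham
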