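import Crest.Agent.CHR.PhamBase

set_option autoImplicit false

namespace Crest.Agent.CHR.Pham

open MvPolynomial Finset

variable {σ : Type} [Fintype σ] [DecidableEq σ]

omit [DecidableEq σ] in
private theorem pA2_coeff {f : MvPolynomial σ ℂ} {d : σ →₀ ℕ} (h : f.totalDegree < ∑ j, d j) :
    coeff d f = 0 := by
  refine coeff_eq_zero_of_totalDegree_lt ?_
  have : ∑ i ∈ d.support, d i = ∑ j, d j := by
    refine Finset.sum_subset (Finset.subset_univ _) fun i _ hi => ?_
    simpa using hi
  rwa [this]

omit [Fintype σ] [DecidableEq σ] in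
private theorem pA2_deg {m : σ → ℕ} {q : σ → MvPolynomial σ ℂ}
    (hdeg : ∀ j, (q j).totalDegree < m j) (j : σ) (K : ℕ) :
    (∑ k ∈ range (K + 1), q j ^ k * X j ^ (m j * (K - k))).totalDegree ≤ m j * K := by
  refine totalDegree_finsetSum_le fun k hk => ?_
  have hk' : k ≤ K := by
    have := Finset.mem_range.1 hk
    omega
  refine (totalDegree_mul _ _).trans ?_
  have h1 : (q j ^ k).totalDegree ≤ k * m j :=
    (totalDegree_pow _ _).trans (Nat.mul_le_mul_left _ (hdeg j).le)
  have h2 : ((X j : MvPolynomial σ ℂ) ^ (m j * (K - k))).totalDegree ≤ m j * (K - k) := by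
    rw [totalDegree_X_pow]
  calc _ ≤ k * m j + m j * (K - k) := add_le_add h1 h2
    _ = m j * (k + (K - k)) := by ring
    _ = m j * K := by rw [Nat.add_sub_cancel' hk']

/-- CHUNK R316-PHAMA2: the truncated residue kills multiples of the equations. -/
theorem res_mul_eq {m : σ → ℕ} {q : σ → MvPolynomial σ ℂ} (h : Sys m q) (g : MvPolynomial σ ℂ)
    (K : ℕ) (hg : g.totalDegree < K) (i : σ) :
    res m q K (g * (X i ^ m i - q i)) = 0 := by
  set D : σ → MvPolynomial σ ℂ := fun j =>
    ∑ k ∈ range (K + 1), q j ^ k * X j ^ (m j * (K - k)) with hD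
  set rest : MvPolynomial σ ℂ := ∏ j ∈ univ.erase i, D j with hrest
  have hden : den m q K = D i * rest := (Finset.mul_prod_erase univ D (Finset.mem_univ i)).symm
  have hgeo : (X i ^ m i - q i) * D i = X i ^ (m i * (K + 1)) - q i ^ (K + 1) := by
    have h1 := geom_sum₂_mul (q i) ((X i : MvPolynomial σ ℂ) ^ m i) (K + 1)
    have h2 : D i = ∑ k ∈ range (K + 1), q i ^ k * (X i ^ m i) ^ (K + 1 - 1 - k) := by
      rw [hD]
      refine Finset.sum_congr rfl fun k _ => ?_
      rw [← pow_mul]
      rfl
    rw [← h2] at h1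
    rw [pow_mul]
    linear_combination -h1
  have hsplit : g * (X i ^ m i - q i) * den m q K =
      (g * rest) * X i ^ (m i * (K + 1)) - g * (q i ^ (K + 1) * rest) := by
    rw [hden]
    linear_combination (g * rest) * hgeo
  unfold res
  rw [hsplit, coeff_sub]
  have z1 : coeff (topE m K) ((g * rest) * X i ^ (m i * (K + 1))) = 0 := by
    rw [X_pow_eq_monomial, coeff_mul_monomial', if_neg]
    intro hle
    have h1 := hle i
    rw [Finsupp.single_eq_same, topE_apply, mul_add, mul_one] at h1
    have := h.pos i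
    omega
  have z2 : coeff (topE m K) (g * (q i ^ (K + 1) * rest)) = 0 := by
    refine pA2_coeff ?_
    have d1 : (q i ^ (K + 1)).totalDegree ≤ (K + 1) * (m i - 1) := by
      refine (totalDegree_pow _ _).trans (Nat.mul_le_mul_left _ ?_)
      have := h.deg i
      omega
    have d2 : rest.totalDegree ≤ ∑ j ∈ univ.erase i, m j * K :=
      (totalDegree_finsetProd _ _).trans (Finset.sum_le_sum fun j _ => pA2_deg h.deg j K)
    have d3 := (totalDegree_mul g (q i ^ (K + 1) * rest)).trans
      (Nat.add_le_add_left ((totalDegree_mul _ _).trans (Nat.add_le_add d1 d2)) _)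
    refine lt_of_le_of_lt d3 ?_
    have s1 : ∑ j, topE m K j = topE m K i + ∑ j ∈ univ.erase i, topE m K j :=
      (Finset.add_sum_erase univ _ (Finset.mem_univ i)).symm
    have s2 : ∑ j ∈ univ.erase i, m j * K ≤ ∑ j ∈ univ.erase i, topE m K j := by
      refine Finset.sum_le_sum fun j _ => ?_
      have := h.pos j
      rw [topE_apply]
      omega
    have s3 : (K + 1) * (m i - 1) + K = topE m K i := by
      rw [topE_apply]
      obtain ⟨n, hn⟩ : ∃ n, m i = n + 1 := ⟨m i - 1, by have := h.pos i; omega⟩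
      rw [hn]
      simp only [Nat.add_sub_cancel]
      have : (n + 1) * K + (n + 1) - 1 = (n + 1) * K + n := by omega
      rw [this]
      ring
    rw [s1]
    omega
  rw [z1, z2, sub_zero]

end Crest.Agent.CHR.Pham
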