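import Crest.Agent.CHR.PhamA1
import Crest.Agent.CHR.PhamA2

set_option autoImplicit false

namespace Crest.Agent.CHR.Pham

open MvPolynomial Finset

variable {σ : Type} [Fintype σ] [DecidableEq σ]

private theorem res_stable {m : σ → ℕ} {q : σ → MvPolynomial σ ℂ} (h : Sys m q)
    (g : MvPolynomial σ ℂ) {K K' : ℕ} (hg : g.totalDegree ≤ K + ∑ j, (m j - 1)) (hK : K ≤ K') :
    res m q K' g = res m q K g := by
  induction K', hK using Nat.le_induction with
  | base => rfl
  | succ n hn ih =>
    rw [res_succ h g n (by omega), ih]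

omit [DecidableEq σ] in
private theorem res_add (m : σ → ℕ) (q : σ → MvPolynomial σ ℂ) (K : ℕ) (f g : MvPolynomial σ ℂ) :
    res m q K (f + g) = res m q K f + res m q K g := by
  unfold res
  rw [add_mul, coeff_add]

omit [DecidableEq σ] in
private theorem res_smul (m : σ → ℕ) (q : σ → MvPolynomial σ ℂ) (K : ℕ) (c : ℂ)
    (g : MvPolynomial σ ℂ) : res m q K (c • g) = c * res m q K g := by
  unfold res
  rw [smul_mul_assoc, coeff_smul, smul_eq_mul]

/-- CHUNK R316-PHAMA3: the residue functional on the quotient algebra.
PROOF.  By `res_succ`, `res m q K g` is independent of `K` as long as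
`g.totalDegree ≤ K + ∑ (m_j-1)`.  Define `ρ₀ g = res m q g.totalDegree g`; it is linear
(`res m q K` is linear for fixed `K`, take a common large `K`; `totalDegree_add`,
`totalDegree_smul_le`).
It vanishes on `idl m q`: `Submodule.span_induction` (elements `g * f_i`: use `res_mul_eq` with large
`K`), so it factors through the quotient (`Submodule.liftQ` after restricting scalars, or
`Ideal.Quotient`...). -/
theorem exists_Res {m : σ → ℕ} {q : σ → MvPolynomial σ ℂ} (h : Sys m q) :
    ∃ ρ : (MvPolynomial σ ℂ ⧸ idl m q) →ₗ[ℂ] ℂ, ∀ (g : MvPolynomial σ ℂ) (K : ℕ),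
      g.totalDegree ≤ K + ∑ j, (m j - 1) → ρ (Ideal.Quotient.mk (idl m q) g) = res m q K g := by
  -- the functional with a large truncation
  have key : ∀ (g : MvPolynomial σ ℂ) (K : ℕ), g.totalDegree ≤ K →
      res m q g.totalDegree g = res m q K g := fun g K hK =>
    (res_stable h g (by omega) hK).symm
  let ρ₀ : MvPolynomial σ ℂ →ₗ[ℂ] ℂ :=
    { toFun := fun g => res m q g.totalDegree g
      map_add' := by
        intro f g
        set K := max (max f.totalDegree g.totalDegree) (f + g).totalDegree with hK
        rw [key f K (by omega), key g K (by omega), key (f + g) K (by omega), res_add]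
      map_smul' := by
        intro c g
        set K := max g.totalDegree (c • g).totalDegree with hK
        rw [key g K (by omega), key (c • g) K (by omega), res_smul]
        rfl }
  have hρ₀ : ∀ g, ρ₀ g = res m q g.totalDegree g := fun _ => rfl
  have hvan : ∀ x ∈ idl m q, ∀ g : MvPolynomial σ ℂ, ρ₀ (g * x) = 0 := by
    intro x hx
    refine Submodule.span_induction (p := fun x _ => ∀ g : MvPolynomial σ ℂ, ρ₀ (g * x) = 0)
      ?_ ?_ ?_ ?_ hx
    · rintro _ ⟨i, rfl⟩ g
      change ρ₀ (g * (X i ^ m i - q i)) = 0
      rw [hρ₀]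
      set K := max (g.totalDegree + 1) (g * (X i ^ m i - q i)).totalDegree with hK
      rw [key _ K (by omega)]
      exact res_mul_eq h g K (by omega) i
    · intro g
      rw [mul_zero, map_zero]
    · intro x y _ _ hx hy g
      rw [mul_add, map_add, hx, hy, add_zero]
    · intro a x _ hx g
      rw [smul_eq_mul, ← mul_assoc]
      exact hx _
  have hker : (idl m q).restrictScalars ℂ ≤ LinearMap.ker ρ₀ := by
    intro x hx
    rw [LinearMap.mem_ker]
    have := hvan x hx 1
    rwa [one_mul] at this
  refine ⟨(Submodule.liftQ ((idl m q).restrictScalars ℂ) ρ₀ hker) ∘ₗ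
    (Submodule.Quotient.restrictScalarsEquiv ℂ (idl m q)).symm.toLinearMap, fun g K hK => ?_⟩
  have h1 : res m q K g = ρ₀ g := by
    rw [hρ₀]
    rcases le_total K g.totalDegree with h2 | h2
    · exact (res_stable h g hK h2).symm
    · exact res_stable h g (by omega) h2
  rw [h1]
  rfl

end Crest.Agent.CHR.Pham
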