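import Crest.Agent.CHR.PhamBase

set_option autoImplicit false

namespace Crest.Agent.CHR.Pham

open MvPolynomial Finset

variable {σ : Type} [Fintype σ] [DecidableEq σ]

/-- all monomials have degree `+ 1 < d` -/
def BLow (d : ℕ) (p : MvPolynomial (σ ⊕ σ) ℂ) : Prop := ∀ s ∈ p.support, s.degree + 1 < d

omit [Fintype σ] in
theorem BLow.add {d : ℕ} {p q : MvPolynomial (σ ⊕ σ) ℂ} (hp : BLow d p) (hq : BLow d q) : BLow d (p + q) := by
  intro s hs
  rcases Finset.mem_union.mp (MvPolynomial.support_add hs) with h | h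
  · exact hp s h
  · exact hq s h

omit [Fintype σ] [DecidableEq σ] in
theorem BLow.zero {d : ℕ} : BLow d (0 : MvPolynomial (σ ⊕ σ) ℂ) := by
  intro s hs; simp at hs

omit [Fintype σ] [DecidableEq σ] in
theorem BLow.mono {d e : ℕ} {p : MvPolynomial (σ ⊕ σ) ℂ} (h : d ≤ e) (hp : BLow d p) : BLow e p := by
  intro s hs; exact lt_of_lt_of_le (hp s hs) h

omit [Fintype σ] [DecidableEq σ] in
theorem BLow.X_mul {d : ℕ} {p : MvPolynomial (σ ⊕ σ) ℂ} (i : σ ⊕ σ) (hp : BLow d p) : BLow (d + 1) (X i * p) := by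
  intro s hs
  rw [MvPolynomial.support_X_mul, Finset.mem_map] at hs
  obtain ⟨t, ht, rfl⟩ := hs
  have := hp t ht
  simp only [addLeftEmbedding_apply, map_add, Finsupp.degree_single]
  omega

/-- the statement for one polynomial -/
def BQ (f : MvPolynomial σ ℂ) (d : ℕ) : Prop :=
    ∃ θ : σ → MvPolynomial (σ ⊕ σ) ℂ,
      rename Sum.inl f - rename Sum.inr f = ∑ j, θ j * (X (Sum.inl j) - X (Sum.inr j)) ∧
      (∀ j, aeval (Sum.elim X X : σ ⊕ σ → MvPolynomial σ ℂ) (θ j) = pderiv j f) ∧
      (∀ j, BLow d (θ j))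

omit [DecidableEq σ] in
theorem BQ.C (a : ℂ) (d : ℕ) : BQ (C a : MvPolynomial σ ℂ) d := by
  refine ⟨fun _ => 0, by simp, by simp, fun _ => BLow.zero⟩

theorem BQ.add {f g : MvPolynomial σ ℂ} {d : ℕ} (hf : BQ f d) (hg : BQ g d) : BQ (f + g) d := by
  obtain ⟨θ, h1, h2, h3⟩ := hf
  obtain ⟨η, k1, k2, k3⟩ := hg
  refine ⟨fun j => θ j + η j, ?_, ?_, ?_⟩
  · simp only [map_add, add_mul, Finset.sum_add_distrib, ← h1, ← k1]; ring
  · intro j; rw [map_add, map_add, h2, k2]
  · intro j; exact (h3 j).add (k3 j)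

theorem BQ.X_mul {α : σ →₀ ℕ} {a : ℂ} {d : ℕ} (k : σ) (hα : α.degree < d) (hf : BQ (monomial α a) d) :
    BQ (X k * monomial α a) (d + 1) := by
  obtain ⟨θ, h1, h2, h3⟩ := hf
  refine ⟨fun j => X (Sum.inl k) * θ j + if j = k then rename Sum.inr (monomial α a) else 0, ?_, ?_, ?_⟩
  · simp only [add_mul, Finset.sum_add_distrib, ite_mul, zero_mul, Finset.sum_ite_eq', Finset.mem_univ, if_true,
      mul_assoc, ← Finset.mul_sum, ← h1, map_mul, rename_X]
    ring
  · intro j
    rw [map_add, map_mul, h2, aeval_X, Sum.elim_inl, pderiv_mul, pderiv_X]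
    by_cases hjk : j = k
    · subst hjk
      rw [if_pos rfl, aeval_rename]
      have : (Sum.elim X X ∘ Sum.inr : σ → MvPolynomial σ ℂ) = X := by funext i; rfl
      rw [this, aeval_X_left]
      simp [add_comm]
    · rw [if_neg hjk, map_zero, Pi.single_eq_of_ne (Ne.symm hjk)]
      simp
  · intro j
    refine BLow.add ((h3 j).X_mul _) ?_
    split_ifs with hjk
    · intro s hs
      rw [rename_monomial] at hs
      have := Finset.mem_singleton.mp (support_monomial_subset hs)
      subst this
      rw [Finsupp.degree_mapDomain]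
      omega
    · exact BLow.zero

theorem BQ.monomial (n : ℕ) : ∀ (α : σ →₀ ℕ) (a : ℂ), α.degree = n → BQ (monomial α a) (n + 1) := by
  induction n with
  | zero =>
    intro α a h
    have : α = 0 := by
      rwa [Finsupp.degree_eq_zero_iff] at h
    subst this
    exact BQ.C a _
  | succ n ih =>
    intro α a h
    have hne : α ≠ 0 := by
      rintro rfl
      simp at h
    obtain ⟨k, hk⟩ := Finsupp.ne_iff.mp hne
    simp only [Finsupp.coe_zero, Pi.zero_apply] at hk
    have hα : Finsupp.single k 1 + (α - Finsupp.single k 1) = α := by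
      apply add_tsub_cancel_of_le
      rw [Finsupp.single_le_iff]
      omega
    have hdeg : (α - Finsupp.single k 1).degree = n := by
      have := congrArg Finsupp.degree hα
      rw [map_add, Finsupp.degree_single, h] at this
      omega
    have h2 := (ih (α - Finsupp.single k 1) a hdeg).X_mul k (by omega)
    have h3 : X k * MvPolynomial.monomial (α - Finsupp.single k 1) a = MvPolynomial.monomial α a := by
      rw [X, monomial_mul, one_mul, hα]
    rw [h3] at h2
    exact h2

theorem BQ.all (f : MvPolynomial σ ℂ) (d : ℕ) (hf : f.totalDegree < d) : BQ f d := by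
  have h : ∀ S : Finset (σ →₀ ℕ), S ⊆ f.support → BQ (∑ v ∈ S, MvPolynomial.monomial v (coeff v f)) d := by
    intro S
    induction S using Finset.induction_on with
    | empty => intro _; simpa using BQ.C (σ := σ) 0 d
    | insert v S hv ih =>
      intro hS
      rw [Finset.sum_insert hv]
      refine BQ.add ?_ (ih fun x hx => hS (Finset.mem_insert_of_mem hx))
      have hv1 : v.degree ≤ f.totalDegree := by
        have := MvPolynomial.le_totalDegree (hS (Finset.mem_insert_self v S))
        rw [Finsupp.degree_eq_sum]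
        simpa [Finsupp.sum_fintype] using this
      obtain ⟨θ, h1, h2, h3⟩ := BQ.monomial v.degree v (coeff v f) rfl
      exact ⟨θ, h1, h2, fun j => (h3 j).mono (by omega)⟩
  have := h f.support (Finset.Subset.refl _)
  rwa [MvPolynomial.support_sum_monomial_coeff] at this

/-- CHUNK R316-PHAMB1: difference quotients of a polynomial.  `Sum.inl j` is the variable `x_j`,
`Sum.inr j` the variable `y_j`.
PROOF.  First for monomials, by induction on the exponent (`Finsupp` induction, one variable at a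
time): for `f = 1` take `θ = 0`; if `θ` works for `x^α`, then for `x^α x_k` take
`θ'_j = x_k θ_j + [j = k] y^α`, because `x^α x_k - y^α y_k = x_k (x^α - y^α) + y^α (x_k - y_k)`; all
monomials of `θ'_j` have degree `= |α| ` (so `degree + 1 = |α| + 1 = deg (x^α x_k)`), and
`θ'_j(x,x) = x_k ∂_j x^α + [j=k] x^α = ∂_j (x^α x_k)`.  Then sums over the monomials of `f`
(all have degree `< d`). -/
theorem exists_bez (f : MvPolynomial σ ℂ) (d : ℕ) (hf : f.totalDegree < d) :
    ∃ θ : σ → MvPolynomial (σ ⊕ σ) ℂ,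
      rename Sum.inl f - rename Sum.inr f = ∑ j, θ j * (X (Sum.inl j) - X (Sum.inr j)) ∧
      (∀ j, aeval (Sum.elim X X : σ ⊕ σ → MvPolynomial σ ℂ) (θ j) = pderiv j f) ∧
      (∀ j, ∀ s ∈ (θ j).support, s.degree + 1 < d) := BQ.all f d hf

end Crest.Agent.CHR.Pham
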