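import Crest.Agent.CHR.PhamBase

set_option autoImplicit false
set_option linter.unusedSectionVars false

namespace Crest.Agent.CHR.Pham

open MvPolynomial Finset

variable {σ : Type} [Fintype σ] [DecidableEq σ] {τ : Type}

/-- only monomials of degree `< n` -/
private def phLow (f : MvPolynomial τ ℂ) (n : ℕ) : Prop := ∀ s : τ →₀ ℕ, n ≤ s.degree → coeff s f = 0

private theorem phLow_mono {f : MvPolynomial τ ℂ} {n n' : ℕ} (h : n ≤ n') (hf : phLow f n) :
    phLow f n' := fun s hs => hf s (h.trans hs)

private theorem phLow_zero (n : ℕ) : phLow (0 : MvPolynomial τ ℂ) n := fun s _ => by simp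

private theorem phLow_add {f g : MvPolynomial τ ℂ} {n : ℕ} (hf : phLow f n) (hg : phLow g n) :
    phLow (f + g) n := fun s hs => by rw [coeff_add, hf s hs, hg s hs, add_zero]

private theorem phLow_sum {ι : Type} (t : Finset ι) (f : ι → MvPolynomial τ ℂ) (n : ℕ)
    (hf : ∀ i ∈ t, phLow (f i) n) : phLow (∑ i ∈ t, f i) n := fun s hs => by
  rw [coeff_sum]
  exact Finset.sum_eq_zero (fun i hi => hf i hi s hs)

private theorem phLow_mul {f g : MvPolynomial τ ℂ} {n k : ℕ} (hf : phLow f n)
    (hg : phLow g (k + 1)) : phLow (f * g) (n + k) := by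
  classical
  intro s hs
  rw [coeff_mul]
  apply Finset.sum_eq_zero
  rintro ⟨s1, s2⟩ h
  rw [Finset.HasAntidiagonal.mem_antidiagonal] at h
  simp only at h ⊢
  have hd : s1.degree + s2.degree = s.degree := by rw [← h, map_add]
  rcases Nat.lt_or_ge s1.degree n with h1 | h1
  · rw [hg s2 (by omega), mul_zero]
  · rw [hf s1 h1, zero_mul]

private theorem phLow_units {f : MvPolynomial τ ℂ} {n : ℕ} (u : ℤˣ) (hf : phLow f n) :
    phLow (u • f) n := by
  intro s hs
  rcases Int.units_eq_one_or u with rfl | rfl
  · rw [one_smul]; exact hf s hs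
  · rw [Units.neg_smul, one_smul, coeff_neg, hf s hs, neg_zero]

private theorem phLow_one : phLow (1 : MvPolynomial τ ℂ) 1 := by
  classical
  intro s hs
  rw [coeff_one, if_neg]
  rintro rfl
  simp at hs

private theorem phLow_prod_le {ι : Type} [DecidableEq ι] (t : Finset ι)
    (f : ι → MvPolynomial τ ℂ) (d : ι → ℕ) (hf : ∀ i ∈ t, phLow (f i) (d i + 1)) :
    phLow (∏ i ∈ t, f i) (∑ i ∈ t, d i + 1) := by
  induction t using Finset.induction_on with
  | empty => simpa using phLow_one
  | insert i t hi ih =>
    rw [Finset.prod_insert hi, Finset.sum_insert hi]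
    have h1 := phLow_mul (hf i (Finset.mem_insert_self i t))
      (ih (fun j hj => hf j (Finset.mem_insert_of_mem hj)))
    exact phLow_mono (by omega) h1

private theorem phLow_prod_lt {ι : Type} [DecidableEq ι] (t : Finset ι)
    (f : ι → MvPolynomial τ ℂ) (d : ι → ℕ) (hf : ∀ i ∈ t, phLow (f i) (d i + 1)) (i : ι)
    (hi : i ∈ t) (hfi : phLow (f i) (d i)) : phLow (∏ i ∈ t, f i) (∑ i ∈ t, d i) := by
  rw [← Finset.mul_prod_erase t f hi, ← Finset.add_sum_erase t d hi]
  exact phLow_mul hfi (phLow_prod_le _ f d (fun j hj => hf j (Finset.mem_of_mem_erase hj)))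

/-- CHUNK R316-PHAMB2 (first half): degree of a determinant.
PROOF. `Matrix.det_apply`; `totalDegree_finset_prod_le`, `totalDegree_finset_sum_le` ...; for a
permutation `p`, `∏_i N (p i) i` has degree `≤ ∑_i d (p i) = ∑ d`. -/
theorem det_totalDegree (N : Matrix σ σ (MvPolynomial τ ℂ)) (d : σ → ℕ)
    (hN : ∀ i j, (N i j).totalDegree ≤ d i) : (Matrix.det N).totalDegree ≤ ∑ i, d i := by
  rw [Matrix.det_apply]
  apply totalDegree_finsetSum_le
  intro p _
  have h1 : (∏ i, N (p i) i).totalDegree ≤ ∑ i, d i := by
    refine (totalDegree_finsetProd _ _).trans ?_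
    rw [← Equiv.sum_comp p d]
    exact Finset.sum_le_sum (fun i _ => hN (p i) i)
  rcases Int.units_eq_one_or (Equiv.Perm.sign p) with h | h
  · rw [h, one_smul]; exact h1
  · rw [h, Units.neg_smul, one_smul, totalDegree_neg]; exact h1

/-- CHUNK R316-PHAMB2 (second half): top coefficient of a determinant with a diagonal leading part.
PROOF. `Matrix.det_apply`.  For a permutation `p ≠ 1` the product `∏_i N (p i) i` contains at least
one entry off the diagonal (degree `< d`), all others have degree `≤ d (p i)`, so all its monomials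
have degree `< ∑ d`, coefficient `0`.  For `p = 1`: `∏_i (c_i X^{a_i} + E_ii)`; expand
(`Finset.prod_add` or induction over the finset): `∏_i c_i X^{a_i}` + terms with all monomials of
degree `< ∑ d`. -/
theorem det_coeff_top (N : Matrix σ σ (MvPolynomial τ ℂ)) (a : σ → τ →₀ ℕ) (c : σ → ℂ)
    (E : Matrix σ σ (MvPolynomial τ ℂ))
    (hN : ∀ i j, N i j = (if i = j then monomial (a i) (c i) else 0) + E i j)
    (hE : ∀ i j, ∀ s ∈ (E i j).support, s.degree < (a i).degree) :
    coeff (∑ i, a i) (Matrix.det N) = ∏ i, c i := by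
  classical
  have hElow : ∀ i j, phLow (E i j) (a i).degree := by
    intro i j s hs
    by_contra h
    exact absurd (hE i j s (mem_support_iff.mpr h)) (by omega)
  have hmon : ∀ i, phLow (monomial (a i) (c i)) ((a i).degree + 1) := by
    intro i s hs
    rw [coeff_monomial, if_neg]
    rintro rfl
    omega
  have hNle : ∀ i j, phLow (N i j) ((a i).degree + 1) := by
    intro i j
    rw [hN]
    apply phLow_add
    · split_ifs
      · exact hmon i
      · exact phLow_zero _
    · exact phLow_mono (Nat.le_succ _) (hElow i j)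
  have hdeg : (∑ i, a i).degree = ∑ i, (a i).degree := map_sum _ _ _
  -- the terms with `p ≠ 1`
  have hne : ∀ p : Equiv.Perm σ, p ≠ 1 →
      coeff (∑ i, a i) (Equiv.Perm.sign p • ∏ i, N (p i) i) = 0 := by
    intro p hp
    obtain ⟨i, hi⟩ : ∃ i, p i ≠ i := by
      by_contra h
      push Not at h
      exact hp (Equiv.ext h)
    have h1 : phLow (∏ i, N (p i) i) (∑ i, (a (p i)).degree) := by
      apply phLow_prod_lt Finset.univ (fun i => N (p i) i) (fun i => (a (p i)).degree)
        (fun i _ => hNle _ _) i (Finset.mem_univ i)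
      simp only [hN, if_neg hi, zero_add]
      exact hElow _ _
    rw [Equiv.sum_comp p (fun i => (a i).degree)] at h1
    exact phLow_units _ h1 _ hdeg.ge
  -- the diagonal term
  have hdiag : ∀ t : Finset σ, ∃ R : MvPolynomial τ ℂ, phLow R (∑ i ∈ t, (a i).degree) ∧
      ∏ i ∈ t, N i i = monomial (∑ i ∈ t, a i) (∏ i ∈ t, c i) + R := by
    intro t
    induction t using Finset.induction_on with
    | empty =>
      refine ⟨0, phLow_zero _, ?_⟩
      simp
    | insert i t hi ih =>
      obtain ⟨R, hR, he⟩ := ih
      refine ⟨monomial (a i) (c i) * R + E i i * (∏ j ∈ t, N j j), ?_, ?_⟩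
      · rw [Finset.sum_insert hi]
        apply phLow_add
        · have := phLow_mul hR (hmon i)
          rw [mul_comm, add_comm]
          exact this
        · exact phLow_mul (hElow i i) (phLow_prod_le t (fun j => N j j) (fun j => (a j).degree)
            (fun j _ => hNle j j))
      · rw [Finset.prod_insert hi, Finset.sum_insert hi, Finset.prod_insert hi, hN i i,
          if_pos rfl, add_mul, he, mul_add, monomial_mul]
        ring
  rw [Matrix.det_apply, coeff_sum, Finset.sum_eq_single (1 : Equiv.Perm σ)]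
  · obtain ⟨R, hR, he⟩ := hdiag Finset.univ
    simp only [Equiv.Perm.sign_one, one_smul, Equiv.Perm.coe_one, id_eq]
    rw [he, coeff_add, hR _ hdeg.ge, add_zero, coeff_monomial, if_pos rfl]
  · intro p _ hp
    exact hne p hp
  · intro h
    exact absurd (Finset.mem_univ _) h

end Crest.Agent.CHR.Pham
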