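import Crest.Agent.CHR.PhamB1
import Crest.Agent.CHR.PhamB2

set_option autoImplicit false

namespace Crest.Agent.CHR.Pham

open MvPolynomial Finset

variable {σ : Type} [Fintype σ] [DecidableEq σ]

omit [Fintype σ] [DecidableEq σ] in
theorem b3_degree_le {f : MvPolynomial σ ℂ} {s : σ →₀ ℕ} (h : s ∈ f.support) :
    s.degree ≤ f.totalDegree := le_totalDegree h

theorem b3_totalDegree_le {τ : Type} {f : MvPolynomial τ ℂ} {d : ℕ}
    (h : ∀ s ∈ f.support, s.degree ≤ d) : f.totalDegree ≤ d := Finset.sup_le h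

omit [Fintype σ] [DecidableEq σ] in
theorem b3_pderiv_degree {f : MvPolynomial σ ℂ} {j : σ} {s : σ →₀ ℕ}
    (h : s ∈ (pderiv j f).support) : s.degree + 1 ≤ f.totalDegree := by
  rw [mem_support_iff, coeff_pderiv] at h
  have h1 : s + Finsupp.single j 1 ∈ f.support := by
    rw [mem_support_iff]
    intro h0
    rw [h0] at h
    simp at h
  have := b3_degree_le h1
  simpa [Finsupp.degree_single] using this

omit [DecidableEq σ] in
theorem b3_topE_zero (m : σ → ℕ) : topE m 0 = ∑ i, Finsupp.single i (m i - 1) := by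
  ext j
  rw [Finsupp.finsetSum_apply, Finset.sum_eq_single j]
  · simp
  · intro i _ hij
    exact Finsupp.single_eq_of_ne (Ne.symm hij)
  · intro h0
    exact absurd (Finset.mem_univ j) h0

theorem b3_aeval_totalDegree {τ υ : Type} [Fintype τ] (φ : τ → MvPolynomial υ ℂ)
    (hφ : ∀ i, (φ i).totalDegree ≤ 1) (p : MvPolynomial τ ℂ) :
    (aeval φ p).totalDegree ≤ p.totalDegree := by
  rw [aeval_def, eval₂_eq']
  refine totalDegree_finsetSum_le fun t ht => ?_
  refine (totalDegree_mul _ _).trans ?_
  have h1 : ((algebraMap ℂ (MvPolynomial υ ℂ)) (coeff t p)).totalDegree = 0 := by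
    rw [MvPolynomial.algebraMap_eq]; exact totalDegree_C _
  rw [h1, zero_add]
  refine (totalDegree_finsetProd _ _).trans ?_
  refine le_trans ?_ (le_totalDegree ht)
  rw [Finsupp.sum_fintype _ _ (fun _ => rfl)]
  refine Finset.sum_le_sum fun i _ => ?_
  refine (totalDegree_pow _ _).trans ?_
  calc t i * (φ i).totalDegree ≤ t i * 1 := Nat.mul_le_mul_left _ (hφ i)
    _ = t i := mul_one _

theorem jac_totalDegree {m : σ → ℕ} {q : σ → MvPolynomial σ ℂ} (h : Sys m q) :
    (jac m q).totalDegree ≤ ∑ j, (m j - 1) := by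
  unfold jac
  refine det_totalDegree _ (fun i => m i - 1) ?_
  intro i j
  have h2 : (X i ^ m i - q i : MvPolynomial σ ℂ).totalDegree ≤ m i := by
    refine (totalDegree_sub _ _).trans ?_
    simp [totalDegree_X_pow, (h.deg i).le]
  refine b3_totalDegree_le ?_
  intro s hs
  have h3 := b3_pderiv_degree hs
  have h4 := h.pos i
  omega

theorem jac_coeff_top {m : σ → ℕ} {q : σ → MvPolynomial σ ℂ} (h : Sys m q) :
    coeff (topE m 0) (jac m q) = ∏ j, (m j : ℂ) := by
  rw [b3_topE_zero]
  unfold jac
  refine det_coeff_top _ (fun i => Finsupp.single i (m i - 1)) (fun i => (m i : ℂ))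
    (Matrix.of fun i j => - pderiv j (q i)) ?_ ?_
  · intro i j
    rw [map_sub, pderiv_pow, sub_eq_add_neg, Matrix.of_apply]
    congr 1
    by_cases hij : i = j
    · subst hij
      simp only [pderiv_X_self, mul_one, if_true]
      rw [X_pow_eq_monomial, ← map_natCast (C : ℂ →+* MvPolynomial σ ℂ), C_mul_monomial, mul_one]
    · rw [if_neg hij, pderiv_X_of_ne hij, mul_zero]
  · intro i j s hs
    rw [Matrix.of_apply, support_neg] at hs
    have h3 := b3_pderiv_degree hs
    have h4 := h.deg i
    rw [Finsupp.degree_single]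
    omega

theorem exists_Delta {m : σ → ℕ} {q : σ → MvPolynomial σ ℂ} (h : Sys m q) :
    ∃ Δ : MvPolynomial (σ ⊕ σ) ℂ,
      (∀ j, Δ * (X (Sum.inl j) - X (Sum.inr j)) ∈
        Ideal.span (Set.range (fun i => rename (Sum.inl : σ → σ ⊕ σ)
          (X i ^ m i - q i : MvPolynomial σ ℂ))) ⊔
        Ideal.span (Set.range (fun i => rename (Sum.inr : σ → σ ⊕ σ)
          (X i ^ m i - q i : MvPolynomial σ ℂ)))) ∧
      aeval (Sum.elim X X : σ ⊕ σ → MvPolynomial σ ℂ) Δ = jac m q ∧
      Δ.totalDegree ≤ ∑ j, (m j - 1) ∧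
      coeff (topE m 0) (aeval (Sum.elim (fun _ => 0) X : σ ⊕ σ → MvPolynomial σ ℂ) Δ) = 1 := by
  choose θ h1 h2 h3 using fun i => exists_bez (q i) (m i) (h.deg i)
  let G : σ → MvPolynomial (σ ⊕ σ) ℂ := fun i =>
    ∑ k ∈ range (m i), X (Sum.inl i) ^ k * X (Sum.inr i) ^ (m i - 1 - k)
  let Θ : Matrix σ σ (MvPolynomial (σ ⊕ σ) ℂ) :=
    Matrix.of fun i j => (if i = j then G i else 0) - θ i j
  have hG : ∀ i, G i * (X (Sum.inl i) - X (Sum.inr i)) =
      X (Sum.inl i) ^ m i - X (Sum.inr i) ^ m i := fun i => geom_sum₂_mul _ _ _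
  have hΘ : ∀ i, ∑ j, Θ i j * (X (Sum.inl j) - X (Sum.inr j)) =
      rename (Sum.inl : σ → σ ⊕ σ) (X i ^ m i - q i : MvPolynomial σ ℂ) -
      rename (Sum.inr : σ → σ ⊕ σ) (X i ^ m i - q i : MvPolynomial σ ℂ) := by
    intro i
    simp only [Θ, Matrix.of_apply, sub_mul, Finset.sum_sub_distrib]
    rw [← h1 i]
    simp only [ite_mul, zero_mul, Finset.sum_ite_eq, Finset.mem_univ, if_true]
    rw [hG i]
    simp only [map_sub, map_pow, rename_X]
    ring
  refine ⟨Θ.det, ?_, ?_, ?_, ?_⟩
  · intro j
    have hc : Θ.det * (X (Sum.inl j) - X (Sum.inr j)) =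
        ∑ i, Θ.adjugate j i * (rename (Sum.inl : σ → σ ⊕ σ) (X i ^ m i - q i : MvPolynomial σ ℂ) -
          rename (Sum.inr : σ → σ ⊕ σ) (X i ^ m i - q i : MvPolynomial σ ℂ)) := by
      have h5 : Θ.adjugate.mulVec (Θ.mulVec (fun j => X (Sum.inl j) - X (Sum.inr j))) j =
          Θ.det * (X (Sum.inl j) - X (Sum.inr j)) := by
        rw [Matrix.mulVec_mulVec, Matrix.adjugate_mul, Matrix.smul_mulVec, Matrix.one_mulVec,
          Pi.smul_apply, smul_eq_mul]
      rw [← h5]
      simp only [Matrix.mulVec, dotProduct]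
      refine Finset.sum_congr rfl fun i _ => ?_
      congr 1
      exact hΘ i
    rw [hc]
    refine Ideal.sum_mem _ fun i _ => ?_
    refine Ideal.mul_mem_left _ _ (Ideal.sub_mem _ ?_ ?_)
    · exact Ideal.mem_sup_left (Ideal.subset_span ⟨i, rfl⟩)
    · exact Ideal.mem_sup_right (Ideal.subset_span ⟨i, rfl⟩)
  · rw [AlgHom.map_det]
    unfold jac
    congr 1
    ext1 i j
    rw [AlgHom.mapMatrix_apply, Matrix.map_apply]
    simp only [Θ, Matrix.of_apply, map_sub, h2 i j]
    congr 1
    by_cases hij : i = j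
    · subst hij
      simp only [if_true, G, map_sum, map_mul, map_pow, aeval_X, Sum.elim_inl, Sum.elim_inr]
      rw [geom_sum₂_self, pderiv_pow, pderiv_X_self, mul_one]
    · rw [if_neg hij, map_zero, pderiv_pow, pderiv_X_of_ne hij, mul_zero]
  · refine det_totalDegree _ (fun i => m i - 1) ?_
    intro i j
    simp only [Θ, Matrix.of_apply]
    refine (totalDegree_sub _ _).trans (max_le ?_ ?_)
    · split_ifs with hij
      · refine totalDegree_finsetSum_le fun k hk => ?_
        refine (totalDegree_mul _ _).trans ?_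
        rw [totalDegree_X_pow, totalDegree_X_pow]
        have := Finset.mem_range.1 hk
        omega
      · simp
    · refine b3_totalDegree_le fun s hs => ?_
      have := h3 i j s hs
      omega
  · rw [b3_topE_zero, AlgHom.map_det]
    have h6 := det_coeff_top ((aeval (Sum.elim (fun _ => 0) X :
      σ ⊕ σ → MvPolynomial σ ℂ)).mapMatrix Θ) (fun i => Finsupp.single i (m i - 1)) (fun _ => (1 : ℂ))
      (Matrix.of fun i j => - aeval (Sum.elim (fun _ => 0) X : σ ⊕ σ → MvPolynomial σ ℂ) (θ i j))
      ?_ ?_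
    · rw [h6]; simp
    · intro i j
      rw [AlgHom.mapMatrix_apply, Matrix.map_apply]
      simp only [Θ, Matrix.of_apply, map_sub]
      rw [sub_eq_add_neg]
      congr 1
      by_cases hij : i = j
      · subst hij
        simp only [if_true, G, map_sum, map_mul, map_pow, aeval_X, Sum.elim_inl, Sum.elim_inr]
        rw [Finset.sum_eq_single 0]
        · simp [X_pow_eq_monomial]
        · intro k _ hk
          rw [zero_pow hk, zero_mul]
        · intro h0
          exact absurd (Finset.mem_range.2 (h.pos i)) h0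
      · rw [if_neg hij, if_neg hij, map_zero]
    · intro i j s hs
      rw [Matrix.of_apply, support_neg] at hs
      rw [Finsupp.degree_single]
      by_cases h0 : θ i j = 0
      · rw [h0, map_zero] at hs
        simp at hs
      · have h7 : (θ i j).totalDegree + 1 < m i := by
          obtain ⟨t, ht⟩ := (MvPolynomial.support_nonempty (p := θ i j)).2 h0
          have h8 := h3 i j t ht
          have h9 : (θ i j).totalDegree ≤ m i - 2 := b3_totalDegree_le fun s hs => by
            have := h3 i j s hs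
            omega
          omega
        have h10 := (b3_degree_le hs).trans (b3_aeval_totalDegree _ (by
          intro k
          cases k with
          | inl k => simp
          | inr k => simp) (θ i j))
        omega

end Crest.Agent.CHR.Pham
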