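import Mathlib

set_option autoImplicit false

namespace Crest.Agent.CHR.Pham

open scoped TensorProduct

section B4

variable (A : Type) [CommRing A] [Algebra ℂ A] (ρ : A →ₗ[ℂ] ℂ)

/-- `t ↦ (h ↦ (id ⊗ ρ)((1 ⊗ h) t))` -/
private noncomputable def B4E : A ⊗[ℂ] A →ₗ[ℂ] (A →ₗ[ℂ] A) :=
  (dualTensorHom ℂ A A) ∘ₗ
    (TensorProduct.map ((LinearMap.compRight ℂ ρ) ∘ₗ (LinearMap.mul ℂ A)) LinearMap.id) ∘ₗ
    (TensorProduct.comm ℂ A A).toLinearMap

private theorem B4E_tmul (u v h : A) : B4E A ρ (u ⊗ₜ v) h = ρ (v * h) • u := by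
  simp [B4E]

private theorem B4E_apply (t : A ⊗[ℂ] A) (h : A) :
    B4E A ρ t h = TensorProduct.rid ℂ A (LinearMap.lTensor A ρ (((1 : A) ⊗ₜ[ℂ] h) * t)) := by
  induction t using TensorProduct.induction_on with
  | zero => simp
  | tmul u v =>
    rw [B4E_tmul]
    simp [mul_comm]
  | add s t hs ht =>
    rw [map_add, LinearMap.add_apply, hs, ht, mul_add, map_add, map_add]

private theorem B4E_left (t : A ⊗[ℂ] A) (g : A) :
    TensorProduct.rid ℂ A (LinearMap.lTensor A ρ ((g ⊗ₜ[ℂ] (1 : A)) * t)) =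
      g * TensorProduct.rid ℂ A (LinearMap.lTensor A ρ t) := by
  induction t using TensorProduct.induction_on with
  | zero => simp
  | tmul u v => simp
  | add s t hs ht => rw [mul_add, map_add, map_add, hs, ht, map_add, map_add, mul_add]

private theorem B4E_range (t : A ⊗[ℂ] A) :
    FiniteDimensional ℂ (LinearMap.range (B4E A ρ t)) := by
  induction t using TensorProduct.induction_on with
  | zero =>
    rw [map_zero, LinearMap.range_zero]
    infer_instance
  | tmul u v =>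
    have h : LinearMap.range (B4E A ρ (u ⊗ₜ v)) ≤ Submodule.span ℂ {u} := by
      rintro _ ⟨h, rfl⟩
      rw [B4E_tmul]
      exact Submodule.smul_mem _ _ (Submodule.mem_span_singleton_self u)
    exact Submodule.finiteDimensional_of_le h
  | add s t hs ht =>
    rw [map_add]
    exact Submodule.finiteDimensional_of_le (LinearMap.range_add_le _ _)

private theorem B4E_trace [FiniteDimensional ℂ A] (t : A ⊗[ℂ] A) :
    LinearMap.trace ℂ A (B4E A ρ t) = ρ (Algebra.TensorProduct.lmul' ℂ t) := by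
  induction t using TensorProduct.induction_on with
  | zero => simp
  | tmul u v =>
    simp [B4E, mul_comm]
  | add s t hs ht => rw [map_add, map_add, hs, ht, map_add, map_add]

end B4

/-- CHUNK R316-PHAMB4: a Bezoutian tensor gives finite dimension and the trace formula.
PROOF.  For `t : A ⊗ A` let `E_t : A →ₗ A`, `E_t h = (id ⊗ ρ)((1 ⊗ h) t)`; linear in `t`; for
`t = u ⊗ v`, `E_t h = ρ(h v) • u`, i.e. `E_t = dualTensorHom (ρ(· v) ⊗ u)`.  By induction on the
tensor `t`: the range of `E_t` is finite dimensional, and (if `A` is finite dimensional)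
`trace E_t = ρ (lmul' t)` (`LinearMap.trace_eq_contract_apply`).
By the hypotheses `E_{(g ⊗ 1) Δ} h = g h (id ⊗ ρ)(Δ) = g h`
(`(1⊗h)(g⊗1)Δ = (g h ⊗ 1) Δ`), so `E_Δ = id` shows that `A` is finite dimensional
and `trace (mul g) = ρ (lmul' ((g ⊗ 1) Δ)) = ρ (g * lmul' Δ)`. -/
theorem tensor_frame (A : Type) [CommRing A] [Algebra ℂ A] (ρ : A →ₗ[ℂ] ℂ) (Δ : A ⊗[ℂ] A)
    (h1 : ∀ g : A, (g ⊗ₜ[ℂ] (1 : A)) * Δ = ((1 : A) ⊗ₜ[ℂ] g) * Δ)
    (h2 : TensorProduct.rid ℂ A (LinearMap.lTensor A ρ Δ) = 1) :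
    FiniteDimensional ℂ A ∧
      ∀ g : A, Algebra.trace ℂ A g = ρ (g * Algebra.TensorProduct.lmul' ℂ Δ) := by
  have hid : B4E A ρ Δ = LinearMap.id := by
    ext h
    rw [B4E_apply, ← h1, B4E_left, h2, mul_one, LinearMap.id_apply]
  have hfd : FiniteDimensional ℂ A := by
    have h := B4E_range A ρ Δ
    rw [hid, LinearMap.range_id] at h
    exact Module.Finite.equiv (Submodule.topEquiv (R := ℂ) (M := A))
  refine ⟨hfd, fun g => ?_⟩
  have hg : B4E A ρ ((g ⊗ₜ[ℂ] (1 : A)) * Δ) = Algebra.lmul ℂ A g := by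
    ext h
    rw [B4E_apply, mul_left_comm, B4E_left, ← B4E_apply, hid, LinearMap.id_apply]
    rfl
  rw [Algebra.trace_apply, ← hg, B4E_trace, map_mul]
  simp

end Crest.Agent.CHR.Pham
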