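import Crest.Agent.CHR.PhamBase

set_option autoImplicit false

namespace Crest.Agent.CHR.Pham

open MvPolynomial Finset
open scoped TensorProduct

variable {σ : Type} [Fintype σ] [DecidableEq σ]

/-- the image of a polynomial in `(x,y)` in `A ⊗ A`, `A` the quotient algebra -/
noncomputable def toTens (m : σ → ℕ) (q : σ → MvPolynomial σ ℂ) :
    MvPolynomial (σ ⊕ σ) ℂ →ₐ[ℂ]
      ((MvPolynomial σ ℂ ⧸ idl m q) ⊗[ℂ] (MvPolynomial σ ℂ ⧸ idl m q)) :=
  aeval (Sum.elim (fun j => Ideal.Quotient.mk (idl m q) (X j) ⊗ₜ[ℂ] 1)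
    (fun j => 1 ⊗ₜ[ℂ] Ideal.Quotient.mk (idl m q) (X j)))

/-- CHUNK R316-PHAMB5 (first part).  PROOF: `toTens (rename inl p) = mk p ⊗ 1` for all `p` (algebra homs,
`algHom_ext`), zero for generators of the ideal; the same for `inr`. -/
theorem toTens_ideal {m : σ → ℕ} {q : σ → MvPolynomial σ ℂ} (D : MvPolynomial (σ ⊕ σ) ℂ)
    (hD : D ∈ Ideal.span (Set.range (fun i => rename (Sum.inl : σ → σ ⊕ σ)
          (X i ^ m i - q i : MvPolynomial σ ℂ))) ⊔
        Ideal.span (Set.range (fun i => rename (Sum.inr : σ → σ ⊕ σ)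
          (X i ^ m i - q i : MvPolynomial σ ℂ)))) : toTens m q D = 0 := by
  have h1 : ∀ p : MvPolynomial σ ℂ, toTens m q (rename Sum.inl p) =
      Ideal.Quotient.mk (idl m q) p ⊗ₜ[ℂ] 1 := by
    intro p
    have : (toTens m q).comp (rename (Sum.inl : σ → σ ⊕ σ)) =
        (Algebra.TensorProduct.includeLeft (R := ℂ) (S := ℂ)
          (A := MvPolynomial σ ℂ ⧸ idl m q) (B := MvPolynomial σ ℂ ⧸ idl m q)).comp
          (Ideal.Quotient.mkₐ ℂ (idl m q)) := by
      ext j
      simp [toTens]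
    exact DFunLike.congr_fun this p
  have h2 : ∀ p : MvPolynomial σ ℂ, toTens m q (rename Sum.inr p) =
      1 ⊗ₜ[ℂ] Ideal.Quotient.mk (idl m q) p := by
    intro p
    have : (toTens m q).comp (rename (Sum.inr : σ → σ ⊕ σ)) =
        (Algebra.TensorProduct.includeRight (R := ℂ)
          (A := MvPolynomial σ ℂ ⧸ idl m q) (B := MvPolynomial σ ℂ ⧸ idl m q)).comp
          (Ideal.Quotient.mkₐ ℂ (idl m q)) := by
      ext j
      simp [toTens]
    exact DFunLike.congr_fun this p
  have h3 : ∀ i, Ideal.Quotient.mk (idl m q) (X i ^ m i - q i) = 0 := fun i =>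
    Ideal.Quotient.eq_zero_iff_mem.mpr (Ideal.subset_span ⟨i, rfl⟩)
  have h4 : Ideal.span (Set.range (fun i => rename (Sum.inl : σ → σ ⊕ σ)
          (X i ^ m i - q i : MvPolynomial σ ℂ))) ⊔
        Ideal.span (Set.range (fun i => rename (Sum.inr : σ → σ ⊕ σ)
          (X i ^ m i - q i : MvPolynomial σ ℂ))) ≤ RingHom.ker (toTens m q) := by
    refine sup_le (Ideal.span_le.mpr ?_) (Ideal.span_le.mpr ?_)
    · rintro _ ⟨i, rfl⟩
      show toTens m q (rename Sum.inl (X i ^ m i - q i)) = 0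
      rw [h1, h3, TensorProduct.zero_tmul]
    · rintro _ ⟨i, rfl⟩
      show toTens m q (rename Sum.inr (X i ^ m i - q i)) = 0
      rw [h2, h3, TensorProduct.tmul_zero]
  exact h4 hD

/-- CHUNK R316-PHAMB5 (second part).  PROOF: both sides are algebra homs applied to `D`. -/
theorem lmul_toTens {m : σ → ℕ} {q : σ → MvPolynomial σ ℂ} (D : MvPolynomial (σ ⊕ σ) ℂ) :
    Algebra.TensorProduct.lmul' ℂ (toTens m q D) =
      Ideal.Quotient.mk (idl m q) (aeval (Sum.elim X X : σ ⊕ σ → MvPolynomial σ ℂ) D) := by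
  have : (Algebra.TensorProduct.lmul' ℂ).comp (toTens m q) =
      (Ideal.Quotient.mkₐ ℂ (idl m q)).comp
        (aeval (Sum.elim X X : σ ⊕ σ → MvPolynomial σ ℂ)) := by
    ext j
    rcases j with j | j <;> simp [toTens]
  exact DFunLike.congr_fun this D

/-- CHUNK R316-PHAMB5 (third part): partial residue of a polynomial of degree `≤ ∑ (m_j - 1)`.
PROOF.  Both sides are linear in `D`, so it is enough to treat a monomial `c x^a y^b` with
`|a| + |b| ≤ ∑ (m_j - 1)` (all monomials in the support of `D`; `D = ∑ monomial`, `as_sum`).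
Left: `c x^a ρ(y^b) = c x^a * coeff (topE m 0) (y^b)` where
`res m q 0 g = coeff (topE m 0) g` because `den m q 0 = 1`.
If `a = 0` this is the right side; if `a ≠ 0` then the right side is `0` (`0^{a_j} = 0`), and
`|b| < ∑ (m_j - 1) = |topE m 0|`, so `coeff (topE m 0) (y^b) = 0`. -/
theorem partial_res {m : σ → ℕ} {q : σ → MvPolynomial σ ℂ} (h : Sys m q)
    (ρ : (MvPolynomial σ ℂ ⧸ idl m q) →ₗ[ℂ] ℂ)
    (hρ : ∀ (g : MvPolynomial σ ℂ) (K : ℕ),
      g.totalDegree ≤ K + ∑ j, (m j - 1) → ρ (Ideal.Quotient.mk (idl m q) g) = res m q K g)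
    (D : MvPolynomial (σ ⊕ σ) ℂ) (hD : D.totalDegree ≤ ∑ j, (m j - 1)) :
    TensorProduct.rid ℂ (MvPolynomial σ ℂ ⧸ idl m q)
        (LinearMap.lTensor (MvPolynomial σ ℂ ⧸ idl m q) ρ (toTens m q D)) =
      algebraMap ℂ (MvPolynomial σ ℂ ⧸ idl m q)
        (coeff (topE m 0) (aeval (Sum.elim (fun _ => 0) X : σ ⊕ σ → MvPolynomial σ ℂ) D)) := by
  have key : ∀ (s : σ ⊕ σ →₀ ℕ) (c : ℂ), (s.sum fun _ e => e) ≤ ∑ j, (m j - 1) →
      TensorProduct.rid ℂ (MvPolynomial σ ℂ ⧸ idl m q)
        (LinearMap.lTensor (MvPolynomial σ ℂ ⧸ idl m q) ρ (toTens m q (monomial s c))) =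
      algebraMap ℂ (MvPolynomial σ ℂ ⧸ idl m q)
        (coeff (topE m 0) (aeval (Sum.elim (fun _ => 0) X : σ ⊕ σ → MvPolynomial σ ℂ)
          (monomial s c))) := by
    intro s c hs
    have hsum : (∑ j, s (Sum.inl j)) + ∑ j, s (Sum.inr j) ≤ ∑ j, (m j - 1) := by
      rw [← Fintype.sum_sum_type]
      rwa [Finsupp.sum_fintype _ _ (fun _ => rfl)] at hs
    have hmon : (∏ j, (X j : MvPolynomial σ ℂ) ^ s (Sum.inr j)) =
        monomial (Finsupp.equivFunOnFinite.symm (fun j => s (Sum.inr j))) 1 := by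
      rw [monomial_eq, C_1, one_mul, Finsupp.prod_fintype _ _ (fun _ => pow_zero _)]
      rfl
    have hleft : toTens m q (monomial s c) =
        c • (Ideal.Quotient.mk (idl m q) (∏ j, X j ^ s (Sum.inl j)) ⊗ₜ[ℂ]
          Ideal.Quotient.mk (idl m q) (∏ j, X j ^ s (Sum.inr j))) := by
      unfold toTens
      rw [aeval_monomial, Finsupp.prod_fintype _ _ (fun _ => pow_zero _), Fintype.prod_sum_type]
      refine Eq.trans ?_ (Algebra.smul_def (R := ℂ)
        (A := (MvPolynomial σ ℂ ⧸ idl m q) ⊗[ℂ] (MvPolynomial σ ℂ ⧸ idl m q)) c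
        (Ideal.Quotient.mk (idl m q) (∏ j, X j ^ s (Sum.inl j)) ⊗ₜ[ℂ]
          Ideal.Quotient.mk (idl m q) (∏ j, X j ^ s (Sum.inr j)))).symm
      congr 1
      simp only [Sum.elim_inl, Sum.elim_inr, Algebra.TensorProduct.tmul_pow, one_pow, map_prod,
        map_pow]
      have e1 : ∀ (f : σ → (MvPolynomial σ ℂ ⧸ idl m q)) (t : Finset σ),
          (∏ j ∈ t, (f j ⊗ₜ[ℂ] (1 : MvPolynomial σ ℂ ⧸ idl m q))) = (∏ j ∈ t, f j) ⊗ₜ[ℂ] 1 := by
        intro f t
        induction t using Finset.induction_on with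
        | empty => simp [Algebra.TensorProduct.one_def]
        | insert a t ha ih =>
          rw [Finset.prod_insert ha, Finset.prod_insert ha, ih,
            Algebra.TensorProduct.tmul_mul_tmul, mul_one]
      have e2 : ∀ (f : σ → (MvPolynomial σ ℂ ⧸ idl m q)) (t : Finset σ),
          (∏ j ∈ t, ((1 : MvPolynomial σ ℂ ⧸ idl m q) ⊗ₜ[ℂ] f j)) = 1 ⊗ₜ[ℂ] (∏ j ∈ t, f j) := by
        intro f t
        induction t using Finset.induction_on with
        | empty => simp [Algebra.TensorProduct.one_def]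
        | insert a t ha ih =>
          rw [Finset.prod_insert ha, Finset.prod_insert ha, ih,
            Algebra.TensorProduct.tmul_mul_tmul, mul_one]
      rw [e1, e2, Algebra.TensorProduct.tmul_mul_tmul, one_mul, mul_one]
    have hdeg : (∏ j, (X j : MvPolynomial σ ℂ) ^ s (Sum.inr j)).totalDegree ≤
        0 + ∑ j, (m j - 1) := by
      rw [zero_add]
      refine (totalDegree_finsetProd _ _).trans ((Finset.sum_le_sum (fun j _ => ?_)).trans
        ((Nat.le_add_left _ _).trans hsum))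
      exact (totalDegree_pow _ _).trans (by rw [totalDegree_X, mul_one])
    have hden : den m q 0 = 1 := by simp [den]
    have hρ' : ρ (Ideal.Quotient.mk (idl m q) (∏ j, X j ^ s (Sum.inr j))) =
        coeff (topE m 0) (∏ j, (X j : MvPolynomial σ ℂ) ^ s (Sum.inr j)) := by
      rw [hρ _ 0 hdeg, res, hden, mul_one]
    rw [hleft, map_smul, map_smul, LinearMap.lTensor_tmul, TensorProduct.rid_tmul, hρ']
    rw [aeval_monomial, Finsupp.prod_fintype _ _ (fun _ => pow_zero _), Fintype.prod_sum_type]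
    simp only [Sum.elim_inl, Sum.elim_inr, MvPolynomial.algebraMap_eq, coeff_C_mul]
    by_cases ha : ∀ j, s (Sum.inl j) = 0
    · simp only [ha, pow_zero, Finset.prod_const_one, one_mul, map_one, map_mul]
      rw [← map_mul]
      exact ((Algebra.algebraMap_eq_smul_one _).trans (mul_smul _ _ _)).symm
    · push Not at ha
      obtain ⟨j, hj⟩ := ha
      have h0 : (∏ j, (0 : MvPolynomial σ ℂ) ^ s (Sum.inl j)) = 0 :=
        Finset.prod_eq_zero (Finset.mem_univ j) (zero_pow hj)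
      rw [h0, zero_mul, coeff_zero, mul_zero, map_zero, hmon, coeff_monomial, if_neg, zero_smul,
        smul_zero]
      intro he
      have h1 : ∑ j, s (Sum.inr j) = ∑ j, (m j - 1) := by
        refine Finset.sum_congr rfl (fun j _ => ?_)
        have := DFunLike.congr_fun he j
        simpa using this
      have h2 : s (Sum.inl j) ≤ ∑ j, s (Sum.inl j) :=
        Finset.single_le_sum (f := fun j => s (Sum.inl j)) (fun _ _ => Nat.zero_le _)
          (Finset.mem_univ j)
      omega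
  conv_lhs => rw [D.as_sum]
  conv_rhs => rw [D.as_sum]
  simp only [map_sum, coeff_sum]
  refine Finset.sum_congr rfl (fun s hs => ?_)
  exact key s _ ((le_totalDegree hs).trans hD)

end Crest.Agent.CHR.Pham
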