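import Mathlib

/-!
# Row 316, module M4: Pham systems over `ℂ` without parameters.  Definitions (helper22).

`σ` finite type of unknowns, system `X_j ^ m j = q j` with `totalDegree (q j) < m j`.
-/

set_option autoImplicit false

namespace Crest.Agent.CHR.Pham

open MvPolynomial Finset

variable {σ : Type} [Fintype σ] [DecidableEq σ]

/-- Pham system over `ℂ` -/
structure Sys (m : σ → ℕ) (q : σ → MvPolynomial σ ℂ) : Prop where
  pos : ∀ j, 0 < m j
  deg : ∀ j, (q j).totalDegree < m j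

/-- `∏_j ∑_{k ≤ K} q_j^k X_j^{m_j (K-k)}` -/
noncomputable def den (m : σ → ℕ) (q : σ → MvPolynomial σ ℂ) (K : ℕ) : MvPolynomial σ ℂ :=
  ∏ j, ∑ k ∈ range (K + 1), q j ^ k * X j ^ (m j * (K - k))

/-- the exponent `(m_j K + m_j - 1)_j` -/
noncomputable def topE (m : σ → ℕ) (K : ℕ) : σ →₀ ℕ :=
  Finsupp.equivFunOnFinite.symm (fun j => m j * K + m j - 1)

/-- truncated residue -/
noncomputable def res (m : σ → ℕ) (q : σ → MvPolynomial σ ℂ) (K : ℕ) (g : MvPolynomial σ ℂ) : ℂ :=
  coeff (topE m K) (g * den m q K)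

/-- the ideal of the system -/
noncomputable def idl (m : σ → ℕ) (q : σ → MvPolynomial σ ℂ) : Ideal (MvPolynomial σ ℂ) :=
  Ideal.span (Set.range (fun i => (X i ^ m i - q i : MvPolynomial σ ℂ)))

/-- the Jacobian determinant -/
noncomputable def jac (m : σ → ℕ) (q : σ → MvPolynomial σ ℂ) : MvPolynomial σ ℂ :=
  Matrix.det (fun i j : σ => pderiv j (X i ^ m i - q i))

omit [DecidableEq σ] in
@[simp] theorem topE_apply (m : σ → ℕ) (K : ℕ) (j : σ) : topE m K j = m j * K + m j - 1 := rfl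

end Crest.Agent.CHR.Pham
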