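import Crest.Agent.CHR.PhamBase
import Crest.Agent.CHR.PhamDefs

set_option autoImplicit false

namespace Crest.Agent.CHR.Pham

open MvPolynomial Finset

/-- specialise the parameters (variables outside `S`) to `v` -/
noncomputable def spec (S : Finset ℕ) (v : ℕ → ℂ) : P →ₐ[ℚ] MvPolynomial S ℂ :=
  aeval (fun j => if h : j ∈ S then X ⟨j, h⟩ else C (v j))

private theorem PhamC_X_mem {S : Finset ℕ} (v : ℕ → ℂ) {j : ℕ} (h : j ∈ S) :
    spec S v (X j) = X ⟨j, h⟩ := by
  rw [spec, aeval_X, dif_pos h]

private theorem PhamC_X_not {S : Finset ℕ} (v : ℕ → ℂ) {j : ℕ} (h : j ∉ S) :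
    spec S v (X j) = C (v j) := by
  rw [spec, aeval_X, dif_neg h]

private theorem PhamC_C (S : Finset ℕ) (v : ℕ → ℂ) (c : ℚ) :
    spec S v (C c) = C (c : ℂ) := by
  exact (spec S v).commutes c

private theorem PhamC_mono1 (S : Finset ℕ) (v : ℕ → ℂ) (e : ℕ →₀ ℕ) :
    spec S v (monomial e 1) = monomial (Finsupp.subtypeDomain (fun j => j ∈ S) e)
      (aeval v (monomial (Finsupp.filter (fun i => i ∉ S) e) (1 : ℚ))) := by
  induction e using Finsupp.induction_linear with
  | zero =>
    have h1 : Finsupp.filter (fun i => i ∉ S) (0 : ℕ →₀ ℕ) = 0 := Finsupp.filter_zero _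
    have h2 : Finsupp.subtypeDomain (fun j => j ∈ S) (0 : ℕ →₀ ℕ) = 0 := rfl
    rw [h1, h2]
    change spec S v 1 = monomial 0 (aeval v (1 : P))
    rw [map_one, map_one]
    rfl
  | add e e' he he' =>
    have h1 : (monomial (e + e') (1 : ℚ) : P) = monomial e 1 * monomial e' 1 := by
      rw [monomial_mul, one_mul]
    rw [h1, map_mul, he, he', monomial_mul, Finsupp.subtypeDomain_add, Finsupp.filter_add,
      ← map_mul, monomial_mul, one_mul]
  | single j n =>
    have h1 : (monomial (Finsupp.single j n) (1 : ℚ) : P) = X j ^ n := by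
      rw [X_pow_eq_monomial]
    rw [h1, map_pow]
    by_cases h : j ∈ S
    · have h2 : Finsupp.subtypeDomain (fun j => j ∈ S) (Finsupp.single j n) =
          Finsupp.single (⟨j, h⟩ : S) n := by
        ext ⟨i, hi⟩
        simp only [Finsupp.subtypeDomain_apply, Finsupp.single_apply, Subtype.mk.injEq]
      have h3 : Finsupp.filter (fun i => i ∉ S) (Finsupp.single j n) = 0 :=
        Finsupp.filter_single_of_neg _ (by simpa using h)
      rw [PhamC_X_mem v h, h2, h3, X_pow_eq_monomial]
      simp
    · have h2 : Finsupp.subtypeDomain (fun j => j ∈ S) (Finsupp.single j n) = 0 := by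
        ext ⟨i, hi⟩
        have : j ≠ i := fun h' => h (h' ▸ hi)
        simp [Finsupp.subtypeDomain_apply, this]
      have h3 : Finsupp.filter (fun i => i ∉ S) (Finsupp.single j n) = Finsupp.single j n :=
        Finsupp.filter_single_of_pos _ (by simpa using h)
      rw [PhamC_X_not v h, h2, h3, ← X_pow_eq_monomial, map_pow, aeval_X, ← C_pow]
      rfl

private theorem PhamC_mono (S : Finset ℕ) (v : ℕ → ℂ) (e : ℕ →₀ ℕ) (c : ℚ) :
    spec S v (monomial e c) = monomial (Finsupp.subtypeDomain (fun j => j ∈ S) e)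
      (aeval v (monomial (Finsupp.filter (fun i => i ∉ S) e) c)) := by
  have h1 : (monomial e c : P) = C c * monomial e 1 := by
    rw [C_mul_monomial, mul_one]
  have h2 : (monomial (Finsupp.filter (fun i => i ∉ S) e) c : P) =
      C c * monomial (Finsupp.filter (fun i => i ∉ S) e) 1 := by
    rw [C_mul_monomial, mul_one]
  rw [h1, h2, map_mul, map_mul, PhamC_C, PhamC_mono1, C_mul_monomial, aeval_C]
  rfl

private theorem PhamC_sum (S : Finset ℕ) (v : ℕ → ℂ) (f : P) :
    spec S v f = ∑ e ∈ f.support, monomial (Finsupp.subtypeDomain (fun j => j ∈ S) e)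
      (aeval v (monomial (Finsupp.filter (fun i => i ∉ S) e) (coeff e f))) := by
  conv_lhs => rw [f.as_sum]
  rw [map_sum]
  exact Finset.sum_congr rfl fun e _ => PhamC_mono S v e _

private theorem PhamC_pderiv (S : Finset ℕ) (v : ℕ → ℂ) (j : S) (f : P) :
    spec S v (pderiv (j : ℕ) f) = pderiv j (spec S v f) := by
  induction f using MvPolynomial.induction_on with
  | C a => rw [pderiv_C, map_zero, PhamC_C, pderiv_C]
  | add p q hp hq => rw [map_add, map_add, map_add, map_add, hp, hq]
  | mul_X p i hp =>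
    rw [pderiv_mul, map_add, map_mul, map_mul, hp, map_mul, pderiv_mul]
    congr 2
    by_cases h : i ∈ S
    · rw [PhamC_X_mem v h, pderiv_X, pderiv_X, Pi.single_apply, Pi.single_apply]
      by_cases hij : i = (j : ℕ)
      · have : (⟨i, h⟩ : S) = j := Subtype.ext hij
        rw [if_pos this, if_pos hij, map_one]
      · have : (⟨i, h⟩ : S) ≠ j := fun h' => hij (congrArg Subtype.val h')
        rw [if_neg this, if_neg hij, map_zero]
    · have : i ≠ (j : ℕ) := fun h' => h (h' ▸ j.2)
      rw [PhamC_X_not v h, pderiv_C, pderiv_X_of_ne (Ne.symm this).symm, map_zero]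

/-- CHUNK R316-PHAMC (first part).  PROOF: monomial by monomial. -/
theorem coeff_spec (S : Finset ℕ) (v : ℕ → ℂ) (a : ℕ → ℕ) (f : P) :
    coeff (Finsupp.equivFunOnFinite.symm (fun j : S => a j)) (spec S v f) =
      aeval v (coefS S a f) := by
  rw [PhamC_sum, coeff_sum, coefS, map_sum, Finset.sum_filter]
  refine Finset.sum_congr rfl fun e _ => ?_
  rw [coeff_monomial]
  refine if_congr ?_ rfl rfl
  constructor
  · intro h i hi
    have := DFunLike.congr_fun h ⟨i, hi⟩
    simpa using this
  · intro h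
    ext ⟨i, hi⟩
    simpa using h i hi

/-- second part. PROOF: monomial by monomial, `totalDegree_finset_sum`, `totalDegree_mul`. -/
theorem totalDegree_spec (S : Finset ℕ) (v : ℕ → ℂ) (f : P) :
    (spec S v f).totalDegree ≤ sdeg S f := by
  rw [PhamC_sum, sdeg]
  refine (totalDegree_finsetSum _ _).trans ?_
  refine Finset.sup_mono_fun fun e _ => ?_
  refine (totalDegree_monomial_le _ _).trans ?_
  rw [Finsupp.sum_fintype _ _ (fun _ => rfl)]
  simp only [Finsupp.subtypeDomain_apply]
  exact (Finset.sum_coe_sort S (fun i => e i)).le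

/-- third part. -/
theorem spec_denS (S : Finset ℕ) (v : ℕ → ℂ) (m : ℕ → ℕ) (q : ℕ → P) (K : ℕ) :
    spec S v (denS S m q K) = den (fun j : S => m j) (fun j : S => spec S v (q j)) K := by
  rw [denS, den, map_prod, ← Finset.prod_coe_sort]
  refine Finset.prod_congr rfl fun j _ => ?_
  rw [map_sum]
  refine Finset.sum_congr rfl fun k _ => ?_
  rw [map_mul, map_pow, map_pow, PhamC_X_mem v j.2]

/-- fourth part. PROOF: `spec` commutes with `pderiv j`, `j ∈ S` (both sides are derivations; or
`MvPolynomial.induction_on`), and with determinants. -/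
theorem spec_jacS (S : Finset ℕ) (v : ℕ → ℂ) (m : ℕ → ℕ) (q : ℕ → P) :
    spec S v (jacS S m q) = jac (fun j : S => m j) (fun j : S => spec S v (q j)) := by
  unfold jacS jac
  refine ((spec S v).map_det (Matrix.of fun i j : S =>
    pderiv (j : ℕ) (X (i : ℕ) ^ m i - q i))).trans ?_
  congr 1
  ext1 i j
  rw [AlgHom.mapMatrix_apply, Matrix.map_apply, Matrix.of_apply, PhamC_pderiv, map_sub, map_pow,
    PhamC_X_mem v i.2]

/-- fifth part: summary (`coeff_spec`, `spec_denS`, `spec_jacS`). -/
theorem aeval_trS (S : Finset ℕ) (v : ℕ → ℂ) (m : ℕ → ℕ) (q : ℕ → P) (K : ℕ) (g : P) :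
    aeval v (trS S m q K g) =
      res (fun j : S => m j) (fun j : S => spec S v (q j)) K
        (spec S v g * jac (fun j : S => m j) (fun j : S => spec S v (q j))) := by
  rw [trS, resS, ← coeff_spec, map_mul, map_mul, spec_denS, spec_jacS]
  rfl

/-- sixth part: evaluation.  PROOF: algebra homs. -/
theorem eval_spec (S : Finset ℕ) (v z : ℕ → ℂ) (hz : ∀ j ∉ S, z j = v j) (f : P) :
    eval (fun j : S => z j) (spec S v f) = aeval z f := by
  induction f using MvPolynomial.induction_on with
  | C a => rw [PhamC_C, eval_C, aeval_C]; rfl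
  | add p q hp hq => rw [map_add, map_add, map_add, hp, hq]
  | mul_X p i hp =>
    rw [map_mul, map_mul, map_mul, hp, aeval_X]
    congr 1
    by_cases h : i ∈ S
    · rw [PhamC_X_mem v h, eval_X]
    · rw [PhamC_X_not v h, eval_C, hz i h]

end Crest.Agent.CHR.Pham
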