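import Mathlib

set_option autoImplicit false

namespace Crest.Agent.CHR.Pham

open Finset

open Polynomial in
/-- coefficient recursion -/
private theorem phd1_rec (N : ℕ) (E F Λ Λ' A B : ℂ[X]) (h0 : E.coeff 0 = F.coeff 0)
    (hE : derivative E = Λ' * E - X ^ N * A) (hF : derivative F = Λ * F - X ^ N * B)
    (hL : ∀ i < N, Λ'.coeff i = Λ.coeff i) :
    ∀ k ≤ N, E.coeff k = F.coeff k := by
  intro k
  induction k using Nat.strong_induction_on with
  | _ k ih =>
    intro hk
    cases k with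
    | zero => exact h0
    | succ k =>
      have h1 : (derivative E).coeff k = ∑ x ∈ antidiagonal k, Λ'.coeff x.1 * E.coeff x.2 := by
        rw [hE, coeff_sub, coeff_mul, coeff_X_pow_mul', if_neg (by omega), sub_zero]
      have h2 : (derivative F).coeff k = ∑ x ∈ antidiagonal k, Λ.coeff x.1 * F.coeff x.2 := by
        rw [hF, coeff_sub, coeff_mul, coeff_X_pow_mul', if_neg (by omega), sub_zero]
      have h3 : (derivative E).coeff k = (derivative F).coeff k := by
        rw [h1, h2]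
        refine Finset.sum_congr rfl fun x hx => ?_
        rw [Finset.HasAntidiagonal.mem_antidiagonal] at hx
        rw [hL x.1 (by omega), ih x.2 (by omega) (by omega)]
      rw [coeff_derivative, coeff_derivative] at h3
      exact mul_right_cancel₀ (by exact_mod_cast Nat.succ_ne_zero k) h3

open Polynomial in
private theorem phd1_expDeriv (N : ℕ) (L : ℂ[X]) :
    derivative (∑ k ∈ range (N + 1), C (1 / (k.factorial : ℂ)) * L ^ k) =
      derivative L * (∑ k ∈ range (N + 1), C (1 / (k.factorial : ℂ)) * L ^ k) -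
        derivative L * (C (1 / (N.factorial : ℂ)) * L ^ N) := by
  rw [Finset.sum_range_succ (n := N), mul_add, add_sub_cancel_right, ← Finset.sum_range_succ (n := N),
    Finset.sum_range_succ', derivative_add, derivative_sum, Finset.mul_sum]
  simp only [pow_zero, mul_one, derivative_C, add_zero]
  refine Finset.sum_congr rfl fun k _ => ?_
  rw [derivative_mul, derivative_C, zero_mul, zero_add, derivative_pow, Nat.add_sub_cancel]
  have h : C (1 / ((k + 1).factorial : ℂ)) * C ((k + 1 : ℕ) : ℂ) = C (1 / (k.factorial : ℂ)) := by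
    rw [← C_mul]
    congr 1
    rw [Nat.factorial_succ]
    have h1 : (k.factorial : ℂ) ≠ 0 := by exact_mod_cast Nat.factorial_ne_zero k
    have h2 : ((k + 1 : ℕ) : ℂ) ≠ 0 := by exact_mod_cast Nat.succ_ne_zero k
    push_cast at h2 ⊢
    field_simp
  calc C (1 / ((k + 1).factorial : ℂ)) * (C ((k + 1 : ℕ) : ℂ) * L ^ k * derivative L)
      = (C (1 / ((k + 1).factorial : ℂ)) * C ((k + 1 : ℕ) : ℂ)) * L ^ k * derivative L := by ring
    _ = _ := by rw [h]; ring

open Polynomial in
private theorem phd1_prodDeriv (N : ℕ) (g : Fin N → ℂ) :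
    derivative (∏ i, (1 + C (g i) * X)) =
      (∑ r ∈ range N, C ((-1 : ℂ) ^ r * ∑ i, g i ^ (r + 1)) * X ^ r) * (∏ i, (1 + C (g i) * X)) -
        X ^ N * (∑ i, - (C (g i) * C ((-g i) ^ N) * ∏ j ∈ Finset.univ.erase i, (1 + C (g j) * X))) := by
  rw [Polynomial.derivative_prod_finset]
  have hg : ∀ i : Fin N, C (g i) * ∏ j ∈ Finset.univ.erase i, (1 + C (g j) * X) =
      (∑ r ∈ range N, C ((-1 : ℂ) ^ r * g i ^ (r + 1)) * X ^ r) * (∏ i, (1 + C (g i) * X)) +
        X ^ N * (C (g i) * C ((-g i) ^ N) * ∏ j ∈ Finset.univ.erase i, (1 + C (g j) * X)) := by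
    intro i
    rw [← Finset.mul_prod_erase Finset.univ (fun i => (1 + C (g i) * X : ℂ[X])) (Finset.mem_univ i)]
    have hgeom : (∑ r ∈ range N, C ((-1 : ℂ) ^ r * g i ^ (r + 1)) * X ^ r) * (1 + C (g i) * X) =
        C (g i) * (1 - C ((-g i) ^ N) * X ^ N) := by
      have h1 := geom_sum_mul_neg (-(C (g i) * X) : ℂ[X]) N
      have h2 : (∑ r ∈ range N, C ((-1 : ℂ) ^ r * g i ^ (r + 1)) * X ^ r : ℂ[X]) =
          C (g i) * ∑ r ∈ range N, (-(C (g i) * X)) ^ r := by
        rw [Finset.mul_sum]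
        refine Finset.sum_congr rfl fun r _ => ?_
        have h3 : (-(C (g i) * X) : ℂ[X]) ^ r = C ((-1 : ℂ) ^ r) * (C (g i) ^ r * X ^ r) := by
          rw [← mul_pow, C_pow, C_neg, C_1, ← mul_pow, neg_one_mul]
        rw [h3, C_mul, C_pow (n := r + 1), pow_succ]
        ring
      have h3 : (C ((-g i) ^ N) * X ^ N : ℂ[X]) = (-(C (g i) * X)) ^ N := by
        rw [C_pow, C_neg, ← mul_pow, neg_mul]
      rw [h2, h3, mul_assoc, ← h1]
      ring
    calc C (g i) * ∏ j ∈ Finset.univ.erase i, (1 + C (g j) * X)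
        = (C (g i) * (1 - C ((-g i) ^ N) * X ^ N)) * ∏ j ∈ Finset.univ.erase i, (1 + C (g j) * X) +
          X ^ N * (C (g i) * C ((-g i) ^ N) * ∏ j ∈ Finset.univ.erase i, (1 + C (g j) * X)) := by ring
      _ = _ := by rw [← hgeom]; ring
  have h1 : ∀ i : Fin N, (∏ j ∈ Finset.univ.erase i, (1 + C (g j) * X)) * derivative (1 + C (g i) * X) =
      C (g i) * ∏ j ∈ Finset.univ.erase i, (1 + C (g j) * X) := by
    intro i
    rw [derivative_add, derivative_one, zero_add, derivative_C_mul, derivative_X, mul_one, mul_comm]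
  rw [Finset.sum_congr rfl fun i _ => (h1 i).trans (hg i), Finset.sum_add_distrib, ← Finset.sum_mul,
    ← Finset.mul_sum, Finset.sum_neg_distrib, mul_neg, sub_neg_eq_add]
  congr 2
  rw [Finset.sum_comm]
  refine Finset.sum_congr rfl fun r _ => ?_
  rw [← Finset.sum_mul, ← map_sum, ← Finset.mul_sum]

/-- CHUNK R316-PHAMD1: Newton's identities in exponential form.
PROOF.  Let `p l = ∑ g_i^l`, `L = ∑_{l=1}^N (-1)^{l-1} p_l/l X^l`, `E = ∑_{k ≤ N} L^k/k!`,
`e_k` = elementary symmetric function of the `g_i` (`∏ (1 + g_i X) = ∑ e_k X^k`).  Claim: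
`E.coeff k = e_k` for `k ≤ N`, by strong induction.  `E' = L' ∑_{k<N} L^k/k! = L' E - L' L^N/N!` and
`X^N ∣ L^N`; compare coefficients of `X^{k-1}`, `1 ≤ k ≤ N`:
`k E_k = ∑_{l=1}^k (-1)^{l-1} p_l E_{k-l}`.  Newton's identity
`k e_k = ∑_{l=1}^k (-1)^{l-1} p_l e_{k-l}`: Mathlib `MvPolynomial.mul_esymm_eq_sum` evaluated at `g`, or
directly: `F = ∏ (1 + g_i X)`, `F' = ∑_i g_i ∏_{j≠i} (1 + g_j X)`.  `e_N = ∏ g_i`. -/
theorem exp_newton (N : ℕ) (g : Fin N → ℂ) :
    (∑ k ∈ range (N + 1), Polynomial.C (1 / (k.factorial : ℂ)) *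
      (∑ l ∈ Icc 1 N, Polynomial.C ((-1 : ℂ) ^ (l - 1) / (l : ℂ) * ∑ i, g i ^ l) *
        Polynomial.X ^ l) ^ k).coeff N = ∏ i, g i := by
  open Polynomial in
  set L : Polynomial ℂ := ∑ l ∈ Icc 1 N, Polynomial.C ((-1 : ℂ) ^ (l - 1) / (l : ℂ) * ∑ i, g i ^ l) *
        Polynomial.X ^ l with hL
  have hX : Polynomial.X ∣ L := by
    rw [hL]
    refine Finset.dvd_sum fun l hl => ?_
    rw [Finset.mem_Icc] at hl
    exact Dvd.dvd.mul_left (dvd_pow_self _ (by omega)) _
  obtain ⟨L1, hL1⟩ := hX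
  have hLN : Polynomial.derivative L * (Polynomial.C (1 / (N.factorial : ℂ)) * L ^ N) =
      Polynomial.X ^ N * (Polynomial.derivative L * (Polynomial.C (1 / (N.factorial : ℂ)) * L1 ^ N)) := by
    have : L ^ N = Polynomial.X ^ N * L1 ^ N := by rw [hL1, mul_pow]
    rw [this]; ring
  have hcoefL : ∀ i < N, (Polynomial.derivative L).coeff i =
      (∑ r ∈ range N, Polynomial.C ((-1 : ℂ) ^ r * ∑ i, g i ^ (r + 1)) * Polynomial.X ^ r).coeff i := by
    intro i hi
    rw [Polynomial.coeff_derivative, hL, Polynomial.finsetSum_coeff, Polynomial.finsetSum_coeff]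
    simp only [Polynomial.coeff_C_mul, Polynomial.coeff_X_pow]
    rw [Finset.sum_eq_single (i + 1), Finset.sum_eq_single i]
    · simp only [if_true, mul_one, Nat.add_sub_cancel]
      have h2 : ((i + 1 : ℕ) : ℂ) ≠ 0 := by exact_mod_cast Nat.succ_ne_zero i
      push_cast at h2 ⊢
      field_simp
    · intro b _ hb; rw [if_neg (Ne.symm hb), mul_zero]
    · intro h; exact absurd (Finset.mem_range.2 hi) h
    · intro b _ hb; rw [if_neg (Ne.symm hb), mul_zero]
    · intro h; exact absurd (Finset.mem_Icc.2 ⟨by omega, by omega⟩) h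
  have hE := phd1_expDeriv N L
  rw [hLN] at hE
  have h0 : (∑ k ∈ range (N + 1), Polynomial.C (1 / (k.factorial : ℂ)) * L ^ k).coeff 0 =
      (∏ i, (1 + Polynomial.C (g i) * Polynomial.X)).coeff 0 := by
    rw [Polynomial.coeff_zero_eq_eval_zero, Polynomial.coeff_zero_eq_eval_zero]
    have hL0 : Polynomial.eval 0 L = 0 := by rw [hL1]; simp
    rw [Polynomial.eval_finsetSum, Polynomial.eval_prod, Finset.sum_range_succ']
    simp [hL0]
  have key := phd1_rec N _ _ _ _ _ _ h0 hE (phd1_prodDeriv N g) hcoefL N le_rfl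
  rw [key]
  have h1 := Polynomial.coeff_prod_of_natDegree_le (s := Finset.univ)
    (fun i => (1 + Polynomial.C (g i) * Polynomial.X : Polynomial ℂ)) 1 (by
      intro i _
      refine (Polynomial.natDegree_add_le _ _).trans (max_le ?_ ?_)
      · simp
      · simpa using Polynomial.natDegree_C_mul_X_pow_le (g i) 1)
  rw [Finset.card_univ, Fintype.card_fin, mul_one] at h1
  rw [h1]
  refine Finset.prod_congr rfl fun i _ => ?_
  simp [Polynomial.coeff_one]

end Crest.Agent.CHR.Pham
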