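import Mathlib

set_option autoImplicit false

namespace Crest.Agent.CHR.Pham

/-- a common eigenvector -/
private theorem exists_common_eigenvector (A : Type) [CommRing A] [Algebra ℂ A]
    [FiniteDimensional ℂ A] (M : Type) [AddCommGroup M] [Module ℂ M] [Module A M]
    [IsScalarTower ℂ A M] [Nontrivial M] :
    ∃ (χ : A →ₐ[ℂ] ℂ) (x : M), x ≠ 0 ∧ ∀ a : A, a • x = χ a • x := by
  have : IsNoetherianRing A := isNoetherian_of_tower ℂ inferInstance
  obtain ⟨P, hP⟩ := associatedPrimes.nonempty A M
  rw [AssociatedPrimes.mem_iff, isAssociatedPrime_iff] at hP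
  obtain ⟨hP1, x, hx⟩ := hP
  have hmem : ∀ a : A, a ∈ P ↔ a • x = 0 := by
    intro a
    rw [hx, Submodule.mem_colon_singleton, Submodule.mem_bot]
  have hfin : FiniteDimensional ℂ (A ⧸ P) :=
    Module.Finite.of_surjective (Ideal.Quotient.mkₐ ℂ P).toLinearMap
      (Ideal.Quotient.mkₐ_surjective ℂ P)
  have hbij : Function.Bijective (algebraMap ℂ (A ⧸ P)) :=
    IsAlgClosed.algebraMap_bijective_of_isIntegral
  let e : ℂ ≃ₐ[ℂ] (A ⧸ P) := AlgEquiv.ofBijective (Algebra.ofId ℂ (A ⧸ P)) hbij
  refine ⟨e.symm.toAlgHom.comp (Ideal.Quotient.mkₐ ℂ P), x, ?_, ?_⟩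
  · intro h0
    apply hP1.ne_top
    rw [Ideal.eq_top_iff_one, hmem, h0, smul_zero]
  · intro a
    set c : ℂ := (e.symm.toAlgHom.comp (Ideal.Quotient.mkₐ ℂ P)) a with hc
    have h1 : algebraMap ℂ (A ⧸ P) c = Ideal.Quotient.mk P a := by
      have : e c = Ideal.Quotient.mk P a := by
        rw [hc]
        exact e.apply_symm_apply _
      rw [← this]
      rfl
    have h2 : a - algebraMap ℂ A c ∈ P := by
      rw [← Ideal.Quotient.eq_zero_iff_mem, map_sub, sub_eq_zero]
      rw [← h1]
      rfl
    rw [hmem, sub_smul, sub_eq_zero] at h2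
    rw [h2, algebraMap_smul]

private theorem det_key (A : Type) [CommRing A] [Algebra ℂ A] [FiniteDimensional ℂ A] :
    ∀ (n : ℕ) (M : Type) [AddCommGroup M] [Module ℂ M] [Module A M] [IsScalarTower ℂ A M]
      [FiniteDimensional ℂ M], Module.finrank ℂ M = n →
      ∃ χ : Fin n → (A →ₐ[ℂ] ℂ), ∀ a : A,
        LinearMap.det (Algebra.lsmul ℂ ℂ M a) = ∏ i, χ i a := by
  intro n
  induction n with
  | zero =>
    intro M _ _ _ _ _ hn
    refine ⟨fun i => i.elim0, fun a => ?_⟩
    have : Subsingleton M := Module.finrank_zero_iff.1 hn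
    rw [Finset.univ_eq_empty, Finset.prod_empty]
    exact LinearMap.det_eq_one_of_subsingleton _
  | succ n ih =>
    intro M _ _ _ _ _ hn
    have hnt : Nontrivial M := Module.nontrivial_of_finrank_pos (R := ℂ) (by omega)
    obtain ⟨χ, x, hx, hχ⟩ := exists_common_eigenvector A M
    set N : Submodule A M := Submodule.span A {x} with hN
    set W : Submodule ℂ M := N.restrictScalars ℂ with hW
    have hWs : W = Submodule.span ℂ {x} := by
      ext y
      rw [hW, Submodule.restrictScalars_mem, hN, Submodule.mem_span_singleton,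
        Submodule.mem_span_singleton]
      constructor
      · rintro ⟨a, rfl⟩
        exact ⟨χ a, (hχ a).symm⟩
      · rintro ⟨c, rfl⟩
        exact ⟨algebraMap ℂ A c, algebraMap_smul A c x⟩
    have hW1 : Module.finrank ℂ W = 1 := by
      rw [hWs]
      exact finrank_span_singleton hx
    have hfd : FiniteDimensional ℂ (M ⧸ N) :=
      Module.Finite.equiv (Submodule.Quotient.restrictScalarsEquiv ℂ N)
    have hQ : Module.finrank ℂ (M ⧸ N) = n := by
      have h1 : Module.finrank ℂ (M ⧸ W) = Module.finrank ℂ (M ⧸ N) :=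
        (Submodule.Quotient.restrictScalarsEquiv ℂ N).finrank_eq
      have h2 := Submodule.finrank_quotient_add_finrank W
      rw [hW1, hn] at h2
      omega
    obtain ⟨ψ, hψ⟩ := ih (M ⧸ N) hQ
    refine ⟨Fin.cons χ ψ, fun a => ?_⟩
    have hle : W ≤ W.comap (Algebra.lsmul ℂ ℂ M a) := by
      intro y hy
      exact N.smul_mem a hy
    rw [LinearMap.det_eq_det_mul_det W _ hle, Fin.prod_univ_succ]
    congr 1
    · have h1 : ((Algebra.lsmul ℂ ℂ M a).restrict (fun y hy => hle hy) : W →ₗ[ℂ] W) =
          χ a • (LinearMap.id : W →ₗ[ℂ] W) := by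
        ext ⟨y, hy⟩
        rw [hWs, Submodule.mem_span_singleton] at hy
        obtain ⟨c, rfl⟩ := hy
        change a • c • x = χ a • c • x
        rw [smul_comm, hχ, smul_comm]
      rw [h1, LinearMap.det_smul, hW1, pow_one, LinearMap.det_id, mul_one, Fin.cons_zero]
    · simp only [Fin.cons_succ]
      rw [← hψ a, ← LinearMap.det_conj (W.mapQ W _ hle)
        (Submodule.Quotient.restrictScalarsEquiv ℂ N)]
      congr 1
      refine LinearMap.ext fun y => ?_
      obtain ⟨m, rfl⟩ := Submodule.Quotient.mk_surjective _ y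
      rfl

/-- CHUNK R316-PHAMF: the trace of a finite dimensional commutative `ℂ`-algebra is a sum of
characters.
PROOF.  `A` is Artinian, so it has finitely many maximal ideals, each with residue field `ℂ`
(finite extension of an algebraically closed field); equivalently the set `X` of algebra
homomorphisms `χ : A →ₐ[ℂ] ℂ` is finite (they are linearly independent, `linearIndependent_monoidHom`)
and an element `a` with `χ a = 0` for all `χ` is nilpotent (`IsArtinianRing`: nilradical =
Jacobson radical = intersection of the maximal ideals), and `a` is a unit iff `χ a ≠ 0` for all `χ`.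
By the Chinese remainder theorem (the kernels are pairwise coprime) choose `e_χ` with
`χ' e_χ = [χ' = χ]`.  For `a ∈ A`, `a - ∑ χ(a) e_χ` is nilpotent, so
`tr a = ∑ χ(a) tr e_χ` (`Algebra.trace` of a nilpotent element is nilpotent in `ℂ`, so zero).
`tr e_χ` is the sum of the roots of the characteristic polynomial of `M_{e_χ}` (ℂ algebraically
closed; `LinearMap.trace_eq_sum_roots_charpoly` or the matrix version); every root `λ` is an
eigenvalue, so `e_χ - λ` is not a unit, so `λ = χ'(e_χ) ∈ {0,1}` for some `χ'`.  So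
`tr e_χ = c_χ :=` the multiplicity of the root `1`, and `c_χ ≥ 1` because `e_χ - 1` is killed by `χ`, so it
is not a unit, so not injective (finite dimension), so `1` is an eigenvalue.  `a = 1`:
`finrank A = tr 1 = ∑ c_χ`.  Finally index `Σ χ, Fin (c_χ)` by `Fin (finrank A)`. -/
theorem exists_chars (A : Type) [CommRing A] [Algebra ℂ A] [FiniteDimensional ℂ A] (n : ℕ)
    (hn : Module.finrank ℂ A = n) :
    ∃ χ : Fin n → (A →ₐ[ℂ] ℂ), (∀ a : A, Algebra.trace ℂ A a = ∑ i, χ i a) ∧
      ∀ φ : A →ₐ[ℂ] ℂ, ∃ i, χ i = φ := by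
  obtain ⟨χ, hχ⟩ := det_key A n A hn
  refine ⟨χ, fun a => ?_, fun φ => ?_⟩
  · have hcp : (Algebra.lsmul ℂ ℂ A a).charpoly =
        ∏ i, (Polynomial.X - Polynomial.C (χ i a)) := by
      refine Polynomial.funext fun z => ?_
      rw [LinearMap.eval_charpoly, Polynomial.eval_prod]
      have h1 : algebraMap ℂ (Module.End ℂ A) z - Algebra.lsmul ℂ ℂ A a =
          Algebra.lsmul ℂ ℂ A (algebraMap ℂ A z - a) := by
        rw [map_sub]
        congr 1
        exact (AlgHom.commutes _ z).symm
      rw [h1, hχ]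
      refine Finset.prod_congr rfl fun i _ => ?_
      rw [map_sub, AlgHom.commutes]
      simp
    have htr := Module.End.trace_eq_sum_roots_charpoly_of_splits (K := ℂ)
      (f := Algebra.lsmul ℂ ℂ A a) (IsAlgClosed.splits _)
    have hms : (∏ i, (Polynomial.X - Polynomial.C (χ i a)) : Polynomial ℂ) =
        (((Finset.univ : Finset (Fin n)).val.map (fun i => χ i a)).map
          (fun c => Polynomial.X - Polynomial.C c)).prod := by
      rw [Multiset.map_map]
      rfl
    rw [hcp, hms, Polynomial.roots_multiset_prod_X_sub_C] at htr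
    rw [Algebra.trace_apply]
    change LinearMap.trace ℂ A (Algebra.lsmul ℂ ℂ A a) = _
    rw [htr]
    rfl
  · by_contra hcon
    push Not at hcon
    have hex : ∃ a : A, ∀ i, χ i a ≠ φ a := by
      by_contra h
      push Not at h
      have hcov : ⋃ i, ((LinearMap.ker ((χ i).toLinearMap - φ.toLinearMap) : Submodule ℂ A) :
          Set A) = Set.univ := by
        rw [Set.eq_univ_iff_forall]
        intro a
        obtain ⟨i, hi⟩ := h a
        rw [Set.mem_iUnion]
        refine ⟨i, ?_⟩
        simp [hi]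
      obtain ⟨i, hi⟩ := Subspace.exists_eq_top_of_iUnion_eq_univ hcov
      refine hcon i (AlgHom.ext fun a => ?_)
      have : a ∈ (LinearMap.ker ((χ i).toLinearMap - φ.toLinearMap) : Submodule ℂ A) := by
        rw [hi]; trivial
      rw [LinearMap.mem_ker, LinearMap.sub_apply, sub_eq_zero] at this
      exact this
    obtain ⟨a, ha⟩ := hex
    set b : A := a - algebraMap ℂ A (φ a) with hb
    have hdet : LinearMap.det (Algebra.lsmul ℂ ℂ A b) ≠ 0 := by
      rw [hχ, Finset.prod_ne_zero_iff]
      intro i _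
      rw [hb, map_sub, AlgHom.commutes, sub_ne_zero]
      exact ha i
    have hsurj := (LinearMap.equivOfDetNeZero (Algebra.lsmul ℂ ℂ A b) hdet).surjective (1 : A)
    obtain ⟨c, hc⟩ := hsurj
    have hc' : b * c = 1 := hc
    have h2 := congrArg φ hc'
    rw [map_mul, map_one, hb, map_sub, AlgHom.commutes] at h2
    simp at h2

end Crest.Agent.CHR.Pham
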