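import Crest.Agent.CHR.PhamA3
import Crest.Agent.CHR.PhamB3
import Crest.Agent.CHR.PhamB4
import Crest.Agent.CHR.PhamB5
import Crest.Agent.CHR.PhamF

set_option autoImplicit false

namespace Crest.Agent.CHR.Pham

open MvPolynomial Finset
open scoped TensorProduct

variable {σ : Type} [Fintype σ] [DecidableEq σ]

theorem mul_comm_aux {R T : Type} [CommRing R] [CommRing T] [Algebra ℂ R] [Algebra ℂ T]
    (f : R →ₐ[ℂ] T) (D a b : R) (h : f (D * (a - b)) = 0) :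
    f a * f D = f b * f D := by
  rw [mul_sub, map_sub, sub_eq_zero, map_mul, map_mul] at h
  rw [mul_comm, h, mul_comm]

omit [Fintype σ] [DecidableEq σ] in
theorem tens_gen {A : Type} [CommRing A] [Algebra ℂ A] (π : MvPolynomial σ ℂ →ₐ[ℂ] A)
    (hπ : Function.Surjective π) (D : A ⊗[ℂ] A)
    (hx : ∀ j : σ, (π (X j) ⊗ₜ[ℂ] (1 : A)) * D = ((1 : A) ⊗ₜ[ℂ] π (X j)) * D) (g : A) :
    (g ⊗ₜ[ℂ] (1 : A)) * D = ((1 : A) ⊗ₜ[ℂ] g) * D := by
  obtain ⟨p, rfl⟩ := hπ g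
  induction p using MvPolynomial.induction_on with
  | C a =>
    have : π (C a) = a • (1 : A) := by
      rw [← Algebra.algebraMap_eq_smul_one]; exact π.commutes a
    rw [this, TensorProduct.smul_tmul]
  | add p q hp hq =>
    rw [map_add, TensorProduct.add_tmul, TensorProduct.tmul_add, add_mul, add_mul, hp, hq]
  | mul_X p j hp =>
    have e1 : (π (p * X j) ⊗ₜ[ℂ] (1 : A)) = (π p ⊗ₜ[ℂ] (1 : A)) * (π (X j) ⊗ₜ[ℂ] (1 : A)) := by
      rw [Algebra.TensorProduct.tmul_mul_tmul, map_mul, mul_one]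
    have e2 : ((1 : A) ⊗ₜ[ℂ] π (p * X j)) = ((1 : A) ⊗ₜ[ℂ] π (X j)) * ((1 : A) ⊗ₜ[ℂ] π p) := by
      rw [Algebra.TensorProduct.tmul_mul_tmul, map_mul, mul_one, mul_comm]
    rw [e1, e2, mul_assoc, hx j, mul_assoc, ← hp, ← mul_assoc, ← mul_assoc,
      mul_comm (π p ⊗ₜ[ℂ] (1 : A))]

theorem trace_formula {m : σ → ℕ} {q : σ → MvPolynomial σ ℂ} (h : Sys m q) :
    FiniteDimensional ℂ (MvPolynomial σ ℂ ⧸ idl m q) ∧
    ∀ (g : MvPolynomial σ ℂ) (K : ℕ), g.totalDegree ≤ K →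
      Algebra.trace ℂ (MvPolynomial σ ℂ ⧸ idl m q) (Ideal.Quotient.mk (idl m q) g) =
        res m q K (g * jac m q) := by
  obtain ⟨ρ, hρ⟩ := exists_Res h
  obtain ⟨Δ, h1, h2, h3, h4⟩ := exists_Delta h
  have hx : ∀ j : σ, (Ideal.Quotient.mk (idl m q) (X j) ⊗ₜ[ℂ] (1 : MvPolynomial σ ℂ ⧸ idl m q)) *
      toTens m q Δ = ((1 : MvPolynomial σ ℂ ⧸ idl m q) ⊗ₜ[ℂ] Ideal.Quotient.mk (idl m q) (X j)) *
      toTens m q Δ := by
    intro j
    have := mul_comm_aux (R := MvPolynomial (σ ⊕ σ) ℂ)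
      (T := (MvPolynomial σ ℂ ⧸ idl m q) ⊗[ℂ] (MvPolynomial σ ℂ ⧸ idl m q))
      (toTens m q) Δ (X (Sum.inl j)) (X (Sum.inr j)) (toTens_ideal _ (h1 j))
    have e1 : toTens m q (X (Sum.inl j)) =
        (Ideal.Quotient.mk (idl m q) (X j) ⊗ₜ[ℂ] (1 : MvPolynomial σ ℂ ⧸ idl m q)) := by
      simp [toTens]
    have e2 : toTens m q (X (Sum.inr j)) =
        ((1 : MvPolynomial σ ℂ ⧸ idl m q) ⊗ₜ[ℂ] Ideal.Quotient.mk (idl m q) (X j)) := by
      simp [toTens]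
    rw [e1, e2] at this
    exact this
  have hg : ∀ g : MvPolynomial σ ℂ ⧸ idl m q, (g ⊗ₜ[ℂ] (1 : MvPolynomial σ ℂ ⧸ idl m q)) *
      toTens m q Δ = ((1 : MvPolynomial σ ℂ ⧸ idl m q) ⊗ₜ[ℂ] g) * toTens m q Δ :=
    tens_gen (Ideal.Quotient.mkₐ ℂ (idl m q)) Ideal.Quotient.mk_surjective _ hx
  have hr : TensorProduct.rid ℂ (MvPolynomial σ ℂ ⧸ idl m q)
        (LinearMap.lTensor (MvPolynomial σ ℂ ⧸ idl m q) ρ (toTens m q Δ)) = 1 := by
    rw [partial_res h ρ hρ Δ h3, h4, map_one]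
  obtain ⟨hfd, htr⟩ := tensor_frame _ ρ _ hg hr
  refine ⟨hfd, fun g K hK => ?_⟩
  rw [htr, lmul_toTens, h2, ← map_mul]
  apply hρ
  refine (totalDegree_mul _ _).trans (add_le_add hK (jac_totalDegree h))

omit [Fintype σ] [DecidableEq σ] in
theorem eval_mem_idl {m : σ → ℕ} {q : σ → MvPolynomial σ ℂ} (x : σ → ℂ)
    (hx : ∀ j, x j ^ m j = eval x (q j)) (a : MvPolynomial σ ℂ) (ha : a ∈ idl m q) :
    aeval x a = 0 := by
  have : idl m q ≤ RingHom.ker (aeval x : MvPolynomial σ ℂ →ₐ[ℂ] ℂ) := by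
    rw [idl, Ideal.span_le]
    rintro _ ⟨i, rfl⟩
    simp only [SetLike.mem_coe, RingHom.mem_ker, map_sub, map_pow, aeval_X, hx i, sub_eq_zero]
    rfl
  exact this ha

theorem exists_pts {m : σ → ℕ} {q : σ → MvPolynomial σ ℂ} (h : Sys m q) :
    ∃ Z : Fin (∏ j, m j) → σ → ℂ,
      (∀ i j, Z i j ^ m j = eval (Z i) (q j)) ∧
      (∀ x : σ → ℂ, (∀ j, x j ^ m j = eval x (q j)) → ∃ i, Z i = x) ∧
      ∀ (g : MvPolynomial σ ℂ) (K : ℕ), g.totalDegree ≤ K →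
        ∑ i, eval (Z i) g = res m q K (g * jac m q) := by
  obtain ⟨hfd, htr⟩ := trace_formula h
  have hfr : Module.finrank ℂ (MvPolynomial σ ℂ ⧸ idl m q) = ∏ j, m j := by
    have h1 := htr 1 0 (by simp)
    rw [map_one, one_mul] at h1
    have h2 : Algebra.trace ℂ (MvPolynomial σ ℂ ⧸ idl m q) 1 =
        (Module.finrank ℂ (MvPolynomial σ ℂ ⧸ idl m q) : ℂ) := by
      have := Algebra.trace_algebraMap (R := ℂ) (S := MvPolynomial σ ℂ ⧸ idl m q) 1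
      rw [map_one] at this
      rw [this]; simp
    have h3 : res m q 0 (jac m q) = ∏ j, (m j : ℂ) := by
      rw [← jac_coeff_top h, res]
      congr 1
      simp [den]
    rw [h2, h3] at h1
    exact_mod_cast h1
  obtain ⟨χ, hχ1, hχ2⟩ := exists_chars (MvPolynomial σ ℂ ⧸ idl m q) _ hfr
  have hev : ∀ (φ : (MvPolynomial σ ℂ ⧸ idl m q) →ₐ[ℂ] ℂ) (g : MvPolynomial σ ℂ),
      φ (Ideal.Quotient.mk (idl m q) g) = eval (fun j => φ (Ideal.Quotient.mk (idl m q) (X j))) g := by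
    intro φ g
    have : (φ.comp (Ideal.Quotient.mkₐ ℂ (idl m q))) =
        (aeval (fun j => φ (Ideal.Quotient.mk (idl m q) (X j))) : MvPolynomial σ ℂ →ₐ[ℂ] ℂ) := by
      apply MvPolynomial.algHom_ext
      intro j
      simp
    exact congrArg (fun f => f g) this
  refine ⟨fun i j => χ i (Ideal.Quotient.mk (idl m q) (X j)), fun i j => ?_, fun x hx => ?_,
    fun g K hK => ?_⟩
  · rw [← hev, ← map_pow, ← map_pow]
    congr 1
    rw [Ideal.Quotient.mk_eq_mk_iff_sub_mem]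
    exact Ideal.subset_span ⟨j, rfl⟩
  · obtain ⟨i, hi⟩ := hχ2 (Ideal.Quotient.liftₐ (idl m q) (aeval x) (eval_mem_idl x hx))
    refine ⟨i, ?_⟩
    funext j
    show χ i _ = x j
    rw [hi]
    simp
  · rw [← htr g K hK, hχ1]
    exact Finset.sum_congr rfl fun i _ => (hev (χ i) g).symm

end Crest.Agent.CHR.Pham
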