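import Mathlib

/-!
# Row 316, module M1: structured programs on Bool stacks

Registers are `ℕ`, each holds a `List Bool`.  `Ev P s t s'`: program `P` started in the state `s`
stops in the state `s'` after exactly `t` steps.
-/

set_option autoImplicit false

namespace Crest.Agent.CHR

/-- Structured programs.  `case r P Q R`: `P` if register `r` is empty, `Q` if its top is `false`,
`R` if its top is `true` (the top is not removed).  `loop r P`: while `r` is nonempty do `P`. -/
inductive Prog : Type
  | skip : Prog
  | push : ℕ → Bool → Prog
  | pop : ℕ → Prog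
  | seq : Prog → Prog → Prog
  | case : ℕ → Prog → Prog → Prog → Prog
  | loop : ℕ → Prog → Prog

infixr:60 " ;; " => Prog.seq

/-- states -/
abbrev St := ℕ → List Bool

/-- Big-step semantics with exact time. -/
inductive Ev : Prog → St → ℕ → St → Prop
  | skip (s : St) : Ev .skip s 1 s
  | push (r : ℕ) (b : Bool) (s : St) : Ev (.push r b) s 1 (Function.update s r (b :: s r))
  | pop (r : ℕ) (s : St) : Ev (.pop r) s 1 (Function.update s r (s r).tail)
  | seq {P Q : Prog} {s s' s'' : St} {t t' : ℕ} (h : Ev P s t s') (h' : Ev Q s' t' s'') :
      Ev (P ;; Q) s (t + t') s''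
  | case_nil {r : ℕ} {P Q R : Prog} {s s' : St} {t : ℕ} (hr : s r = []) (h : Ev P s t s') :
      Ev (.case r P Q R) s (t + 1) s'
  | case_false {r : ℕ} {P Q R : Prog} {s s' : St} {t : ℕ} {l : List Bool} (hr : s r = false :: l)
      (h : Ev Q s t s') : Ev (.case r P Q R) s (t + 1) s'
  | case_true {r : ℕ} {P Q R : Prog} {s s' : St} {t : ℕ} {l : List Bool} (hr : s r = true :: l)
      (h : Ev R s t s') : Ev (.case r P Q R) s (t + 1) s'
  | loop_done {r : ℕ} {P : Prog} {s : St} (hr : s r = []) : Ev (.loop r P) s 1 s
  | loop_step {r : ℕ} {P : Prog} {s s' s'' : St} {t t' : ℕ} (hr : s r ≠ []) (h : Ev P s t s')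
      (h' : Ev (.loop r P) s' t' s'') : Ev (.loop r P) s (t + t' + 1) s''

/-- largest register -/
def Prog.maxReg : Prog → ℕ
  | .skip => 0
  | .push r _ => r
  | .pop r => r
  | .seq P Q => max P.maxReg Q.maxReg
  | .case r P Q R => max r (max P.maxReg (max Q.maxReg R.maxReg))
  | .loop r P => max r P.maxReg

/-- Time grows the registers by at most one symbol per step. -/
theorem Ev.length_le {P : Prog} {s s' : St} {t : ℕ} (h : Ev P s t s') (r : ℕ) :
    (s' r).length ≤ (s r).length + t := by
  induction h with
  | skip s => omega
  | push q b s =>
    by_cases h : r = q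
    · subst h; simp
    · simp [Function.update_of_ne h]
  | pop q s =>
    by_cases h : r = q
    · subst h; simp; omega
    · simp [Function.update_of_ne h]
  | seq _ _ ih ih' => omega
  | case_nil _ _ ih => omega
  | case_false _ _ ih => omega
  | case_true _ _ ih => omega
  | loop_done _ => omega
  | loop_step _ _ _ ih ih' => omega

/-- `s` on the registers `≤ B`, `u` on the others -/
def gl (B : ℕ) (s u : St) : St := fun i => if i ≤ B then s i else u i

theorem gl_low {B i : ℕ} (s u : St) (h : i ≤ B) : gl B s u i = s i := by simp [gl, h]

theorem gl_update {B r : ℕ} (s u : St) (h : r ≤ B) (x : List Bool) :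
    gl B (Function.update s r x) u = Function.update (gl B s u) r x := by
  funext i
  by_cases hi : i = r
  · subst hi; simp [gl, h]
  · simp [gl, Function.update_of_ne hi]

/-- Frame lemma. -/
theorem Ev.frame {P : Prog} {s s' : St} {t : ℕ} (h : Ev P s t s') {B : ℕ} (hB : P.maxReg ≤ B)
    (u : St) : Ev P (gl B s u) t (gl B s' u) := by
  induction h with
  | skip s => exact Ev.skip _
  | push r b s =>
    have hr : r ≤ B := hB
    rw [gl_update s u hr]
    have := Ev.push r b (gl B s u)
    rwa [gl_low s u hr] at this
  | pop r s =>
    have hr : r ≤ B := hB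
    rw [gl_update s u hr]
    have := Ev.pop r (gl B s u)
    rwa [gl_low s u hr] at this
  | seq _ _ ih ih' =>
    simp only [Prog.maxReg, max_le_iff] at hB
    exact Ev.seq (ih hB.1) (ih' hB.2)
  | case_nil hr _ ih =>
    simp only [Prog.maxReg, max_le_iff] at hB
    exact Ev.case_nil (by rw [gl_low _ _ hB.1]; exact hr) (ih hB.2.1)
  | case_false hr _ ih =>
    simp only [Prog.maxReg, max_le_iff] at hB
    exact Ev.case_false (by rw [gl_low _ _ hB.1]; exact hr) (ih hB.2.2.1)
  | case_true hr _ ih =>
    simp only [Prog.maxReg, max_le_iff] at hB
    exact Ev.case_true (by rw [gl_low _ _ hB.1]; exact hr) (ih hB.2.2.2)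
  | loop_done hr =>
    simp only [Prog.maxReg, max_le_iff] at hB
    exact Ev.loop_done (by rw [gl_low _ _ hB.1]; exact hr)
  | loop_step hr _ _ ih ih' =>
    have hB' := hB
    simp only [Prog.maxReg, max_le_iff] at hB'
    exact Ev.loop_step (by rw [gl_low _ _ hB'.1]; exact hr) (ih hB'.2) (ih' hB)

/-- change the time -/
theorem Ev.time {P : Prog} {s s' : St} {t t' : ℕ} (h : Ev P s t s') (e : t = t') : Ev P s t' s' :=
  e ▸ h

/-! ## Standard states

`st B w a b c`: register `0` holds `w`, registers `B+1, B+2, B+3` hold `a, b, c`, the others are
empty. -/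

def st (B : ℕ) (w a b c : List Bool) : St := fun i =>
  if i = 0 then w else if i = B + 1 then a else if i = B + 2 then b else if i = B + 3 then c else []

/-- initial (and final) states: only register `0` is used -/
def ini (w : List Bool) : St := fun i => if i = 0 then w else []

section
variable (B : ℕ) (w a b c x : List Bool)

theorem st_ini : st B w [] [] [] = ini w := by
  funext i
  simp only [st, ini]
  split_ifs <;> rfl

@[simp] theorem st_r0 : st B w a b c 0 = w := by simp [st]
@[simp] theorem st_r1 : st B w a b c (B + 1) = a := by simp [st]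
@[simp] theorem st_r2 : st B w a b c (B + 2) = b := by simp [st]
@[simp] theorem st_r3 : st B w a b c (B + 3) = c := by simp [st]

@[simp] theorem st_u0 : Function.update (st B w a b c) 0 x = st B x a b c := by
  funext i
  by_cases h : i = 0
  · subst h; simp [st]
  · simp [st, h]

@[simp] theorem st_u1 : Function.update (st B w a b c) (B + 1) x = st B w x b c := by
  funext i
  by_cases h : i = B + 1
  · subst h; simp [st]
  · simp [st, h]

@[simp] theorem st_u2 : Function.update (st B w a b c) (B + 2) x = st B w a x c := by
  funext i
  by_cases h : i = B + 2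
  · subst h; simp [st]
  · simp [st, h]

@[simp] theorem st_u3 : Function.update (st B w a b c) (B + 3) x = st B w a b x := by
  funext i
  by_cases h : i = B + 3
  · subst h; simp [st]
  · simp [st, h]

end

/-- frame lemma for standard states -/
theorem Ev.frame_st {P : Prog} {w w' : List Bool} {t : ℕ} (h : Ev P (ini w) t (ini w')) {B : ℕ}
    (hB : P.maxReg ≤ B) (a b c : List Bool) : Ev P (st B w a b c) t (st B w' a b c) := by
  have key : ∀ v : List Bool, gl B (ini v) (st B v a b c) = st B v a b c := by
    intro v
    funext i
    simp only [gl, ini, st]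
    split_ifs <;> first | rfl | omega
  have key2 : gl B (ini w') (st B w a b c) = st B w' a b c := by
    funext i
    simp only [gl, ini, st]
    split_ifs <;> first | rfl | omega
  have := h.frame hB (st B w a b c)
  rwa [key w, key2] at this

/-! ## Macros -/

/-- move register `r` to `r'` (reversing) -/
def mv (r r' : ℕ) : Prog :=
  .loop r (.case r .skip (.pop r ;; .push r' false) (.pop r ;; .push r' true))

/-- empty register `r` -/
def clr (r : ℕ) : Prog := .loop r (.pop r)

theorem Ev.clr (r : ℕ) (s : St) : Ev (clr r) s (2 * (s r).length + 1) (Function.update s r []) := by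
  generalize hl : s r = l
  induction l generalizing s with
  | nil =>
    have e : Function.update s r [] = s := by rw [← hl]; exact Function.update_eq_self r s
    rw [e]
    exact (Ev.loop_done hl).time (by simp)
  | cons b l ih =>
    have h1 := Ev.pop r s
    have h2 := ih (Function.update s r (s r).tail) (by simp [hl])
    rw [Function.update_idem] at h2
    exact (Ev.loop_step (by rw [hl]; simp) h1 h2).time (by simp; omega)

theorem Ev.mv {r r' : ℕ} (hne : r ≠ r') (s : St) : Ev (mv r r') s (4 * (s r).length + 1)
    (Function.update (Function.update s r []) r' ((s r).reverse ++ s r')) := by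
  generalize hl : s r = l
  induction l generalizing s with
  | nil =>
    have e : Function.update s r [] = s := by rw [← hl]; exact Function.update_eq_self r s
    rw [e]
    have e2 : Function.update s r' ([].reverse ++ s r') = s := by
      simp
    rw [e2]
    exact (Ev.loop_done hl).time (by simp)
  | cons b l ih =>
    set s1 := Function.update s r (s r).tail with hs1
    set s2 := Function.update s1 r' (b :: s1 r') with hs2
    have h1 : Ev (.pop r) s 1 s1 := Ev.pop r s
    have h2 : Ev (.push r' b) s1 1 s2 := Ev.push r' b s1
    have h3 := ih s2 (by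
      rw [hs2, Function.update_of_ne hne, hs1]
      simp [hl])
    have e1 : s2 r' = b :: s r' := by
      rw [hs2, Function.update_self, hs1, Function.update_of_ne hne.symm]
    have e : Function.update (Function.update s2 r []) r' (l.reverse ++ s2 r') =
        Function.update (Function.update s r []) r' ((b :: l).reverse ++ s r') := by
      rw [e1]
      have e3 : l.reverse ++ b :: s r' = (b :: l).reverse ++ s r' := by simp
      rw [e3, hs2, Function.update_comm hne.symm, Function.update_idem, hs1, Function.update_idem]
    rw [e] at h3
    have h4 : Ev (.case r .skip (.pop r ;; .push r' false) (.pop r ;; .push r' true)) s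
        (1 + 1 + 1) s2 := by
      cases b with
      | false => exact Ev.case_false hl (Ev.seq h1 h2)
      | true => exact Ev.case_true hl (Ev.seq h1 h2)
    exact (Ev.loop_step (by rw [hl]; simp) h4 h3).time (by simp; omega)

end Crest.Agent.CHR
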