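import Crest.Agent.CHR.RFDefs

/-!
CHUNK R316-RFA (easy/medium, ~120 lines): closure properties of rational families, elementary part.
PROOFS: quotients of polynomials: `N₁/D₁ + N₂/D₂ = (N₁D₂+N₂D₁)/(D₁D₂)` etc. with the closure properties of
`IsFam` (Fam.lean).  `RF.div`: `(N₁/D₁)/(N₂/D₂) = N₁D₂/(D₁N₂)`.
-/

set_option autoImplicit false

namespace Crest.Agent.CHR

open MvPolynomial Finset

variable {ok ok' : W → (ℕ → ℂ) → Prop} {φ ψ : W → (ℕ → ℂ) → ℂ}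

private theorem RFa_one : IsFam (fun _ : W => (1 : P)) := by
  have h := IsFam.const (a := fun _ => 1) (b := fun _ => 1) (CHN.const 1) (CHN.const 1)
    (fun _ => Nat.one_pos)
  refine h.congr fun w => ?_
  simp

theorem RF.poly {F : W → P} (hF : IsFam F) : RF ok (fun w v => aeval v (F w)) := by
  refine ⟨F, fun _ => 1, hF, RFa_one, fun w v _ => ?_⟩
  simp

theorem RF.mono (h : RF ok φ) (hok : ∀ w v, ok' w v → ok w v) : RF ok' φ := by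
  obtain ⟨N, D, hN, hD, h1⟩ := h
  exact ⟨N, D, hN, hD, fun w v hv => h1 w v (hok w v hv)⟩

theorem RF.congr (h : RF ok φ) (he : ∀ w v, ok w v → φ w v = ψ w v) : RF ok ψ := by
  obtain ⟨N, D, hN, hD, h1⟩ := h
  exact ⟨N, D, hN, hD, fun w v hv => ⟨(h1 w v hv).1, (he w v hv).symm.trans (h1 w v hv).2⟩⟩

theorem RF.const {a b : W → ℕ} (ha : CHN a) (hb : CHN b) (h0 : ∀ w, 0 < b w) :
    RF ok (fun w _ => ratC a b w) := by
  refine (RF.poly (ok := ok) (IsFam.const ha hb h0)).congr fun w v _ => ?_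
  simp [ratC]

theorem RF.var {j : W → ℕ} (hj : CHN j) (q : Polynomial ℕ) (hq : ∀ w, j w ≤ q.eval w.length) :
    RF ok (fun w v => v (j w)) := by
  refine (RF.poly (ok := ok) (IsFam.var hj q hq)).congr fun w v _ => ?_
  simp

theorem RF.add (h₁ : RF ok φ) (h₂ : RF ok ψ) : RF ok (fun w v => φ w v + ψ w v) := by
  obtain ⟨N₁, D₁, hN₁, hD₁, h1⟩ := h₁
  obtain ⟨N₂, D₂, hN₂, hD₂, h2⟩ := h₂
  refine ⟨fun w => N₁ w * D₂ w + D₁ w * N₂ w, fun w => D₁ w * D₂ w,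
    (hN₁.mul hD₂).add (hD₁.mul hN₂), hD₁.mul hD₂, fun w v hv => ?_⟩
  obtain ⟨a1, b1⟩ := h1 w v hv
  obtain ⟨a2, b2⟩ := h2 w v hv
  simp only [map_add, map_mul]
  refine ⟨mul_ne_zero a1 a2, ?_⟩
  rw [b1, b2, div_add_div _ _ a1 a2]

theorem RF.mul (h₁ : RF ok φ) (h₂ : RF ok ψ) : RF ok (fun w v => φ w v * ψ w v) := by
  obtain ⟨N₁, D₁, hN₁, hD₁, h1⟩ := h₁
  obtain ⟨N₂, D₂, hN₂, hD₂, h2⟩ := h₂
  refine ⟨fun w => N₁ w * N₂ w, fun w => D₁ w * D₂ w, hN₁.mul hN₂, hD₁.mul hD₂,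
    fun w v hv => ?_⟩
  obtain ⟨a1, b1⟩ := h1 w v hv
  obtain ⟨a2, b2⟩ := h2 w v hv
  simp only [map_mul]
  refine ⟨mul_ne_zero a1 a2, ?_⟩
  rw [b1, b2, div_mul_div_comm]

theorem RF.neg (h₁ : RF ok φ) : RF ok (fun w v => - φ w v) := by
  obtain ⟨N₁, D₁, hN₁, hD₁, h1⟩ := h₁
  refine ⟨fun w => - N₁ w, D₁, hN₁.neg, hD₁, fun w v hv => ?_⟩
  obtain ⟨a1, b1⟩ := h1 w v hv
  refine ⟨a1, ?_⟩
  simp only [map_neg]
  rw [b1, neg_div]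

theorem RF.sub (h₁ : RF ok φ) (h₂ : RF ok ψ) : RF ok (fun w v => φ w v - ψ w v) :=
  (h₁.add h₂.neg).congr fun _ _ _ => (sub_eq_add_neg _ _).symm

theorem RF.div (h₁ : RF ok φ) (h₂ : RF ok ψ) (h0 : ∀ w v, ok w v → ψ w v ≠ 0) :
    RF ok (fun w v => φ w v / ψ w v) := by
  obtain ⟨N₁, D₁, hN₁, hD₁, h1⟩ := h₁
  obtain ⟨N₂, D₂, hN₂, hD₂, h2⟩ := h₂
  refine ⟨fun w => N₁ w * D₂ w, fun w => D₁ w * N₂ w, hN₁.mul hD₂, hD₁.mul hN₂,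
    fun w v hv => ?_⟩
  obtain ⟨a1, b1⟩ := h1 w v hv
  obtain ⟨a2, b2⟩ := h2 w v hv
  have h3 : aeval v (N₂ w) ≠ 0 := by
    intro h
    apply h0 w v hv
    rw [b2, h, zero_div]
  simp only [map_mul]
  refine ⟨mul_ne_zero a1 h3, ?_⟩
  rw [b1, b2, div_div_div_eq]

theorem RF.pow {N : W → ℕ} (hN : CHN N) (h₁ : RF ok φ) : RF ok (fun w v => φ w v ^ N w) := by
  obtain ⟨N₁, D₁, hN₁, hD₁, h1⟩ := h₁
  refine ⟨fun w => N₁ w ^ N w, fun w => D₁ w ^ N w, hN₁.pow hN, hD₁.pow hN, fun w v hv => ?_⟩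
  obtain ⟨a1, b1⟩ := h1 w v hv
  simp only [map_pow]
  refine ⟨pow_ne_zero _ a1, ?_⟩
  rw [b1, div_pow]

private theorem RFa_oneRF : RF ok (fun _ _ => (1 : ℂ)) :=
  (RF.poly (ok := ok) RFa_one).congr fun w v _ => by simp

theorem RF.thr {A : W → (ℕ → ℂ) → ℂ} {M : W → ℕ} (hM : CHN M) (hA : RF ok A) (h₁ : RF ok φ)
    (h0 : ∀ w v, ok w v → 1 + (A w v * φ w v) ^ M w ≠ 0) :
    RF ok (fun w v => Crest.Agent.CHR.thr (A w v) (M w) (φ w v)) := by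
  have h2 : RF ok (fun w v => 1 + (A w v * φ w v) ^ M w) :=
    RFa_oneRF.add (RF.pow hM (hA.mul h₁))
  exact (RFa_oneRF.div h2 h0).congr fun w v _ => rfl

end Crest.Agent.CHR
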