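import Crest.Agent.CHR.RFa

/-!
CHUNK R316-RFB (medium, ~150 lines): exponential sums and products, reindexing, substitution, sign.
PROOFS: `RF.prod`: products of numerators and of denominators (`IsFam.prod`).
`RF.sum`: for fractions `n_i/d_i`, `i < N`: with a fresh variable `s` (index `b(|w|)` beyond all variables of all
`N (pn w i), D (pn w i)`, from `IsFam.bnd`): `∑ n_i/d_i = [s^1] ∏ (d_i + X_s n_i) / ∏ d_i`
(`coefS {s} (fun _ => 1)`, `{s} = Ico s (s+1)`, `IsFam.coef`).
`RF.subst`: `IsFam.bind`.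
`RF.half`: `N w, D w` at `v = 0`: `bind₁ (fun _ => 0)` gives constant families `C x`, `C y` with rational `x, y`; if `y ≠ 0`:
`1/2 < x/y` iff `0 < (2 x - y) * y`: `IsFam.sign`.
-/

set_option autoImplicit false

namespace Crest.Agent.CHR

open MvPolynomial Finset Crest.CountHier

/-! ### coefficient extraction in one variable -/

/-- linear version of `coefS` -/
noncomputable def rfbL (S : Finset ℕ) (a : ℕ → ℕ) : P →ₗ[ℚ] P :=
  (basisMonomials ℕ ℚ).constr ℚ (fun m => if ∀ i ∈ S, m i = a i then
    monomial (Finsupp.filter (fun i => i ∉ S) m) 1 else 0)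

theorem rfbL_monomial (S : Finset ℕ) (a : ℕ → ℕ) (m : ℕ →₀ ℕ) (c : ℚ) :
    rfbL S a (monomial m c) = if ∀ i ∈ S, m i = a i then
      monomial (Finsupp.filter (fun i => i ∉ S) m) c else 0 := by
  have h1 : (monomial m c : P) = c • (basisMonomials ℕ ℚ) m := by
    rw [coe_basisMonomials, smul_monomial, smul_eq_mul, mul_one]
  rw [h1, map_smul, rfbL, Module.Basis.constr_basis]
  split_ifs
  · rw [smul_monomial, smul_eq_mul, mul_one]
  · rw [smul_zero]

theorem coefS_eq_rfbL (S : Finset ℕ) (a : ℕ → ℕ) (f : P) : coefS S a f = rfbL S a f := by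
  conv_rhs => rw [f.as_sum, map_sum]
  unfold coefS
  rw [Finset.sum_filter]
  refine Finset.sum_congr rfl fun m _ => ?_
  rw [rfbL_monomial]

theorem rfb_coef_fresh (s : ℕ) (k a : ℕ) (f : P) (hf : s ∉ f.vars) :
    coefS {s} (fun _ => a) (f * X s ^ k) = if k = a then f else 0 := by
  rw [coefS_eq_rfbL]
  have h1 : f * X s ^ k = ∑ m ∈ f.support, monomial (m + Finsupp.single s k) (coeff m f) := by
    conv_lhs => rw [f.as_sum, Finset.sum_mul]
    refine Finset.sum_congr rfl fun m _ => ?_
    rw [X_pow_eq_monomial, monomial_mul, mul_one]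
  rw [h1, map_sum]
  have h2 : ∀ m ∈ f.support, m s = 0 := by
    intro m hm
    by_contra h
    exact hf ((mem_vars_iff_mem_support s).2 ⟨m, hm, Finsupp.mem_support_iff.2 h⟩)
  have h3 : ∀ m ∈ f.support, rfbL {s} (fun _ => a)
      (monomial (m + Finsupp.single s k) (coeff m f)) =
      if k = a then monomial m (coeff m f) else 0 := by
    intro m hm
    rw [rfbL_monomial]
    have h4 : (∀ i ∈ ({s} : Finset ℕ), (m + Finsupp.single s k) i = a) ↔ k = a := by
      simp [h2 m hm]
    by_cases hk : k = a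
    · rw [if_pos (h4.2 hk), if_pos hk]
      have h5 : Finsupp.filter (fun i => i ∉ ({s} : Finset ℕ)) (m + Finsupp.single s k) = m := by
        ext i
        by_cases hi : i = s
        · subst hi
          rw [Finsupp.filter_apply_neg _ _ (by simp), h2 m hm]
        · rw [Finsupp.filter_apply_pos _ _ (by simpa using hi)]
          simp [Ne.symm hi]
      rw [h5]
    · rw [if_neg (fun h => hk (h4.1 h)), if_neg hk]
  rw [Finset.sum_congr rfl h3]
  split_ifs
  · exact f.as_sum.symm
  · exact Finset.sum_const_zero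

theorem rfb_coef_high (s : ℕ) (R : P) : coefS {s} (fun _ => 1) (R * X s ^ 2) = 0 := by
  rw [coefS_eq_rfbL]
  have h1 : R * X s ^ 2 = ∑ m ∈ R.support, monomial (m + Finsupp.single s 2) (coeff m R) := by
    conv_lhs => rw [R.as_sum, Finset.sum_mul]
    refine Finset.sum_congr rfl fun m _ => ?_
    rw [X_pow_eq_monomial, monomial_mul, mul_one]
  rw [h1, map_sum]
  refine Finset.sum_eq_zero fun m _ => ?_
  rw [rfbL_monomial, if_neg]
  intro h
  have := h s (Finset.mem_singleton_self s)
  simp at this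

theorem rfb_coef (s : ℕ) (A B R : P) (hA : s ∉ A.vars) (hB : s ∉ B.vars) :
    coefS {s} (fun _ => 1) (A + B * X s + R * X s ^ 2) = B := by
  have h1 := rfb_coef_fresh s 0 1 A hA
  have h2 := rfb_coef_fresh s 1 1 B hB
  have h3 := rfb_coef_high s R
  rw [coefS_eq_rfbL] at h1 h2 h3 ⊢
  rw [pow_zero, mul_one] at h1
  rw [pow_one] at h2
  rw [map_add, map_add, h1, h2, h3]
  simp

theorem rfb_expand (s : ℕ) (Nf Df : ℕ → P) (hN : ∀ i, s ∉ (Nf i).vars) (hD : ∀ i, s ∉ (Df i).vars)
    (n : ℕ) : ∃ B R : P, s ∉ (∏ i ∈ range n, Df i).vars ∧ s ∉ B.vars ∧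
      ∏ i ∈ range n, (Df i + X s * Nf i) = ∏ i ∈ range n, Df i + B * X s + R * X s ^ 2 ∧
      ∀ v : ℕ → ℂ, (∀ i < n, aeval v (Df i) ≠ 0) →
        ∑ i ∈ range n, aeval v (Nf i) / aeval v (Df i) =
          aeval v B / aeval v (∏ i ∈ range n, Df i) := by
  induction n with
  | zero => exact ⟨0, 0, by simp, by simp, by simp, by simp⟩
  | succ n ih =>
    obtain ⟨B, R, h1, h2, h3, h4⟩ := ih
    refine ⟨B * Df n + (∏ i ∈ range n, Df i) * Nf n, B * Nf n + R * Df n + R * Nf n * X s,
      ?_, ?_, ?_, ?_⟩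
    · rw [Finset.prod_range_succ]
      intro h
      rcases Finset.mem_union.1 (vars_mul _ _ h) with h | h
      · exact h1 h
      · exact hD n h
    · intro h
      rcases Finset.mem_union.1 (vars_add_subset _ _ h) with h | h
      · rcases Finset.mem_union.1 (vars_mul _ _ h) with h | h
        · exact h2 h
        · exact hD n h
      · rcases Finset.mem_union.1 (vars_mul _ _ h) with h | h
        · exact h1 h
        · exact hN n h
    · rw [Finset.prod_range_succ, Finset.prod_range_succ, h3]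
      ring
    · intro v hv
      rw [Finset.sum_range_succ, h4 v (fun i hi => hv i (by omega)), Finset.prod_range_succ]
      have h5 : aeval v (∏ i ∈ range n, Df i) ≠ 0 := by
        rw [map_prod, Finset.prod_ne_zero_iff]
        intro i hi
        exact hv i (by have := Finset.mem_range.1 hi; omega)
      have h6 := hv n (by omega)
      rw [map_add, map_mul, map_mul, map_mul]
      field_simp

/-! ### lengths -/

theorem rfb_length_fstB_le (z : W) : (fstB z).length ≤ z.length := by
  unfold fstB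
  induction z using unpairB.induct with
  | case1 b l ih => rw [unpairB]; simp only [List.length_cons]; omega
  | case2 l => rw [unpairB]; simp
  | case3 l h1 h2 =>
    match l, h1, h2 with
    | [], _, _ => simp [unpairB]
    | [true], _, _ => simp [unpairB]
    | true :: b :: l, h1, _ => exact absurd rfl (h1 b l)
    | false :: l, _, h2 => exact absurd rfl (h2 l)

theorem rfb_length_pairBits (x y : W) :
    (pairBits x y).length = 2 * x.length + 1 + y.length := by
  induction x with
  | nil =>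
    have : pairBits [] y = false :: y := rfl
    rw [this]; simp; omega
  | cons b x ih =>
    have : pairBits (b :: x) y = true :: b :: pairBits x y := rfl
    rw [this, List.length_cons, List.length_cons, ih, List.length_cons]; omega

theorem rfb_eval_mono (b : Polynomial ℕ) {x y : ℕ} (h : x ≤ y) : b.eval x ≤ b.eval y := by
  rw [Polynomial.eval_eq_sum, Polynomial.eval_eq_sum]
  apply Finset.sum_le_sum
  intro i _
  exact Nat.mul_le_mul_left _ (Nat.pow_le_pow_left h i)

variable {ok ok' : W → (ℕ → ℂ) → Prop} {φ ψ : W → (ℕ → ℂ) → ℂ}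

theorem RF.comp {g : W → W} (h : RF ok' φ) (hg : CHF g) (hok : ∀ w v, ok w v → ok' (g w) v) :
    RF ok (fun w v => φ (g w) v) := by
  obtain ⟨N, D, hN, hD, h⟩ := h
  exact ⟨fun w => N (g w), fun w => D (g w), hN.comp hg, hD.comp hg,
    fun w v hv => h (g w) v (hok w v hv)⟩

theorem RF.prod {N : W → ℕ} (hN : CHN N) (h : RF ok' φ)
    (hok : ∀ w v, ok w v → ∀ i < N w, ok' (pn w i) v) :
    RF ok (fun w v => ∏ i ∈ range (N w), φ (pn w i) v) := by
  obtain ⟨A, D, hA, hD, h⟩ := h
  refine ⟨fun w => ∏ i ∈ range (N w), A (pn w i), fun w => ∏ i ∈ range (N w), D (pn w i),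
    hA.prod hN, hD.prod hN, ?_⟩
  intro w v hv
  have h1 : ∀ i ∈ range (N w), aeval v (D (pn w i)) ≠ 0 ∧
      φ (pn w i) v = aeval v (A (pn w i)) / aeval v (D (pn w i)) :=
    fun i hi => h _ v (hok w v hv i (Finset.mem_range.1 hi))
  refine ⟨?_, ?_⟩
  · rw [map_prod, Finset.prod_ne_zero_iff]
    exact fun i hi => (h1 i hi).1
  · rw [map_prod, map_prod, ← Finset.prod_div_distrib]
    exact Finset.prod_congr rfl fun i hi => (h1 i hi).2

theorem RF.sum {N : W → ℕ} (hN : CHN N) (h : RF ok' φ)
    (hok : ∀ w v, ok w v → ∀ i < N w, ok' (pn w i) v) :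
    RF ok (fun w v => ∑ i ∈ range (N w), φ (pn w i) v) := by
  obtain ⟨A, D, hA, hD, h⟩ := h
  obtain ⟨bA, hbA⟩ := hA.bnd
  obtain ⟨bD, hbD⟩ := hD.bnd
  obtain ⟨p, hp⟩ := hN.bound
  -- the fresh variable
  set r : Polynomial ℕ := (bA + bD).comp (2 * Polynomial.X + 1 + p) with hr
  set s : W → ℕ := fun w => r.eval w.length with hs
  have hsN : CHN s := CHN.polyLen CHF.id r
  have hlen : ∀ w i, i < N w → (pn w i).length ≤ 2 * w.length + 1 + p.eval w.length := by
    intro w i hi
    unfold pn
    rw [rfb_length_pairBits]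
    have h1 : (Nat.bits i).length ≤ p.eval w.length := by
      rw [Nat.size_eq_bits_len, Nat.size_le]
      exact hi.trans (hp w)
    omega
  have hfresh : ∀ w i, i < N w → (bA + bD).eval (pn w i).length ≤ s w := by
    intro w i hi
    simp only [hs, hr, Polynomial.eval_comp]
    apply rfb_eval_mono
    have := hlen w i hi
    simpa using this
  have hsA : ∀ w i, i < N w → s w ∉ (A (pn w i)).vars := by
    intro w i hi h1
    have h2 := (hbA (pn w i)).vars _ h1
    have h3 := hfresh w i hi
    rw [Polynomial.eval_add] at h3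
    omega
  have hsD : ∀ w i, i < N w → s w ∉ (D (pn w i)).vars := by
    intro w i hi h1
    have h2 := (hbD (pn w i)).vars _ h1
    have h3 := hfresh w i hi
    rw [Polynomial.eval_add] at h3
    omega
  -- the numerator
  have hX : IsFam (fun z => (X (s (fstB z)) : P)) := by
    apply IsFam.var (hsN.comp CHF.fst) r
    intro z
    exact rfb_eval_mono r (rfb_length_fstB_le z)
  have hF : IsFam (fun z => D z + X (s (fstB z)) * A z) := hD.add (hX.mul hA)
  have hprod : IsFam (fun w => ∏ i ∈ range (N w),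
      (D (pn w i) + X (s (fstB (pn w i))) * A (pn w i))) := hF.prod hN
  have hnum := hprod.coef hsN (hsN.add (CHN.const 1)) (CHN.const 1) (r + 1)
    (fun w => by simp [hs])
  refine ⟨_, fun w => ∏ i ∈ range (N w), D (pn w i), hnum, hD.prod hN, ?_⟩
  intro w v hv
  have h1 : ∀ i < N w, aeval v (D (pn w i)) ≠ 0 ∧
      φ (pn w i) v = aeval v (A (pn w i)) / aeval v (D (pn w i)) :=
    fun i hi => h _ v (hok w v hv i hi)
  refine ⟨?_, ?_⟩
  · rw [map_prod, Finset.prod_ne_zero_iff]
    exact fun i hi => (h1 i (Finset.mem_range.1 hi)).1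
  · -- truncated families (for `i ≥ N w` use `1`, `0`)
    obtain ⟨B, R, e1, e2, e3, e4⟩ := rfb_expand (s w)
      (fun i => if i < N w then A (pn w i) else 0) (fun i => if i < N w then D (pn w i) else 1)
      (fun i => by
        by_cases hi : i < N w
        · simpa [hi] using hsA w i hi
        · simp [hi])
      (fun i => by
        by_cases hi : i < N w
        · simpa [hi] using hsD w i hi
        · simp [hi]) (N w)
    have g1 : ∏ i ∈ range (N w), (if i < N w then D (pn w i) else 1) =
        ∏ i ∈ range (N w), D (pn w i) :=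
      Finset.prod_congr rfl fun i hi => if_pos (Finset.mem_range.1 hi)
    have g2 : ∏ i ∈ range (N w), ((if i < N w then D (pn w i) else 1) +
        X (s w) * (if i < N w then A (pn w i) else 0)) =
        ∏ i ∈ range (N w), (D (pn w i) + X (s (fstB (pn w i))) * A (pn w i)) := by
      refine Finset.prod_congr rfl fun i hi => ?_
      rw [if_pos (Finset.mem_range.1 hi), if_pos (Finset.mem_range.1 hi)]
      simp [pn]
    have g3 : ∑ i ∈ range (N w), aeval v (if i < N w then A (pn w i) else (0 : P)) /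
        aeval v (if i < N w then D (pn w i) else (1 : P)) = ∑ i ∈ range (N w), φ (pn w i) v := by
      refine Finset.sum_congr rfl fun i hi => ?_
      rw [if_pos (Finset.mem_range.1 hi), if_pos (Finset.mem_range.1 hi)]
      exact (h1 i (Finset.mem_range.1 hi)).2.symm
    rw [g1] at e1 e3 e4
    rw [g2] at e3
    have e5 := e4 v (fun i hi => by rw [if_pos hi]; exact (h1 i hi).1)
    rw [g3] at e5
    refine e5.trans ?_
    congr 2
    have hIco : Ico (s w) (s w + 1) = {s w} := by
      ext j; simp only [Finset.mem_Ico, Finset.mem_singleton]; omega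
    rw [hIco, e3]
    exact (rfb_coef (s w) _ B R e1 e2).symm

theorem RF.subst {G : W → P} (hG : IsFam G) (h : RF ok' φ)
    (hok : ∀ w v, ok w v → ok' w (fun j => aeval v (G (pn w j)))) :
    RF ok (fun w v => φ w (fun j => aeval v (G (pn w j)))) := by
  obtain ⟨N, D, hN, hD, h⟩ := h
  refine ⟨_, _, hN.bind hG, hD.bind hG, ?_⟩
  intro w v hv
  have h1 := h w _ (hok w v hv)
  rw [aeval_bind₁, aeval_bind₁]
  exact h1

/-- the comparison with `1/2` of a rational family at the zero assignment -/
theorem RF.half (h : RF ok φ) :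
    ∃ R : W → Prop, CHP R ∧ ∀ w, ok w (fun _ => 0) →
      ((φ w (fun _ => 0)).im = 0 ∧ (R w ↔ 1 / 2 < (φ w (fun _ => 0)).re)) := by
  obtain ⟨N, D, hN, hD, h⟩ := h
  have h0 : IsFam (fun _ => (C ((0 : ℕ) / (1 : ℕ) : ℚ) : P)) :=
    IsFam.const (CHN.const 0) (CHN.const 1) (fun _ => one_pos)
  have h2 : IsFam (fun _ => (C ((2 : ℕ) / (1 : ℕ) : ℚ) : P)) :=
    IsFam.const (CHN.const 2) (CHN.const 1) (fun _ => one_pos)
  have hbind : ∀ p : P, bind₁ (fun _ : ℕ => (C ((0 : ℕ) / (1 : ℕ) : ℚ) : P)) p =
      C (constantCoeff p) := by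
    intro p
    have h3 : (fun _ : ℕ => (C ((0 : ℕ) / (1 : ℕ) : ℚ) : P)) = 0 := by
      funext _; simp
    rw [h3]
    induction p using MvPolynomial.induction_on with
    | C a => simp
    | add p q hp hq => rw [map_add, hp, hq, map_add, map_add]
    | mul_X p i _ => simp
  have hev : ∀ p : P, aeval (fun _ : ℕ => (0 : ℂ)) p = ((constantCoeff p : ℚ) : ℂ) := by
    intro p
    induction p using MvPolynomial.induction_on with
    | C a => simp
    | add p q hp hq => rw [map_add, hp, hq, map_add]; push_cast; rfl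
    | mul_X p i _ => simp
  have hNb := hN.bind h0
  have hDb := hD.bind h0
  have hF : IsFam (fun w => (C ((2 : ℕ) / (1 : ℕ) : ℚ) *
      bind₁ (fun _ : ℕ => (C ((0 : ℕ) / (1 : ℕ) : ℚ) : P)) (N w) -
      bind₁ (fun _ : ℕ => (C ((0 : ℕ) / (1 : ℕ) : ℚ) : P)) (D w)) *
      bind₁ (fun _ : ℕ => (C ((0 : ℕ) / (1 : ℕ) : ℚ) : P)) (D w)) :=
    ((h2.mul hNb).sub hDb).mul hDb
  have hsign := hF.sign (x := fun w =>
    (2 * constantCoeff (N w) - constantCoeff (D w)) * constantCoeff (D w)) (fun w => by
      rw [hbind, hbind, ← C_mul, ← C_sub, ← C_mul]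
      congr 1
      norm_num)
  refine ⟨_, hsign, ?_⟩
  intro w hw
  obtain ⟨h3, h4⟩ := h w _ hw
  rw [hev] at h3
  rw [h4, hev, hev]
  set x : ℚ := constantCoeff (N w)
  set y : ℚ := constantCoeff (D w)
  have hy : y ≠ 0 := by
    intro h5; apply h3; rw [h5]; simp
  have h6 : ((x : ℚ) : ℂ) / ((y : ℚ) : ℂ) = (((x / y : ℚ) : ℝ) : ℂ) := by push_cast; rfl
  rw [h6, Complex.ofReal_im, Complex.ofReal_re]
  refine ⟨rfl, ?_⟩
  have h7 : (1 / 2 < ((x / y : ℚ) : ℝ)) ↔ (1 / 2 < x / y) := by
    constructor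
    · intro h8
      have h9 : (((1 / 2 : ℚ)) : ℝ) < ((x / y : ℚ) : ℝ) := by push_cast at h8 ⊢; exact h8
      exact_mod_cast h9
    · intro h8
      have h9 : (((1 / 2 : ℚ)) : ℝ) < ((x / y : ℚ) : ℝ) := by exact_mod_cast h8
      push_cast at h9 ⊢; exact h9
  rw [h7]
  rcases lt_or_gt_of_ne hy with hy | hy
  · rw [lt_div_iff_of_neg hy]
    constructor
    · intro h8; nlinarith
    · intro h8; nlinarith
  · rw [lt_div_iff₀ hy]
    constructor
    · intro h8; nlinarith
    · intro h8; nlinarith

end Crest.Agent.CHR
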