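import Crest.Agent.CHR.RFb

/-!
CHUNK R316-RFC (medium, ~120 lines): sums over the solutions of a Pham system.
PROOF. `φ = N/D`.  `B = b(|w|)` from `IsFam.bnd` for `N, D, q` (larger than `n w` too): fresh variables `y = B`, `s = B + 1`.
`K w = 2^B * NN w`.  `Sol.sumFrac` (Pham.lean) with `f = N w`, `g = D w`, `S = range (n w) = Ico 0 (n w)` gives
`∑_i φ = aeval v (coefS {s} 1 (nrS .. (D + X_s N))) / aeval v (nrS .. D)`; both are good families by `IsFam.nr`, `IsFam.coef`.
(`sdeg S f ≤ totalDegree f ≤ 2^B`.)
-/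

set_option autoImplicit false

namespace Crest.Agent.CHR

open MvPolynomial Finset

variable {ok ok' : W → (ℕ → ℂ) → Prop} {φ ψ : W → (ℕ → ℂ) → ℂ}

/-! ### auxiliary facts on `coefS`, `trS` -/

namespace RFcAux

theorem coefS_eq (S : Finset ℕ) (a : ℕ → ℕ) (f : P) (T : Finset (ℕ →₀ ℕ)) (hT : f.support ⊆ T) :
    coefS S a f = ∑ m ∈ T.filter (fun m => ∀ i ∈ S, m i = a i),
      monomial (Finsupp.filter (fun i => i ∉ S) m) (coeff m f) := by
  unfold coefS
  refine Finset.sum_subset (Finset.filter_subset_filter _ hT) ?_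
  intro m hm hm'
  have : m ∉ f.support := fun h => hm' (Finset.mem_filter.2 ⟨h, (Finset.mem_filter.1 hm).2⟩)
  rw [notMem_support_iff.1 this, monomial_zero]

theorem coefS_add (S : Finset ℕ) (a : ℕ → ℕ) (f g : P) :
    coefS S a (f + g) = coefS S a f + coefS S a g := by
  classical
  rw [coefS_eq S a f (f.support ∪ g.support) subset_union_left,
    coefS_eq S a g (f.support ∪ g.support) subset_union_right,
    coefS_eq S a (f + g) (f.support ∪ g.support) support_add, ← Finset.sum_add_distrib]
  refine Finset.sum_congr rfl fun m _ => ?_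
  rw [coeff_add, map_add]

theorem coefS_zero (S : Finset ℕ) (a : ℕ → ℕ) : coefS S a (0 : P) = 0 := by
  rw [coefS_eq S a 0 ∅ (by simp)]
  simp

open Classical in
theorem coefS_monomial (S : Finset ℕ) (a : ℕ → ℕ) (m : ℕ →₀ ℕ) (c : ℚ) :
    coefS S a (monomial m c) =
      if ∀ i ∈ S, m i = a i then monomial (Finsupp.filter (fun i => i ∉ S) m) c else 0 := by
  rw [coefS_eq S a (monomial m c) {m} support_monomial_subset, Finset.sum_filter,
    Finset.sum_singleton, coeff_monomial, if_pos rfl]

theorem coefS_mono_mul (S : Finset ℕ) (a : ℕ → ℕ) (e : ℕ →₀ ℕ) (c : ℚ) (he : ∀ i ∈ S, e i = 0)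
    (f : P) : coefS S a (monomial e c * f) = monomial e c * coefS S a f := by
  classical
  induction f using MvPolynomial.induction_on' with
  | monomial m d =>
    rw [monomial_mul, coefS_monomial, coefS_monomial]
    have h1 : (∀ i ∈ S, (e + m) i = a i) ↔ ∀ i ∈ S, m i = a i := by
      refine forall₂_congr fun i hi => ?_
      rw [Finsupp.add_apply, he i hi, zero_add]
    have h2 : Finsupp.filter (fun i => i ∉ S) (e + m) =
        e + Finsupp.filter (fun i => i ∉ S) m := by
      ext i
      by_cases hi : i ∈ S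
      · simp [Finsupp.filter_apply, hi, he i hi]
      · simp [Finsupp.filter_apply, hi]
    simp only [h1, h2, mul_ite, mul_zero, monomial_mul]
  | add p q hp hq =>
    rw [mul_add, coefS_add, hp, hq, coefS_add, mul_add]

theorem trS_add (S : Finset ℕ) (m : ℕ → ℕ) (q : ℕ → P) (K : ℕ) (f g : P) :
    trS S m q K (f + g) = trS S m q K f + trS S m q K g := by
  unfold trS resS
  rw [add_mul, add_mul, coefS_add]

theorem trS_zero (S : Finset ℕ) (m : ℕ → ℕ) (q : ℕ → P) (K : ℕ) :
    trS S m q K 0 = 0 := by
  unfold trS resS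
  rw [zero_mul, zero_mul, coefS_zero]

theorem trS_sum {ι : Type*} (S : Finset ℕ) (m : ℕ → ℕ) (q : ℕ → P) (K : ℕ) (T : Finset ι)
    (f : ι → P) : trS S m q K (∑ i ∈ T, f i) = ∑ i ∈ T, trS S m q K (f i) := by
  classical
  induction T using Finset.induction_on with
  | empty => simp [trS_zero]
  | insert i T hi ih => rw [Finset.sum_insert hi, trS_add, ih, Finset.sum_insert hi]

theorem trS_mono_mul (S : Finset ℕ) (m : ℕ → ℕ) (q : ℕ → P) (K : ℕ) (e : ℕ →₀ ℕ) (c : ℚ)
    (he : ∀ i ∈ S, e i = 0) (f : P) :
    trS S m q K (monomial e c * f) = monomial e c * trS S m q K f := by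
  unfold trS resS
  rw [mul_assoc, mul_assoc, coefS_mono_mul S _ e c he, mul_assoc]

theorem pderiv_supported (s : Set ℕ) (j : ℕ) (f : P) (hf : f ∈ supported ℚ s) :
    pderiv j f ∈ supported ℚ s := by
  rw [supported_eq_adjoin_X] at hf
  induction hf using Algebra.adjoin_induction with
  | mem x hx =>
    obtain ⟨i, hi, rfl⟩ := hx
    by_cases h : i = j
    · subst h; rw [pderiv_X_self]; exact one_mem _
    · rw [pderiv_X_of_ne h]; exact zero_mem _
  | algebraMap r =>
    have : (algebraMap ℚ P) r = C r := rfl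
    rw [this, pderiv_C]; exact zero_mem _
  | add x y _ _ hx hy => rw [map_add]; exact add_mem hx hy
  | mul x y hx' hy' hx hy =>
    rw [Derivation.leibniz, smul_eq_mul, smul_eq_mul]
    exact add_mem (mul_mem hx' hy) (mul_mem hy' hx)

theorem denS_supported (S : Finset ℕ) (m : ℕ → ℕ) (q : ℕ → P) (K : ℕ)
    (hq : ∀ j ∈ S, q j ∈ supported ℚ (S : Set ℕ)) : denS S m q K ∈ supported ℚ (S : Set ℕ) := by
  unfold denS
  refine prod_mem fun j hj => sum_mem fun k _ => mul_mem (pow_mem (hq j hj) _) (pow_mem ?_ _)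
  exact X_mem_supported.2 hj

theorem jacS_supported (S : Finset ℕ) (m : ℕ → ℕ) (q : ℕ → P)
    (hq : ∀ j ∈ S, q j ∈ supported ℚ (S : Set ℕ)) : jacS S m q ∈ supported ℚ (S : Set ℕ) := by
  have hd : jacS S m q = ∑ σ : Equiv.Perm S, Equiv.Perm.sign σ •
      ∏ i : S, pderiv (i : ℕ) (X ((σ i : S) : ℕ) ^ m (σ i) - q (σ i)) := Matrix.det_apply _
  rw [hd]
  refine sum_mem fun σ _ => ?_
  have h : ∏ i : S, pderiv (i : ℕ) (X ((σ i : S) : ℕ) ^ m (σ i) - q (σ i)) ∈
      supported ℚ (S : Set ℕ) := by
    refine prod_mem fun i _ => pderiv_supported _ _ _ (sub_mem (pow_mem ?_ _) (hq _ (σ i).2))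
    exact X_mem_supported.2 (σ i).2
  rcases Int.units_eq_one_or (Equiv.Perm.sign σ) with h1 | h1
  · rw [h1, one_smul]; exact h
  · rw [h1, Units.neg_smul, one_smul]; exact neg_mem h

theorem aeval_coefS (S : Finset ℕ) (a : ℕ → ℕ) (f : P) (hf : f ∈ supported ℚ (S : Set ℕ))
    (v v' : ℕ → ℂ) : aeval v (coefS S a f) = aeval v' (coefS S a f) := by
  unfold coefS
  rw [map_sum, map_sum]
  refine Finset.sum_congr rfl fun m hm => ?_
  have hm' := (Finset.mem_filter.1 hm).1
  have h0 : Finsupp.filter (fun i => i ∉ S) m = 0 := by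
    ext i
    by_cases hi : i ∈ S
    · simp [Finsupp.filter_apply, hi]
    · rw [Finsupp.filter_apply, if_pos hi]
      by_contra hne
      have h1 : i ∈ f.vars := (mem_vars_iff_mem_support i).2 ⟨m, hm', Finsupp.mem_support_iff.2 hne⟩
      exact hi (mem_supported.1 hf h1)
  rw [h0]
  simp [aeval_monomial]

theorem aeval_trS (S : Finset ℕ) (m : ℕ → ℕ) (q : ℕ → P) (K : ℕ)
    (hq : ∀ j ∈ S, q j ∈ supported ℚ (S : Set ℕ)) (g : P) (hg : g ∈ supported ℚ (S : Set ℕ))
    (v v' : ℕ → ℂ) : aeval v (trS S m q K g) = aeval v' (trS S m q K g) := by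
  unfold trS resS
  exact aeval_coefS _ _ _ (mul_mem (mul_mem hg (jacS_supported S m q hq)) (denS_supported S m q K hq))
    v v'

theorem aeval_congr (f : P) (v v' : ℕ → ℂ) (h : ∀ i ∈ f.vars, v i = v' i) :
    aeval v f = aeval v' f := by
  rw [aeval_def, aeval_def]
  exact eval₂Hom_congr' rfl (fun i hi _ => h i hi) rfl

theorem sdeg_le (S : Finset ℕ) (f : P) : sdeg S f ≤ f.totalDegree := by
  unfold sdeg
  refine Finset.sup_le fun m hm => ?_
  refine le_trans ?_ (le_totalDegree hm)
  rw [Finsupp.sum]
  have : ∑ i ∈ S, m i = ∑ i ∈ S ∩ m.support, m i := by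
    rw [← Finset.sum_filter_add_sum_filter_not S (fun i => i ∈ m.support)]
    rw [Finset.filter_mem_eq_inter]
    rw [Finset.sum_eq_zero (s := S.filter fun i => i ∉ m.support)]
    · rw [add_zero]
    · intro i hi
      exact Finsupp.notMem_support_iff.1 (Finset.mem_filter.1 hi).2
  rw [this]
  exact Finset.sum_le_sum_of_subset inter_subset_right

theorem eval_mono (p : Polynomial ℕ) {a b : ℕ} (h : a ≤ b) : p.eval a ≤ p.eval b := by
  rw [Polynomial.eval_eq_sum_range, Polynomial.eval_eq_sum_range]
  exact Finset.sum_le_sum fun i _ => Nat.mul_le_mul_left _ (Nat.pow_le_pow_left h i)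

theorem pn_length_le (w : W) (j : ℕ) : (pn w j).length ≤ 2 * w.length + 1 + j := by
  have h1 : (w.flatMap fun b => [true, b]).length = 2 * w.length := by
    induction w with
    | nil => rfl
    | cons b w ih => rw [List.flatMap_cons, List.length_append, ih]; simp; ring
  have h2 : (Nat.bits j).length ≤ j := by
    rw [Nat.size_eq_bits_len, Nat.size_le]
    exact Nat.lt_two_pow_self
  unfold pn Crest.CountHier.pairBits
  rw [List.length_append, h1, List.length_cons]
  omega

end RFcAux

open RFcAux

/-- `n w` = number of variables of the system, `m (pn w j)`, `q (pn w j)` the system, `NN w` = number of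
solutions, `Z w` the solutions. -/
theorem RF.sumSol {n m NN : W → ℕ} {q : W → P} (hn : CHN n) (r : Polynomial ℕ)
    (hr : ∀ w, n w ≤ r.eval w.length) (hm : CHN m) (hq : IsFam q) (hNN : CHN NN)
    (Z : (w : W) → Fin (NN w) → ℕ → ℂ) (h : RF ok' φ)
    (hok : ∀ w v, ok w v → Sol0 (n w) (fun j => m (pn w j)) (fun j => q (pn w j)) (Z w) ∧
      ∀ i, ok' w (mixv (n w) (Z w i) v)) :
    RF ok (fun w v => ∑ i, φ w (mixv (n w) (Z w i) v)) := by
  obtain ⟨N, D, hN, hD, hND⟩ := h
  obtain ⟨b1, hb1⟩ := hN.bnd
  obtain ⟨b2, hb2⟩ := hD.bnd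
  obtain ⟨b3, hb3⟩ := hq.bnd
  -- length of `pn w j`
  have hpn : ∀ w j, j ≤ r.eval w.length →
      (pn w j).length ≤ (2 * Polynomial.X + 2 + r : Polynomial ℕ).eval w.length := by
    intro w j hj
    have h1 := pn_length_le w j
    have h2 : (2 * Polynomial.X + 2 + r : Polynomial ℕ).eval w.length =
        2 * w.length + 2 + r.eval w.length := by simp
    omega
  set b : Polynomial ℕ := b1 + b2 + b3.comp (2 * Polynomial.X + 2 + r) + r with hb
  have hbev : ∀ w : W, b.eval w.length = b1.eval w.length + b2.eval w.length +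
      b3.eval ((2 * Polynomial.X + 2 + r : Polynomial ℕ).eval w.length) + r.eval w.length := by
    intro w
    rw [hb]
    simp only [Polynomial.eval_add, Polynomial.eval_comp]
  have hB : CHN (fun w => b.eval w.length) := CHN.polyLen CHF.id b
  have hs : CHN (fun w => b.eval w.length + 1) := hB.add (CHN.const 1)
  have hK : CHN (fun w => 2 ^ (b.eval w.length) * NN w) := (CHN.twoPow CHF.id b).mul hNN
  have hlo : CHN (fun _ => 0) := CHN.const 0
  have hXs : IsFam (fun w => (X (b.eval w.length + 1) : P)) :=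
    IsFam.var hs (b + 1) (fun w => by simp)
  have hnrD := IsFam.nr (lo := fun _ => 0) (hi := n) (m := m) (K := fun w => 2 ^ (b.eval w.length) * NN w)
    (N := NN) (y := fun w => b.eval w.length) (q := q) (g := D) hlo hn hm hK hNN hB (r + b)
    (fun w => by simp only [Polynomial.eval_add]; exact (hr w).trans (Nat.le_add_right _ _))
    (fun w => by simp only [Polynomial.eval_add]; exact Nat.le_add_left _ _) hq hD
  have hnrE := IsFam.nr (lo := fun _ => 0) (hi := n) (m := m) (K := fun w => 2 ^ (b.eval w.length) * NN w)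
    (N := NN) (y := fun w => b.eval w.length) (q := q)
    (g := fun w => D w + X (b.eval w.length + 1) * N w) hlo hn hm hK hNN hB (r + b)
    (fun w => by simp only [Polynomial.eval_add]; exact (hr w).trans (Nat.le_add_right _ _))
    (fun w => by simp only [Polynomial.eval_add]; exact Nat.le_add_left _ _) hq
    (hD.add (hXs.mul hN))
  have hnum := IsFam.coef (lo := fun w => b.eval w.length + 1)
    (hi := fun w => b.eval w.length + 1 + 1) (a := fun _ => 1) hs (hs.add (CHN.const 1))
    (CHN.const 1) (b + 2) (fun w => by simp) hnrE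
  refine ⟨_, _, hnum, hnrD, fun w v hwv => ?_⟩
  obtain ⟨hsol, hok'⟩ := hok w v hwv
  have hS := hsol v
  have hico : Ico 0 (n w) = range (n w) := by rw [Finset.range_eq_Ico]
  have hico1 : Ico (b.eval w.length + 1) (b.eval w.length + 1 + 1) = {b.eval w.length + 1} := by
    ext k; simp only [Finset.mem_Ico, Finset.mem_singleton]; omega
  have hnle : n w ≤ b.eval w.length := by
    rw [hbev]; exact (hr w).trans (Nat.le_add_left _ _)
  have hvarq : ∀ j ∈ range (n w), ∀ k ∈ (q (pn w j)).vars, k < b.eval w.length := by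
    intro j hj k hk
    have h1 := (hb3 (pn w j)).vars k hk
    have h2 := hpn w j (((Finset.mem_range.1 hj).le).trans (hr w))
    have h3 : b3.eval (pn w j).length ≤
        b3.eval ((2 * Polynomial.X + 2 + r : Polynomial ℕ).eval w.length) := eval_mono b3 h2
    rw [hbev]
    omega
  have hvarN : ∀ k ∈ (N w).vars, k < b.eval w.length := by
    intro k hk
    have h1 := (hb1 w).vars k hk
    rw [hbev]
    omega
  have hvarD : ∀ k ∈ (D w).vars, k < b.eval w.length := by
    intro k hk
    have h1 := (hb2 w).vars k hk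
    rw [hbev]
    omega
  have key := Sol.sumFrac hS (N w) (D w) (y := b.eval w.length) (s := b.eval w.length + 1)
    (K := 2 ^ (b.eval w.length) * NN w)
    (by simp [hnle]) (by simp; omega) (by omega)
    (fun j hj hk => lt_irrefl _ (hvarq j hj _ hk))
    (fun j hj hk => by have := hvarq j hj _ hk; omega)
    (fun hk => lt_irrefl _ (hvarD _ hk)) (fun hk => lt_irrefl _ (hvarN _ hk))
    (fun hk => by have := hvarD _ hk; omega) (fun hk => by have := hvarN _ hk; omega)
    (by
      refine Nat.mul_le_mul_right _ (max_le ?_ ?_)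
      · refine (sdeg_le _ _).trans ((hb2 w).deg.trans (Nat.pow_le_pow_right (by norm_num) ?_))
        rw [hbev]; omega
      · refine (sdeg_le _ _).trans ((hb1 w).deg.trans (Nat.pow_le_pow_right (by norm_num) ?_))
        rw [hbev]; omega)
    (fun i => (hND w _ (hok' i)).1)
  simp only [hico, hico1]
  refine ⟨key.1, ?_⟩
  rw [← key.2]
  exact Finset.sum_congr rfl fun i _ => (hND w _ (hok' i)).2

/-- existence of `Sol0` for a system without parameters. -/
theorem exists_sol0 {n : ℕ} {m : ℕ → ℕ} {q : ℕ → P} (h : IsPham (range n) m q)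
    (hv : ∀ j < n, ∀ k ∈ (q j).vars, k < n) :
    ∃ Z : Fin (∏ j ∈ range n, m j) → ℕ → ℂ, Sol0 n m q Z := by
  obtain ⟨Z, hZ⟩ := exists_sol h (fun _ => 0)
  have hsup : ∀ j ∈ range n, q j ∈ supported ℚ ((range n : Finset ℕ) : Set ℕ) := by
    intro j hj
    rw [mem_supported]
    intro k hk
    simpa using hv j (Finset.mem_range.1 hj) k hk
  refine ⟨Z, fun v => ⟨?_, ?_, ?_, ?_⟩⟩
  · intro i j hj
    have : ¬ j < n := by simpa using hj
    simp [mixv, this]
  · intro i j hj
    have hj' := Finset.mem_range.1 hj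
    have h1 := hZ.sol i j hj
    have h2 : aeval (mixv n (Z i) v) (q j) = aeval (Z i) (q j) :=
      aeval_congr _ _ _ fun k hk => by simp [mixv, hv j hj' k hk]
    rw [h2, ← h1]
    simp [mixv, hj']
  · intro x hx1 hx2
    obtain ⟨i, hi⟩ := hZ.all (fun j => if j < n then x j else 0)
      (fun j hj => by
        have : ¬ j < n := by simpa using hj
        simp [this])
      (fun j hj => by
        have hj' := Finset.mem_range.1 hj
        have h2 : aeval (fun j => if j < n then x j else 0) (q j) = aeval x (q j) :=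
          aeval_congr _ _ _ fun k hk => by simp [hv j hj' k hk]
        rw [h2, ← hx2 j hj]
        simp [hj'])
    refine ⟨i, ?_⟩
    funext j
    simp only [mixv, hi]
    by_cases hj : j < n
    · simp [hj]
    · simp only [hj, if_false]
      exact (hx1 j (by simpa using hj)).symm
  · intro K g hK
    conv_lhs => rw [g.as_sum]
    conv_rhs => rw [g.as_sum]
    rw [trS_sum, map_sum]
    simp only [map_sum]
    rw [Finset.sum_comm]
    refine Finset.sum_congr rfl fun e he => ?_
    set eo := Finsupp.filter (fun i => i ∉ range n) e with heo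
    set ei := Finsupp.filter (fun i => i ∈ range n) e with hei
    have hsplit : (monomial e (coeff e g) : P) = monomial eo (coeff e g) * monomial ei 1 := by
      have h9 : eo + ei = e := by
        rw [heo, hei, add_comm]
        exact Finsupp.filter_pos_add_filter_neg e (fun i => i ∈ range n)
      rw [monomial_mul, mul_one, h9]
    have heo0 : ∀ i ∈ range n, eo i = 0 := by
      intro i hi
      rw [heo, Finsupp.filter_apply, if_neg (by simpa using hi)]
    have hei0 : ∀ i, i ∉ range n → ei i = 0 := by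
      intro i hi
      rw [hei, Finsupp.filter_apply, if_neg hi]
    have hsei : (monomial ei 1 : P) ∈ supported ℚ ((range n : Finset ℕ) : Set ℕ) := by
      rw [mem_supported]
      intro i hi
      have h1 := (mem_vars_iff_mem_support i).1 hi
      obtain ⟨d, hd, hid⟩ := h1
      have h2 := support_monomial_subset hd
      rw [Finset.mem_singleton] at h2
      subst h2
      by_contra hcon
      exact (Finsupp.mem_support_iff.1 hid) (hei0 i (by simpa using hcon))
    have hdeg : sdeg (range n) (monomial ei 1 : P) ≤ K := by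
      refine le_trans ?_ hK
      unfold sdeg
      refine Finset.sup_le fun d hd => ?_
      have h2 := support_monomial_subset hd
      rw [Finset.mem_singleton] at h2
      subst h2
      have h3 : ∑ i ∈ range n, ei i = ∑ i ∈ range n, e i := by
        refine Finset.sum_congr rfl fun i hi => ?_
        rw [hei, Finsupp.filter_apply, if_pos hi]
      rw [h3]
      exact Finset.le_sup (f := fun d : ℕ →₀ ℕ => ∑ i ∈ range n, d i) he
    rw [hsplit, trS_mono_mul _ _ _ _ _ _ heo0, map_mul]
    have h5 : ∀ i, aeval (mixv n (Z i) v) (monomial eo (coeff e g) * monomial ei 1 : P) =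
        aeval v (monomial eo (coeff e g) : P) * aeval (Z i) (monomial ei 1 : P) := by
      intro i
      rw [map_mul]
      congr 1
      · refine aeval_congr _ _ _ fun k hk => ?_
        obtain ⟨d, hd, hid⟩ := (mem_vars_iff_mem_support k).1 hk
        have h2 := support_monomial_subset hd
        rw [Finset.mem_singleton] at h2
        subst h2
        have h6 : ¬ k < n := fun hlt =>
          (Finsupp.mem_support_iff.1 hid) (heo0 k (Finset.mem_range.2 hlt))
        simp [mixv, h6]
      · refine aeval_congr _ _ _ fun k hk => ?_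
        have h6 : k < n := by simpa using mem_supported.1 hsei hk
        simp [mixv, h6]
    rw [Finset.sum_congr rfl fun i _ => h5 i, ← Finset.mul_sum, hZ.tr K _ hdeg,
      aeval_trS (range n) m q K hsup _ hsei (fun _ => 0) v]

end Crest.Agent.CHR
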