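import Mathlib

/-!
# Row 316, MODULE M6 (abstract real analysis): Lemma S and the open reformulation

Paper proof: idea 447, parts B2, B3, B4.  `u θ x` is the penalised minimum
`min_Y (θ Q(x,Y) + G(Y))`; `h a b` are the coefficients of
`χ(x;θ,T) = ∏_η (T - θ Q(x,η) - G(η)) = ∑ h_ab(x) θ^a T^b`.
-/

set_option autoImplicit false

namespace Crest.Agent.CHR

open Filter Topology Finset

/-- the abstract family -/
structure MinFam (X : Type*) [TopologicalSpace X] where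
  /-- the penalised minimum -/
  u : ℝ → X → ℝ
  mono : ∀ x θ θ', 0 < θ → θ ≤ θ' → u θ x ≤ u θ' x
  cont : ∀ θ x, 0 < θ → ContinuousAt (fun p : ℝ × X => u p.1 p.2) (θ, x)
  /-- degrees -/
  A : ℕ
  B : ℕ
  /-- coefficients -/
  h : ℕ → ℕ → X → ℝ
  hcont : ∀ a b, Continuous (h a b)
  eq : ∀ x θ, 0 < θ →
    ∑ a ∈ range (A + 1), ∑ b ∈ range (B + 1), h a b x * θ ^ a * u θ x ^ b = 0
  nz : ∀ x, ∃ a ≤ A, ∃ b ≤ B, h a b x ≠ 0

namespace MinFam

variable {X : Type*} [TopologicalSpace X] (F : MinFam X)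

/-- `u(x) ≤ U` for all penalisations -/
def Bdd (x : X) (U : ℝ) : Prop := ∀ θ, 0 < θ → F.u θ x ≤ U

theorem cont_x {θ : ℝ} (hθ : 0 < θ) : Continuous (F.u θ) := by
  rw [continuous_iff_continuousAt]
  intro x
  exact (F.cont θ x hθ).comp (f := fun x : X => (θ, x)) (by fun_prop)

theorem cont_θ (x : X) : ContinuousOn (fun θ => F.u θ x) (Set.Ioi 0) := by
  intro θ hθ
  exact ((F.cont θ x hθ).comp (f := fun θ : ℝ => (θ, x)) (by fun_prop)).continuousWithinAt

/-- a nonzero polynomial in `T` has a non-root in every interval -/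
theorem exists_nonroot (c : ℕ → ℝ) (n : ℕ) (hc : ∃ b ≤ n, c b ≠ 0) (s t : ℝ) (hst : s < t) :
    ∃ T, s < T ∧ T < t ∧ ∑ b ∈ range (n + 1), c b * T ^ b ≠ 0 := by
  classical
  set P : Polynomial ℝ := ∑ b ∈ range (n + 1), Polynomial.C (c b) * Polynomial.X ^ b with hP
  have hcoef : ∀ b ≤ n, P.coeff b = c b := by
    intro b hb
    rw [hP, Polynomial.finsetSum_coeff]
    simp only [Polynomial.coeff_C_mul, Polynomial.coeff_X_pow]
    rw [Finset.sum_eq_single b]
    · simp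
    · intro j _ hj
      rw [if_neg (Ne.symm hj), mul_zero]
    · intro hb'
      exact absurd (Finset.mem_range.mpr (by omega)) hb'
  have hP0 : P ≠ 0 := by
    obtain ⟨b, hb, hne⟩ := hc
    intro h0
    apply hne
    rw [← hcoef b hb, h0, Polynomial.coeff_zero]
  have hfin : (P.roots.toFinset : Set ℝ).Finite := Finset.finite_toSet _
  have hinf : (Set.Ioo s t).Infinite := Set.Ioo_infinite hst
  obtain ⟨T, hT, hT'⟩ := hinf.exists_notMem_finite hfin
  refine ⟨T, hT.1, hT.2, fun h0 => hT' ?_⟩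
  rw [Finset.mem_coe, Multiset.mem_toFinset, Polynomial.mem_roots hP0, Polynomial.IsRoot.def, hP,
    Polynomial.eval_finsetSum]
  simpa using h0

/-- **LEMMA S** (B3) -/
theorem lemmaS [FirstCountableTopology X] {xb : X} {U : ℝ} (hU : F.Bdd xb U) :
    ∀ᶠ x in 𝓝 xb, (∀ a ≤ F.A, ∀ b ≤ F.B, F.h a b xb = 0 → F.h a b x = 0) → F.Bdd x (U + 1) := by
  classical
  -- the top `θ`-degree with a nonzero coefficient at `xb`
  obtain ⟨a1, ha1, b1, hb1, hne1⟩ := F.nz xb
  set S := (range (F.A + 1)).filter (fun a => ∃ b ≤ F.B, F.h a b xb ≠ 0) with hS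
  have hSne : S.Nonempty := ⟨a1, Finset.mem_filter.mpr ⟨Finset.mem_range.mpr (by omega), b1, hb1, hne1⟩⟩
  set a0 := S.max' hSne with ha0
  have ha0S : a0 ∈ S := Finset.max'_mem S hSne
  obtain ⟨ha0A, hb0⟩ := Finset.mem_filter.mp ha0S
  have ha0A' : a0 ≤ F.A := by have := Finset.mem_range.mp ha0A; omega
  have htop : ∀ a ≤ F.A, a0 < a → ∀ b ≤ F.B, F.h a b xb = 0 := by
    intro a haA ha b hb
    by_contra hne
    have : a ∈ S := Finset.mem_filter.mpr ⟨Finset.mem_range.mpr (by omega), b, hb, hne⟩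
    exact absurd (Finset.le_max' S a this) (not_le.mpr ha)
  obtain ⟨T, hT1, hT2, hT3⟩ := exists_nonroot (fun b => F.h a0 b xb) F.B hb0 U (U + 1) (by linarith)
  by_contra hcon
  rw [Filter.not_eventually] at hcon
  obtain ⟨x, hx, hxk⟩ := Filter.exists_seq_forall_of_frequently hcon
  have hxk1 : ∀ k, ∀ a ≤ F.A, ∀ b ≤ F.B, F.h a b xb = 0 → F.h a b (x k) = 0 := by
    intro k
    by_contra hh
    exact hxk k fun h => absurd h hh
  have hxk2 : ∀ k, ∃ θ, 0 < θ ∧ U + 1 < F.u θ (x k) := by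
    intro k
    by_contra hh
    push Not at hh
    exact hxk k fun _ => hh
  -- for every `n`, eventually `u n (x k) < T`
  have hsmall : ∀ n : ℕ, ∀ᶠ k in atTop, F.u ((n : ℝ) + 1) (x k) < T := by
    intro n
    have hc : Tendsto (fun k => F.u ((n : ℝ) + 1) (x k)) atTop (𝓝 (F.u ((n : ℝ) + 1) xb)) :=
      ((F.cont_x (by positivity)).tendsto xb).comp hx
    have hlt : F.u ((n : ℝ) + 1) xb < T := lt_of_le_of_lt (hU _ (by positivity)) hT1
    exact hc.eventually_lt_const hlt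
  -- choose a subsequence and penalisations
  have hpick : ∀ n : ℕ, ∃ k, n ≤ k ∧ ∃ θ, (n : ℝ) + 1 ≤ θ ∧ F.u θ (x k) = T := by
    intro n
    obtain ⟨k, hk1, hk2⟩ := ((hsmall n).and (eventually_ge_atTop n)).exists
    obtain ⟨θ1, hθ1, hθ2⟩ := hxk2 k
    have hlt : (n : ℝ) + 1 < θ1 := by
      by_contra hle
      push Not at hle
      have := F.mono (x k) θ1 ((n : ℝ) + 1) hθ1 hle
      linarith
    have hcon : ContinuousOn (fun θ => F.u θ (x k)) (Set.Icc ((n : ℝ) + 1) θ1) :=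
      (F.cont_θ (x k)).mono fun θ hθ => lt_of_lt_of_le (by positivity) hθ.1
    obtain ⟨θ, hθ, hθT⟩ := intermediate_value_Icc hlt.le hcon
      (show T ∈ Set.Icc (F.u ((n : ℝ) + 1) (x k)) (F.u θ1 (x k)) from ⟨hk1.le, by linarith⟩)
    exact ⟨k, hk2, θ, hθ.1, hθT⟩
  choose kk hkk θ hθ hθT using hpick
  have hxx : Tendsto (fun n => x (kk n)) atTop (𝓝 xb) :=
    hx.comp (tendsto_atTop_mono hkk tendsto_id)
  have hθinf : Tendsto θ atTop atTop := by
    refine tendsto_atTop_mono hθ ?_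
    exact tendsto_atTop_add_const_right _ _ tendsto_natCast_atTop_atTop
  -- the equation divided by `θ^a0`
  have heq : ∀ n, ∑ a ∈ range (F.A + 1), (θ n ^ a / θ n ^ a0) *
      ∑ b ∈ range (F.B + 1), F.h a b (x (kk n)) * T ^ b = 0 := by
    intro n
    have hpos : 0 < θ n := lt_of_lt_of_le (by positivity) (hθ n)
    have h0 := F.eq (x (kk n)) (θ n) hpos
    rw [hθT n] at h0
    have h1 : ∑ a ∈ range (F.A + 1), (θ n ^ a / θ n ^ a0) *
        ∑ b ∈ range (F.B + 1), F.h a b (x (kk n)) * T ^ b =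
        (∑ a ∈ range (F.A + 1), ∑ b ∈ range (F.B + 1),
          F.h a b (x (kk n)) * θ n ^ a * T ^ b) / θ n ^ a0 := by
      rw [Finset.sum_div]
      refine Finset.sum_congr rfl fun a _ => ?_
      rw [Finset.mul_sum, Finset.sum_div]
      refine Finset.sum_congr rfl fun b _ => ?_
      ring
    rw [h1, h0, zero_div]
  -- limits of the terms
  have hlim : Tendsto (fun n => ∑ a ∈ range (F.A + 1), (θ n ^ a / θ n ^ a0) *
      ∑ b ∈ range (F.B + 1), F.h a b (x (kk n)) * T ^ b) atTop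
      (𝓝 (∑ a ∈ range (F.A + 1), (if a = a0 then (1 : ℝ) else 0) *
        ∑ b ∈ range (F.B + 1), F.h a b xb * T ^ b)) := by
    refine tendsto_finsetSum _ fun a ha => ?_
    have haA : a ≤ F.A := by have := Finset.mem_range.mp ha; omega
    have hin : Tendsto (fun n => ∑ b ∈ range (F.B + 1), F.h a b (x (kk n)) * T ^ b) atTop
        (𝓝 (∑ b ∈ range (F.B + 1), F.h a b xb * T ^ b)) :=
      tendsto_finsetSum _ fun b _ =>
        (((F.hcont a b).tendsto xb).comp hxx).mul_const _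
    rcases lt_trichotomy a a0 with hlt | heqa | hgt
    · rw [if_neg hlt.ne]
      refine Tendsto.mul ?_ hin
      have : Tendsto (fun n => (θ n ^ (a0 - a))⁻¹) atTop (𝓝 0) :=
        ((tendsto_pow_atTop (by omega)).comp hθinf).inv_tendsto_atTop
      refine this.congr fun n => ?_
      have hpos : 0 < θ n := lt_of_lt_of_le (by positivity) (hθ n)
      rw [eq_div_iff (by positivity), inv_mul_eq_div, div_eq_iff (by positivity), ← pow_add]
      congr 1
      omega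
    · subst heqa
      rw [if_pos rfl]
      refine Tendsto.mul ?_ hin
      refine tendsto_const_nhds.congr fun n => ?_
      have hpos : 0 < θ n := lt_of_lt_of_le (by positivity) (hθ n)
      rw [div_self (by positivity)]
    · rw [if_neg hgt.ne', zero_mul]
      refine tendsto_const_nhds.congr fun n => ?_
      have : ∑ b ∈ range (F.B + 1), F.h a b (x (kk n)) * T ^ b = 0 :=
        Finset.sum_eq_zero fun b hb => by
          have hbB : b ≤ F.B := by have := Finset.mem_range.mp hb; omega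
          rw [hxk1 (kk n) a haA b hbB (htop a haA hgt b hbB), zero_mul]
      rw [this, mul_zero]
  have hz : ∑ a ∈ range (F.A + 1), (if a = a0 then (1 : ℝ) else 0) *
        ∑ b ∈ range (F.B + 1), F.h a b xb * T ^ b = 0 := by
    refine tendsto_nhds_unique hlim ?_
    refine tendsto_const_nhds.congr fun n => (heq n).symm
  apply hT3
  rw [Finset.sum_eq_single a0] at hz
  · rw [if_pos rfl, one_mul] at hz
    exact hz
  · intro a _ hne
    rw [if_neg hne, zero_mul]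
  · intro hh
    exact absurd ha0A hh

/-- the open set `O(Δ,R,θ,E)` -/
def O (N2 : X → ℝ) (Δ R θ E : ℝ) : Set X :=
  {x | N2 x < Δ ^ 2 ∧
    (∀ a ≤ F.A, ∀ b ≤ F.B, E ^ 2 * F.h a b x ^ 2 < 1 ∨ 1 < Δ ^ 2 * F.h a b x ^ 2) ∧ R < F.u θ x}

/-- B4 (1) -/
theorem mem_O_of_unbounded (N2 : X → ℝ) {x : X} (hx : ∀ U, ¬ F.Bdd x U) :
    ∃ Δ0, ∀ Δ, Δ0 ≤ Δ → ∀ R, ∃ θ0, ∀ θ, θ0 ≤ θ → ∀ E, x ∈ F.O N2 Δ R θ E := by
  have h1 : ∀ᶠ Δ : ℝ in atTop, N2 x < Δ ^ 2 :=
    (tendsto_pow_atTop two_ne_zero).eventually_gt_atTop _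
  have h2 : ∀ a ∈ range (F.A + 1), ∀ᶠ Δ : ℝ in atTop, ∀ b ∈ range (F.B + 1),
      F.h a b x ≠ 0 → 1 < Δ ^ 2 * F.h a b x ^ 2 := by
    intro a _
    rw [Filter.eventually_all_finset]
    intro b _
    by_cases hne : F.h a b x = 0
    · exact Filter.Eventually.of_forall fun _ h => absurd hne h
    · have hpos : 0 < F.h a b x ^ 2 := by positivity
      have : Tendsto (fun Δ : ℝ => Δ ^ 2 * F.h a b x ^ 2) atTop atTop :=
        (tendsto_pow_atTop two_ne_zero).atTop_mul_const hpos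
      exact (this.eventually_gt_atTop 1).mono fun Δ h _ => h
  rw [← Filter.eventually_all_finset] at h2
  obtain ⟨Δ0, hΔ0⟩ := Filter.eventually_atTop.mp (h1.and h2)
  refine ⟨Δ0, fun Δ hΔ R => ?_⟩
  have hh := hx R
  unfold Bdd at hh
  push Not at hh
  obtain ⟨θ0, hθ0, hR⟩ := hh
  refine ⟨θ0, fun θ hθ E => ⟨(hΔ0 Δ hΔ).1, fun a ha b hb => ?_, ?_⟩⟩
  · by_cases hne : F.h a b x = 0
    · left; rw [hne]; norm_num
    · right
      exact (hΔ0 Δ hΔ).2 a (Finset.mem_range.mpr (by omega)) b (Finset.mem_range.mpr (by omega)) hne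
  · exact lt_of_lt_of_le hR (F.mono x θ0 θ hθ0 hθ)

/-- the compact set `S_Δ` -/
def SΔ (N2 : X → ℝ) (Δ : ℝ) : Set X :=
  {x | N2 x ≤ Δ ^ 2 ∧ ∀ a ≤ F.A, ∀ b ≤ F.B, F.h a b x = 0 ∨ 1 ≤ Δ ^ 2 * F.h a b x ^ 2}

theorem isClosed_SΔ {N2 : X → ℝ} (hN : Continuous N2) (Δ : ℝ) : IsClosed (F.SΔ N2 Δ) := by
  have e : F.SΔ N2 Δ = {x | N2 x ≤ Δ ^ 2} ∩ ⋂ a, ⋂ (_ : a ≤ F.A), ⋂ b, ⋂ (_ : b ≤ F.B),
      ({x | F.h a b x = 0} ∪ {x | 1 ≤ Δ ^ 2 * F.h a b x ^ 2}) := by
    ext x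
    simp only [SΔ, Set.mem_ofPred_eq, Set.mem_inter_iff, Set.mem_iInter, Set.mem_union]
  rw [e]
  refine (isClosed_le hN continuous_const).inter ?_
  refine isClosed_iInter fun a => isClosed_iInter fun _ => isClosed_iInter fun b =>
    isClosed_iInter fun _ => ?_
  exact (isClosed_eq (F.hcont a b) continuous_const).union
    (isClosed_le continuous_const (continuous_const.mul ((F.hcont a b).pow 2)))

/-- boundedness on `S_Δ` -/
theorem exists_bound_SΔ [FirstCountableTopology X] {N2 : X → ℝ} (hN : Continuous N2)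
    (hK : ∀ c, IsCompact {x | N2 x ≤ c}) (hall : ∀ x, ∃ U, F.Bdd x U) (Δ : ℝ) :
    ∃ R0, ∀ x ∈ F.SΔ N2 Δ, F.Bdd x R0 := by
  have hcomp : IsCompact (F.SΔ N2 Δ) :=
    (hK (Δ ^ 2)).of_isClosed_subset (F.isClosed_SΔ hN Δ) fun x hx => hx.1
  refine hcomp.induction_on (p := fun s => ∃ R0, ∀ x ∈ s, F.Bdd x R0) ?_ ?_ ?_ ?_
  · exact ⟨0, fun x hx => absurd hx (Set.notMem_empty x)⟩
  · rintro s t hst ⟨R0, h⟩
    exact ⟨R0, fun x hx => h x (hst hx)⟩
  · rintro s t ⟨R1, h1⟩ ⟨R2, h2⟩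
    refine ⟨max R1 R2, fun x hx θ hθ => ?_⟩
    rcases hx with hx | hx
    · exact (h1 x hx θ hθ).trans (le_max_left _ _)
    · exact (h2 x hx θ hθ).trans (le_max_right _ _)
  · intro xb hxb
    obtain ⟨U, hU⟩ := hall xb
    have h1 := F.lemmaS hU
    have h2 : ∀ᶠ x in 𝓝 xb, ∀ a ∈ range (F.A + 1), ∀ b ∈ range (F.B + 1),
        F.h a b xb = 0 → Δ ^ 2 * F.h a b x ^ 2 < 1 := by
      rw [Filter.eventually_all_finset]
      intro a _
      rw [Filter.eventually_all_finset]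
      intro b _
      by_cases h0 : F.h a b xb = 0
      · have hc : Tendsto (fun x => Δ ^ 2 * F.h a b x ^ 2) (𝓝 xb)
            (𝓝 (Δ ^ 2 * F.h a b xb ^ 2)) :=
          (continuous_const.mul ((F.hcont a b).pow 2)).tendsto xb
        rw [h0] at hc
        have : (Δ ^ 2 * (0 : ℝ) ^ 2) < 1 := by norm_num
        exact (hc.eventually_lt_const this).mono fun x hx _ => hx
      · exact Filter.Eventually.of_forall fun _ h => absurd h h0
    refine ⟨{x | x ∈ F.SΔ N2 Δ ∧ F.Bdd x (U + 1)}, ?_, U + 1, fun x hx => hx.2⟩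
    rw [mem_nhdsWithin_iff_eventually]
    filter_upwards [h1, h2] with x hx1 hx2 hxS
    refine ⟨hxS, hx1 fun a ha b hb h0 => ?_⟩
    rcases hxS.2 a ha b hb with h | h
    · exact h
    · have := hx2 a (Finset.mem_range.mpr (by omega)) b (Finset.mem_range.mpr (by omega)) h0
      linarith

/-- B4 (2) -/
theorem O_empty_of_bounded [FirstCountableTopology X] {N2 : X → ℝ} (hN : Continuous N2)
    (hK : ∀ c, IsCompact {x | N2 x ≤ c}) (hall : ∀ x, ∃ U, F.Bdd x U) (Δ : ℝ) :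
    ∃ R0, ∀ R, R0 < R → ∀ θ, 0 < θ → ∃ E0, ∀ E, E0 ≤ E → F.O N2 Δ R θ E = ∅ := by
  obtain ⟨R0, hR0⟩ := F.exists_bound_SΔ hN hK hall Δ
  refine ⟨R0, fun R hR θ hθ => ?_⟩
  by_contra hcon
  push Not at hcon
  choose E hE hne using fun n : ℕ => hcon n
  have hne' : ∀ n, ∃ x, x ∈ F.O N2 Δ R θ (E n) := fun n => hne n
  choose x hx using hne'
  have hEinf : Tendsto E atTop atTop := tendsto_atTop_mono hE tendsto_natCast_atTop_atTop
  obtain ⟨xb, hxb, φ, hφ, hlim⟩ := (hK (Δ ^ 2)).tendsto_subseq (x := x) fun n => (hx n).1.le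
  have hxS : xb ∈ F.SΔ N2 Δ := by
    refine ⟨hxb, fun a ha b hb => ?_⟩
    by_contra hh
    push Not at hh
    obtain ⟨h0, h1⟩ := hh
    have hc : Tendsto (fun n => F.h a b (x (φ n)) ^ 2) atTop (𝓝 (F.h a b xb ^ 2)) :=
      (((F.hcont a b).tendsto xb).comp hlim).pow 2
    have e1 : ∀ᶠ n in atTop, Δ ^ 2 * F.h a b (x (φ n)) ^ 2 < 1 :=
      (hc.const_mul (Δ ^ 2)).eventually_lt_const h1
    have hpos : 0 < F.h a b xb ^ 2 := by positivity
    have e2 : Tendsto (fun n => E (φ n) ^ 2 * F.h a b (x (φ n)) ^ 2) atTop atTop :=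
      ((tendsto_pow_atTop two_ne_zero).comp (hEinf.comp hφ.tendsto_atTop)).atTop_mul_pos hpos hc
    obtain ⟨n, hn1, hn2⟩ := (e1.and (e2.eventually_gt_atTop 1)).exists
    rcases (hx (φ n)).2.1 a ha b hb with h | h
    · linarith
    · linarith
  have hu : R ≤ F.u θ xb := by
    have hc : Tendsto (fun n => F.u θ (x (φ n))) atTop (𝓝 (F.u θ xb)) :=
      ((F.cont_x hθ).tendsto xb).comp hlim
    exact ge_of_tendsto' hc fun n => (hx (φ n)).2.2.le
  have := hR0 xb hxS θ hθ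
  linarith

end MinFam

end Crest.Agent.CHR
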