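import Crest.Agent.CHR.RedDefs

/-!
CHUNK R316-REDA (easy/medium): the minimum is attained; monotonicity.
PROOF. `θ Q + 1 + ∑ Y_j^6` is continuous, `≥ 1 + ∑ Y_j^6`, which tends to infinity (coercive; `m` may be `0`):
minimum over a large closed ball (compact) is the global minimum.  `uth_le`: `ciInf_le`, bounded below by `1`.
-/

set_option autoImplicit false

namespace Crest.Agent.CHR

open Finset

namespace RedData
variable {r m : ℕ} (D : RedData r m)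

private theorem redA_one_le (x : Fin r → ℝ) {θ : ℝ} (hθ : 0 < θ) (Y : Fin m → ℝ) :
    1 ≤ θ * D.Q x Y + (1 + ∑ j, Y j ^ 6) := by
  have h1 := mul_nonneg hθ.le (D.nonneg x Y)
  have h2 : 0 ≤ ∑ j, Y j ^ 6 := Finset.sum_nonneg fun j _ => by positivity
  linarith

private theorem redA_bdd (x : Fin r → ℝ) {θ : ℝ} (hθ : 0 < θ) :
    BddBelow (Set.range fun Y : Fin m → ℝ => θ * D.Q x Y + (1 + ∑ j, Y j ^ 6)) :=
  ⟨1, by rintro _ ⟨Y, rfl⟩; exact redA_one_le D x hθ Y⟩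

/-- the minimum is attained -/
theorem uth_attained (x : Fin r → ℝ) {θ : ℝ} (hθ : 0 < θ) :
    ∃ Y, uth D.Q θ x = θ * D.Q x Y + (1 + ∑ j, Y j ^ 6) := by
  have hQ : Continuous fun Y : Fin m → ℝ => D.Q x Y :=
    D.cont.comp (Continuous.prodMk_right x)
  have hc : Continuous fun Y : Fin m → ℝ => θ * D.Q x Y + (1 + ∑ j, Y j ^ 6) := by
    fun_prop
  obtain ⟨Y, hY⟩ : ∃ Y : Fin m → ℝ, ∀ Z : Fin m → ℝ,
      θ * D.Q x Y + (1 + ∑ j, Y j ^ 6) ≤ θ * D.Q x Z + (1 + ∑ j, Z j ^ 6) := by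
    refine hc.exists_forall_le' (fun _ => 0) ?_
    rw [Filter.eventually_iff, Filter.mem_cocompact]
    set C : ℝ := θ * D.Q x (fun _ => 0) + (1 + ∑ j : Fin m, (0 : ℝ) ^ 6) with hC
    have hC1 : 1 ≤ C := redA_one_le D x hθ (fun _ => 0)
    refine ⟨Metric.closedBall 0 C, isCompact_closedBall _ _, ?_⟩
    intro Z hZ
    simp only [Set.mem_compl_iff, Metric.mem_closedBall, dist_zero_right, not_le] at hZ
    obtain ⟨j, hj⟩ : ∃ j, C < ‖Z j‖ := by
      by_contra hcon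
      push Not at hcon
      exact absurd ((pi_norm_le_iff_of_nonneg (by linarith)).2 hcon) (not_le.2 hZ)
    have h1 : C ≤ Z j ^ 6 := by
      have h2 : C ≤ C ^ 6 := le_self_pow₀ hC1 (by norm_num)
      have h3 : C ^ 6 ≤ ‖Z j‖ ^ 6 := pow_le_pow_left₀ (by linarith) hj.le 6
      have h4 : ‖Z j‖ ^ 6 = Z j ^ 6 := by
        rw [Real.norm_eq_abs]; exact Even.pow_abs (by decide) _
      linarith
    have h5 : Z j ^ 6 ≤ ∑ j, Z j ^ 6 :=
      Finset.single_le_sum (f := fun j => Z j ^ 6) (fun i _ => by positivity) (Finset.mem_univ j)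
    have h6 := mul_nonneg hθ.le (D.nonneg x Z)
    change C ≤ θ * D.Q x Z + (1 + ∑ j, Z j ^ 6)
    linarith
  refine ⟨Y, le_antisymm (ciInf_le (redA_bdd D x hθ) Y) (le_ciInf hY)⟩

theorem uth_le (x : Fin r → ℝ) {θ : ℝ} (hθ : 0 < θ) (Y : Fin m → ℝ) :
    uth D.Q θ x ≤ θ * D.Q x Y + (1 + ∑ j, Y j ^ 6) :=
  ciInf_le (redA_bdd D x hθ) Y

theorem uth_mono (x : Fin r → ℝ) {θ θ' : ℝ} (hθ : 0 < θ) (h : θ ≤ θ') :
    uth D.Q θ x ≤ uth D.Q θ' x := by
  refine ciInf_mono (redA_bdd D x hθ) fun Y => ?_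
  have := mul_le_mul_of_nonneg_right h (D.nonneg x Y)
  linarith


end RedData

end Crest.Agent.CHR
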