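import Crest.Agent.CHR.RedA

/-!
CHUNK R316-REDB (medium): joint continuity of `(x,θ) ↦ u_θ(x)` on `θ > 0`.
PROOF. Near `(x₀,θ₀)` (compact neighbourhood) `u ≤ θ Q(x,0) + 1 ≤ C`, so minimisers lie in the compact set
`{∑ Y_j^6 ≤ C}`; the function of `(x,θ,Y)` is uniformly continuous on the compact product, so
`|u_θ(x) - u_θ'(x')| ≤ ε`.
-/

set_option autoImplicit false

namespace Crest.Agent.CHR

open Finset

namespace RedData
variable {r m : ℕ} (D : RedData r m)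

private theorem redB_norm {C : ℝ} (hC : 1 ≤ C) (Y : Fin m → ℝ) (h : ∑ j, Y j ^ 6 ≤ C) :
    Y ∈ Metric.closedBall (0 : Fin m → ℝ) C := by
  rw [Metric.mem_closedBall, dist_zero_right]
  by_contra hcon
  obtain ⟨j, hj⟩ : ∃ j, C < ‖Y j‖ := by
    by_contra hcon'
    push Not at hcon'
    exact hcon ((pi_norm_le_iff_of_nonneg (by linarith)).2 hcon')
  have h2 : C ≤ C ^ 5 := le_self_pow₀ hC (by norm_num)
  have h3 : ‖Y j‖ ^ 6 ≤ C := by
    have h4 : ‖Y j‖ ^ 6 = Y j ^ 6 := by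
      rw [Real.norm_eq_abs]; exact Even.pow_abs (by decide) _
    have h5 : Y j ^ 6 ≤ ∑ j, Y j ^ 6 :=
      Finset.single_le_sum (f := fun j => Y j ^ 6) (fun i _ => by positivity) (Finset.mem_univ j)
    linarith
  have h6 : C ^ 6 < ‖Y j‖ ^ 6 := pow_lt_pow_left₀ hj (by linarith) (by norm_num)
  have h7 : C ≤ C ^ 6 := le_self_pow₀ hC (by norm_num)
  linarith

theorem uth_cont : ContinuousOn (fun p : (Fin r → ℝ) × ℝ => uth D.Q p.2 p.1)
    {p | 0 < p.2} := by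
  intro p₀ hp₀
  apply ContinuousAt.continuousWithinAt
  have hp₀' : 0 < p₀.2 := hp₀
  -- the bound `C`
  have hQ0 : Continuous fun p : (Fin r → ℝ) × ℝ => p.2 * D.Q p.1 (fun _ => 0) + 1 := by
    have h1 : Continuous fun p : (Fin r → ℝ) × ℝ => D.Q p.1 (fun _ => 0) :=
      D.cont.comp (continuous_fst.prodMk continuous_const)
    fun_prop
  set C : ℝ := max 1 (p₀.2 * D.Q p₀.1 (fun _ => 0) + 1) + 1 with hC
  have hC1 : 1 ≤ C := by
    have := le_max_left 1 (p₀.2 * D.Q p₀.1 (fun _ => 0) + 1)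
    linarith
  have hC2 : p₀.2 * D.Q p₀.1 (fun _ => 0) + 1 < C := by
    have := le_max_right 1 (p₀.2 * D.Q p₀.1 (fun _ => 0) + 1)
    linarith
  have hev : ∀ᶠ p : (Fin r → ℝ) × ℝ in nhds p₀, 0 < p.2 ∧ p.2 * D.Q p.1 (fun _ => 0) + 1 < C := by
    refine Filter.Eventually.and ?_ ?_
    · have : Filter.Tendsto (fun p : (Fin r → ℝ) × ℝ => p.2) (nhds p₀) (nhds p₀.2) :=
        continuous_snd.continuousAt
      exact this.eventually_const_lt hp₀'
    · have : Filter.Tendsto (fun p : (Fin r → ℝ) × ℝ => p.2 * D.Q p.1 (fun _ => 0) + 1) (nhds p₀)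
          (nhds (p₀.2 * D.Q p₀.1 (fun _ => 0) + 1)) := hQ0.continuousAt
      exact this.eventually_lt_const hC2
  -- continuity of the minimum over a compact set
  have hG : Continuous fun p : (Fin r → ℝ) × ℝ =>
      sInf ((fun Y : Fin m → ℝ => p.2 * D.Q p.1 Y + (1 + ∑ j, Y j ^ 6)) ''
        Metric.closedBall (0 : Fin m → ℝ) C) := by
    refine IsCompact.continuous_sInf
      (f := fun (p : (Fin r → ℝ) × ℝ) (Y : Fin m → ℝ) => p.2 * D.Q p.1 Y + (1 + ∑ j, Y j ^ 6))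
      (isCompact_closedBall _ _) ?_
    have h1 : Continuous fun q : ((Fin r → ℝ) × ℝ) × (Fin m → ℝ) => D.Q q.1.1 q.2 :=
      D.cont.comp ((continuous_fst.comp continuous_fst).prodMk continuous_snd)
    change Continuous fun q : ((Fin r → ℝ) × ℝ) × (Fin m → ℝ) =>
      q.1.2 * D.Q q.1.1 q.2 + (1 + ∑ j, q.2 j ^ 6)
    fun_prop
  refine hG.continuousAt.congr ?_
  filter_upwards [hev] with p hp
  obtain ⟨hp1, hp2⟩ := hp
  obtain ⟨Y, hY⟩ := D.uth_attained p.1 hp1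
  have hle := D.uth_le p.1 hp1 (fun _ => 0)
  have hYm : Y ∈ Metric.closedBall (0 : Fin m → ℝ) C := by
    refine redB_norm hC1 Y ?_
    have h1 : 0 ≤ p.2 * D.Q p.1 Y := mul_nonneg hp1.le (D.nonneg _ _)
    have h2 : (∑ j : Fin m, (0 : ℝ) ^ 6) = 0 := by simp
    rw [h2, hY] at hle
    linarith
  apply le_antisymm
  · rw [hY]
    refine csInf_le ⟨0, ?_⟩ ⟨Y, hYm, rfl⟩
    rintro _ ⟨Z, -, rfl⟩
    have h1 : 0 ≤ p.2 * D.Q p.1 Z := mul_nonneg hp1.le (D.nonneg _ _)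
    have h2 : 0 ≤ ∑ j, Z j ^ 6 := Finset.sum_nonneg fun j _ => by positivity
    change 0 ≤ p.2 * D.Q p.1 Z + (1 + ∑ j, Z j ^ 6)
    linarith
  · refine le_csInf ⟨_, Y, hYm, rfl⟩ ?_
    rintro _ ⟨Z, -, rfl⟩
    exact D.uth_le p.1 hp1 Z


end RedData

end Crest.Agent.CHR
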