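import Crest.Agent.CHR.RedA

/-!
CHUNK R316-REDC (medium): `sup_θ u_θ(x) < ∞` iff `Q(x,·)` has a zero.
PROOF. (<=) `u_θ(x) ≤ 1 + ∑ Y_j^6` for a zero `Y`.  (=>) minimisers `Y_θ`, `θ = n → ∞`, satisfy `1+∑ Y_j^6 ≤ C` and
`Q(x,Y_θ) ≤ C/θ`; a limit point is a zero.
-/

set_option autoImplicit false

namespace Crest.Agent.CHR

open Finset

namespace RedData
variable {r m : ℕ} (D : RedData r m)

/-- B2: bounded `u` iff there is a zero -/
theorem bdd_iff (x : Fin r → ℝ) :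
    (∃ C, ∀ θ, 0 < θ → uth D.Q θ x ≤ C) ↔ ∃ Y, D.Q x Y = 0 := by
  constructor
  · rintro ⟨C, hC⟩
    have h6 : ∀ t : ℝ, 0 ≤ t ^ 6 := fun t => by positivity
    set B : ℝ := max 1 C with hB
    have hB1 : 1 ≤ B := le_max_left _ _
    -- minimisers
    have key : ∀ θ : ℝ, 0 < θ → ∃ Y ∈ Set.Icc (fun _ : Fin m => -B) (fun _ => B),
        θ * D.Q x Y ≤ C := by
      intro θ hθ
      obtain ⟨Y, hY⟩ := D.uth_attained x hθ
      have h1 := hC θ hθ
      rw [hY] at h1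
      have h2 : 0 ≤ θ * D.Q x Y := mul_nonneg hθ.le (D.nonneg x Y)
      have h3 : 0 ≤ ∑ j, Y j ^ 6 := sum_nonneg fun j _ => h6 _
      have h4 : ∀ j, |Y j| ≤ B := by
        intro j
        by_contra hlt
        push Not at hlt
        have h5 : Y j ^ 6 ≤ ∑ j, Y j ^ 6 :=
          single_le_sum (f := fun j => Y j ^ 6) (fun j _ => h6 _) (mem_univ j)
        have h7 : 1 ≤ |Y j| := hB1.trans hlt.le
        have h8 : |Y j| ≤ |Y j| ^ 6 := le_self_pow₀ h7 (by norm_num)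
        have h9 : |Y j| ^ 6 = Y j ^ 6 := by
          rw [← abs_pow, abs_of_nonneg (h6 _)]
        have h10 : C ≤ B := le_max_right _ _
        linarith
      refine ⟨Y, ⟨fun j => (abs_le.1 (h4 j)).1, fun j => (abs_le.1 (h4 j)).2⟩, by linarith⟩
    have hcont : Continuous (fun Y : Fin m → ℝ => D.Q x Y) :=
      D.cont.comp (Continuous.prodMk continuous_const continuous_id)
    have hne : (Set.Icc (fun _ : Fin m => -B) (fun _ => B)).Nonempty := by
      obtain ⟨Y, hY, _⟩ := key 1 one_pos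
      exact ⟨Y, hY⟩
    obtain ⟨Y0, hY0, hmin⟩ := isCompact_Icc.exists_isMinOn hne hcont.continuousOn
    refine ⟨Y0, le_antisymm ?_ (D.nonneg x Y0)⟩
    by_contra hpos
    push Not at hpos
    obtain ⟨n, hn⟩ := exists_nat_gt (C / D.Q x Y0)
    have hn0 : (0 : ℝ) < n + 1 := by positivity
    obtain ⟨Y, hY, hYC⟩ := key (n + 1) hn0
    have h1 : D.Q x Y0 ≤ D.Q x Y := hmin hY
    rw [div_lt_iff₀ hpos] at hn
    have h2 : (n + 1 : ℝ) * D.Q x Y0 ≤ (n + 1) * D.Q x Y := mul_le_mul_of_nonneg_left h1 hn0.le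
    nlinarith
  · rintro ⟨Y, hY⟩
    refine ⟨1 + ∑ j, Y j ^ 6, fun θ hθ => ?_⟩
    have := D.uth_le x hθ Y
    rwa [hY, mul_zero, zero_add] at this


end RedData

end Crest.Agent.CHR
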