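import Mathlib

/-!
# Row 316, module M6 (real analysis): definitions.  Paper proof: idea 447, parts B2-B6.
-/

set_option autoImplicit false

namespace Crest.Agent.CHR

open Finset

/-- `u_θ(x) = inf_Y (θ Q(x,Y) + 1 + ∑ Y_j^6)` -/
noncomputable def uth {r m : ℕ} (Q : (Fin r → ℝ) → (Fin m → ℝ) → ℝ) (θ : ℝ) (x : Fin r → ℝ) : ℝ :=
  ⨅ Y : Fin m → ℝ, (θ * Q x Y + (1 + ∑ j, Y j ^ 6))

structure RedData (r m : ℕ) where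
  Q : (Fin r → ℝ) → (Fin m → ℝ) → ℝ
  cont : Continuous (fun p : (Fin r → ℝ) × (Fin m → ℝ) => Q p.1 p.2)
  nonneg : ∀ x Y, 0 ≤ Q x Y
  na : ℕ
  nb : ℕ
  h : ℕ → ℕ → (Fin r → ℝ) → ℝ
  hcont : ∀ a b, Continuous (h a b)
  root : ∀ x θ, 0 < θ →
    ∑ a ∈ range na, ∑ b ∈ range nb, h a b x * θ ^ a * (uth Q θ x) ^ b = 0
  nz : ∀ x, ∃ a < na, ∃ b < nb, h a b x ≠ 0

namespace RedData
variable {r m : ℕ} (D : RedData r m)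

/-- the open set `O(e)`, `e = (Δ, R, θ, E)` -/
def O (Δ R θ E : ℝ) : Set (Fin r → ℝ) :=
  {x | ∑ i, x i ^ 2 < Δ ^ 2 ∧
    (∀ a < D.na, ∀ b < D.nb, E ^ 2 * D.h a b x ^ 2 < 1 ∨ 1 < Δ ^ 2 * D.h a b x ^ 2) ∧
    R < uth D.Q θ x}

end RedData

/-- the parameter region -/
def Reg (c : ℕ) : Set (ℝ × ℝ × ℝ × ℝ) :=
  {e | (2 : ℝ) ^ (2 ^ c) ≤ e.1 ∧ e.1 ^ (2 ^ c) ≤ e.2.1 ∧ e.2.1 ^ (2 ^ c) ≤ e.2.2.1 ∧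
    e.2.2.1 ^ (2 ^ c) ≤ e.2.2.2}


end Crest.Agent.CHR
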