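import Crest.Agent.CHR.RedC

/-!
CHUNK R316-REDO1 (easy): `O(e)` contains a given point of `A` for suitable parameters.
PROOF. `x*` with `Q(x*,Y) > 0` for all `Y`.  `Δ₀` with `∑ x*_i² < Δ₀²` and `1 < Δ₀² h_ab(x*)²` for the finitely many `(a,b)` with
`h_ab(x*) ≠ 0`.  By `bdd_iff` (negated) and `uth_mono`, for every `R` there is `θ₀ > 0` with `uth θ x* > R` for `θ ≥ θ₀`.
-/

set_option autoImplicit false

namespace Crest.Agent.CHR

open Finset

namespace RedData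
variable {r m : ℕ} (D : RedData r m)

/-- B4 (1) -/
theorem O_nonempty (hA : ∃ x, ∀ Y, 0 < D.Q x Y) :
    ∃ Δ₀, ∀ Δ ≥ Δ₀, ∀ R, ∃ θ₀, 0 < θ₀ ∧ ∀ θ ≥ θ₀, ∀ E, (D.O Δ R θ E).Nonempty := by
  obtain ⟨x, hx⟩ := hA
  refine ⟨1 + ∑ i, x i ^ 2 + ∑ a ∈ range D.na, ∑ b ∈ range D.nb, 1 / |D.h a b x|,
    fun Δ hΔ R => ?_⟩
  have h0 : 0 ≤ ∑ i, x i ^ 2 := Finset.sum_nonneg fun i _ => sq_nonneg _
  have h1 : 0 ≤ ∑ a ∈ range D.na, ∑ b ∈ range D.nb, 1 / |D.h a b x| :=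
    Finset.sum_nonneg fun a _ => Finset.sum_nonneg fun b _ => by positivity
  have hnb : ¬ ∃ C, ∀ θ, 0 < θ → uth D.Q θ x ≤ C := by
    rw [D.bdd_iff x]
    rintro ⟨Y, hY⟩
    exact absurd hY (hx Y).ne'
  push Not at hnb
  obtain ⟨θ₀, hθ₀, hR⟩ := hnb R
  refine ⟨θ₀, hθ₀, fun θ hθ E => ⟨x, ?_, ?_, ?_⟩⟩
  · nlinarith
  · intro a ha b hb
    by_cases h : D.h a b x = 0
    · left
      rw [h]
      norm_num
    · right
      have h2 : 1 / |D.h a b x| ≤ ∑ a ∈ range D.na, ∑ b ∈ range D.nb, 1 / |D.h a b x| := by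
        have h3 := Finset.single_le_sum (f := fun b => 1 / |D.h a b x|)
          (fun b _ => by positivity) (Finset.mem_range.2 hb)
        have h4 := Finset.single_le_sum (f := fun a => ∑ b ∈ range D.nb, 1 / |D.h a b x|)
          (fun a _ => Finset.sum_nonneg fun b _ => by positivity) (Finset.mem_range.2 ha)
        exact h3.trans h4
      have h5 : 0 < |D.h a b x| := abs_pos.2 h
      have h6 : 1 / |D.h a b x| < Δ := by linarith
      rw [div_lt_iff₀ h5] at h6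
      have h7 : 1 < (Δ * |D.h a b x|) ^ 2 := by nlinarith
      rwa [mul_pow, sq_abs] at h7
  · exact lt_of_lt_of_le hR (D.uth_mono x hθ₀ hθ)


end RedData

end Crest.Agent.CHR
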