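import Crest.Agent.CHR.RedDefs

/-!
CHUNK R316-REDPATH (easy/medium): log-linear paths.
PROOF. All coordinates of points of `Reg c` are `≥ 2`.  `γ s = (exp((1-s) log e₁ + s log e'₁), ..)`; the conditions are linear in the logarithms
(`2^c * log 2 ≤ log e₁`, `2^c * log e₁ ≤ log e₂`, ...).
-/

set_option autoImplicit false

namespace Crest.Agent.CHR

open Finset

theorem pow_le_iff_log {a b : ℝ} (ha : 0 < a) (hb : 0 < b) (n : ℕ) :
    a ^ n ≤ b ↔ (n : ℝ) * Real.log a ≤ Real.log b := by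
  rw [← Real.log_pow, Real.log_le_log_iff (by positivity) hb]

theorem Reg_pos {c : ℕ} {e : ℝ × ℝ × ℝ × ℝ} (he : e ∈ Reg c) :
    0 < e.1 ∧ 0 < e.2.1 ∧ 0 < e.2.2.1 ∧ 0 < e.2.2.2 := by
  obtain ⟨h1, h2, h3, h4⟩ := he
  have p1 : 0 < e.1 := lt_of_lt_of_le (by positivity) h1
  have p2 : 0 < e.2.1 := lt_of_lt_of_le (by positivity) h2
  have p3 : 0 < e.2.2.1 := lt_of_lt_of_le (by positivity) h3
  exact ⟨p1, p2, p3, lt_of_lt_of_le (by positivity) h4⟩

/-- the log-linear interpolation -/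
noncomputable def llin (a b s : ℝ) : ℝ := Real.exp ((1 - s) * Real.log a + s * Real.log b)

theorem llin_pos (a b s : ℝ) : 0 < llin a b s := Real.exp_pos _

theorem llin_log (a b s : ℝ) : Real.log (llin a b s) = (1 - s) * Real.log a + s * Real.log b :=
  Real.log_exp _

theorem llin_cont (a b : ℝ) : Continuous (llin a b) := by
  unfold llin
  fun_prop

theorem llin_zero {a : ℝ} (ha : 0 < a) (b : ℝ) : llin a b 0 = a := by
  unfold llin
  simp [Real.exp_log ha]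

theorem llin_one (a : ℝ) {b : ℝ} (hb : 0 < b) : llin a b 1 = b := by
  unfold llin
  simp [Real.exp_log hb]

theorem llin_pow_le {a b a' b' s : ℝ} (ha : 0 < a) (hb : 0 < b) (ha' : 0 < a') (hb' : 0 < b')
    (hs : s ∈ Set.Icc (0 : ℝ) 1) (n : ℕ) (h : a ^ n ≤ b) (h' : a' ^ n ≤ b') :
    llin a a' s ^ n ≤ llin b b' s := by
  rw [pow_le_iff_log (llin_pos _ _ _) (llin_pos _ _ _), llin_log, llin_log]
  rw [pow_le_iff_log ha hb] at h
  rw [pow_le_iff_log ha' hb'] at h'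
  have h1 := mul_le_mul_of_nonneg_left h (sub_nonneg.mpr hs.2)
  have h2 := mul_le_mul_of_nonneg_left h' hs.1
  linarith

/-- two points of the region are joined by a (log-linear) path in the region -/
theorem Reg_path (c : ℕ) {e e' : ℝ × ℝ × ℝ × ℝ} (he : e ∈ Reg c) (he' : e' ∈ Reg c) :
    ∃ γ : ℝ → ℝ × ℝ × ℝ × ℝ, Continuous γ ∧ γ 0 = e ∧ γ 1 = e' ∧ ∀ s ∈ Set.Icc (0 : ℝ) 1, γ s ∈ Reg c := by
  obtain ⟨p1, p2, p3, p4⟩ := Reg_pos he
  obtain ⟨q1, q2, q3, q4⟩ := Reg_pos he'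
  refine ⟨fun s => (llin e.1 e'.1 s, llin e.2.1 e'.2.1 s, llin e.2.2.1 e'.2.2.1 s,
    llin e.2.2.2 e'.2.2.2 s), ?_, ?_, ?_, ?_⟩
  · exact (llin_cont _ _).prodMk ((llin_cont _ _).prodMk ((llin_cont _ _).prodMk (llin_cont _ _)))
  · simp only [llin_zero p1, llin_zero p2, llin_zero p3, llin_zero p4]
  · simp only [llin_one _ q1, llin_one _ q2, llin_one _ q3, llin_one _ q4]
  · intro s hs
    obtain ⟨h1, h2, h3, h4⟩ := he
    obtain ⟨h1', h2', h3', h4'⟩ := he'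
    refine ⟨?_, llin_pow_le p1 p2 q1 q2 hs _ h2 h2', llin_pow_le p2 p3 q2 q3 hs _ h3 h3',
      llin_pow_le p3 p4 q3 q4 hs _ h4 h4'⟩
    show (2 : ℝ) ^ (2 ^ c) ≤ llin e.1 e'.1 s
    rw [pow_le_iff_log two_pos (llin_pos _ _ _), llin_log]
    rw [pow_le_iff_log two_pos p1] at h1
    rw [pow_le_iff_log two_pos q1] at h1'
    have g1 := mul_le_mul_of_nonneg_left h1 (sub_nonneg.mpr hs.2)
    have g2 := mul_le_mul_of_nonneg_left h1' hs.1
    linarith

end Crest.Agent.CHR
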