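import Crest.Agent.CHR.SentPar

/-!
# MODULE M8 (row 316): computability of the parser positions in the counting hierarchy
(architect: helper26)
-/

set_option autoImplicit false

namespace Crest.Agent.CHR

open Crest.RealEA Crest.CountHier

/-! ## small tools -/

theorem CHN.iteEq {f g a b : W → ℕ} (hf : CHN f) (hg : CHN g) (ha : CHN a) (hb : CHN b) :
    CHN (fun w => if f w = g w then a w else b w) := by
  classical
  refine (CHN.ite (hf.eq hg) ha hb).congr (fun w => ?_)
  by_cases h : f w = g w
  · rw [if_pos h, if_pos h]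
  · rw [if_neg h, if_neg h]

theorem CHN.iteLt {f g a b : W → ℕ} (hf : CHN f) (hg : CHN g) (ha : CHN a) (hb : CHN b) :
    CHN (fun w => if f w < g w then a w else b w) := by
  classical
  refine (CHN.ite (hf.lt hg) ha hb).congr (fun w => ?_)
  by_cases h : f w < g w
  · rw [if_pos h, if_pos h]
  · rw [if_neg h, if_neg h]

theorem CHN.max {f g : W → ℕ} (hf : CHN f) (hg : CHN g) : CHN (fun w => max (f w) (g w)) := by
  refine (CHN.iteLt hf hg hg hf).congr (fun w => ?_)
  by_cases h : f w < g w
  · rw [if_pos h, max_eq_right h.le]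
  · rw [if_neg h, max_eq_left (not_lt.mp h)]

theorem CHN_glen {g : W → ℕ} (hg : CHN g) : CHN (fun w => glen (g w)) := by
  refine (CHN.iteEq hg (CHN.const 1) (CHN.const 2)
    (CHN.iteEq hg (CHN.const 2) (CHN.const 2) (CHN.const 3))).congr (fun w => ?_)
  unfold glen
  by_cases h1 : g w = 1
  · simp [h1]
  · by_cases h2 : g w = 2
    · simp [h2]
    · simp [h1, h2]

theorem CHN_gp {f : W → W} {c k : W → ℕ} (hf : CHF f) (hc : CHN c) (hk : CHN k) :
    CHN (fun w => gp (tk (f w)) (c w) (min (k w) (f w).length)) := by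
  obtain ⟨⟨q, hq⟩, _⟩ := id hf
  obtain ⟨p, hp⟩ := hc.bound
  refine CHN.rec' (i := fun w => c w + 1) (L := fun w => min (k w) (f w).length)
    (s := fun w _ x => x + glen (tk (f w) x)) (hc.add (CHN.const 1))
    (CHN.min hk (CHN.len.comp hf)) ?_ q (p + 3 * q + 1) (fun w => (min_le_right _ _).trans (hq w))
    (fun w j => gp (tk (f w)) (c w) j) (fun w => rfl) (fun w j _ => rfl) (fun w j hj => ?_)
  · exact CHN.add CHN.var (CHN_glen (CHN_tk (hf.comp (CHF.fst.comp CHF.fst)) CHN.var))
  · have h1 := gp_le (tk (f w)) (c w) j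
    have h2 := hp w
    have h3 : j ≤ q.eval w.length := hj.trans ((min_le_right _ _).trans (hq w))
    have h4 : (p + 3 * q + 1).eval w.length = p.eval w.length + (3 * q.eval w.length + 1) := by
      simp [add_assoc]
    rw [h4, pow_add]
    have h5 : 3 * q.eval w.length + 1 < 2 ^ (3 * q.eval w.length + 1) := Nat.lt_two_pow_self
    have h6 : 1 ≤ 2 ^ p.eval w.length := Nat.one_le_two_pow
    have h7 : 2 ^ p.eval w.length * (3 * q.eval w.length + 1 + 1) ≤
        2 ^ p.eval w.length * 2 ^ (3 * q.eval w.length + 1) := Nat.mul_le_mul_left _ h5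
    nlinarith

theorem CHN_dgt {f : W → W} {Y k : W → ℕ} (hf : CHF f) (hY : CHN Y) (hk : CHN k) :
    CHN (fun w => dgt (f w).length (Y w) (min (k w) (f w).length)) := by
  obtain ⟨⟨q, hq⟩, _⟩ := id hf
  have hl : CHN (fun w => (f w).length) := CHN.len.comp hf
  have h1 : CHN (fun w => 2 ^ ((f w).length * min (k w) (f w).length)) := by
    refine CHN.twoPowN (hl.mul (CHN.min hk hl)) (q * q) (fun w => ?_)
    rw [Polynomial.eval_mul]
    exact Nat.mul_le_mul (hq w) ((min_le_right _ _).trans (hq w))
  have h2 : CHN (fun w => 2 ^ (f w).length) := CHN.twoPowN hl q hq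
  exact (hY.div h1).mod h2

/-- TABLES.  A function `F w j`, `j < |w|`, with values `< 2 ^ |w|` is computable if its table is
characterised by local rules. -/
theorem CHN_table {F : W → ℕ → ℕ} (hb : ∀ w j, j < w.length → F w j < 2 ^ w.length)
    {Rl : W → ℕ → ℕ → Prop}
    (hR : CHP (fun z => Rl (fstB (fstB z)) (val (sndB (fstB z))) (val (sndB z))))
    (h : ∀ w Y, (∀ j < w.length, Rl w Y j) ↔ (∀ j < w.length, dgt w.length Y j = F w j)) :
    CHN (fun z => if val (sndB z) < (fstB z).length then F (fstB z) (val (sndB z)) else 0) := by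
  have hN : CHN (fun u => 2 ^ ((fstB (fstB u)).length * (fstB (fstB u)).length)) := by
    refine CHN.twoPowN ((CHN.len.comp (CHF.fst.comp CHF.fst)).mul
      (CHN.len.comp (CHF.fst.comp CHF.fst))) (Polynomial.X * Polynomial.X) (fun w => ?_)
    have h1 := (len_fstB_le (fstB w)).trans (len_fstB_le w)
    simpa using Nat.mul_le_mul h1 h1
  refine CHN.intro Polynomial.X (fun z => ?_) ?_
  · simp only [Polynomial.eval_X]
    split_ifs with h1
    · exact lt_of_lt_of_le (hb _ _ h1) (Nat.pow_le_pow_right (by norm_num) (len_fstB_le z))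
    · positivity
  · have hall : CHP (fun z' => ∀ j < (fstB (fstB (fstB z'))).length,
        Rl (fstB (fstB (fstB z'))) (val (sndB z')) j) := by
      refine CHP.allN2 (P := fun z' j => Rl (fstB (fstB (fstB z'))) (val (sndB z')) j)
        (CHN.len.comp (CHF.fst.comp (CHF.fst.comp CHF.fst))) ?_
      have h2 : CHF (fun z => pn (pn (fstB (fstB (fstB (fstB z)))) (val (sndB (fstB z)))) (val (sndB z))) :=
        CHF.pn (CHF.pn (CHF.fst.comp (CHF.fst.comp (CHF.fst.comp CHF.fst))) (CHN.ofVal
          (CHF.snd.comp CHF.fst))) CHN.var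
      exact (hR.comp h2).congr (fun z => by simp)
    have hd : CHP (fun z' => dgt (fstB (fstB (fstB z'))).length (val (sndB z'))
        (min (val (sndB (fstB (fstB z')))) (fstB (fstB (fstB z'))).length)
          = val (sndB (fstB z'))) :=
      CHN.eq (CHN_dgt (CHF.fst.comp (CHF.fst.comp CHF.fst)) CHN.var
        (CHN.ofVal (CHF.snd.comp (CHF.fst.comp CHF.fst)))) (CHN.ofVal (CHF.snd.comp CHF.fst))
    have hex := CHP.exN2 (P := fun u Y => (∀ j < (fstB (fstB u)).length, Rl (fstB (fstB u)) Y j) ∧
      dgt (fstB (fstB u)).length Y (min (val (sndB (fstB u))) (fstB (fstB u)).length)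
        = val (sndB u)) hN (hall.and hd)
    have hlt : CHP (fun u => val (sndB (fstB u)) < (fstB (fstB u)).length) :=
      CHN.lt (CHN.ofVal (CHF.snd.comp CHF.fst)) (CHN.len.comp (CHF.fst.comp CHF.fst))
    refine ((hlt.and hex).or (hlt.not.and (CHN.eq (CHN.const 0) CHN.var))).congr (fun u => ?_)
    generalize hw : fstB (fstB u) = w
    generalize hi : val (sndB (fstB u)) = i
    generalize hv : val (sndB u) = v
    by_cases hil : i < w.length
    · simp only [hil, true_and, not_true_eq_false, false_and, or_false, if_true]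
      rw [min_eq_left hil.le]
      constructor
      · rintro ⟨Y, _, h1, h2⟩
        rw [← (h w Y).1 h1 i hil]; exact h2
      · intro h1
        obtain ⟨Y, hY, hY2⟩ := exists_dgt w.length w.length (F w) (fun j hj => hb w j hj)
        exact ⟨Y, hY, (h w Y).2 hY2, by rw [hY2 i hil, h1]⟩
    · simp only [hil, false_and, not_false_eq_true, true_and, false_or, if_false]

theorem CHP_gok {f : W → W} {p k r s : W → ℕ} (hf : CHF f) (hp : CHN p) (hk : CHN k)
    (hr : CHN r) (hs : CHN s) : CHP (fun w => gok (tk (f w)) (r w) (s w) (p w) (k w)) := by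
  have t0 := CHN_tk hf hp
  have t1 := CHN_tk hf (hp.add (CHN.const 1))
  have t2 := CHN_tk hf (hp.add (CHN.const 2))
  have c (a : ℕ) : CHP (fun w => tk (f w) (p w) = a) := t0.eq (CHN.const a)
  exact ((c 0).and ((t1.eq (CHN.const 0)).or ((t1.eq (CHN.const 1)).and ((CHN.const 0).lt t2)))).or
    (((c 1).and (t1.lt hr)).or (((c 2).and (t1.lt hs)).or
      (((c 3).or ((c 4).or (c 5))).and ((t1.lt hk).and (t2.lt hk)))))

theorem CHP_cok {f : W → W} {c r s : W → ℕ} (hf : CHF f) (hc : CHN c) (hr : CHN r) (hs : CHN s) :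
    CHP (fun w => cok (tk (f w)) (ntk (f w)) (r w) (s w) (c w)) := by
  have tc := CHN_tk hf hc
  have hm := CHN_ntk hf
  have hall : CHP (fun w => ∀ k < tk (f w) (c w),
      gok (tk (f w)) (r w) (s w) (gp (tk (f w)) (c w) (min k (f w).length)) k) := by
    refine CHP.allN2 (P := fun w k =>
      gok (tk (f w)) (r w) (s w) (gp (tk (f w)) (c w) (min k (f w).length)) k) tc ?_
    exact CHP_gok (hf.comp CHF.fst) (CHN_gp (hf.comp CHF.fst) hc.fst CHN.var) CHN.var hr.fst hs.fst
  refine (((CHN.const 0).lt tc).and ((tc.le hm).and (((CHN_gp hf hc tc).le hm).and hall))).congr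
    (fun w => ?_)
  unfold cok
  have hle := ntk_le (f w)
  constructor
  · rintro ⟨h1, h2, h3, h4⟩
    rw [min_eq_left (by omega)] at h3
    refine ⟨h1, h2, h3, fun k hk => ?_⟩
    have := h4 k hk
    rwa [min_eq_left (by omega)] at this
  · rintro ⟨h1, h2, h3, h4⟩
    refine ⟨h1, h2, ?_, fun k hk => ?_⟩
    · rw [min_eq_left (by omega)]; exact h3
    · rw [min_eq_left (by omega)]; exact h4 k hk

/-! ## the parser -/

/-- reading a table -/
def rdD (w : W) (Y i : ℕ) : ℕ := if i < w.length then dgt w.length Y (min i w.length) else 0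

theorem CHN_rdD {f : W → W} {Y i : W → ℕ} (hf : CHF f) (hY : CHN Y) (hi : CHN i) :
    CHN (fun w => rdD (f w) (Y w) (i w)) :=
  CHN.iteLt hi (CHN.len.comp hf) (CHN_dgt hf hY hi) (CHN.const 0)

open Classical in
/-- one step of the parser (values at larger positions are read from the table `Y`) -/
noncomputable def stepP (w : W) (Y i : ℕ) : ℕ :=
  if i < ntk w then
    if tk w i = 6 ∨ tk w i = 7 then
      (if cok (tk w) (ntk w) (tk w 0) (tk w 1) (i + 1) then
        gp (tk w) (i + 1) (min (tk w (i + 1)) w.length) else 0)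
    else if tk w i = 8 ∨ tk w i = 9 then
      (if i < rdD w Y (i + 1) then rdD w Y (rdD w Y (i + 1)) else 0)
    else if tk w i = 10 then rdD w Y (i + 1)
    else 0
  else 0

theorem CHN_stepP {f : W → W} {Y i : W → ℕ} (hf : CHF f) (hY : CHN Y) (hi : CHN i) :
    CHN (fun w => stepP (f w) (Y w) (i w)) := by
  have ti := CHN_tk hf hi
  have hi1 := hi.add (CHN.const 1)
  have hd := CHN_rdD hf hY hi1
  refine (CHN.ite (hi.lt (CHN_ntk hf))
    (CHN.ite ((ti.eq (CHN.const 6)).or (ti.eq (CHN.const 7)))
      (CHN.ite (CHP_cok hf hi1 (CHN_tk hf (CHN.const 0)) (CHN_tk hf (CHN.const 1)))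
        (CHN_gp hf hi1 (CHN_tk hf hi1)) (CHN.const 0))
      (CHN.ite ((ti.eq (CHN.const 8)).or (ti.eq (CHN.const 9)))
        (CHN.ite (hi.lt hd) (CHN_rdD hf hY hd) (CHN.const 0))
        (CHN.ite (ti.eq (CHN.const 10)) hd (CHN.const 0))))
    (CHN.const 0)).congr (fun w => ?_)
  unfold stepP
  congr!

/-- if the table is right at all larger positions then the step is right -/
theorem stepP_eq (w : W) (Y i : ℕ)
    (h : ∀ j, i < j → rdD w Y j = pe (tk w) (ntk w) (tk w 0) (tk w 1) j) :
    stepP w Y i = pe (tk w) (ntk w) (tk w 0) (tk w 1) i := by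
  classical
  rw [pe]
  unfold stepP
  have hle := ntk_le w
  split_ifs with h1 h2 h3 h4 h5 h6 h7 h8
  · rw [min_eq_left (h3.2.1.trans hle)]
  · rfl
  · rw [h (i + 1) (by omega)] at h5 ⊢
    rw [h _ h5]
  · exfalso; apply h6; rwa [h (i + 1) (by omega)] at h5
  · exfalso; apply h5; rwa [h (i + 1) (by omega)]
  · rfl
  · exact h (i + 1) (by omega)
  · rfl
  · rfl

theorem pe_of_ge (t : ℕ → ℕ) (m r s i : ℕ) (h : m ≤ i) : pe t m r s i = 0 := by
  classical
  rw [pe, if_neg (by omega)]

theorem CHN_pe {f : W → W} {i : W → ℕ} (hf : CHF f) (hi : CHN i) :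
    CHN (fun w => pe (tk (f w)) (ntk (f w)) (tk (f w) 0) (tk (f w) 1) (i w)) := by
  have key := CHN_table (F := fun w j => pe (tk w) (ntk w) (tk w 0) (tk w 1) j)
    (Rl := fun w Y j => dgt w.length Y (min j w.length) = stepP w Y j)
    (fun w j _ => lt_of_le_of_lt ((pe_le _ _ _ _ _).trans (ntk_le w)) Nat.lt_two_pow_self)
    (CHN.eq (CHN_dgt (CHF.fst.comp CHF.fst) (CHN.ofVal (CHF.snd.comp CHF.fst)) CHN.var)
      (CHN_stepP (CHF.fst.comp CHF.fst) (CHN.ofVal (CHF.snd.comp CHF.fst)) CHN.var))
    (fun w Y => by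
      have hle := ntk_le w
      constructor
      · intro h j hj
        have h2 : ∀ d, ∀ j, w.length - j ≤ d → rdD w Y j = pe (tk w) (ntk w) (tk w 0) (tk w 1) j := by
          intro d
          induction d with
          | zero =>
            intro j hj
            unfold rdD
            rw [if_neg (by omega), pe_of_ge _ _ _ _ _ (by omega)]
          | succ d ih =>
            intro j hj
            by_cases hjl : j < w.length
            · unfold rdD
              rw [if_pos hjl, h j hjl]
              exact stepP_eq w Y j (fun j' hj' => ih j' (by omega))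
            · unfold rdD
              rw [if_neg hjl, pe_of_ge _ _ _ _ _ (by omega)]
        have h3 := h2 _ j le_rfl
        unfold rdD at h3
        rw [if_pos hj, min_eq_left hj.le] at h3
        exact h3
      · intro h j hj
        have h2 : ∀ j, rdD w Y j = pe (tk w) (ntk w) (tk w 0) (tk w 1) j := by
          intro j
          unfold rdD
          by_cases hjl : j < w.length
          · rw [if_pos hjl, min_eq_left hjl.le]; exact h j hjl
          · rw [if_neg hjl, pe_of_ge _ _ _ _ _ (by omega)]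
        show dgt w.length Y (min j w.length) = stepP w Y j
        rw [stepP_eq w Y j (fun j' _ => h2 j'), min_eq_left hj.le]
        exact h j hj)
  refine (key.comp (CHF.pn hf hi)).congr (fun w => ?_)
  simp only [fstB_pn, sndB_pn, val_bits]
  split_ifs with h
  · rfl
  · rw [pe_of_ge _ _ _ _ _ ((ntk_le (f w)).trans (by omega))]

theorem CHN_fx {f : W → W} {v : W → ℕ} (hf : CHF f) (hv : CHN v) :
    CHN (fun w => fx (tk (f w)) (f w).length (v w)) := by
  classical
  refine (CHN.find2 (P := fun w q => tk (f w) q = v w) (CHN.len.comp hf)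
    (CHN.eq (CHN_tk (hf.comp CHF.fst) CHN.var) hv.fst)).congr (fun w => ?_)
  unfold fx
  split_ifs with h
  · congr!
  · rfl

theorem CHN_ix {f : W → W} {c k : W → ℕ} (κ : ℕ) (hf : CHF f) (hc : CHN c) (hk : CHN k) :
    CHN (fun w => ix (f w).length κ (c w) (k w)) := by
  have hl : CHN (fun w => (f w).length) := CHN.len.comp hf
  have hl1 := hl.add (CHN.const 1)
  exact hl.add (((((CHN.const κ).mul hl1).add (CHN.min hc hl)).mul hl1).add (CHN.min hk hl))

theorem sentWF_CHP : CHP sentWF :=
  CHP_wfTok.and (((CHN.const 2).lt (CHN_ntk CHF.id)).and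
    ((CHN_pe CHF.id (CHN.const 2)).eq (CHN_ntk CHF.id)))

end Crest.Agent.CHR
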