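import Crest.Agent.CHR.SentTok

/-!
# MODULE M8 (row 316): definitions (parser positions, the polynomial)

`t i` is the value of the `i`-th token, `n = |w|`, `m` = number of tokens (`m ≤ n`), `r = t 0`, `s = t 1`.
-/

set_option autoImplicit false

namespace Crest.Agent.CHR

open MvPolynomial Finset Crest.RealEA

/-! ## lists of tokens at a position -/

/-- the tokens from position `i` on start with the list -/
def At (t : ℕ → ℕ) : ℕ → List ℕ → Prop
  | _, [] => True
  | i, a :: l => t i = a ∧ At t (i + 1) l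

theorem At_append (t : ℕ → ℕ) (i : ℕ) (l l' : List ℕ) :
    At t i (l ++ l') ↔ At t i l ∧ At t (i + l.length) l' := by
  induction l generalizing i with
  | nil => simp [At]
  | cons a l ih =>
    simp only [List.cons_append, At, ih, List.length_cons, and_assoc]
    rw [show i + 1 + l.length = i + (l.length + 1) by omega]

theorem At_iff (t : ℕ → ℕ) (i : ℕ) (l : List ℕ) :
    At t i l ↔ ∀ j (h : j < l.length), t (i + j) = l[j] := by
  induction l generalizing i with
  | nil => simp [At]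
  | cons a l ih =>
    simp only [At, ih, List.length_cons]
    constructor
    · rintro ⟨h0, h1⟩ j hj
      cases j with
      | zero => simpa using h0
      | succ j =>
        have := h1 j (by omega)
        rw [show i + 1 + j = i + (j + 1) by omega] at this
        simpa using this
    · intro h
      refine ⟨by simpa using h 0 (by omega), fun j hj => ?_⟩
      have := h (j + 1) (by omega)
      rw [show i + 1 + j = i + (j + 1) by omega]
      simpa using this

/-! ## positions -/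

/-- number of tokens of a gate with tag `g` -/
def glen (g : ℕ) : ℕ := if g = 1 ∨ g = 2 then 2 else 3

/-- position of gate `k` of the circuit whose length token is at position `c` -/
def gp (t : ℕ → ℕ) (c : ℕ) : ℕ → ℕ
  | 0 => c + 1
  | k + 1 => gp t c k + glen (t (gp t c k))

theorem glen_le (g : ℕ) : glen g ≤ 3 := by unfold glen; split_ifs <;> omega
theorem le_glen (g : ℕ) : 2 ≤ glen g := by unfold glen; split_ifs <;> omega

theorem gp_le (t : ℕ → ℕ) (c k : ℕ) : gp t c k ≤ c + 1 + 3 * k := by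
  induction k with
  | zero => simp [gp]
  | succ k ih =>
    have := glen_le (t (gp t c k))
    simp only [gp]; omega

theorem le_gp (t : ℕ → ℕ) (c k : ℕ) : c + 1 + 2 * k ≤ gp t c k := by
  induction k with
  | zero => simp [gp]
  | succ k ih =>
    have := le_glen (t (gp t c k))
    simp only [gp]; omega

/-- the gate at position `p` with number `k` is well formed -/
def gok (t : ℕ → ℕ) (r s p k : ℕ) : Prop :=
  (t p = 0 ∧ (t (p + 1) = 0 ∨ (t (p + 1) = 1 ∧ 0 < t (p + 2)))) ∨ (t p = 1 ∧ t (p + 1) < r) ∨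
  (t p = 2 ∧ t (p + 1) < s) ∨
  ((t p = 3 ∨ t p = 4 ∨ t p = 5) ∧ t (p + 1) < k ∧ t (p + 2) < k)

/-- the circuit with length token at `c` is well formed and ends before `m` -/
def cok (t : ℕ → ℕ) (m r s c : ℕ) : Prop :=
  0 < t c ∧ t c ≤ m ∧ gp t c (t c) ≤ m ∧ ∀ k < t c, gok t r s (gp t c k) k

open Classical in
/-- the end of the formula starting at position `i`; `0` if there is no well-formed formula -/
noncomputable def pe (t : ℕ → ℕ) (m r s : ℕ) (i : ℕ) : ℕ :=
  if i < m then
    if t i = 6 ∨ t i = 7 then (if cok t m r s (i + 1) then gp t (i + 1) (t (i + 1)) else 0)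
    else if t i = 8 ∨ t i = 9 then
      (if i < pe t m r s (i + 1) then pe t m r s (pe t m r s (i + 1)) else 0)
    else if t i = 10 then pe t m r s (i + 1)
    else 0
  else 0
termination_by m - i

/-! ## variables -/

open Classical in
/-- first occurrence of the token value `v` -/
noncomputable def fx (t : ℕ → ℕ) (n v : ℕ) : ℕ :=
  if h : ∃ q, q < n ∧ t q = v then Nat.find h else n

theorem fx_le (t : ℕ → ℕ) (n v : ℕ) : fx t n v ≤ n := by
  classical
  unfold fx
  split_ifs with h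
  · exact (Nat.find_spec h).1.le
  · exact le_rfl

theorem fx_spec (t : ℕ → ℕ) (n v q : ℕ) (hq : q < n) (h : t q = v) :
    fx t n v < n ∧ t (fx t n v) = v := by
  classical
  have h' : ∃ q, q < n ∧ t q = v := ⟨q, hq, h⟩
  unfold fx
  rw [dif_pos h']
  exact Nat.find_spec h'

/-- auxiliary variable of kind `κ < 8` with indices `c, k ≤ n` -/
def ix (n κ c k : ℕ) : ℕ := n + ((κ * (n + 1) + min c n) * (n + 1) + min k n)

theorem le_ix (n κ c k : ℕ) : n ≤ ix n κ c k := by unfold ix; omega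

theorem ix_lt (n κ c k : ℕ) (hκ : κ < 8) : ix n κ c k < 9 * (n + 1) ^ 2 := by
  unfold ix
  have h1 : min c n ≤ n := min_le_right _ _
  have h2 : min k n ≤ n := min_le_right _ _
  have h3 : (κ * (n + 1) + min c n) * (n + 1) ≤ (7 * (n + 1) + n) * (n + 1) := by
    apply Nat.mul_le_mul_right
    have : κ * (n + 1) ≤ 7 * (n + 1) := Nat.mul_le_mul_right _ (by omega)
    omega
  nlinarith

/-- assignment with given values of the auxiliary variables -/
noncomputable def asgU (n : ℕ) (U : ℕ → ℕ → ℕ → ℝ) (j : ℕ) : ℝ :=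
  U ((j - n) / (n + 1) / (n + 1)) ((j - n) / (n + 1) % (n + 1)) ((j - n) % (n + 1))

theorem asgU_ix (n : ℕ) (U : ℕ → ℕ → ℕ → ℝ) (κ c k : ℕ) (hc : c ≤ n) (hk : k ≤ n) :
    asgU n U (ix n κ c k) = U κ c k := by
  unfold asgU ix
  rw [min_eq_left hc, min_eq_left hk, Nat.add_sub_cancel_left]
  have h1 : ((κ * (n + 1) + c) * (n + 1) + k) / (n + 1) = κ * (n + 1) + c := by
    rw [Nat.add_comm, Nat.add_mul_div_right _ _ (Nat.succ_pos n), Nat.div_eq_of_lt (by omega)]
    omega
  have h2 : ((κ * (n + 1) + c) * (n + 1) + k) % (n + 1) = k := by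
    rw [Nat.add_comm, Nat.add_mul_mod_self_right, Nat.mod_eq_of_lt (by omega)]
  have h3 : (κ * (n + 1) + c) / (n + 1) = κ := by
    rw [Nat.add_comm, Nat.add_mul_div_right _ _ (Nat.succ_pos n), Nat.div_eq_of_lt (by omega)]
    omega
  have h4 : (κ * (n + 1) + c) % (n + 1) = c := by
    rw [Nat.add_comm, Nat.add_mul_mod_self_right, Nat.mod_eq_of_lt (by omega)]
  rw [h1, h2, h3, h4]

/-! ## the polynomial -/

/-- right side of the equation of gate `k` (at position `p`) of the circuit at `c` -/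
noncomputable def gx (t : ℕ → ℕ) (n c k p : ℕ) : P :=
  if t p = 0 then (if t (p + 1) = 0 then C (t (p + 2) : ℚ) else - C (t (p + 2) : ℚ))
  else if t p = 1 then X (fx t n (t (p + 1)))
  else if t p = 2 then X (ix n 0 0 (fx t n (t (p + 1))))
  else if t (p + 1) < k ∧ t (p + 2) < k then
    (if t p = 3 then X (ix n 1 c (t (p + 1))) + X (ix n 1 c (t (p + 2)))
     else if t p = 4 then X (ix n 1 c (t (p + 1))) - X (ix n 1 c (t (p + 2)))
     else X (ix n 1 c (t (p + 1))) * X (ix n 1 c (t (p + 2))))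
  else 0

/-- equation of a gate -/
noncomputable def geq (t : ℕ → ℕ) (n c k : ℕ) : P :=
  (X (ix n 1 c k) - gx t n c k (gp t c (min k n))) ^ 2

/-- equations of the node `i`; `j` is the second child -/
noncomputable def feq (t : ℕ → ℕ) (n i j : ℕ) : P :=
  if t i = 6 then
    (X (ix n 2 0 i) - X (ix n 1 (i + 1) (t (i + 1) - 1))) ^ 2
      + (X (ix n 3 0 i) - (X (ix n 1 (i + 1) (t (i + 1) - 1)) * X (ix n 4 0 i) - 1)) ^ 2
  else if t i = 7 then
    ((X (ix n 7 0 i) - X (ix n 5 0 i) ^ 2) ^ 2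
      + (X (ix n 2 0 i) - (X (ix n 1 (i + 1) (t (i + 1) - 1)) * X (ix n 7 0 i) - 1)) ^ 2)
      + (X (ix n 3 0 i) - (X (ix n 1 (i + 1) (t (i + 1) - 1)) + X (ix n 6 0 i) ^ 2)) ^ 2
  else if t i = 8 then
    (X (ix n 2 0 i) - (X (ix n 2 0 (i + 1)) ^ 2 + X (ix n 2 0 j) ^ 2)) ^ 2
      + (X (ix n 3 0 i) - X (ix n 3 0 (i + 1)) * X (ix n 3 0 j)) ^ 2
  else if t i = 9 then
    (X (ix n 2 0 i) - X (ix n 2 0 (i + 1)) * X (ix n 2 0 j)) ^ 2
      + (X (ix n 3 0 i) - (X (ix n 3 0 (i + 1)) ^ 2 + X (ix n 3 0 j) ^ 2)) ^ 2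
  else
    (X (ix n 2 0 i) - X (ix n 3 0 (i + 1))) ^ 2 + (X (ix n 3 0 i) - X (ix n 2 0 (i + 1))) ^ 2

/-- second child -/
noncomputable def ch2 (t : ℕ → ℕ) (n m r s i : ℕ) : ℕ := max (i + 1) (min (pe t m r s (i + 1)) n)

noncomputable def sQ (t : ℕ → ℕ) (n m r s : ℕ) : P :=
  (∑ c ∈ range n, ∑ k ∈ range n, geq t n c k + ∑ i ∈ range n, feq t n i (ch2 t n m r s i))
    + X (ix n 3 0 2) ^ 2

noncomputable def sentQ (w : W) : P := sQ (tk w) w.length (ntk w) (tk w 0) (tk w 1)

def sentWF (w : W) : Prop :=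
  wfTok w ∧ 2 < ntk w ∧ pe (tk w) (ntk w) (tk w 0) (tk w 1) 2 = ntk w

end Crest.Agent.CHR
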