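import Crest.Agent.CHR.SentCH

/-!
# MODULE M8 (row 316): the family `sentQ` (chunk R316-SentFam)

`IsFam` closure: `IsFam.const var add mul neg sub ite sum pow` (`Fam.lean`); indices:
`CHN_tk` (`SentTok.lean`), `CHN_gp CHN_pe CHN_fx CHN_ix` (`SentCH.lean`), `CHN.add`, `CHN.sub`, `CHN.len`, ...
In a sum `∑ i ∈ range (N w), F (pn w i)` the family `F` is a function of all strings `z`; read the
components by `fstB z`, `val (sndB z)` (two nested sums: `fstB (fstB z)`, `val (sndB (fstB z))`,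
`val (sndB z)`), `fstB_pn`, `sndB_pn`, `val_bits`.  All variable indices are bounded for all arguments
(`fx_le`, `ix_lt`), which gives the polynomial bounds needed in `IsFam.var`.
-/

set_option autoImplicit false

namespace Crest.Agent.CHR

open MvPolynomial Finset Crest.RealEA

theorem IsFam.sq' {F : W → P} (hF : IsFam F) : IsFam (fun w => F w ^ 2) :=
  (hF.mul hF).congr fun w => (_root_.sq (F w)).symm

/-- `IsFam.var` for the auxiliary variables -/
theorem IsFam_ix {f : W → W} {c k : W → ℕ} (κ : ℕ) (hκ : κ < 8) (hf : CHF f) (hc : CHN c)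
    (hk : CHN k) : IsFam (fun w => X (ix (f w).length κ (c w) (k w))) := by
  obtain ⟨q, hq⟩ := hf.1
  refine IsFam.var (CHN_ix κ hf hc hk) (9 * (q + 1) ^ 2) fun w => ?_
  have h1 := ix_lt (f w).length κ (c w) (k w) hκ
  have h2 : ((f w).length + 1) ^ 2 ≤ (q.eval w.length + 1) ^ 2 :=
    Nat.pow_le_pow_left (Nat.add_le_add_right (hq w) 1) 2
  simp only [Polynomial.eval_mul, Polynomial.eval_ofNat, Polynomial.eval_pow, Polynomial.eval_add,
    Polynomial.eval_one]
  omega

theorem IsFam_fx {f : W → W} {v : W → ℕ} (hf : CHF f) (hv : CHN v) :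
    IsFam (fun w => X (fx (tk (f w)) (f w).length (v w))) := by
  obtain ⟨q, hq⟩ := hf.1
  exact IsFam.var (CHN_fx hf hv) q fun w => (fx_le _ _ _).trans (hq w)

theorem IsFam_nat {a : W → ℕ} (ha : CHN a) : IsFam (fun w => C ((a w : ℕ) : ℚ)) :=
  (IsFam.const ha (CHN.const 1) fun _ => Nat.one_pos).congr fun w => by simp

theorem IsFam_gx {f : W → W} {c k p : W → ℕ} (hf : CHF f) (hc : CHN c) (hk : CHN k) (hp : CHN p) :
    IsFam (fun w => gx (tk (f w)) (f w).length (c w) (k w) (p w)) := by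
  have t0 := CHN_tk hf hp
  have t1 := CHN_tk hf (hp.add (CHN.const 1))
  have t2 := CHN_tk hf (hp.add (CHN.const 2))
  unfold gx
  refine IsFam.iteD (CHN.eq t0 (CHN.const 0)) (IsFam.iteD (CHN.eq t1 (CHN.const 0))
    (IsFam_nat t2) (IsFam_nat t2).neg) (IsFam.iteD (CHN.eq t0 (CHN.const 1)) (IsFam_fx hf t1)
    (IsFam.iteD (CHN.eq t0 (CHN.const 2))
      (IsFam_ix 0 (by norm_num) hf (CHN.const 0) (CHN_fx hf t1))
      (IsFam.iteD ((CHN.lt t1 hk).and (CHN.lt t2 hk)) (IsFam.iteD (CHN.eq t0 (CHN.const 3))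
        ((IsFam_ix 1 (by norm_num) hf hc t1).add (IsFam_ix 1 (by norm_num) hf hc t2))
        (IsFam.iteD (CHN.eq t0 (CHN.const 4))
          ((IsFam_ix 1 (by norm_num) hf hc t1).sub (IsFam_ix 1 (by norm_num) hf hc t2))
          ((IsFam_ix 1 (by norm_num) hf hc t1).mul (IsFam_ix 1 (by norm_num) hf hc t2))))
        IsFam.zero)))

theorem IsFam_geq {f : W → W} {c k : W → ℕ} (hf : CHF f) (hc : CHN c) (hk : CHN k) :
    IsFam (fun w => geq (tk (f w)) (f w).length (c w) (k w)) := by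
  unfold geq
  exact ((IsFam_ix 1 (by norm_num) hf hc hk).sub (IsFam_gx hf hc hk (CHN_gp hf hc hk))).sq'

theorem IsFam_feq {f : W → W} {i j : W → ℕ} (hf : CHF f) (hi : CHN i) (hj : CHN j) :
    IsFam (fun w => feq (tk (f w)) (f w).length (i w) (j w)) := by
  have t0 := CHN_tk hf hi
  have i1 := hi.add (CHN.const 1)
  have t1 := (CHN_tk hf i1).sub (CHN.const 1)
  have z : ∀ κ, κ < 8 → IsFam (fun w => X (ix (f w).length κ 0 (i w))) := fun κ hκ =>
    IsFam_ix κ hκ hf (CHN.const 0) hi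
  have z1 : ∀ κ, κ < 8 → IsFam (fun w => X (ix (f w).length κ 0 (i w + 1))) := fun κ hκ =>
    IsFam_ix κ hκ hf (CHN.const 0) i1
  have zj : ∀ κ, κ < 8 → IsFam (fun w => X (ix (f w).length κ 0 (j w))) := fun κ hκ =>
    IsFam_ix κ hκ hf (CHN.const 0) hj
  have g := IsFam_ix 1 (by norm_num) hf i1 t1
  unfold feq
  refine IsFam.iteD (CHN.eq t0 (CHN.const 6)) ?_ (IsFam.iteD (CHN.eq t0 (CHN.const 7)) ?_
    (IsFam.iteD (CHN.eq t0 (CHN.const 8)) ?_ (IsFam.iteD (CHN.eq t0 (CHN.const 9)) ?_ ?_)))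
  · exact ((z 2 (by norm_num)).sub g).sq'.add
      ((z 3 (by norm_num)).sub ((g.mul (z 4 (by norm_num))).sub IsFam.one)).sq'
  · exact ((((z 7 (by norm_num)).sub (z 5 (by norm_num)).sq').sq').add
      ((z 2 (by norm_num)).sub ((g.mul (z 7 (by norm_num))).sub IsFam.one)).sq').add
      ((z 3 (by norm_num)).sub (g.add (z 6 (by norm_num)).sq')).sq'
  · exact ((z 2 (by norm_num)).sub ((z1 2 (by norm_num)).sq'.add (zj 2 (by norm_num)).sq')).sq'.add
      ((z 3 (by norm_num)).sub ((z1 3 (by norm_num)).mul (zj 3 (by norm_num)))).sq'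
  · exact ((z 2 (by norm_num)).sub ((z1 2 (by norm_num)).mul (zj 2 (by norm_num)))).sq'.add
      ((z 3 (by norm_num)).sub ((z1 3 (by norm_num)).sq'.add (zj 3 (by norm_num)).sq')).sq'
  · exact ((z 2 (by norm_num)).sub (z1 3 (by norm_num))).sq'.add
      ((z 3 (by norm_num)).sub (z1 2 (by norm_num))).sq'

theorem CHN_ch2 {f : W → W} {i : W → ℕ} (hf : CHF f) (hi : CHN i) :
    CHN (fun w => ch2 (tk (f w)) (f w).length (ntk (f w)) (tk (f w) 0) (tk (f w) 1) (i w)) := by
  have i1 := hi.add (CHN.const 1)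
  have h1 := (CHN_pe hf i1).min (CHN.len.comp hf)
  refine (i1.add (h1.sub i1)).congr fun w => ?_
  unfold ch2
  omega

theorem sentQ_fam : IsFam sentQ := by
  have h1 : IsFam (fun w => ∑ c ∈ range w.length, ∑ k ∈ range w.length,
      geq (tk w) w.length c k) := by
    refine IsFam.sum2 (F := fun w c => ∑ k ∈ range w.length, geq (tk w) w.length c k) CHN.len ?_
    exact IsFam.sum2 (N := fun z => (fstB z).length)
      (F := fun z k => geq (tk (fstB z)) (fstB z).length (val (sndB z)) k)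
      (CHN.len.comp CHF.fst) (IsFam_geq (CHF.fst.comp CHF.fst) CHN.var.fst CHN.var)
  have h2 : IsFam (fun w => ∑ i ∈ range w.length, feq (tk w) w.length i
      (ch2 (tk w) w.length (ntk w) (tk w 0) (tk w 1) i)) := by
    refine IsFam.sum2 (F := fun w i => feq (tk w) w.length i
      (ch2 (tk w) w.length (ntk w) (tk w 0) (tk w 1) i)) CHN.len ?_
    exact IsFam_feq CHF.fst CHN.var (CHN_ch2 CHF.fst CHN.var)
  have h3 : IsFam (fun w => X (ix w.length 3 0 2) ^ 2) :=
    (IsFam_ix 3 (by norm_num) CHF.id (CHN.const 0) (CHN.const 2)).sq'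
  exact ((h1.add h2).add h3)

/-! ## variables -/

/-- bound for the variables -/
def VB (B : ℕ) (f : P) : Prop := ∀ j ∈ f.vars, j < B

theorem VB.add {B : ℕ} {f g : P} (hf : VB B f) (hg : VB B g) : VB B (f + g) := by
  classical
  intro j hj
  rcases mem_union.1 (vars_add_subset f g hj) with h | h
  · exact hf j h
  · exact hg j h

theorem VB.mul {B : ℕ} {f g : P} (hf : VB B f) (hg : VB B g) : VB B (f * g) := by
  classical
  intro j hj
  rcases mem_union.1 (vars_mul f g hj) with h | h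
  · exact hf j h
  · exact hg j h

theorem VB.neg {B : ℕ} {f : P} (hf : VB B f) : VB B (-f) := by
  intro j hj
  rw [vars_neg] at hj
  exact hf j hj

theorem VB.sub {B : ℕ} {f g : P} (hf : VB B f) (hg : VB B g) : VB B (f - g) := by
  rw [sub_eq_add_neg]
  exact hf.add hg.neg

theorem VB.sq {B : ℕ} {f : P} (hf : VB B f) : VB B (f ^ 2) := by
  rw [_root_.sq]
  exact hf.mul hf

theorem VB.C {B : ℕ} (c : ℚ) : VB B (C c) := by
  intro j hj
  rw [vars_C] at hj
  simp at hj

theorem VB.one {B : ℕ} : VB B 1 := by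
  have := VB.C (B := B) 1
  rwa [map_one] at this

theorem VB.zero {B : ℕ} : VB B 0 := by
  have := VB.C (B := B) 0
  rwa [map_zero] at this

theorem VB.X {B j : ℕ} (h : j < B) : VB B (X j) := by
  intro i hi
  rw [vars_X, mem_singleton] at hi
  rw [hi]
  exact h

theorem VB.sum {ι : Type*} {B : ℕ} {s : Finset ι} {f : ι → P} (h : ∀ i ∈ s, VB B (f i)) :
    VB B (∑ i ∈ s, f i) := by
  classical
  induction s using Finset.induction_on with
  | empty => rw [sum_empty]; exact VB.zero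
  | insert a s ha ih =>
    rw [sum_insert ha]
    exact (h a (mem_insert_self a s)).add (ih fun i hi => h i (mem_insert_of_mem hi))

theorem VB.ix {n κ c k : ℕ} (hκ : κ < 8) :
    VB (9 * (n + 1) ^ 2) (MvPolynomial.X (Crest.Agent.CHR.ix n κ c k)) :=
  VB.X (ix_lt n κ c k hκ)

theorem VB.gx (t : ℕ → ℕ) (n c k p : ℕ) : VB (9 * (n + 1) ^ 2) (Crest.Agent.CHR.gx t n c k p) := by
  have hfx : ∀ v, fx t n v < 9 * (n + 1) ^ 2 := fun v => by
    have := fx_le t n v
    nlinarith
  have h1 : ∀ c k, VB (9 * (n + 1) ^ 2) (MvPolynomial.X (Crest.Agent.CHR.ix n 1 c k)) :=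
    fun c k => VB.ix (by norm_num)
  unfold Crest.Agent.CHR.gx
  split_ifs
  · exact VB.C _
  · exact (VB.C _).neg
  · exact VB.X (hfx _)
  · exact VB.ix (by norm_num)
  · exact (h1 _ _).add (h1 _ _)
  · exact (h1 _ _).sub (h1 _ _)
  · exact (h1 _ _).mul (h1 _ _)
  · exact VB.zero

theorem VB.feq (t : ℕ → ℕ) (n i j : ℕ) : VB (9 * (n + 1) ^ 2) (Crest.Agent.CHR.feq t n i j) := by
  have h : ∀ κ c k, κ < 8 → VB (9 * (n + 1) ^ 2) (MvPolynomial.X (Crest.Agent.CHR.ix n κ c k)) :=
    fun κ c k hκ => VB.ix hκ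
  unfold Crest.Agent.CHR.feq
  split_ifs
  · exact (((h _ _ _ (by norm_num)).sub (h _ _ _ (by norm_num))).sq).add
      (((h _ _ _ (by norm_num)).sub (((h _ _ _ (by norm_num)).mul
        (h _ _ _ (by norm_num))).sub VB.one)).sq)
  · exact ((((h _ _ _ (by norm_num)).sub (h _ _ _ (by norm_num)).sq).sq).add
      ((h _ _ _ (by norm_num)).sub (((h _ _ _ (by norm_num)).mul
        (h _ _ _ (by norm_num))).sub VB.one)).sq).add
      ((h _ _ _ (by norm_num)).sub ((h _ _ _ (by norm_num)).add (h _ _ _ (by norm_num)).sq)).sq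
  · exact ((h _ _ _ (by norm_num)).sub ((h _ _ _ (by norm_num)).sq.add
      (h _ _ _ (by norm_num)).sq)).sq.add
      ((h _ _ _ (by norm_num)).sub ((h _ _ _ (by norm_num)).mul (h _ _ _ (by norm_num)))).sq
  · exact ((h _ _ _ (by norm_num)).sub ((h _ _ _ (by norm_num)).mul
      (h _ _ _ (by norm_num)))).sq.add
      ((h _ _ _ (by norm_num)).sub ((h _ _ _ (by norm_num)).sq.add (h _ _ _ (by norm_num)).sq)).sq
  · exact ((h _ _ _ (by norm_num)).sub (h _ _ _ (by norm_num))).sq.add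
      ((h _ _ _ (by norm_num)).sub (h _ _ _ (by norm_num))).sq

/-- PROOF. The property `∀ j ∈ f.vars, j < B` is closed under sums, products, powers (`vars_add_subset`,
`vars_mul`, `vars_pow`, `vars_sum_subset`, `vars_sub_subset`, `vars_neg`); `ix_lt`, `fx_le`. -/
theorem sQ_vars (t : ℕ → ℕ) (n m r s : ℕ) : ∀ j ∈ (sQ t n m r s).vars, j < 9 * (n + 1) ^ 2 := by
  have h : VB (9 * (n + 1) ^ 2) (sQ t n m r s) := by
    unfold sQ
    refine ((VB.sum fun c _ => VB.sum fun k _ => ?_).add (VB.sum fun i _ => VB.feq t n i _)).add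
      (VB.ix (by norm_num)).sq
    unfold geq
    exact ((VB.ix (by norm_num)).sub (VB.gx t n c k _)).sq
  exact h

/-! ## degree -/

/-- bound for the degree -/
def DB (d : ℕ) (f : P) : Prop := f.totalDegree ≤ d

theorem DB.mono {d d' : ℕ} {f : P} (hf : DB d f) (h : d ≤ d') : DB d' f := le_trans hf h

theorem DB.add {d : ℕ} {f g : P} (hf : DB d f) (hg : DB d g) : DB d (f + g) :=
  (totalDegree_add f g).trans (max_le hf hg)

theorem DB.mul {d e : ℕ} {f g : P} (hf : DB d f) (hg : DB e g) : DB (d + e) (f * g) :=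
  (totalDegree_mul f g).trans (Nat.add_le_add hf hg)

theorem DB.neg {d : ℕ} {f : P} (hf : DB d f) : DB d (-f) := by
  unfold DB
  rw [totalDegree_neg]
  exact hf

theorem DB.sub {d : ℕ} {f g : P} (hf : DB d f) (hg : DB d g) : DB d (f - g) := by
  rw [sub_eq_add_neg]
  exact hf.add hg.neg

theorem DB.sq {d e : ℕ} {f : P} (hf : DB d f) (h : d + d ≤ e := by norm_num) : DB e (f ^ 2) := by
  rw [_root_.sq]
  exact (hf.mul hf).mono h

theorem DB.C {d : ℕ} (c : ℚ) : DB d (C c) := by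
  unfold DB
  rw [totalDegree_C]
  exact Nat.zero_le _

theorem DB.one {d : ℕ} : DB d 1 := by
  have := DB.C (d := d) 1
  rwa [map_one] at this

theorem DB.zero {d : ℕ} : DB d 0 := by
  have := DB.C (d := d) 0
  rwa [map_zero] at this

theorem DB.X {j : ℕ} : DB 1 (X j) := by
  unfold DB
  rw [totalDegree_X]

theorem DB.sum {ι : Type*} {d : ℕ} {s : Finset ι} {f : ι → P} (h : ∀ i ∈ s, DB d (f i)) :
    DB d (∑ i ∈ s, f i) := by
  classical
  induction s using Finset.induction_on with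
  | empty => rw [sum_empty]; exact DB.zero
  | insert a s ha ih =>
    rw [sum_insert ha]
    exact (h a (mem_insert_self a s)).add (ih fun i hi => h i (mem_insert_of_mem hi))

theorem DB.gx (t : ℕ → ℕ) (n c k p : ℕ) : DB 2 (Crest.Agent.CHR.gx t n c k p) := by
  have hX : ∀ j, DB 2 (MvPolynomial.X j) := fun j => DB.X.mono (by norm_num)
  unfold Crest.Agent.CHR.gx
  split_ifs
  · exact DB.C _
  · exact (DB.C _).neg
  · exact hX _
  · exact hX _
  · exact (hX _).add (hX _)
  · exact (hX _).sub (hX _)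
  · exact DB.X.mul DB.X
  · exact DB.zero

theorem DB.feq (t : ℕ → ℕ) (n i j : ℕ) : DB 4 (Crest.Agent.CHR.feq t n i j) := by
  have hX : ∀ j, DB 2 (MvPolynomial.X j) := fun j => DB.X.mono (by norm_num)
  have hS : ∀ j, DB 2 (MvPolynomial.X j ^ 2) := fun j => DB.X.sq
  have hM : ∀ i j, DB 2 (MvPolynomial.X i * MvPolynomial.X j) := fun i j => DB.X.mul DB.X
  unfold Crest.Agent.CHR.feq
  split_ifs
  · exact (((hX _).sub (hX _)).sq).add (((hX _).sub ((hM _ _).sub DB.one)).sq)
  · exact ((((hX _).sub (hS _)).sq).add ((hX _).sub ((hM _ _).sub DB.one)).sq).add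
      ((hX _).sub ((hX _).add (hS _))).sq
  · exact ((hX _).sub ((hS _).add (hS _))).sq.add ((hX _).sub (hM _ _)).sq
  · exact ((hX _).sub (hM _ _)).sq.add ((hX _).sub ((hS _).add (hS _))).sq
  · exact ((hX _).sub (hX _)).sq.add ((hX _).sub (hX _)).sq

/-- PROOF. `totalDegree_add`, `totalDegree_pow`, `totalDegree_mul`, `totalDegree_finset_sum`, ... -/
theorem sQ_deg (t : ℕ → ℕ) (n m r s : ℕ) : (sQ t n m r s).totalDegree ≤ 4 := by
  have h : DB 4 (sQ t n m r s) := by
    unfold sQ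
    refine ((DB.sum fun c _ => DB.sum fun k _ => ?_).add (DB.sum fun i _ => DB.feq t n i _)).add
      DB.X.sq
    unfold geq
    exact ((DB.X.mono (by norm_num : 1 ≤ 2)).sub (DB.gx t n c k _)).sq
  exact h

end Crest.Agent.CHR
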