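import Crest.Agent.CHR.SentParA

/-!
# MODULE M8 (row 316): correctness of the parser positions: formulas (chunk R316-SentParB)
-/

set_option autoImplicit false

namespace Crest.Agent.CHR

open Crest.RealEA

/-- strong induction on `m - i`, unfolding `pe` -/
theorem pe_le (t : ℕ → ℕ) (m r s i : ℕ) : pe t m r s i ≤ m := by
  induction hk : m - i using Nat.strong_induction_on generalizing i with
  | _ k ih =>
    rw [pe]
    split_ifs with h1 h2 h3 h4 h5 h6
    · exact h3.2.2.1
    · exact Nat.zero_le _
    · exact ih _ (by omega) _ rfl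
    · exact Nat.zero_le _
    · exact ih _ (by omega) _ rfl
    · exact Nat.zero_le _
    · exact Nat.zero_le _

/-- PROOF. Induction on `φ` (for all `i`), `rw [pe]`, `At_append`, `cok_iff`, `gp_end`. -/
theorem pe_of_form (t : ℕ → ℕ) (m r s : ℕ) (φ : Form) (hφ : φ.WF r s) (i : ℕ)
    (h : At t i φ.toNats) (hm : i + φ.toNats.length ≤ m) :
    pe t m r s i = i + φ.toNats.length := by
  induction φ generalizing i with
  | eqZero c =>
    simp only [Form.toNats, At, List.length_cons] at h hm ⊢
    have hc : cok t m r s (i + 1) := (cok_iff t m r s (i + 1)).2 ⟨c, hφ, h.2, by omega⟩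
    rw [pe, if_pos (by omega), if_pos (Or.inl h.1), if_pos hc, gp_end t (i + 1) c h.2]
    omega
  | pos c =>
    simp only [Form.toNats, At, List.length_cons] at h hm ⊢
    have hc : cok t m r s (i + 1) := (cok_iff t m r s (i + 1)).2 ⟨c, hφ, h.2, by omega⟩
    rw [pe, if_pos (by omega), if_pos (Or.inr h.1), if_pos hc, gp_end t (i + 1) c h.2]
    omega
  | and φ ψ ih1 ih2 =>
    simp only [Form.toNats, At, List.length_cons, List.length_append, At_append] at h hm ⊢
    have e1 := ih1 hφ.1 (i + 1) h.2.1 (by omega)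
    have e2 := ih2 hφ.2 (i + 1 + φ.toNats.length) h.2.2 (by omega)
    rw [pe, if_pos (by omega), if_neg (by omega), if_pos (Or.inl h.1), e1, if_pos (by omega), e2]
    omega
  | or φ ψ ih1 ih2 =>
    simp only [Form.toNats, At, List.length_cons, List.length_append, At_append] at h hm ⊢
    have e1 := ih1 hφ.1 (i + 1) h.2.1 (by omega)
    have e2 := ih2 hφ.2 (i + 1 + φ.toNats.length) h.2.2 (by omega)
    rw [pe, if_pos (by omega), if_neg (by omega), if_pos (Or.inr h.1), e1, if_pos (by omega), e2]
    omega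
  | not φ ih =>
    simp only [Form.toNats, At, List.length_cons] at h hm ⊢
    have e1 := ih hφ (i + 1) h.2 (by omega)
    rw [pe, if_pos (by omega), if_neg (by omega), if_neg (by omega), if_pos h.1, e1]
    omega

/-- PROOF. Strong induction on `m - i`, `rw [pe]`, `cok_iff`, `gp_end`, `At_append`. -/
theorem form_of_pe (t : ℕ → ℕ) (m r s i : ℕ) (h : pe t m r s i ≠ 0) :
    ∃ φ : Form, φ.WF r s ∧ At t i φ.toNats ∧ i + φ.toNats.length ≤ m ∧
      pe t m r s i = i + φ.toNats.length := by
  induction hk : m - i using Nat.strong_induction_on generalizing i with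
  | _ k ih =>
    rw [pe] at h ⊢
    split_ifs at h ⊢ with h1 h2 h3 h4 h5 h6
    · obtain ⟨gs, hw, hat, hle⟩ := (cok_iff t m r s (i + 1)).1 h3
      have he := gp_end t (i + 1) gs hat
      rcases h2 with h2 | h2
      · refine ⟨.eqZero gs, hw, ⟨h2, hat⟩, ?_, ?_⟩ <;>
          simp only [Form.toNats, List.length_cons] <;> omega
      · refine ⟨.pos gs, hw, ⟨h2, hat⟩, ?_, ?_⟩ <;>
          simp only [Form.toNats, List.length_cons] <;> omega
    · exact absurd rfl h
    · obtain ⟨φ, hφ, hat, hle, he⟩ := ih (m - (i + 1)) (by omega) (i + 1) (by omega) rfl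
      obtain ⟨ψ, hψ, hat', hle', he'⟩ := ih (m - pe t m r s (i + 1)) (by omega)
        (pe t m r s (i + 1)) h rfl
      rw [he] at hat' hle' he'
      rcases h4 with h4 | h4
      · refine ⟨.and φ ψ, ⟨hφ, hψ⟩, ⟨h4, (At_append _ _ _ _).2 ⟨hat, hat'⟩⟩, ?_, ?_⟩
        · simp only [Form.toNats, List.length_cons, List.length_append]; omega
        · rw [he, he']
          simp only [Form.toNats, List.length_cons, List.length_append]; omega
      · refine ⟨.or φ ψ, ⟨hφ, hψ⟩, ⟨h4, (At_append _ _ _ _).2 ⟨hat, hat'⟩⟩, ?_, ?_⟩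
        · simp only [Form.toNats, List.length_cons, List.length_append]; omega
        · rw [he, he']
          simp only [Form.toNats, List.length_cons, List.length_append]; omega
    · exact absurd rfl h
    · obtain ⟨φ, hφ, hat, hle, he⟩ := ih (m - (i + 1)) (by omega) (i + 1) h rfl
      refine ⟨.not φ, hφ, ⟨h6, hat⟩, ?_, ?_⟩ <;>
        simp only [Form.toNats, List.length_cons] <;> omega
    · exact absurd rfl h
    · exact absurd rfl h

/-- PROOF. `wfTok_iff`, `tk_flatMap`, `ntk_flatMap` (`SentTok.lean`), `pe_of_form`, `form_of_pe`.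
`S.encode = S.toNats.flatMap natBits`; for `→` the token list `ts` has `ts.length = ntk w`, and
`At (tk w) 2 φ.toNats` with `2 + φ.toNats.length = ts.length` gives `ts = r :: s :: φ.toNats`. -/
theorem sentWF_iff (w : W) : sentWF w ↔ ∃ S : Sentence, S.WF ∧ S.encode = w := by
  constructor
  · rintro ⟨hw, h2, hpe⟩
    obtain ⟨ts, hts⟩ := (wfTok_iff w).1 hw
    have hn : ntk w = ts.length := by rw [← hts, ntk_flatMap]
    have htk : ∀ i, tk w i = ts.getD i 0 := fun i => by rw [← hts, tk_flatMap]
    obtain ⟨φ, hφ, hat, hle, he⟩ := form_of_pe (tk w) (ntk w) (tk w 0) (tk w 1) 2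
      (by rw [hpe]; omega)
    refine ⟨⟨tk w 0, tk w 1, φ⟩, hφ, ?_⟩
    have hlen : ts.length = 2 + φ.toNats.length := by rw [← hn, ← hpe, he]
    have e : (Sentence.toNats ⟨tk w 0, tk w 1, φ⟩) = ts := by
      refine List.ext_getElem ?_ fun j hj1 hj2 => ?_
      · simp only [Sentence.toNats, List.length_cons]; omega
      · have hj3 : ts[j] = tk w j := by
          rw [htk, List.getD_eq_getElem _ _ hj2]
        rw [hj3]
        match j, hj1, hj2 with
        | 0, _, _ => rfl
        | 1, _, _ => rfl
        | j + 2, hj1, hj2 =>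
          have := (At_iff _ _ _).1 hat j (by omega)
          rw [Nat.add_comm 2 j] at this
          rw [this]
          rfl
    show (Sentence.toNats ⟨tk w 0, tk w 1, φ⟩).flatMap natBits = w
    rw [e, hts]
  · rintro ⟨⟨r, s, φ⟩, hS, rfl⟩
    have hn : ntk (Sentence.encode ⟨r, s, φ⟩) = 2 + φ.toNats.length := by
      rw [Sentence.encode, ntk_flatMap]
      simp only [Sentence.toNats, List.length_cons]; omega
    have htk : ∀ i, tk (Sentence.encode ⟨r, s, φ⟩) i = (r :: s :: φ.toNats).getD i 0 := by
      intro i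
      rw [Sentence.encode, tk_flatMap]
      rfl
    have hpos : 0 < φ.toNats.length := by
      cases φ <;> simp [Form.toNats]
    have hat : At (tk (Sentence.encode ⟨r, s, φ⟩)) 2 φ.toNats := by
      rw [At_iff]
      intro j hj
      rw [htk, Nat.add_comm 2 j]
      simp [List.getD_eq_getElem?_getD, hj]
    refine ⟨(wfTok_iff _).2 ⟨_, rfl⟩, by omega, ?_⟩
    rw [pe_of_form _ _ _ _ φ ?_ 2 hat (by omega), hn]
    rw [htk, htk]
    exact hS

end Crest.Agent.CHR
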