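import Crest.Agent.CHR.SentDefs

/-!
# MODULE M8 (row 316): correctness of the parser positions: gates and circuits (chunk R316-SentParA)

`At t i l` (see `SentDefs.lean`): the tokens from position `i` on start with the list `l`; use `At_append`,
`At_iff`.  `gp t c k` = position of gate `k` of the circuit whose length token is at position `c`.
-/

set_option autoImplicit false

namespace Crest.Agent.CHR

open Crest.RealEA

/-- cases on `g`; `AGate.toNats` has length `2` for tags `1, 2` and `3` otherwise. -/
theorem glen_of_At (t : ℕ → ℕ) (p : ℕ) (g : AGate) (h : At t p g.toNats) :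
    glen (t p) = g.toNats.length := by
  cases g <;> simp only [AGate.toNats, At] at h <;> simp [glen, h.1, AGate.toNats]

theorem toNats_length_ge (g : AGate) : 2 ≤ g.toNats.length := by
  cases g <;> simp [AGate.toNats]

/-- PROOF. `→`: for tag `0` take `const z` with `z = t (p+2)` or `- t (p+2)`; `←`: cases on `g`. -/
theorem gok_iff (t : ℕ → ℕ) (r s p k : ℕ) :
    gok t r s p k ↔ ∃ g : AGate, g.WF r s k ∧ At t p g.toNats := by
  constructor
  · rintro (⟨h0, h1 | ⟨h1, h2⟩⟩ | ⟨h0, h1⟩ | ⟨h0, h1⟩ | ⟨h0 | h0 | h0, h1, h2⟩)
    · refine ⟨AGate.const (t (p + 2)), trivial, ?_⟩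
      simp [AGate.toNats, At, h0, h1]
    · refine ⟨AGate.const (-(t (p + 2) : ℤ)), trivial, ?_⟩
      simp [AGate.toNats, At, h0, h1, h2]
    · exact ⟨AGate.varX (t (p + 1)), h1, by simp [AGate.toNats, At, h0]⟩
    · exact ⟨AGate.varY (t (p + 1)), h1, by simp [AGate.toNats, At, h0]⟩
    · exact ⟨AGate.add (t (p + 1)) (t (p + 2)), ⟨h1, h2⟩, by simp [AGate.toNats, At, h0]⟩
    · exact ⟨AGate.sub (t (p + 1)) (t (p + 2)), ⟨h1, h2⟩, by simp [AGate.toNats, At, h0]⟩
    · exact ⟨AGate.mul (t (p + 1)) (t (p + 2)), ⟨h1, h2⟩, by simp [AGate.toNats, At, h0]⟩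
  · rintro ⟨g, hg, h⟩
    unfold gok
    cases g with
    | const z =>
      simp only [AGate.toNats, At] at h
      obtain ⟨h0, h1, h2, _⟩ := h
      rw [add_assoc] at h2
      left
      refine ⟨h0, ?_⟩
      by_cases hz : z < 0
      · right
        rw [if_pos hz] at h1
        refine ⟨h1, ?_⟩
        rw [show p + 2 = p + (1 + 1) from rfl, h2]
        omega
      · left
        rw [if_neg hz] at h1
        exact h1
    | varX i =>
      simp only [AGate.toNats, At, AGate.WF] at h hg
      right; left
      exact ⟨h.1, by rw [h.2.1]; exact hg⟩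
    | varY i =>
      simp only [AGate.toNats, At, AGate.WF] at h hg
      right; right; left
      exact ⟨h.1, by rw [h.2.1]; exact hg⟩
    | add a b =>
      simp only [AGate.toNats, At, AGate.WF] at h hg
      right; right; right
      exact ⟨Or.inl h.1, by rw [h.2.1]; exact hg.1, by
        have := h.2.2.1; rw [add_assoc] at this
        rw [show p + 2 = p + (1 + 1) from rfl, this]; exact hg.2⟩
    | sub a b =>
      simp only [AGate.toNats, At, AGate.WF] at h hg
      right; right; right
      exact ⟨Or.inr (Or.inl h.1), by rw [h.2.1]; exact hg.1, by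
        have := h.2.2.1; rw [add_assoc] at this
        rw [show p + 2 = p + (1 + 1) from rfl, this]; exact hg.2⟩
    | mul a b =>
      simp only [AGate.toNats, At, AGate.WF] at h hg
      right; right; right
      exact ⟨Or.inr (Or.inr h.1), by rw [h.2.1]; exact hg.1, by
        have := h.2.2.1; rw [add_assoc] at this
        rw [show p + 2 = p + (1 + 1) from rfl, this]; exact hg.2⟩

theorem gp_and_At (t : ℕ → ℕ) (c : ℕ) (gs : List AGate)
    (h : At t (c + 1) (gs.flatMap AGate.toNats)) (k : ℕ) :
    (k ≤ gs.length → gp t c k = c + 1 + ((gs.take k).flatMap AGate.toNats).length) ∧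
    (∀ hk : k < gs.length, At t (gp t c k) (gs[k].toNats)) := by
  have key : ∀ k, ∀ hk : k < gs.length,
      gp t c k = c + 1 + ((gs.take k).flatMap AGate.toNats).length →
      At t (gp t c k) (gs[k].toNats) := by
    intro k hk e
    have h1 : gs = gs.take k ++ gs[k] :: gs.drop (k + 1) := by
      rw [← List.drop_eq_getElem_cons hk, List.take_append_drop]
    have h2 : gs.flatMap AGate.toNats = (gs.take k).flatMap AGate.toNats ++
        (gs[k].toNats ++ (gs.drop (k + 1)).flatMap AGate.toNats) := by
      conv_lhs => rw [h1]
      rw [List.flatMap_append, List.flatMap_cons]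
    rw [h2, At_append, ← e, At_append] at h
    exact h.2.1
  induction k with
  | zero =>
    have e : gp t c 0 = c + 1 + ((gs.take 0).flatMap AGate.toNats).length := by simp [gp]
    exact ⟨fun _ => e, fun hk => key 0 hk e⟩
  | succ k ih =>
    have e : k + 1 ≤ gs.length →
        gp t c (k + 1) = c + 1 + ((gs.take (k + 1)).flatMap AGate.toNats).length := by
      intro hk
      rw [gp, glen_of_At _ _ _ (ih.2 (by omega)), ih.1 (by omega),
        List.take_add_one, List.getElem?_eq_getElem (by omega), List.flatMap_append]
      simp [add_assoc]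
    exact ⟨e, fun hk => key (k + 1) hk (e hk.le)⟩

/-- PROOF. Induction on `k`: `take (k+1) = take k ++ [gs[k]]`, `At_append` gives `At t (gp t c k) gs[k].toNats`,
`glen_of_At`.  (Prove this theorem and the next one together.) -/
theorem gp_of_At (t : ℕ → ℕ) (c : ℕ) (gs : List AGate)
    (h : At t (c + 1) (gs.flatMap AGate.toNats)) (k : ℕ) (hk : k ≤ gs.length) :
    gp t c k = c + 1 + ((gs.take k).flatMap AGate.toNats).length :=
  (gp_and_At t c gs h k).1 hk

theorem At_gate (t : ℕ → ℕ) (c : ℕ) (gs : List AGate)
    (h : At t (c + 1) (gs.flatMap AGate.toNats)) (k : ℕ) (hk : k < gs.length) :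
    At t (gp t c k) (gs[k].toNats) :=
  (gp_and_At t c gs h k).2 hk

theorem gp_end (t : ℕ → ℕ) (c : ℕ) (gs : List AGate) (h : At t c (circuitToNats gs)) :
    gp t c (t c) = c + (circuitToNats gs).length := by
  simp only [circuitToNats, At] at h
  rw [h.1, gp_of_At t c gs h.2 _ le_rfl, List.take_length, circuitToNats, List.length_cons]
  omega

theorem length_flatMap_toNats (gs : List AGate) : 2 * gs.length ≤ (gs.flatMap AGate.toNats).length := by
  induction gs with
  | nil => simp
  | cons a gs ih =>
    have := toNats_length_ge a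
    simp only [List.flatMap_cons, List.length_append, List.length_cons]
    omega

/-- PROOF. `→`: choose the gates `g k` for `k < t c` by `gok_iff`, `gs = List.ofFn` (or build the list by
induction on the number `K ≤ t c` of gates: there is `gs` with `length K`, all gates well formed, and
`At t (c+1) (gs.flatMap toNats)`, using `gp_of_At`, `At_append`).  `←`: `gp_of_At`, `At_gate`, `gok_iff`;
`t c = gs.length ≤ m` because every gate has at least two tokens. -/
theorem cok_iff (t : ℕ → ℕ) (m r s c : ℕ) :
    cok t m r s c ↔ ∃ gs : List AGate, CircuitWF r s gs ∧ At t c (circuitToNats gs) ∧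
      c + (circuitToNats gs).length ≤ m := by
  constructor
  · rintro ⟨h0, h1, h2, h3⟩
    have key : ∀ K ≤ t c, ∃ gs : List AGate, gs.length = K ∧
        (∀ k (hk : k < gs.length), gs[k].WF r s k) ∧ At t (c + 1) (gs.flatMap AGate.toNats) := by
      intro K
      induction K with
      | zero => exact fun _ => ⟨[], rfl, fun k hk => absurd hk (by simp), trivial⟩
      | succ K ih =>
        intro hK
        obtain ⟨gs, hl, hw, hA⟩ := ih (by omega)
        obtain ⟨g, hg, hgA⟩ := (gok_iff t r s (gp t c K) K).1 (h3 K (by omega))
        refine ⟨gs ++ [g], by simp [hl], fun k hk => ?_, ?_⟩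
        · by_cases hkl : k < gs.length
          · rw [List.getElem_append_left hkl]; exact hw k hkl
          · rw [List.length_append, List.length_singleton] at hk
            have hk' : k = gs.length := by omega
            subst hk'
            rw [List.getElem_append_right le_rfl]
            simpa [hl] using hg
        · rw [List.flatMap_append, At_append]
          refine ⟨hA, ?_⟩
          have e := gp_of_At t c gs hA K (by omega)
          rw [← hl, List.take_length, hl] at e
          rw [← e]
          simpa using hgA
    obtain ⟨gs, hl, hw, hA⟩ := key (t c) le_rfl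
    have hA' : At t c (circuitToNats gs) := ⟨hl.symm, hA⟩
    refine ⟨gs, ⟨?_, fun k => hw k k.2⟩, hA', ?_⟩
    · intro e
      rw [e] at hl
      simp at hl
      omega
    · rw [← gp_end t c gs hA']; exact h2
  · rintro ⟨gs, ⟨hne, hw⟩, hA, hm⟩
    have hA' := hA
    simp only [circuitToNats, At] at hA
    have hpos : 0 < gs.length := List.length_pos_iff.mpr hne
    have hlen := length_flatMap_toNats gs
    refine ⟨by rw [hA.1]; exact hpos, ?_, ?_, fun k hk => ?_⟩
    · rw [hA.1]
      simp only [circuitToNats, List.length_cons] at hm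
      omega
    · rw [gp_end t c gs hA']; exact hm
    · rw [hA.1] at hk
      exact (gok_iff t r s _ k).2 ⟨gs[k], hw ⟨k, hk⟩, At_gate t c gs hA.2 k hk⟩

end Crest.Agent.CHR
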