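import Crest.Agent.CHR.SentPar

/-!
# MODULE M8 (row 316): meaning of the polynomial (pure Lean, chunk R316-SentSemA)

`xx v = V (fx t n v)`, `yy v = V (ix n 0 0 (fx t n v))`: the real values of `x_v`, `y_v` read off the
assignment `V`.  `t, n, m` with `m ≤ n`; `r`, `s` the numbers of variables.
-/

set_option autoImplicit false

namespace Crest.Agent.CHR

open MvPolynomial Finset Crest.RealEA

/-- values of the existential variables -/
noncomputable def xx (t : ℕ → ℕ) (n : ℕ) (V : ℕ → ℝ) (v : ℕ) : ℝ := V (fx t n v)

/-- values of the universal variables -/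
noncomputable def yy (t : ℕ → ℕ) (n : ℕ) (V : ℕ → ℝ) (v : ℕ) : ℝ := V (ix n 0 0 (fx t n v))

/-- all equations of gates -/
def GEq (t : ℕ → ℕ) (n : ℕ) (V : ℕ → ℝ) : Prop :=
  ∀ c < n, ∀ k < n, V (ix n 1 c k) = aeval V (gx t n c k (gp t c (min k n)))

/-- all equations of nodes -/
def FEq (t : ℕ → ℕ) (n m r s : ℕ) (V : ℕ → ℝ) : Prop :=
  ∀ i < n, aeval V (feq t n i (ch2 t n m r s i)) = 0

private theorem sentSemA_geq_nonneg (t : ℕ → ℕ) (n c k : ℕ) (V : ℕ → ℝ) :
    0 ≤ aeval V (geq t n c k) := by
  unfold geq
  rw [map_pow]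
  exact sq_nonneg _

private theorem sentSemA_feq_nonneg (t : ℕ → ℕ) (n i j : ℕ) (V : ℕ → ℝ) :
    0 ≤ aeval V (feq t n i j) := by
  unfold feq
  split_ifs <;> simp only [map_add, map_pow] <;> positivity

private theorem sentSemA_eval (t : ℕ → ℕ) (n m r s : ℕ) (V : ℕ → ℝ) :
    aeval V (sQ t n m r s) = (∑ c ∈ range n, ∑ k ∈ range n, aeval V (geq t n c k)
      + ∑ i ∈ range n, aeval V (feq t n i (ch2 t n m r s i))) + V (ix n 3 0 2) ^ 2 := by
  unfold sQ
  simp only [map_add, map_sum, map_pow, aeval_X]

/-- nonnegativity: every `geq`, `feq` is a sum of squares -/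
theorem sQ_nonneg (t : ℕ → ℕ) (n m r s : ℕ) (V : ℕ → ℝ) : 0 ≤ aeval V (sQ t n m r s) := by
  rw [sentSemA_eval]
  refine add_nonneg (add_nonneg ?_ ?_) (sq_nonneg _)
  · exact Finset.sum_nonneg fun c _ => Finset.sum_nonneg fun k _ => sentSemA_geq_nonneg t n c k V
  · exact Finset.sum_nonneg fun i _ => sentSemA_feq_nonneg t n i _ V

/-- PROOF. A sum of nonnegative terms is zero iff all are zero. -/
theorem sQ_zero_iff (t : ℕ → ℕ) (n m r s : ℕ) (V : ℕ → ℝ) :
    aeval V (sQ t n m r s) = 0 ↔ GEq t n V ∧ FEq t n m r s V ∧ V (ix n 3 0 2) = 0 := by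
  rw [sentSemA_eval]
  have hA : 0 ≤ ∑ c ∈ range n, ∑ k ∈ range n, aeval V (geq t n c k) :=
    Finset.sum_nonneg fun c _ => Finset.sum_nonneg fun k _ => sentSemA_geq_nonneg t n c k V
  have hB : 0 ≤ ∑ i ∈ range n, aeval V (feq t n i (ch2 t n m r s i)) :=
    Finset.sum_nonneg fun i _ => sentSemA_feq_nonneg t n i _ V
  have hA0 : (∑ c ∈ range n, ∑ k ∈ range n, aeval V (geq t n c k) = 0) ↔ GEq t n V := by
    rw [Finset.sum_eq_zero_iff_of_nonneg
      (fun c _ => Finset.sum_nonneg fun k _ => sentSemA_geq_nonneg t n c k V)]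
    unfold GEq
    refine forall_congr' fun c => ?_
    rw [Finset.mem_range]
    refine imp_congr_right fun _ => ?_
    rw [Finset.sum_eq_zero_iff_of_nonneg (fun k _ => sentSemA_geq_nonneg t n c k V)]
    refine forall_congr' fun k => ?_
    rw [Finset.mem_range]
    refine imp_congr_right fun _ => ?_
    unfold geq
    rw [map_pow, sq_eq_zero_iff, map_sub, aeval_X, sub_eq_zero]
  have hB0 : (∑ i ∈ range n, aeval V (feq t n i (ch2 t n m r s i)) = 0) ↔ FEq t n m r s V := by
    rw [Finset.sum_eq_zero_iff_of_nonneg (fun i _ => sentSemA_feq_nonneg t n i _ V)]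
    unfold FEq
    refine forall_congr' fun i => ?_
    rw [Finset.mem_range]
  rw [← hA0, ← hB0, add_eq_zero_iff_of_nonneg (add_nonneg hA hB) (sq_nonneg _),
    add_eq_zero_iff_of_nonneg hA hB, sq_eq_zero_iff, and_assoc]

/-! ## circuits -/

theorem circuitValues_append (x y : ℕ → ℝ) (gs : List AGate) (g : AGate) :
    circuitValues x y (gs ++ [g]) = circuitValues x y gs ++ [g.value x y (circuitValues x y gs)] := by
  simp [circuitValues, List.foldl_append]

theorem length_circuitValues (x y : ℕ → ℝ) (gs : List AGate) :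
    (circuitValues x y gs).length = gs.length := by
  induction gs using List.reverseRecOn with
  | nil => simp [circuitValues]
  | append_singleton gs g ih => rw [circuitValues_append]; simp [ih]

private theorem sentSemA_value_append (x y : ℕ → ℝ) (r s k : ℕ) (g : AGate) (hg : g.WF r s k)
    (l : List ℝ) (a : ℝ) (hk : k ≤ l.length) : g.value x y (l ++ [a]) = g.value x y l := by
  have h : ∀ j, j < k → (l ++ [a]).getD j 0 = l.getD j 0 := by
    intro j hj
    rw [List.getD_append _ _ _ _ (by omega)]
  cases g with
  | const z => rfl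
  | varX i => rfl
  | varY i => rfl
  | add b c => simp only [AGate.value]; rw [h b hg.1, h c hg.2]
  | sub b c => simp only [AGate.value]; rw [h b hg.1, h c hg.2]
  | mul b c => simp only [AGate.value]; rw [h b hg.1, h c hg.2]

private theorem sentSemA_getD (x y : ℕ → ℝ) (r s : ℕ) (gs : List AGate)
    (hw : ∀ k (hk : k < gs.length), (gs[k]).WF r s k) (k : ℕ)
    (hk : k < gs.length) :
    (circuitValues x y gs).getD k 0 = gs[k].value x y (circuitValues x y gs) := by
  induction gs using List.reverseRecOn generalizing k with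
  | nil => simp at hk
  | append_singleton gs g ih =>
    rw [circuitValues_append]
    have hw' : ∀ k (hk : k < gs.length), (gs[k]).WF r s k := by
      intro k hk
      have := hw k (by simp; omega)
      rwa [List.getElem_append_left hk] at this
    have hlen := length_circuitValues x y gs
    rcases Nat.lt_or_ge k gs.length with hlt | hge
    · rw [List.getElem_append_left hlt, sentSemA_value_append x y r s k _ (hw' k hlt) _ _ (by omega),
        List.getD_append _ _ _ _ (by omega)]
      exact ih hw' k hlt
    · have hk' : k = gs.length := by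
        simp at hk
        omega
      subst hk'
      have hg := hw gs.length (by simp)
      have he : (gs ++ [g])[gs.length]'(by simp) = g := by simp
      rw [he] at hg ⊢
      rw [sentSemA_value_append x y r s gs.length g hg _ _ (by omega)]
      rw [List.getD_append_right _ _ _ _ (by omega), hlen]
      simp

/-- recursion for the gate values.  PROOF. Reverse induction on `gs`; if all references of the gate
`k` are `< k` then reading the values of the whole circuit or of the first `k` gates is the same. -/
theorem circuitValues_getD (x y : ℕ → ℝ) (r s : ℕ) (gs : List AGate) (hw : CircuitWF r s gs) (k : ℕ)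
    (hk : k < gs.length) :
    (circuitValues x y gs).getD k 0 = gs[k].value x y (circuitValues x y gs) :=
  sentSemA_getD x y r s gs (fun k hk => hw.2 ⟨k, hk⟩) k hk

private theorem sentSemA_len (gs : List AGate) : 2 * gs.length ≤ (gs.flatMap AGate.toNats).length := by
  induction gs with
  | nil => simp
  | cons g gs ih =>
    rw [List.flatMap_cons, List.length_append, List.length_cons]
    have : 2 ≤ g.toNats.length := by cases g <;> simp [AGate.toNats]
    omega

/-- PROOF. Strong induction on `k`: `At_gate`, cases on the gate, `circuitValues_getD`, `GEq` at `(c, k)`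
(`c + 1 + 2 k ≤ m ≤ n`). -/
theorem gate_value (t : ℕ → ℕ) (n m r s : ℕ) (hmn : m ≤ n) (V : ℕ → ℝ) (hG : GEq t n V) (c : ℕ)
    (gs : List AGate) (hw : CircuitWF r s gs) (hA : At t c (circuitToNats gs))
    (hm : c + (circuitToNats gs).length ≤ m) (k : ℕ) (hk : k < gs.length) :
    V (ix n 1 c k) = (circuitValues (xx t n V) (yy t n V) gs).getD k 0 := by
  have hlen := sentSemA_len gs
  have hcl : (circuitToNats gs).length = (gs.flatMap AGate.toNats).length + 1 := by
    simp [circuitToNats]
  induction k using Nat.strong_induction_on with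
  | _ k ih =>
    rw [circuitValues_getD _ _ r s gs hw k hk]
    have hkn : k < n := by omega
    have hcn : c < n := by omega
    rw [hG c hcn k hkn, min_eq_left hkn.le]
    have hat := At_gate t c gs hA.2 k hk
    have hwk : (gs[k]).WF r s k := hw.2 ⟨k, hk⟩
    have ih' : ∀ j, j < k → V (ix n 1 c j) = (circuitValues (xx t n V) (yy t n V) gs).getD j 0 :=
      fun j hj => ih j hj (by omega)
    generalize gs[k] = g at hat hwk
    generalize gp t c k = p at hat
    unfold gx
    cases g with
    | const z =>
      obtain ⟨h0, h1, h2, -⟩ := hat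
      rw [if_pos h0]
      simp only [AGate.value]
      by_cases hz : z < 0
      · rw [if_pos hz] at h1
        rw [h1, if_neg (by norm_num), map_neg, aeval_C, h2]
        simp only [map_natCast]
        rw [Nat.cast_natAbs, abs_of_neg hz]
        push_cast
        ring
      · rw [if_neg hz] at h1
        rw [h1, if_pos rfl, aeval_C, h2]
        simp only [map_natCast]
        rw [Nat.cast_natAbs, abs_of_nonneg (not_lt.mp hz)]
    | varX i =>
      obtain ⟨h0, h1, -⟩ := hat
      rw [h0, if_neg (by norm_num), if_pos rfl, h1, aeval_X]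
      rfl
    | varY i =>
      obtain ⟨h0, h1, -⟩ := hat
      rw [h0, if_neg (by norm_num), if_neg (by norm_num), if_pos rfl, h1, aeval_X]
      rfl
    | add a b =>
      obtain ⟨h0, h1, h2, -⟩ := hat
      have hwk' : a < k ∧ b < k := hwk
      rw [h0, h1, h2, if_neg (by norm_num), if_neg (by norm_num), if_neg (by norm_num), if_pos hwk',
        if_pos rfl, map_add, aeval_X, aeval_X, ih' a hwk.1, ih' b hwk.2]
      rfl
    | sub a b =>
      obtain ⟨h0, h1, h2, -⟩ := hat
      have hwk' : a < k ∧ b < k := hwk
      rw [h0, h1, h2, if_neg (by norm_num), if_neg (by norm_num), if_neg (by norm_num), if_pos hwk',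
        if_neg (by norm_num), if_pos rfl, map_sub, aeval_X, aeval_X, ih' a hwk.1, ih' b hwk.2]
      rfl
    | mul a b =>
      obtain ⟨h0, h1, h2, -⟩ := hat
      have hwk' : a < k ∧ b < k := hwk
      rw [h0, h1, h2, if_neg (by norm_num), if_neg (by norm_num), if_neg (by norm_num), if_pos hwk',
        if_neg (by norm_num), if_neg (by norm_num), map_mul, aeval_X, aeval_X, ih' a hwk.1, ih' b hwk.2]
      rfl

theorem circuit_value (t : ℕ → ℕ) (n m r s : ℕ) (hmn : m ≤ n) (V : ℕ → ℝ) (hG : GEq t n V) (c : ℕ)
    (gs : List AGate) (hw : CircuitWF r s gs) (hA : At t c (circuitToNats gs))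
    (hm : c + (circuitToNats gs).length ≤ m) :
    V (ix n 1 c (t c - 1)) = circuitValue (xx t n V) (yy t n V) gs := by
  have h0 : t c = gs.length := hA.1
  have hpos : 0 < gs.length := List.length_pos_iff.mpr hw.1
  rw [h0, gate_value t n m r s hmn V hG c gs hw hA hm (gs.length - 1) (by omega)]
  unfold circuitValue
  have hlen := length_circuitValues (xx t n V) (yy t n V) gs
  rw [List.getLastD_eq_getLast?, List.getLast?_eq_getElem?, hlen, List.getD_eq_getElem?_getD]

end Crest.Agent.CHR
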