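import Crest.Agent.CHR.SentSemA

/-!
# MODULE M8 (row 316): meaning of the polynomial: formulas (chunk R316-SentSemB)
-/

set_option autoImplicit false

namespace Crest.Agent.CHR

open MvPolynomial Finset Crest.RealEA

/-! ## formulas -/

/-- PROOF. `pe_of_form` applied to the first child. -/
theorem ch2_of_form (t : ℕ → ℕ) (n m r s : ℕ) (hmn : m ≤ n) (φ : Form) (hφ : φ.WF r s) (i : ℕ)
    (h : At t (i + 1) φ.toNats) (hm : i + 1 + φ.toNats.length ≤ m) :
    ch2 t n m r s i = i + 1 + φ.toNats.length := by
  unfold ch2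
  rw [pe_of_form t m r s φ hφ (i + 1) h hm, min_eq_left (by omega), max_eq_right (by omega)]

private theorem SentSemB_sq {a b : ℝ} (h : a ^ 2 + b ^ 2 = 0) : a = 0 ∧ b = 0 := by
  constructor <;> nlinarith [sq_nonneg a, sq_nonneg b]

/-- PROOF. Induction on `φ` (for all `i`); `circuit_value`, `ch2_of_form`. -/
theorem form_sound (t : ℕ → ℕ) (n m r s : ℕ) (hmn : m ≤ n) (V : ℕ → ℝ) (hG : GEq t n V)
    (hF : FEq t n m r s V) (φ : Form) (hφ : φ.WF r s) (i : ℕ) (h : At t i φ.toNats)
    (hm : i + φ.toNats.length ≤ m) :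
    (V (ix n 2 0 i) = 0 → φ.Holds (xx t n V) (yy t n V)) ∧
    (V (ix n 3 0 i) = 0 → ¬ φ.Holds (xx t n V) (yy t n V)) := by
  induction φ generalizing i with
  | eqZero c =>
    simp only [Form.toNats, At] at h
    simp only [Form.toNats, List.length_cons] at hm
    have hi : i < n := by omega
    have hcv := circuit_value t n m r s hmn V hG (i + 1) c hφ h.2 (by omega)
    have he := hF i hi
    rw [feq, if_pos h.1] at he
    simp only [map_add, map_sub, map_mul, map_pow, map_one, aeval_X] at he
    rw [hcv] at he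
    obtain ⟨h1, h2⟩ := SentSemB_sq he
    simp only [Form.Holds]
    refine ⟨fun h0 => ?_, fun h0 hc => ?_⟩
    · linarith
    · rw [h0, hc] at h2
      norm_num at h2
  | pos c =>
    simp only [Form.toNats, At] at h
    simp only [Form.toNats, List.length_cons] at hm
    have hi : i < n := by omega
    have hcv := circuit_value t n m r s hmn V hG (i + 1) c hφ h.2 (by omega)
    have he := hF i hi
    rw [feq, if_neg (by omega), if_pos h.1] at he
    simp only [map_add, map_sub, map_mul, map_pow, map_one, aeval_X] at he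
    rw [hcv] at he
    have h1 := sq_nonneg (V (ix n 7 0 i) - V (ix n 5 0 i) ^ 2)
    have h2 := sq_nonneg (V (ix n 2 0 i) -
      (circuitValue (xx t n V) (yy t n V) c * V (ix n 7 0 i) - 1))
    have h3 := sq_nonneg (V (ix n 3 0 i) -
      (circuitValue (xx t n V) (yy t n V) c + V (ix n 6 0 i) ^ 2))
    have h1' : V (ix n 7 0 i) - V (ix n 5 0 i) ^ 2 = 0 := by
      apply pow_eq_zero_iff (two_ne_zero) |>.1
      linarith
    have h2' : V (ix n 2 0 i) - (circuitValue (xx t n V) (yy t n V) c * V (ix n 7 0 i) - 1) = 0 := by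
      apply pow_eq_zero_iff (two_ne_zero) |>.1
      linarith
    have h3' : V (ix n 3 0 i) - (circuitValue (xx t n V) (yy t n V) c + V (ix n 6 0 i) ^ 2) = 0 := by
      apply pow_eq_zero_iff (two_ne_zero) |>.1
      linarith
    simp only [Form.Holds]
    refine ⟨fun h0 => ?_, fun h0 => ?_⟩
    · by_contra hc
      have h4 : circuitValue (xx t n V) (yy t n V) c * V (ix n 7 0 i) = 1 := by linarith
      have h5 : V (ix n 7 0 i) = V (ix n 5 0 i) ^ 2 := by linarith
      rw [h5] at h4
      have h6 := sq_nonneg (V (ix n 5 0 i))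
      nlinarith [not_lt.1 hc]
    · have h6 := sq_nonneg (V (ix n 6 0 i))
      intro hc
      linarith
  | and φ ψ ihφ ihψ =>
    simp only [Form.toNats, At, At_append] at h
    simp only [Form.toNats, List.length_cons, List.length_append] at hm
    simp only [Form.WF] at hφ
    have hi : i < n := by omega
    have hch := ch2_of_form t n m r s hmn φ hφ.1 i h.2.1 (by omega)
    have h1 := ihφ hφ.1 (i + 1) h.2.1 (by omega)
    have h2 := ihψ hφ.2 (i + 1 + φ.toNats.length) h.2.2 (by omega)
    have he := hF i hi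
    rw [feq, if_neg (by omega), if_neg (by omega), if_pos h.1, hch] at he
    simp only [map_add, map_sub, map_mul, map_pow, aeval_X] at he
    obtain ⟨h3, h4⟩ := SentSemB_sq he
    simp only [Form.Holds]
    refine ⟨fun h0 => ?_, fun h0 hc => ?_⟩
    · have h5 : V (ix n 2 0 (i + 1)) ^ 2 + V (ix n 2 0 (i + 1 + φ.toNats.length)) ^ 2 = 0 := by
        linarith
      obtain ⟨h6, h7⟩ := SentSemB_sq h5
      exact ⟨h1.1 h6, h2.1 h7⟩
    · have h5 : V (ix n 3 0 (i + 1)) * V (ix n 3 0 (i + 1 + φ.toNats.length)) = 0 := by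
        linarith
      rcases mul_eq_zero.1 h5 with h6 | h6
      · exact h1.2 h6 hc.1
      · exact h2.2 h6 hc.2
  | or φ ψ ihφ ihψ =>
    simp only [Form.toNats, At, At_append] at h
    simp only [Form.toNats, List.length_cons, List.length_append] at hm
    simp only [Form.WF] at hφ
    have hi : i < n := by omega
    have hch := ch2_of_form t n m r s hmn φ hφ.1 i h.2.1 (by omega)
    have h1 := ihφ hφ.1 (i + 1) h.2.1 (by omega)
    have h2 := ihψ hφ.2 (i + 1 + φ.toNats.length) h.2.2 (by omega)
    have he := hF i hi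
    rw [feq, if_neg (by omega), if_neg (by omega), if_neg (by omega), if_pos h.1, hch] at he
    simp only [map_add, map_sub, map_mul, map_pow, aeval_X] at he
    obtain ⟨h3, h4⟩ := SentSemB_sq he
    simp only [Form.Holds]
    refine ⟨fun h0 => ?_, fun h0 hc => ?_⟩
    · have h5 : V (ix n 2 0 (i + 1)) * V (ix n 2 0 (i + 1 + φ.toNats.length)) = 0 := by
        linarith
      rcases mul_eq_zero.1 h5 with h6 | h6
      · exact Or.inl (h1.1 h6)
      · exact Or.inr (h2.1 h6)
    · have h5 : V (ix n 3 0 (i + 1)) ^ 2 + V (ix n 3 0 (i + 1 + φ.toNats.length)) ^ 2 = 0 := by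
        linarith
      obtain ⟨h6, h7⟩ := SentSemB_sq h5
      rcases hc with hc | hc
      · exact h1.2 h6 hc
      · exact h2.2 h7 hc
  | not φ ihφ =>
    simp only [Form.toNats, At] at h
    simp only [Form.toNats, List.length_cons] at hm
    simp only [Form.WF] at hφ
    have hi : i < n := by omega
    have h1 := ihφ hφ (i + 1) h.2 (by omega)
    have he := hF i hi
    rw [feq, if_neg (by omega), if_neg (by omega), if_neg (by omega), if_neg (by omega)] at he
    simp only [map_add, map_sub, map_pow, aeval_X] at he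
    obtain ⟨h3, h4⟩ := SentSemB_sq he
    simp only [Form.Holds]
    refine ⟨fun h0 => h1.2 (by linarith), fun h0 hc => hc (h1.1 (by linarith))⟩

end Crest.Agent.CHR
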