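import Crest.Agent.CHR.SentSemB

/-!
# MODULE M8 (row 316): existence of the auxiliary values (chunk R316-SentSemC)
-/

set_option autoImplicit false

namespace Crest.Agent.CHR

open MvPolynomial Finset Crest.RealEA

/-- gate values -/
private noncomputable def SentSemC_G (t : ℕ → ℕ) (X Y : ℕ → ℝ) (c : ℕ) (k : ℕ) : ℝ :=
  if t (gp t c k) = 0 then
    (if t (gp t c k + 1) = 0 then (t (gp t c k + 2) : ℝ) else -(t (gp t c k + 2) : ℝ))
  else if t (gp t c k) = 1 then X (t (gp t c k + 1))
  else if t (gp t c k) = 2 then Y (t (gp t c k + 1))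
  else if h : t (gp t c k + 1) < k ∧ t (gp t c k + 2) < k then
    (if t (gp t c k) = 3 then
      SentSemC_G t X Y c (t (gp t c k + 1)) + SentSemC_G t X Y c (t (gp t c k + 2))
     else if t (gp t c k) = 4 then
      SentSemC_G t X Y c (t (gp t c k + 1)) - SentSemC_G t X Y c (t (gp t c k + 2))
     else SentSemC_G t X Y c (t (gp t c k + 1)) * SentSemC_G t X Y c (t (gp t c k + 2)))
  else 0
termination_by k
decreasing_by all_goals first | exact h.1 | exact h.2

/-- formula values -/
private noncomputable def SentSemC_F (t : ℕ → ℕ) (n m r s : ℕ) (Z : ℕ → ℝ) (i : ℕ) : ℝ × ℝ :=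
  if h : i < n then
    if t i = 6 then (Z i, Z i * (Z i)⁻¹ - 1)
    else if t i = 7 then (Z i * (Real.sqrt (Z i)⁻¹) ^ 2 - 1, Z i + (Real.sqrt (-Z i)) ^ 2)
    else if t i = 8 then
      ((SentSemC_F t n m r s Z (i + 1)).1 ^ 2 + (SentSemC_F t n m r s Z (ch2 t n m r s i)).1 ^ 2,
        (SentSemC_F t n m r s Z (i + 1)).2 * (SentSemC_F t n m r s Z (ch2 t n m r s i)).2)
    else if t i = 9 then
      ((SentSemC_F t n m r s Z (i + 1)).1 * (SentSemC_F t n m r s Z (ch2 t n m r s i)).1,
        (SentSemC_F t n m r s Z (i + 1)).2 ^ 2 + (SentSemC_F t n m r s Z (ch2 t n m r s i)).2 ^ 2)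
    else ((SentSemC_F t n m r s Z (i + 1)).2, (SentSemC_F t n m r s Z (i + 1)).1)
  else (0, 0)
termination_by n - i
decreasing_by
  all_goals
    first
    | omega
    | (unfold ch2; omega)

private theorem SentSemC_ch2 (t : ℕ → ℕ) (n m r s i : ℕ) (h : i < n) :
    ch2 t n m r s i ≤ n := by
  unfold ch2
  exact max_le h (min_le_right _ _)

private theorem SentSemC_ix (n κ c k : ℕ) : ix n κ c k = ix n κ (min c n) (min k n) := by
  unfold ix
  simp

/-- Existence of the auxiliary values.  PROOF. `V j = xh j` for `j < n`, `V j = asgU n U j` for `j ≥ n`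
(`asgU_ix`, `le_ix`), with `U 0 0 k = yh k`, `U 1 c k` = recursion on `k` (well founded, following `gx`),
witnesses: `U 4 0 i = z⁻¹`, `U 5 0 i = √(z⁻¹)`, `U 7 0 i = (U 5 0 i)^2`, `U 6 0 i = √(-z)`
where `z = U 1 (i+1) (min (t (i+1) - 1) n)`, and `U 2 0 i`, `U 3 0 i` by recursion on `n - i` (the indices
`i + 1` and `ch2 t n m r s i` are in `(i, n]`; at `i = n` put `0`). For the last part induction on `φ`:
`circuit_value`, `ch2_of_form`.  (`√` of a negative number is `0`.) -/
theorem exists_V (t : ℕ → ℕ) (n m r s : ℕ) (hmn : m ≤ n) (xh yh : ℕ → ℝ) :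
    ∃ V : ℕ → ℝ, (∀ j < n, V j = xh j) ∧ (∀ k ≤ n, V (ix n 0 0 k) = yh k) ∧ GEq t n V ∧
      FEq t n m r s V ∧ ∀ φ : Form, φ.WF r s → ∀ i, At t i φ.toNats → i + φ.toNats.length ≤ m →
        (φ.Holds (xx t n V) (yy t n V) → V (ix n 2 0 i) = 0) ∧
        (¬ φ.Holds (xx t n V) (yy t n V) → V (ix n 3 0 i) = 0) := by
  classical
  set X : ℕ → ℝ := fun v => if fx t n v < n then xh (fx t n v) else yh 0 with hX
  set Y : ℕ → ℝ := fun v => yh (fx t n v) with hY
  set G : ℕ → ℕ → ℝ := SentSemC_G t X Y with hG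
  set Z : ℕ → ℝ := fun i => G (min (i + 1) n) (min (t (i + 1) - 1) n) with hZ
  set F : ℕ → ℝ × ℝ := SentSemC_F t n m r s Z with hF
  set U : ℕ → ℕ → ℕ → ℝ := fun κ c k =>
    if κ = 0 then yh k
    else if κ = 1 then G c k
    else if κ = 2 then (F k).1
    else if κ = 3 then (F k).2
    else if κ = 4 then (Z k)⁻¹
    else if κ = 5 then Real.sqrt (Z k)⁻¹
    else if κ = 6 then Real.sqrt (-Z k)
    else (Real.sqrt (Z k)⁻¹) ^ 2 with hU
  set V : ℕ → ℝ := fun j => if j < n then xh j else asgU n U j with hV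
  have hVix : ∀ κ c k, V (ix n κ c k) = U κ (min c n) (min k n) := by
    intro κ c k
    have h1 := le_ix n κ c k
    simp only [hV]
    rw [if_neg (by omega), SentSemC_ix, asgU_ix n U κ _ _ (min_le_right _ _) (min_le_right _ _)]
  have hV0 : ∀ c k, V (ix n 0 c k) = yh (min k n) := fun c k => by rw [hVix]; simp [hU]
  have hV1 : ∀ c k, V (ix n 1 c k) = G (min c n) (min k n) := fun c k => by rw [hVix]; simp [hU]
  have hV2 : ∀ c k, V (ix n 2 c k) = (F (min k n)).1 := fun c k => by rw [hVix]; simp [hU]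
  have hV3 : ∀ c k, V (ix n 3 c k) = (F (min k n)).2 := fun c k => by rw [hVix]; simp [hU]
  have hV4 : ∀ c k, V (ix n 4 c k) = (Z (min k n))⁻¹ := fun c k => by rw [hVix]; simp [hU]
  have hV5 : ∀ c k, V (ix n 5 c k) = Real.sqrt (Z (min k n))⁻¹ := fun c k => by
    rw [hVix]; simp [hU]
  have hV6 : ∀ c k, V (ix n 6 c k) = Real.sqrt (-Z (min k n)) := fun c k => by
    rw [hVix]; simp [hU]
  have hV7 : ∀ c k, V (ix n 7 c k) = (Real.sqrt (Z (min k n))⁻¹) ^ 2 := fun c k => by
    rw [hVix]; simp [hU]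
  have hVx : ∀ v, V (fx t n v) = X v := by
    intro v
    have h1 := fx_le t n v
    by_cases h2 : fx t n v < n
    · simp only [hV, hX, if_pos h2]
    · have h3 : fx t n v = ix n 0 0 0 := by
        unfold ix
        simp
        omega
      have h4 : V (fx t n v) = yh 0 := by
        rw [h3, hV0]; simp
      rw [h4]
      simp only [hX, if_neg h2]
  have hVy : ∀ v, V (ix n 0 0 (fx t n v)) = Y v := by
    intro v
    rw [hV0, min_eq_left (fx_le t n v)]
  have hGEq : GEq t n V := by
    intro c hc k hk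
    rw [hV1, min_eq_left hc.le, min_eq_left hk.le, hG, SentSemC_G, gx]
    split_ifs with a1 a2 a3 a4 a5 a6 a7
    · simp
    · simp
    · simp [hVx]
    · simp [hVy]
    · simp only [map_add, aeval_X]
      rw [hV1, hV1, min_eq_left hc.le, min_eq_left (by omega), min_eq_left (by omega)]
    · simp only [map_sub, aeval_X]
      rw [hV1, hV1, min_eq_left hc.le, min_eq_left (by omega), min_eq_left (by omega)]
    · simp only [map_mul, aeval_X]
      rw [hV1, hV1, min_eq_left hc.le, min_eq_left (by omega), min_eq_left (by omega)]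
    · simp
  have hVZ : ∀ i, V (ix n 1 (i + 1) (t (i + 1) - 1)) = Z i := fun i => by rw [hV1]
  -- equations at the nodes
  have e6 : ∀ i < n, t i = 6 → V (ix n 2 0 i) = Z i ∧ V (ix n 3 0 i) = Z i * (Z i)⁻¹ - 1 := by
    intro i hi h
    rw [hV2, hV3, min_eq_left hi.le, hF, SentSemC_F, dif_pos hi, if_pos h]
    exact ⟨rfl, rfl⟩
  have e7 : ∀ i < n, t i = 7 → V (ix n 2 0 i) = Z i * (Real.sqrt (Z i)⁻¹) ^ 2 - 1 ∧
      V (ix n 3 0 i) = Z i + (Real.sqrt (-Z i)) ^ 2 := by
    intro i hi h
    rw [hV2, hV3, min_eq_left hi.le, hF, SentSemC_F, dif_pos hi, if_neg (by omega), if_pos h]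
    exact ⟨rfl, rfl⟩
  have e8 : ∀ i < n, t i = 8 →
      V (ix n 2 0 i) = V (ix n 2 0 (i + 1)) ^ 2 + V (ix n 2 0 (ch2 t n m r s i)) ^ 2 ∧
      V (ix n 3 0 i) = V (ix n 3 0 (i + 1)) * V (ix n 3 0 (ch2 t n m r s i)) := by
    intro i hi h
    have hc := SentSemC_ch2 t n m r s i hi
    simp only [hV2, hV3]
    rw [min_eq_left hi.le, min_eq_left (show i + 1 ≤ n by omega), min_eq_left hc, hF,
      SentSemC_F, dif_pos hi, if_neg (by omega), if_neg (by omega), if_pos h]
    exact ⟨rfl, rfl⟩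
  have e9 : ∀ i < n, t i = 9 →
      V (ix n 2 0 i) = V (ix n 2 0 (i + 1)) * V (ix n 2 0 (ch2 t n m r s i)) ∧
      V (ix n 3 0 i) = V (ix n 3 0 (i + 1)) ^ 2 + V (ix n 3 0 (ch2 t n m r s i)) ^ 2 := by
    intro i hi h
    have hc := SentSemC_ch2 t n m r s i hi
    simp only [hV2, hV3]
    rw [min_eq_left hi.le, min_eq_left (show i + 1 ≤ n by omega), min_eq_left hc, hF,
      SentSemC_F, dif_pos hi, if_neg (by omega), if_neg (by omega), if_neg (by omega), if_pos h]
    exact ⟨rfl, rfl⟩
  have e10 : ∀ i < n, t i ≠ 6 → t i ≠ 7 → t i ≠ 8 → t i ≠ 9 →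
      V (ix n 2 0 i) = V (ix n 3 0 (i + 1)) ∧ V (ix n 3 0 i) = V (ix n 2 0 (i + 1)) := by
    intro i hi h6 h7 h8 h9
    simp only [hV2, hV3]
    rw [min_eq_left hi.le, min_eq_left (show i + 1 ≤ n by omega), hF,
      SentSemC_F, dif_pos hi, if_neg h6, if_neg h7, if_neg h8, if_neg h9]
    exact ⟨rfl, rfl⟩
  refine ⟨V, fun j hj => by simp only [hV, if_pos hj], fun k hk => by rw [hV0, min_eq_left hk],
    hGEq, ?_, ?_⟩
  · intro i hi
    unfold feq
    split_ifs with h6 h7 h8 h9
    · obtain ⟨a, b⟩ := e6 i hi h6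
      simp only [map_add, map_sub, map_mul, map_pow, map_one, aeval_X]
      rw [a, b, hVZ, hV4, min_eq_left hi.le]
      ring
    · obtain ⟨a, b⟩ := e7 i hi h7
      simp only [map_add, map_sub, map_mul, map_pow, map_one, aeval_X]
      rw [a, b, hVZ, hV5, hV6, hV7, min_eq_left hi.le]
      ring
    · obtain ⟨a, b⟩ := e8 i hi h8
      simp only [map_add, map_sub, map_mul, map_pow, map_one, aeval_X]
      rw [a, b]
      ring
    · obtain ⟨a, b⟩ := e9 i hi h9
      simp only [map_add, map_sub, map_mul, map_pow, map_one, aeval_X]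
      rw [a, b]
      ring
    · obtain ⟨a, b⟩ := e10 i hi h6 h7 h8 h9
      simp only [map_add, map_sub, map_mul, map_pow, map_one, aeval_X]
      rw [a, b]
      ring
  · intro φ
    induction φ with
    | eqZero gs =>
      intro hw i hA hm
      simp only [Form.toNats, At, List.length_cons] at hA hm
      have hi : i < n := by omega
      obtain ⟨a, b⟩ := e6 i hi hA.1
      have hv := circuit_value t n m r s hmn V hGEq (i + 1) gs hw hA.2 (by omega)
      rw [hVZ] at hv
      rw [a, b, hv]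
      simp only [Form.Holds]
      refine ⟨fun h => h, fun h => ?_⟩
      rw [mul_inv_cancel₀ h, sub_self]
    | pos gs =>
      intro hw i hA hm
      simp only [Form.toNats, At, List.length_cons] at hA hm
      have hi : i < n := by omega
      obtain ⟨a, b⟩ := e7 i hi hA.1
      have hv := circuit_value t n m r s hmn V hGEq (i + 1) gs hw hA.2 (by omega)
      rw [hVZ] at hv
      rw [a, b, hv]
      simp only [Form.Holds]
      refine ⟨fun h => ?_, fun h => ?_⟩
      · rw [Real.sq_sqrt (inv_nonneg.2 h.le), mul_inv_cancel₀ h.ne', sub_self]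
      · rw [Real.sq_sqrt (by linarith [not_lt.1 h])]
        ring
    | and φ ψ ih1 ih2 =>
      intro hw i hA hm
      simp only [Form.toNats, At, List.length_cons, List.length_append, At_append] at hA hm
      have hi : i < n := by omega
      obtain ⟨a, b⟩ := e8 i hi hA.1
      have hc := ch2_of_form t n m r s hmn φ hw.1 i hA.2.1 (by omega)
      obtain ⟨p1, p2⟩ := ih1 hw.1 (i + 1) hA.2.1 (by omega)
      obtain ⟨q1, q2⟩ := ih2 hw.2 (i + 1 + φ.toNats.length) hA.2.2 (by omega)
      rw [a, b, hc]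
      simp only [Form.Holds]
      refine ⟨fun h => ?_, fun h => ?_⟩
      · rw [p1 h.1, q1 h.2]; ring
      · by_cases h1 : φ.Holds (xx t n V) (yy t n V)
        · rw [q2 (fun h2 => h ⟨h1, h2⟩), mul_zero]
        · rw [p2 h1, zero_mul]
    | or φ ψ ih1 ih2 =>
      intro hw i hA hm
      simp only [Form.toNats, At, List.length_cons, List.length_append, At_append] at hA hm
      have hi : i < n := by omega
      obtain ⟨a, b⟩ := e9 i hi hA.1
      have hc := ch2_of_form t n m r s hmn φ hw.1 i hA.2.1 (by omega)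
      obtain ⟨p1, p2⟩ := ih1 hw.1 (i + 1) hA.2.1 (by omega)
      obtain ⟨q1, q2⟩ := ih2 hw.2 (i + 1 + φ.toNats.length) hA.2.2 (by omega)
      rw [a, b, hc]
      simp only [Form.Holds]
      refine ⟨fun h => ?_, fun h => ?_⟩
      · rcases h with h | h
        · rw [p1 h, zero_mul]
        · rw [q1 h, mul_zero]
      · push Not at h
        rw [p2 h.1, q2 h.2]; ring
    | not φ ih =>
      intro hw i hA hm
      simp only [Form.toNats, At, List.length_cons] at hA hm
      have hi : i < n := by omega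
      obtain ⟨a, b⟩ := e10 i hi (by omega) (by omega) (by omega) (by omega)
      obtain ⟨p1, p2⟩ := ih hw (i + 1) hA.2 (by omega)
      rw [a, b]
      simp only [Form.Holds, not_not]
      exact ⟨p2, p1⟩

end Crest.Agent.CHR
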