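import Crest.Agent.CHR.Fam

/-!
# MODULE M8 (row 316): tokens of a bit string
-/

set_option autoImplicit false

namespace Crest.Agent.CHR

open Crest.RealEA Crest.CountHier

/-- remove the first token -/
def dropT (u : W) : W := (sndB u).tail

/-- value of the `i`-th token -/
def tk (w : W) (i : ℕ) : ℕ := val (fstB (dropT^[i] w))

theorem natBits_append (k : ℕ) (u : W) : natBits k ++ u = pairBits (Nat.bits k) (false :: u) := by
  simp [natBits, pairBits]

@[simp] theorem dropT_natBits (k : ℕ) (u : W) : dropT (natBits k ++ u) = u := by
  simp [dropT, natBits_append]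

@[simp] theorem fstB_natBits (k : ℕ) (u : W) : fstB (natBits k ++ u) = Nat.bits k := by
  simp [natBits_append]

theorem dropT_nil : dropT [] = [] := rfl

theorem dropT_iter_nil (i : ℕ) : dropT^[i] [] = [] := by
  induction i with
  | zero => rfl
  | succ i ih => rw [Function.iterate_succ_apply, dropT_nil, ih]

theorem length_dropT_le (u : W) : (dropT u).length ≤ u.length := by
  have := len_sndB_le u
  simp only [dropT, List.length_tail]
  omega

theorem length_dropT_lt (u : W) (hu : u ≠ []) : (dropT u).length < u.length := by
  have := len_sndB_le u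
  have h0 : 0 < u.length := List.length_pos_iff.mpr hu
  simp only [dropT, List.length_tail]
  omega

theorem length_dropT_iter (u : W) (i : ℕ) : (dropT^[i] u).length ≤ u.length - i := by
  induction i generalizing u with
  | zero => simp
  | succ i ih =>
    rw [Function.iterate_succ_apply]
    have h1 := ih (dropT u)
    by_cases hu : u = []
    · subst hu
      rw [dropT_nil, dropT_iter_nil]; simp
    · have := length_dropT_lt u hu
      omega

theorem dropT_iter_of_le (u : W) (i : ℕ) (h : u.length ≤ i) : dropT^[i] u = [] := by
  have := length_dropT_iter u i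
  apply List.length_eq_zero_iff.mp
  omega

theorem dropT_iter_flatMap (ts : List ℕ) (i : ℕ) :
    dropT^[i] (ts.flatMap natBits) = (ts.drop i).flatMap natBits := by
  induction ts generalizing i with
  | nil => simp [dropT_iter_nil]
  | cons a ts ih =>
    cases i with
    | zero => simp
    | succ i =>
      rw [Function.iterate_succ_apply, List.flatMap_cons, dropT_natBits, ih]
      simp

theorem tk_flatMap (ts : List ℕ) (i : ℕ) : tk (ts.flatMap natBits) i = ts.getD i 0 := by
  rw [tk, dropT_iter_flatMap]
  by_cases h : i < ts.length
  · rw [List.drop_eq_getElem_cons h, List.flatMap_cons, fstB_natBits, val_bits]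
    simp [List.getD_eq_getElem?_getD, h]
  · rw [List.drop_eq_nil_of_le (by omega)]
    rw [List.getD_eq_default _ _ (by omega)]
    rfl

theorem tk_lt (w : W) (i : ℕ) : tk w i < 2 ^ w.length := by
  refine lt_of_lt_of_le (val_lt _) (Nat.pow_le_pow_right (by norm_num) ?_)
  exact (len_fstB_le _).trans ((length_dropT_iter w i).trans (by omega))

theorem tk_of_le (w : W) (i : ℕ) (h : w.length ≤ i) : tk w i = 0 := by
  rw [tk, dropT_iter_of_le w i h]; rfl

open Classical in
/-- number of tokens -/
noncomputable def ntk (w : W) : ℕ :=
  if h : ∃ i, i < w.length ∧ dropT^[i] w = [] then Nat.find h else w.length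

theorem ntk_le (w : W) : ntk w ≤ w.length := by
  classical
  unfold ntk
  split_ifs with h
  · exact (Nat.find_spec h).1.le
  · exact le_rfl

theorem length_natBits (k : ℕ) : 2 ≤ (natBits k).length := by
  simp [natBits]

theorem length_flatMap_natBits (ts : List ℕ) : 2 * ts.length ≤ (ts.flatMap natBits).length := by
  induction ts with
  | nil => simp
  | cons a ts ih =>
    have := length_natBits a
    simp only [List.flatMap_cons, List.length_append, List.length_cons]
    omega

theorem ntk_flatMap (ts : List ℕ) : ntk (ts.flatMap natBits) = ts.length := by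
  classical
  have hl := length_flatMap_natBits ts
  have key : ∀ i, dropT^[i] (ts.flatMap natBits) = [] ↔ ts.length ≤ i := by
    intro i
    rw [dropT_iter_flatMap]
    constructor
    · intro h
      by_contra hc
      have h2 := length_flatMap_natBits (ts.drop i)
      rw [h, List.length_drop] at h2
      simp at h2
      omega
    · intro h
      rw [List.drop_eq_nil_of_le h]; rfl
  unfold ntk
  by_cases h : ∃ i, i < (ts.flatMap natBits).length ∧ dropT^[i] (ts.flatMap natBits) = []
  · rw [dif_pos h]
    refine (Nat.find_eq_iff h).2 ⟨?_, ?_⟩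
    · refine ⟨?_, (key _).2 le_rfl⟩
      obtain ⟨i, hi, hi2⟩ := h
      have := (key i).1 hi2
      omega
    · intro n hn hn'
      have := (key n).1 hn'.2
      omega
  · rw [dif_neg h]
    by_contra hc
    apply h
    exact ⟨ts.length, by omega, (key _).2 le_rfl⟩

/-- `w` is a list of canonical tokens -/
def wfTok (w : W) : Prop :=
  ∀ i < w.length, dropT^[i] w = [] ∨
    dropT^[i] w = pairBits (Nat.bits (tk w i)) (false :: dropT (dropT^[i] w))

theorem wfTok_iff (w : W) : wfTok w ↔ ∃ ts : List ℕ, ts.flatMap natBits = w := by
  constructor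
  · intro h
    induction hn : w.length using Nat.strong_induction_on generalizing w with
    | _ n ih =>
      by_cases hw : w = []
      · exact ⟨[], by simp [hw]⟩
      · have h0 : 0 < w.length := List.length_pos_iff.mpr hw
        have h1 : w = pairBits (Nat.bits (tk w 0)) (false :: dropT w) := by
          rcases h 0 h0 with h2 | h2
          · exact absurd h2 hw
          · exact h2
        have hl := length_dropT_lt w hw
        have h3 : wfTok (dropT w) := by
          intro i hi
          have := h (i + 1) (by omega)
          simpa only [Function.iterate_succ_apply, tk] using this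
        obtain ⟨ts, hts⟩ := ih (dropT w).length (by omega) (dropT w) h3 rfl
        refine ⟨tk w 0 :: ts, ?_⟩
        rw [List.flatMap_cons, hts, natBits_append, ← h1]
  · rintro ⟨ts, rfl⟩ i hi
    rw [dropT_iter_flatMap, tk_flatMap]
    by_cases h : i < ts.length
    · right
      rw [List.drop_eq_getElem_cons h, List.flatMap_cons, dropT_natBits, natBits_append]
      simp [List.getD_eq_getElem?_getD, h]
    · left
      rw [List.drop_eq_nil_of_le (by omega)]; rfl

/-! ## computability -/

theorem PT_dropT : PolyTime dropT := by
  have h : PolyTime (fun w => List.tail (sndB w)) := PT.comp PT.tail PT.snd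
  exact h

theorem PT_dropT_iter : PolyTime (fun z => dropT^[(sndB z).length] (fstB z)) := by
  refine PT.iter PT_dropT PT.fst PT.snd Polynomial.X (fun w k _ => ?_)
  simp only [Polynomial.eval_X]
  have h1 := length_dropT_iter (fstB w) k
  have h2 := len_fstB_le w
  omega

theorem CHF_dropT_iter {f : W → W} {g : W → ℕ} (hf : CHF f) (hg : CHN g) :
    CHF (fun w => dropT^[g w] (f w)) := by
  obtain ⟨⟨q, hq⟩, _⟩ := id hf
  have hm : CHN (fun w => min (g w) (f w).length) := CHN.min hg (CHN.len.comp hf)
  have hr := CHF.replicate hm q (fun w => (min_le_right _ _).trans (hq w))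
  refine ((CHF.ofPT PT_dropT_iter).comp (hf.pair hr)).congr (fun w => ?_)
  simp only [sndB_pairBits, fstB_pairBits, List.length_replicate]
  rcases le_total (g w) (f w).length with h | h
  · rw [min_eq_left h]
  · rw [min_eq_right h, dropT_iter_of_le _ _ le_rfl, dropT_iter_of_le _ _ h]

theorem CHN_tk {f : W → W} {g : W → ℕ} (hf : CHF f) (hg : CHN g) :
    CHN (fun w => tk (f w) (g w)) :=
  CHN.ofVal (CHF.fst.comp (CHF_dropT_iter hf hg))

theorem CHN_ntk {f : W → W} (hf : CHF f) : CHN (fun w => ntk (f w)) := by
  have h1 : CHN ntk := by
    classical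
    refine (CHN.find2 (P := fun w i => dropT^[i] w = []) CHN.len
      (CHP.eqF (CHF_dropT_iter CHF.fst CHN.var) (CHF.const []))).congr (fun w => ?_)
    unfold ntk
    split_ifs with h
    · congr!
    · rfl
  exact h1.comp hf

theorem CHP_wfTok : CHP wfTok := by
  refine (CHP.allN2 (P := fun w i => dropT^[i] w = [] ∨
    dropT^[i] w = pairBits (Nat.bits (tk w i)) (false :: dropT (dropT^[i] w))) CHN.len ?_)
  have h1 : CHF (fun z => dropT^[val (sndB z)] (fstB z)) := CHF_dropT_iter CHF.fst CHN.var
  have h2 : CHF (fun z => false :: dropT (dropT^[val (sndB z)] (fstB z))) :=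
    (CHF.ofPT (PT.append (PT.const [false]) PT_dropT)).comp h1
  exact (CHP.eqF h1 (CHF.const [])).or (CHP.eqF h1 (CHF.pair (CHN_tk CHF.fst CHN.var) h2))

end Crest.Agent.CHR
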