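import Crest.Agent.CHR.ThrDefs

/-!
# MODULE M5 (row 316), file ThrA: non-bad seeds, approximate truth values, common size hypotheses
-/

set_option autoImplicit false

namespace Crest.Agent.CHR

open Finset

/-- the seed `A` is not bad for `X` -/
def NB (V : ℕ) (A X : ℂ) : Prop := 1 / (8 * (V : ℝ)) ≤ |‖A * X‖ - 1|

/-- the error levels -/
noncomputable def er (K j : ℕ) : ℝ := (K : ℝ) ^ j * (2 * (1 / 2 : ℝ) ^ (K ^ 2))

/-- `x` is approximately the truth value of `b` -/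
def Ap (ε : ℝ) (x : ℂ) (b : Prop) : Prop := (b → ‖x - 1‖ ≤ ε) ∧ (¬ b → ‖x‖ ≤ ε)

/-- size hypotheses -/
structure Siz (p : Par) (K : ℕ) : Prop where
  K1 : 100 ≤ K
  N1 : 1 ≤ p.N
  N : p.N ≤ K
  T : p.T ≤ K
  L : p.L + 1 ≤ K
  P : 2 * p.P + 3 ≤ K
  V1 : 100 * p.N ≤ p.V
  M : 8 * p.V * K ^ 2 ≤ p.M

theorem er_nonneg (K j : ℕ) : 0 ≤ er K j := by
  unfold er; positivity

theorem er_small {K j : ℕ} (hK : 100 ≤ K) (hj : j ≤ 30) : er K j ≤ (1 / 2 : ℝ) ^ (60 * K) := by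
  have h1 : (K : ℝ) ≤ 2 ^ K := by
    exact_mod_cast (Nat.lt_two_pow_self (n := K)).le
  have hK1 : (1 : ℝ) ≤ K := by exact_mod_cast (by omega : 1 ≤ K)
  have h2 : (K : ℝ) ^ j ≤ 2 ^ (30 * K) := by
    calc (K : ℝ) ^ j ≤ (K : ℝ) ^ 30 := pow_le_pow_right₀ hK1 hj
      _ ≤ (2 ^ K) ^ 30 := by gcongr
      _ = 2 ^ (30 * K) := by rw [← pow_mul, mul_comm]
  have h3 : (1 / 2 : ℝ) ^ (K ^ 2) ≤ (1 / 2) ^ (100 * K) := by
    apply pow_le_pow_of_le_one (by norm_num) (by norm_num)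
    nlinarith
  have h4 : (2 : ℝ) ≤ 2 ^ (10 * K) := by
    calc (2 : ℝ) = 2 ^ 1 := by norm_num
      _ ≤ 2 ^ (10 * K) := pow_le_pow_right₀ (by norm_num) (by omega)
  unfold er
  calc (K : ℝ) ^ j * (2 * (1 / 2 : ℝ) ^ (K ^ 2))
      ≤ 2 ^ (30 * K) * (2 ^ (10 * K) * (1 / 2) ^ (100 * K)) := by gcongr
    _ = (1 / 2) ^ (60 * K) := by
      rw [← mul_assoc, ← pow_add, show 30 * K + 10 * K = 40 * K by ring,
        show 100 * K = 40 * K + 60 * K by ring, pow_add, ← mul_assoc, ← mul_pow]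
      norm_num

theorem er_small' {K j : ℕ} (hK : 100 ≤ K) (hj : j ≤ 30) : er K j ≤ 1 / 1000 := by
  refine (er_small hK hj).trans ?_
  calc (1 / 2 : ℝ) ^ (60 * K) ≤ (1 / 2) ^ 10 :=
        pow_le_pow_of_le_one (by norm_num) (by norm_num) (by omega)
    _ ≤ 1 / 1000 := by norm_num

theorem er_mono {K j j' : ℕ} (hK : 100 ≤ K) (hj : j ≤ j') : er K j ≤ er K j' := by
  unfold er
  have hK1 : (1 : ℝ) ≤ K := by exact_mod_cast (by omega : 1 ≤ K)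
  have := pow_le_pow_right₀ hK1 hj
  gcongr

theorem er_succ (K j : ℕ) : er K (j + 1) = K * er K j := by
  unfold er; ring

theorem Ap.mono {ε ε' : ℝ} {x : ℂ} {b : Prop} (h : Ap ε x b) (he : ε ≤ ε') : Ap ε' x b :=
  ⟨fun hb => (h.1 hb).trans he, fun hb => (h.2 hb).trans he⟩

theorem Ap.congr {ε : ℝ} {x : ℂ} {b c : Prop} (h : Ap ε x b) (he : b ↔ c) : Ap ε x c :=
  ⟨fun hb => h.1 (he.2 hb), fun hb => h.2 (fun h' => hb (he.1 h'))⟩

theorem Ap.norm_le {ε : ℝ} {x : ℂ} {b : Prop} (h : Ap ε x b) : ‖x‖ ≤ 1 + ε := by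
  by_cases hb : b
  · have := h.1 hb
    calc ‖x‖ = ‖1 + (x - 1)‖ := by ring_nf
      _ ≤ ‖(1 : ℂ)‖ + ‖x - 1‖ := norm_add_le _ _
      _ ≤ 1 + ε := by rw [norm_one]; linarith
  · have := h.2 hb
    linarith

theorem Ap.nonneg {ε : ℝ} {x : ℂ} {b : Prop} (h : Ap ε x b) : 0 ≤ ε := by
  by_cases hb : b
  · exact (norm_nonneg _).trans (h.1 hb)
  · exact (norm_nonneg _).trans (h.2 hb)

theorem Ap.not {ε : ℝ} {x : ℂ} {b : Prop} (h : Ap ε x b) : Ap ε (1 - x) (¬ b) := by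
  refine ⟨fun hb => ?_, fun hb => ?_⟩
  · have := h.2 hb
    rw [show (1 : ℂ) - x - 1 = - x by ring, norm_neg]
    exact this
  · have := h.1 (not_not.mp hb)
    rw [norm_sub_rev]
    exact this

theorem one_add_pow_le {ε : ℝ} (hε : 0 ≤ ε) {n : ℕ} (h : n * ε ≤ 1 / 2) :
    (1 + ε) ^ n ≤ 1 + 2 * (n * ε) := by
  have h1 : (1 + ε) ^ n ≤ Real.exp (n * ε) := by
    rw [Real.exp_nat_mul]
    apply pow_le_pow_left₀ (by linarith)
    have := Real.add_one_le_exp ε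
    linarith
  have h0 : 0 ≤ n * ε := by positivity
  have h2 : Real.exp (n * ε) ≤ 1 / (1 - n * ε) := by
    have h3 := Real.one_sub_le_exp_neg (n * ε)
    have h4 : (0 : ℝ) < 1 - n * ε := by linarith
    rw [le_div_iff₀ h4]
    calc Real.exp (n * ε) * (1 - n * ε) ≤ Real.exp (n * ε) * Real.exp (-(n * ε)) := by
          gcongr
      _ = 1 := by rw [← Real.exp_add]; simp
  have h5 : 1 / (1 - n * ε) ≤ 1 + 2 * (n * ε) := by
    have h4 : (0 : ℝ) < 1 - n * ε := by linarith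
    rw [div_le_iff₀ h4]
    nlinarith
  linarith

theorem norm_prod_sub_one_le {ι : Type*} (s : Finset ι) (x : ι → ℂ) {ε : ℝ} (hε : 0 ≤ ε)
    (h : ∀ i ∈ s, ‖x i - 1‖ ≤ ε) : ‖∏ i ∈ s, x i - 1‖ ≤ (1 + ε) ^ s.card - 1 := by
  classical
  induction s using Finset.induction_on with
  | empty => simp
  | insert a s ha ih =>
    rw [Finset.prod_insert ha, Finset.card_insert_of_notMem ha]
    have ih' := ih fun i hi => h i (Finset.mem_insert_of_mem hi)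
    have ha' := h a (Finset.mem_insert_self _ _)
    have e : x a * ∏ i ∈ s, x i - 1 = (x a - 1) * (∏ i ∈ s, x i - 1) + (x a - 1) +
      (∏ i ∈ s, x i - 1) := by ring
    rw [e]
    calc ‖(x a - 1) * (∏ i ∈ s, x i - 1) + (x a - 1) + (∏ i ∈ s, x i - 1)‖
        ≤ ‖(x a - 1) * (∏ i ∈ s, x i - 1)‖ + ‖x a - 1‖ + ‖∏ i ∈ s, x i - 1‖ := norm_add₃_le
      _ ≤ ε * ((1 + ε) ^ s.card - 1) + ε + ((1 + ε) ^ s.card - 1) := by
        rw [norm_mul]
        gcongr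
      _ = (1 + ε) ^ (s.card + 1) - 1 := by ring

theorem Ap.prod {ι : Type*} {s : Finset ι} {x : ι → ℂ} {b : ι → Prop} {ε : ℝ} (hε : 0 ≤ ε)
    (h : ∀ i ∈ s, Ap ε (x i) (b i)) (hs : s.card * ε ≤ 1 / 2) :
    Ap (2 * (s.card * ε)) (∏ i ∈ s, x i) (∀ i ∈ s, b i) := by
  classical
  refine ⟨fun hb => ?_, fun hb => ?_⟩
  · have h1 := norm_prod_sub_one_le s x hε fun i hi => (h i hi).1 (hb i hi)
    have h2 := one_add_pow_le hε hs
    linarith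
  · push Not at hb
    obtain ⟨i, hi, hbi⟩ := hb
    have h1 := (h i hi).2 hbi
    rw [← Finset.mul_prod_erase s x hi, norm_mul, norm_prod]
    have h2 : ∏ j ∈ s.erase i, ‖x j‖ ≤ (1 + ε) ^ s.card := by
      calc ∏ j ∈ s.erase i, ‖x j‖ ≤ ∏ j ∈ s.erase i, (1 + ε) :=
            Finset.prod_le_prod (fun _ _ => norm_nonneg _)
              fun j hj => (h j (Finset.mem_of_mem_erase hj)).norm_le
        _ = (1 + ε) ^ (s.erase i).card := by rw [Finset.prod_const]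
        _ ≤ (1 + ε) ^ s.card :=
            pow_le_pow_right₀ (by linarith) (Finset.card_le_card (Finset.erase_subset _ _))
    have h3 := one_add_pow_le hε hs
    have h4 : (1 : ℝ) ≤ s.card := by
      exact_mod_cast Finset.card_pos.mpr ⟨i, hi⟩
    calc ‖x i‖ * ∏ j ∈ s.erase i, ‖x j‖ ≤ ε * 2 := by
          gcongr
          linarith
      _ ≤ 2 * (s.card * ε) := by nlinarith

theorem Ap.prod' {ι : Type*} {s : Finset ι} {x : ι → ℂ} {b : ι → Prop} {K j : ℕ} (hK : 100 ≤ K)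
    (hj : j ≤ 28) (h : ∀ i ∈ s, Ap (er K j) (x i) (b i)) (hs : s.card ≤ K ^ 2) :
    Ap (er K (j + 3)) (∏ i ∈ s, x i) (∀ i ∈ s, b i) := by
  have hs' : (s.card : ℝ) ≤ (K : ℝ) ^ 2 := by exact_mod_cast hs
  have h0 := er_nonneg K j
  have h1 : (s.card : ℝ) * er K j ≤ er K (j + 2) := by
    rw [er_succ, er_succ, ← mul_assoc, ← pow_two]
    gcongr
  have hK' : (100 : ℝ) ≤ K := by exact_mod_cast hK
  have h2 := er_small' hK (show j + 2 ≤ 30 by omega)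
  have h3 := Ap.prod h0 h (by linarith)
  refine h3.mono ?_
  rw [show j + 3 = (j + 2) + 1 by ring, er_succ K (j + 2)]
  have := er_nonneg K (j + 2)
  nlinarith

theorem Ap.mul' {x y : ℂ} {b c : Prop} {K j : ℕ} (hK : 100 ≤ K) (hj : j ≤ 28)
    (h : Ap (er K j) x b) (h' : Ap (er K j) y c) : Ap (er K (j + 1)) (x * y) (b ∧ c) := by
  have h0 := er_nonneg K j
  have h2 := er_small' hK (show j ≤ 30 by omega)
  have hK' : (100 : ℝ) ≤ K := by exact_mod_cast hK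
  have h3 : 3 * er K j ≤ er K (j + 1) := by
    rw [er_succ]; nlinarith
  refine ⟨fun hb => ?_, fun hb => ?_⟩
  · have e : x * y - 1 = (x - 1) * y + (y - 1) := by ring
    rw [e]
    have h4 := h.1 hb.1
    have h5 := h'.1 hb.2
    have h6 := h'.norm_le
    calc ‖(x - 1) * y + (y - 1)‖ ≤ ‖x - 1‖ * ‖y‖ + ‖y - 1‖ := by
          rw [← norm_mul]; exact norm_add_le _ _
      _ ≤ er K j * 2 + er K j := by
          gcongr
          linarith
      _ ≤ er K (j + 1) := by linarith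
  · rw [norm_mul]
    by_cases hb' : b
    · have hc : ¬ c := fun hc => hb ⟨hb', hc⟩
      have h4 := h'.2 hc
      have h6 := h.norm_le
      calc ‖x‖ * ‖y‖ ≤ 2 * er K j := by
            gcongr
            linarith
        _ ≤ er K (j + 1) := by linarith
    · have h4 := h.2 hb'
      have h6 := h'.norm_le
      calc ‖x‖ * ‖y‖ ≤ er K j * 2 := by
            gcongr
            linarith
        _ ≤ er K (j + 1) := by linarith

/-! ### the threshold function -/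

theorem two_pow_le {V M K : ℕ} (hV : 1 ≤ V) (hM : 8 * V * K ^ 2 ≤ M) :
    (2 : ℝ) ^ (K ^ 2) ≤ (1 + 1 / (8 * (V : ℝ))) ^ M := by
  have hV' : (0 : ℝ) < 8 * V := by positivity
  have h1 : (2 : ℝ) ≤ (1 + 1 / (8 * (V : ℝ))) ^ (8 * V) := by
    have := one_add_mul_le_pow (a := 1 / (8 * (V : ℝ))) (by
      have : (0 : ℝ) ≤ 1 / (8 * V) := by positivity
      linarith) (8 * V)
    push_cast at this
    rw [mul_one_div_cancel hV'.ne'] at this
    linarith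
  calc (2 : ℝ) ^ (K ^ 2) ≤ ((1 + 1 / (8 * (V : ℝ))) ^ (8 * V)) ^ (K ^ 2) := by gcongr
    _ = (1 + 1 / (8 * (V : ℝ))) ^ (8 * V * K ^ 2) := by rw [← pow_mul]
    _ ≤ (1 + 1 / (8 * (V : ℝ))) ^ M := by
        apply pow_le_pow_right₀ _ hM
        have : (0 : ℝ) ≤ 1 / (8 * V) := by positivity
        linarith

theorem pow_hi {V M K : ℕ} (hV : 1 ≤ V) (hM : 8 * V * K ^ 2 ≤ M) {z : ℂ}
    (h : 1 + 1 / (8 * (V : ℝ)) ≤ ‖z‖) : (2 : ℝ) ^ (K ^ 2) ≤ ‖z ^ M‖ := by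
  rw [norm_pow]
  refine (two_pow_le hV hM).trans ?_
  gcongr

theorem pow_lo {V M K : ℕ} (hV : 1 ≤ V) (hM : 8 * V * K ^ 2 ≤ M) {z : ℂ}
    (h : ‖z‖ ≤ 1 - 1 / (8 * (V : ℝ))) : ‖z ^ M‖ ≤ (1 / 2 : ℝ) ^ (K ^ 2) := by
  rw [norm_pow]
  have h2 := two_pow_le (K := K) hV hM
  have h3 : (0 : ℝ) < 2 ^ (K ^ 2) := by positivity
  have h4 : ‖z‖ ^ M * (1 + 1 / (8 * (V : ℝ))) ^ M ≤ 1 := by
    rw [← mul_pow]
    apply pow_le_one₀ (by positivity)
    have : (0 : ℝ) ≤ 1 / (8 * V) := by positivity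
    nlinarith [norm_nonneg z]
  have h5 : ‖z‖ ^ M * 2 ^ (K ^ 2) ≤ 1 := le_trans (by gcongr) h4
  rw [one_div, inv_pow, ← one_div, le_div_iff₀ h3]
  exact h5

theorem thr_hi {V M K : ℕ} (hV : 1 ≤ V) (hK : 1 ≤ K) (hM : 8 * V * K ^ 2 ≤ M) {A X : ℂ}
    (h : 1 + 1 / (8 * (V : ℝ)) ≤ ‖A * X‖) : ‖thr A M X‖ ≤ er K 0 := by
  have h1 := pow_hi hV hM h
  have h2 : (2 : ℝ) ≤ 2 ^ (K ^ 2) := by
    calc (2 : ℝ) = 2 ^ 1 := by norm_num
      _ ≤ 2 ^ (K ^ 2) := pow_le_pow_right₀ (by norm_num) (by nlinarith)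
  have h3 : (2 : ℝ) ^ (K ^ 2) / 2 ≤ ‖1 + (A * X) ^ M‖ := by
    have := norm_sub_norm_le ((A * X) ^ M) (-1)
    rw [norm_neg, norm_one, sub_neg_eq_add, add_comm] at this
    linarith
  unfold thr er
  rw [norm_div, norm_one, pow_zero, one_mul]
  rw [div_le_iff₀ (by linarith)]
  calc (1 : ℝ) = 2 * (1 / 2) ^ (K ^ 2) * (2 ^ (K ^ 2) / 2) := by
        rw [one_div, inv_pow]; field_simp
    _ ≤ 2 * (1 / 2) ^ (K ^ 2) * ‖1 + (A * X) ^ M‖ := by gcongr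

theorem thr_lo {V M K : ℕ} (hV : 1 ≤ V) (hK : 1 ≤ K) (hM : 8 * V * K ^ 2 ≤ M) {A X : ℂ}
    (h : ‖A * X‖ ≤ 1 - 1 / (8 * (V : ℝ))) : ‖thr A M X - 1‖ ≤ er K 0 := by
  have h1 := pow_lo hV hM h
  have h2 : (1 / 2 : ℝ) ^ (K ^ 2) ≤ 1 / 2 := by
    calc (1 / 2 : ℝ) ^ (K ^ 2) ≤ (1 / 2) ^ 1 :=
          pow_le_pow_of_le_one (by norm_num) (by norm_num) (by nlinarith)
      _ = 1 / 2 := by norm_num
  have h3 : 1 / 2 ≤ ‖1 + (A * X) ^ M‖ := by
    have := norm_sub_norm_le (1 : ℂ) (-(A * X) ^ M)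
    rw [norm_neg, norm_one, sub_neg_eq_add] at this
    linarith
  have h4 : 1 + (A * X) ^ M ≠ 0 := by
    intro h0
    rw [h0, norm_zero] at h3
    norm_num at h3
  unfold thr er
  have e : 1 / (1 + (A * X) ^ M) - 1 = - (A * X) ^ M / (1 + (A * X) ^ M) := by
    field_simp
    ring
  rw [e, norm_div, norm_neg, pow_zero, one_mul, div_le_iff₀ (by linarith)]
  calc ‖(A * X) ^ M‖ ≤ (1 / 2) ^ (K ^ 2) := h1
    _ = 2 * (1 / 2) ^ (K ^ 2) * (1 / 2) := by ring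
    _ ≤ 2 * (1 / 2) ^ (K ^ 2) * ‖1 + (A * X) ^ M‖ := by gcongr

/-- a nonbad seed gives a truth value -/
theorem NB.ap {V M K : ℕ} (hV : 1 ≤ V) (hK : 1 ≤ K) (hM : 8 * V * K ^ 2 ≤ M) {A X : ℂ}
    (h : NB V A X) : Ap (er K 0) (thr A M X) (‖A * X‖ < 1) := by
  unfold NB at h
  have hp : (0 : ℝ) ≤ 1 / (8 * V) := by positivity
  refine ⟨fun hb => thr_lo hV hK hM ?_, fun hb => thr_hi hV hK hM ?_⟩
  · rw [abs_of_neg (by linarith)] at h
    linarith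
  · push Not at hb
    rw [abs_of_nonneg (by linarith)] at h
    linarith

theorem NB.ne {V M : ℕ} (hV : 1 ≤ V) {A X : ℂ} (hM : 1 ≤ M) (h : NB V A X) :
    1 + (A * X) ^ M ≠ 0 := by
  intro h0
  have h1 : ‖A * X‖ ^ M = 1 := by
    rw [← norm_pow, eq_neg_of_add_eq_zero_right h0, norm_neg, norm_one]
  have h2 : ‖A * X‖ = 1 := (pow_eq_one_iff_of_nonneg (norm_nonneg _) (by omega)).mp h1
  unfold NB at h
  rw [h2, sub_self, abs_zero] at h
  have : (0 : ℝ) < 1 / (8 * V) := by positivity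
  linarith

end Crest.Agent.CHR
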