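import Mathlib

/-!
# Row 316, module M5: thresholds, reality test, counting of real solutions.  Definitions.
Pure complex numbers, no polynomials.
-/

set_option autoImplicit false

namespace Crest.Agent.CHR

open Finset

/-- threshold function: `≈ 1` if `‖A x‖ < 1`, `≈ 0` if `‖A x‖ > 1` -/
noncomputable def thr (A : ℂ) (M : ℕ) (x : ℂ) : ℂ := 1 / (1 + (A * x) ^ M)

/-- the seed number `k < V`: `A = 1 + k/(2V) ∈ [1, 3/2)` -/
noncomputable def seedA (V k : ℕ) : ℂ := 1 + (k : ℂ) / (2 * V)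

/-- numerical parameters: `N` points, all relevant numbers are `≤ 2^P`, and `0` or `≥ 2^{-P}` -/
structure Par where
  N : ℕ
  P : ℕ
  V : ℕ
  M : ℕ

/-- radii `R_t = 32 N 2^P (1 + 1/(64N))^{-t}` -/
noncomputable def Par.R (p : Par) (t : ℕ) : ℂ :=
  32 * p.N * 2 ^ p.P / (1 + 1 / (64 * (p.N : ℂ))) ^ t

/-- number of radii -/
def Par.T (p : Par) : ℕ := 64 * p.N * (2 * p.P + p.N + 4)

/-- number of grid points minus one -/
def Par.L (p : Par) : ℕ := 40 * p.N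

/-- `1 / θ₀` with `θ₀ = 1/(20N)` -/
noncomputable def Par.th (p : Par) : ℂ := 1 / (20 * (p.N : ℂ))

section
variable (p : Par)

/-- centre of mass of the roots near `α i`, relative to `α i`, divided by the radius -/
noncomputable def wT (A : ℂ) (α : Fin p.N → ℂ) (t : ℕ) (i : Fin p.N) : ℂ :=
  (∑ j, (α i - α j) * thr A p.M ((α j - α i) / p.R t)) /
    (p.R t * ∑ j, thr A p.M ((α j - α i) / p.R t))

/-- reality test for one coordinate: `≈ 1` if `α i` is real, `≈ 0` otherwise -/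
noncomputable def realT (A₁ A₂ : ℂ) (α : Fin p.N → ℂ) (i : Fin p.N) : ℂ :=
  ∏ t ∈ range p.T, (1 - ∏ l ∈ range (p.L + 1),
    (1 - thr A₂ p.M ((wT p A₁ α t i - (-1 + l * p.th)) / p.th)))

/-- positivity test -/
noncomputable def posT (A₃ : ℂ) (s : ℂ) : ℂ :=
  1 - ∏ k ∈ range (2 * p.P + 3),
    (1 - thr A₃ p.M ((s - 2 ^ k / 2 ^ (p.P + 1)) / (3 / 4 * (2 ^ k / 2 ^ (p.P + 1)))))

end

/-- the data: coordinates `α k i` (`k ∈ S`), the `x`-coordinates `Sx ⊆ S`, the values `s₀ i`, `u a i`,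
`v a i` (`a < na`) and `b i` -/
structure CData (p : Par) where
  S : Finset ℕ
  Sx : Finset ℕ
  α : ℕ → Fin p.N → ℂ
  na : ℕ
  s₀ : Fin p.N → ℂ
  u : ℕ → Fin p.N → ℂ
  v : ℕ → Fin p.N → ℂ
  b : Fin p.N → ℂ

namespace CData
variable {p : Par} (D : CData p)

/-- all coordinates pass the reality test -/
noncomputable def re (A₁ A₂ : ℂ) (i : Fin p.N) : ℂ := ∏ k ∈ D.S, realT p A₁ A₂ (D.α k) i

/-- same `x`-part -/
noncomputable def same (i j : Fin p.N) : ℂ :=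
  ∏ k ∈ D.Sx, thr 1 p.M ((D.α k i - D.α k j) * 2 ^ (p.P + 1))

/-- number of bad real points over the same `x` -/
noncomputable def bad (A₁ A₂ A₃ : ℂ) (i : Fin p.N) : ℂ :=
  ∑ j, D.same i j * D.re A₁ A₂ j * (1 - posT p A₃ (D.b j))

/-- acceptance -/
noncomputable def acc (A₁ A₂ A₃ : ℂ) (i : Fin p.N) : ℂ :=
  D.re A₁ A₂ i * posT p A₃ (D.s₀ i) *
    (∏ a ∈ range D.na, (1 - (1 - posT p A₃ (D.u a i)) * (1 - posT p A₃ (D.v a i)))) *
      thr 1 p.M (4 / 3 * D.bad A₁ A₂ A₃ i)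

/-- the number computed by the algorithm -/
noncomputable def count (A₁ A₂ A₃ : ℂ) : ℂ := ∑ i, D.acc A₁ A₂ A₃ i

/-- all coordinates are real -/
def IsReal (i : Fin p.N) : Prop := ∀ k ∈ D.S, (D.α k i).im = 0

/-- hypotheses on the data -/
structure Ok : Prop where
  N1 : 1 ≤ p.N
  sub : D.Sx ⊆ D.S
  conj : ∃ c : Equiv.Perm (Fin p.N), ∀ k ∈ D.S, ∀ i, D.α k (c i) = (starRingEnd ℂ) (D.α k i)
  bd : ∀ k ∈ D.S, ∀ i, ‖D.α k i‖ ≤ 2 ^ p.P
  gap : ∀ k ∈ D.S, ∀ i j, D.α k i = D.α k j ∨ (1 / 2 : ℝ) ^ p.P ≤ ‖D.α k i - D.α k j‖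
  vals : ∀ i, D.IsReal i → ∀ s : ℂ, (s = D.s₀ i ∨ s = D.b i ∨ ∃ a < D.na, s = D.u a i ∨ s = D.v a i) →
    s.im = 0 ∧ ‖s‖ ≤ 2 ^ p.P ∧ (s = 0 ∨ (1 / 2 : ℝ) ^ p.P ≤ ‖s‖)

/-- the ideal acceptance condition -/
def Good (i : Fin p.N) : Prop :=
  D.IsReal i ∧ 0 < (D.s₀ i).re ∧ (∀ a < D.na, 0 < (D.u a i).re ∨ 0 < (D.v a i).re) ∧
    ∀ j, D.IsReal j → (∀ k ∈ D.Sx, D.α k j = D.α k i) → 0 < (D.b j).re

end CData

end Crest.Agent.CHR
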