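import Crest.Agent.CHR.ThrDefs

/-!
# Row 316, module M5: approximate Boolean calculus, thresholds, seeds.
-/

set_option autoImplicit false

namespace Crest.Agent.CHR

open Finset

open Classical in
/-- truth value -/
noncomputable def bv (b : Prop) : ℂ := if b then 1 else 0

theorem bv_true {b : Prop} (h : b) : bv b = 1 := by unfold bv; rw [if_pos h]
theorem bv_false {b : Prop} (h : ¬b) : bv b = 0 := by unfold bv; rw [if_neg h]

theorem bv_norm (b : Prop) : ‖bv b‖ ≤ 1 := by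
  by_cases h : b
  · rw [bv_true h]; simp
  · rw [bv_false h]; simp

theorem bv_and (b b' : Prop) : bv (b ∧ b') = bv b * bv b' := by
  by_cases h : b
  · by_cases h' : b'
    · rw [bv_true ⟨h, h'⟩, bv_true h, bv_true h', one_mul]
    · rw [bv_false (fun x => h' x.2), bv_false h', mul_zero]
  · rw [bv_false (fun x => h x.1), bv_false h, zero_mul]

theorem bv_not (b : Prop) : bv (¬b) = 1 - bv b := by
  by_cases h : b
  · rw [bv_false (not_not.2 h), bv_true h, sub_self]
  · rw [bv_true h, bv_false h, sub_zero]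

/-- `z` is the truth value `b` up to `E - 1` -/
def Nb (E : ℝ) (z : ℂ) (b : Prop) : Prop := 1 ≤ E ∧ ‖z - bv b‖ ≤ E - 1

theorem Nb.mono {E E' : ℝ} {z : ℂ} {b : Prop} (h : Nb E z b) (hE : E ≤ E') : Nb E' z b :=
  ⟨h.1.trans hE, h.2.trans (by linarith)⟩

theorem Nb.congr {E : ℝ} {z : ℂ} {b b' : Prop} (h : Nb E z b) (hb : b ↔ b') : Nb E z b' := by
  rwa [← propext hb]

theorem Nb.not {E : ℝ} {z : ℂ} {b : Prop} (h : Nb E z b) : Nb E (1 - z) (¬b) := by
  refine ⟨h.1, ?_⟩
  rw [bv_not]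
  have : 1 - z - (1 - bv b) = -(z - bv b) := by ring
  rw [this, norm_neg]
  exact h.2

theorem Nb.norm_le {E : ℝ} {z : ℂ} {b : Prop} (h : Nb E z b) : ‖z‖ ≤ E := by
  have h1 := norm_add_le (z - bv b) (bv b)
  rw [sub_add_cancel] at h1
  have h2 := bv_norm b
  linarith [h.2]

theorem Nb.mul {E E' : ℝ} {z z' : ℂ} {b b' : Prop} (h : Nb E z b) (h' : Nb E' z' b') :
    Nb (E * E') (z * z') (b ∧ b') := by
  have h1 := h.1
  have h1' := h'.1
  refine ⟨by nlinarith, ?_⟩
  rw [bv_and]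
  have e : z * z' - bv b * bv b' = (z - bv b) * z' + bv b * (z' - bv b') := by ring
  rw [e]
  calc ‖(z - bv b) * z' + bv b * (z' - bv b')‖ ≤ ‖(z - bv b) * z'‖ + ‖bv b * (z' - bv b')‖ :=
        norm_add_le _ _
    _ = ‖z - bv b‖ * ‖z'‖ + ‖bv b‖ * ‖z' - bv b'‖ := by rw [norm_mul, norm_mul]
    _ ≤ (E - 1) * E' + 1 * (E' - 1) := by
        have := h.2
        have := h'.2
        have := h'.norm_le
        have := bv_norm b
        gcongr
    _ = E * E' - 1 := by ring

theorem Nb.prod {ι : Type*} {E : ℝ} (s : Finset ι) {z : ι → ℂ} {b : ι → Prop}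
    (h : ∀ a ∈ s, Nb E (z a) (b a)) : Nb (E ^ s.card) (∏ a ∈ s, z a) (∀ a ∈ s, b a) := by
  classical
  induction s using Finset.induction_on with
  | empty =>
    refine ⟨by simp, ?_⟩
    rw [bv_true (by simp)]
    simp
  | insert a s ha ih =>
    rw [prod_insert ha, card_insert_of_notMem ha, pow_succ']
    have h1 := (h a (mem_insert_self a s)).mul (ih fun x hx => h x (mem_insert_of_mem hx))
    refine h1.congr ?_
    simp

theorem Nb.sum {ι : Type*} {E : ℝ} (s : Finset ι) {z : ι → ℂ} {b : ι → Prop} [DecidablePred b]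
    (h : ∀ a ∈ s, Nb E (z a) (b a)) :
    ‖∑ a ∈ s, z a - ((s.filter b).card : ℂ)‖ ≤ s.card * (E - 1) := by
  have e : ((s.filter b).card : ℂ) = ∑ a ∈ s, bv (b a) := by
    rw [card_filter]
    push_cast
    refine sum_congr rfl fun a _ => ?_
    by_cases hb : b a
    · rw [bv_true hb, if_pos hb]
    · rw [bv_false hb, if_neg hb]
  rw [e, ← sum_sub_distrib]
  calc ‖∑ a ∈ s, (z a - bv (b a))‖ ≤ ∑ a ∈ s, ‖z a - bv (b a)‖ := norm_sum_le _ _
    _ ≤ ∑ _a ∈ s, (E - 1) := sum_le_sum fun a ha => (h a ha).2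
    _ = _ := by rw [sum_const, nsmul_eq_mul]

/-! ### thresholds -/

/-- the seed as a real number -/
noncomputable def aR (V k : ℕ) : ℝ := 1 + (k : ℝ) / (2 * V)

theorem seedA_eqq (V k : ℕ) : seedA V k = ((aR V k : ℝ) : ℂ) := by
  unfold seedA aR
  push_cast
  rfl

theorem aR_geq {V k : ℕ} : 1 ≤ aR V k := by
  unfold aR
  have : 0 ≤ (k : ℝ) / (2 * V) := by positivity
  linarith

theorem aR_ltq {V k : ℕ} (h : k < V) : aR V k < 3 / 2 := by
  unfold aR
  have hV : (0 : ℝ) < V := by exact_mod_cast (by omega : 0 < V)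
  have hk : (k : ℝ) < V := by exact_mod_cast h
  have : (k : ℝ) / (2 * V) < 1 / 2 := by
    rw [div_lt_div_iff₀ (by positivity) (by norm_num)]
    linarith
  linarith

theorem norm_seedA_mul (V k : ℕ) (x : ℂ) : ‖seedA V k * x‖ = aR V k * ‖x‖ := by
  rw [seedA_eqq, norm_mul, Complex.norm_real, Real.norm_eq_abs,
    abs_of_nonneg (le_trans zero_le_one aR_geq)]

/-- the seed `k` is good for the number `x` -/
def Gd (V k : ℕ) (x : ℂ) : Prop := 1 / (8 * (V : ℝ)) ≤ |‖seedA V k * x‖ - 1|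

/-- at most one bad seed -/
theorem bad_unique {V : ℕ} (hV : 1 ≤ V) {x : ℂ} {k k' : ℕ} (hk : k < V) (hk' : k' < V)
    (h : ¬Gd V k x) (h' : ¬Gd V k' x) : k = k' := by
  unfold Gd at h h'
  rw [not_le, norm_seedA_mul, abs_lt] at h h'
  have hV0 : (0 : ℝ) < V := by exact_mod_cast hV
  have hV1 : (1 : ℝ) ≤ V := by exact_mod_cast hV
  by_contra hne
  wlog hlt : k < k' generalizing k k'
  · exact this hk' hk h' h (Ne.symm hne) (by omega)
  have hx0 : 0 ≤ ‖x‖ := norm_nonneg x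
  set e : ℝ := 1 / (8 * (V : ℝ)) with he
  have he0 : e * (8 * V) = 1 := by rw [he]; field_simp
  have he1 : 0 < e := by positivity
  have h1 : (k : ℝ) + 1 ≤ k' := by exact_mod_cast hlt
  have h2 := aR_ltq hk
  -- step
  have h3 : aR V k' * ‖x‖ - aR V k * ‖x‖ ≥ ‖x‖ * (4 * e) := by
    have : aR V k' - aR V k = ((k' : ℝ) - k) * (4 * e) := by
      unfold aR
      rw [he]
      field_simp
      ring
    calc aR V k' * ‖x‖ - aR V k * ‖x‖ = ((k' : ℝ) - k) * (4 * e) * ‖x‖ := by rw [← this]; ring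
      _ ≥ 1 * (4 * e) * ‖x‖ := by gcongr; linarith
      _ = _ := by ring
  have h4 : ‖x‖ * (4 * e) < 2 * e := by linarith [h.1, h'.2]
  have h5 : ‖x‖ < 1 / 2 := by
    by_contra hcon
    push Not at hcon
    nlinarith
  have h6 : 1 - e < 3 / 4 := by
    have : aR V k * ‖x‖ ≤ 3 / 2 * (1 / 2) := by gcongr
    linarith [h.1]
  have h7 : e ≤ 1 / 8 := by
    rw [he]
    rw [div_le_div_iff₀ (by positivity) (by norm_num)]
    linarith
  linarith

open Classical in
theorem bad_card {V : ℕ} (hV : 1 ≤ V) (F : Finset ℂ) :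
    ((range V).filter (fun k => ∃ x ∈ F, ¬Gd V k x)).card ≤ F.card := by
  have h1 : (range V).filter (fun k => ∃ x ∈ F, ¬Gd V k x) ⊆
      F.biUnion (fun x => (range V).filter (fun k => ¬Gd V k x)) := by
    intro k hk
    rw [mem_filter] at hk
    obtain ⟨hk, x, hx, hb⟩ := hk
    rw [mem_biUnion]
    exact ⟨x, hx, mem_filter.2 ⟨hk, hb⟩⟩
  refine (card_le_card h1).trans (card_biUnion_le.trans ?_)
  calc ∑ x ∈ F, ((range V).filter (fun k => ¬Gd V k x)).card ≤ ∑ _x ∈ F, 1 := by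
        refine sum_le_sum fun x _ => card_le_one.2 fun a ha b hb => ?_
        rw [mem_filter, mem_range] at ha hb
        exact bad_unique hV ha.1 hb.1 ha.2 hb.2
    _ = F.card := by simp

/-- powers far from 1 -/
theorem pow_small {V K M : ℕ} (hV : 1 ≤ V) (hM : 8 * V * K ≤ M) {r : ℝ} (hr0 : 0 ≤ r)
    (hr : r ≤ 1 - 1 / (8 * (V : ℝ))) : r ^ M ≤ 1 / 2 ^ K := by
  have hV0 : (0 : ℝ) < V := by exact_mod_cast hV
  set e : ℝ := 1 / (8 * (V : ℝ)) with he
  have he1 : 0 < e := by positivity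
  have hr1 : r ≤ 1 := by linarith
  have h8 : r ^ (8 * V) ≤ 1 / 2 := by
    have h1 : r * (1 + e) ≤ 1 := by nlinarith
    have h2 : (1 + e) ^ (8 * V) ≥ 2 := by
      have := one_add_mul_le_pow (a := e) (by linarith) (8 * V)
      have h3 : ((8 * V : ℕ) : ℝ) * e = 1 := by
        rw [he]; push_cast; field_simp
      linarith
    have h3 : (r * (1 + e)) ^ (8 * V) ≤ 1 := pow_le_one₀ (by positivity) h1
    rw [mul_pow] at h3
    have h4 : 0 ≤ r ^ (8 * V) := by positivity
    nlinarith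
  calc r ^ M ≤ r ^ (8 * V * K) := pow_le_pow_of_le_one hr0 hr1 hM
    _ = (r ^ (8 * V)) ^ K := by rw [pow_mul]
    _ ≤ (1 / 2) ^ K := by gcongr
    _ = _ := by rw [one_div_pow]

theorem pow_big {V K M : ℕ} (hV : 1 ≤ V) (hM : 8 * V * K ≤ M) {r : ℝ}
    (hr : 1 + 1 / (8 * (V : ℝ)) ≤ r) : 2 ^ K ≤ r ^ M := by
  have hV0 : (0 : ℝ) < V := by exact_mod_cast hV
  set e : ℝ := 1 / (8 * (V : ℝ)) with he
  have he1 : 0 < e := by positivity
  have hr1 : 1 ≤ r := by linarith
  have h8 : 2 ≤ r ^ (8 * V) := by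
    have h2 : (1 + e) ^ (8 * V) ≥ 2 := by
      have := one_add_mul_le_pow (a := e) (by linarith) (8 * V)
      have h3 : ((8 * V : ℕ) : ℝ) * e = 1 := by
        rw [he]; push_cast; field_simp
      linarith
    exact h2.trans (pow_le_pow_left₀ (by linarith) hr _)
  calc (2 : ℝ) ^ K ≤ (r ^ (8 * V)) ^ K := by gcongr
    _ = r ^ (8 * V * K) := (pow_mul _ _ _).symm
    _ ≤ r ^ M := pow_le_pow_right₀ hr1 hM

theorem thr_small {M : ℕ} {A x : ℂ} {η : ℝ} (h : ‖A * x‖ ^ M ≤ η) (hη : η ≤ 1 / 2) :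
    ‖thr A M x - 1‖ ≤ 2 * η ∧ 1 + (A * x) ^ M ≠ 0 := by
  have h1 : ‖(A * x) ^ M‖ ≤ η := by rwa [norm_pow]
  set z := (A * x) ^ M with hz
  have h2 : 1 - η ≤ ‖1 + z‖ := by
    have := norm_sub_norm_le (1 : ℂ) (-z)
    rw [norm_one, norm_neg, sub_neg_eq_add] at this
    linarith
  have h3 : 0 < ‖1 + z‖ := by linarith
  have h4 : 1 + z ≠ 0 := norm_pos_iff.1 h3
  refine ⟨?_, h4⟩
  unfold thr
  rw [← hz]
  have h5 : 1 / (1 + z) - 1 = -z / (1 + z) := by field_simp; ring
  rw [h5, norm_div, norm_neg, div_le_iff₀ h3]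
  have h6 : 0 ≤ ‖z‖ := norm_nonneg z
  nlinarith

theorem thr_big {M : ℕ} {A x : ℂ} {B : ℝ} (hM : 1 ≤ M) (hA : 1 ≤ ‖A‖) (h : B ≤ ‖A * x‖ ^ (M - 1))
    (hr : 1 ≤ ‖A * x‖) (hB : 2 ≤ B) :
    ‖thr A M x‖ ≤ 2 / B ∧ ‖x * thr A M x‖ ≤ 2 / B ∧ 1 + (A * x) ^ M ≠ 0 := by
  set r := ‖A * x‖ with hrdef
  have h1 : ‖(A * x) ^ M‖ = r * r ^ (M - 1) := by
    rw [norm_pow, ← pow_succ']
    congr 1
    omega
  set z := (A * x) ^ M with hz
  have h2 : ‖z‖ - 1 ≤ ‖1 + z‖ := by
    have := norm_sub_norm_le z (-1 : ℂ)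
    rw [norm_neg, norm_one, sub_neg_eq_add, add_comm z 1] at this
    exact this
  have hB0 : 0 < B := by linarith
  have h3 : r * (B / 2) ≤ ‖1 + z‖ := by
    rw [h1] at h2
    have : r * B ≤ r * r ^ (M - 1) := by gcongr
    nlinarith
  have h30 : 0 < r * (B / 2) := by positivity
  have h31 : 0 < ‖1 + z‖ := by linarith
  have h4 : 1 + z ≠ 0 := norm_pos_iff.1 h31
  have hx : ‖x‖ ≤ r := by
    rw [hrdef, norm_mul]
    exact le_mul_of_one_le_left (norm_nonneg x) hA
  refine ⟨?_, ?_, h4⟩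
  · unfold thr
    rw [← hz, norm_div, norm_one, div_le_div_iff₀ h31 hB0]
    nlinarith
  · unfold thr
    rw [← hz, mul_one_div, norm_div, div_le_div_iff₀ h31 hB0]
    calc ‖x‖ * B ≤ r * B := by gcongr
      _ = 2 * (r * (B / 2)) := by ring
      _ ≤ 2 * ‖1 + z‖ := by gcongr

/-- the basic tolerance -/
noncomputable def dl (K : ℕ) : ℝ := 4 / 2 ^ (K ^ 2)

theorem dl_pos (K : ℕ) : 0 < dl K := by unfold dl; positivity

/-- thresholds are approximately Boolean for good seeds -/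
theorem thr_gd {V K M k : ℕ} (hV : 1 ≤ V) (hK : 2 ≤ K) (hM : 8 * V * K ^ 2 ≤ M) {x : ℂ}
    (h : Gd V k x) :
    Nb (1 + dl K) (thr (seedA V k) M x) (‖seedA V k * x‖ < 1) ∧
      ‖x * (thr (seedA V k) M x - bv (‖seedA V k * x‖ < 1))‖ ≤ dl K ∧
      1 + (seedA V k * x) ^ M ≠ 0 := by
  have hV0 : (0 : ℝ) < V := by exact_mod_cast hV
  have hd := dl_pos K
  have h2K : (4 : ℝ) ≤ 2 ^ (K ^ 2) := by
    calc (4 : ℝ) = 2 ^ 2 := by norm_num
      _ ≤ 2 ^ (K ^ 2) := pow_le_pow_right₀ (by norm_num) (by nlinarith)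
  have hA1 : 1 ≤ ‖seedA V k‖ := by
    have := norm_seedA_mul V k 1
    rw [mul_one, norm_one, mul_one] at this
    rw [this]
    exact aR_geq
  have hMK : 1 ≤ K ^ 2 := by nlinarith
  have hM1 : 8 * V * (K ^ 2 - 1) ≤ M - 1 := by
    have h1 : 8 * V * (K ^ 2 - 1) = 8 * V * K ^ 2 - 8 * V := by
      rw [Nat.mul_sub, mul_one]
    omega
  unfold Gd at h
  have he : 0 < 1 / (8 * (V : ℝ)) := by positivity
  rcases le_abs.1 h with h1 | h1
  · -- big
    have hr : 1 + 1 / (8 * (V : ℝ)) ≤ ‖seedA V k * x‖ := by linarith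
    have hb := pow_big hV hM1 hr
    have hnot : ¬‖seedA V k * x‖ < 1 := by linarith
    have hB : (2 : ℝ) ≤ 2 ^ (K ^ 2 - 1) := by
      calc (2 : ℝ) = 2 ^ 1 := by norm_num
        _ ≤ 2 ^ (K ^ 2 - 1) := pow_le_pow_right₀ (by norm_num) (by
          have : 4 ≤ K ^ 2 := by nlinarith
          omega)
    have hM' : 1 ≤ M := by
      have : 1 ≤ 8 * V * K ^ 2 := by
        have : 1 * 1 ≤ 8 * V * K ^ 2 := Nat.mul_le_mul (by omega) hMK
        omega
      omega
    have hT := thr_big hM' hA1 hb (by linarith) hB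
    have hdl : 2 / (2 : ℝ) ^ (K ^ 2 - 1) = dl K := by
      unfold dl
      have : (2 : ℝ) ^ (K ^ 2) = 2 * 2 ^ (K ^ 2 - 1) := by
        rw [← pow_succ']
        congr 1
        omega
      rw [this]
      field_simp
      norm_num
    rw [hdl] at hT
    rw [bv_false hnot]
    refine ⟨⟨by linarith, ?_⟩, ?_, hT.2.2⟩
    · rw [bv_false hnot, sub_zero]
      linarith [hT.1]
    · rw [sub_zero]
      exact hT.2.1
  · have hr : ‖seedA V k * x‖ ≤ 1 - 1 / (8 * (V : ℝ)) := by linarith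
    have hs := pow_small hV hM (norm_nonneg _) hr
    have hlt : ‖seedA V k * x‖ < 1 := by linarith
    have hT := thr_small hs (by
      rw [div_le_div_iff₀ (by positivity) (by norm_num)]
      linarith)
    have hdl : 2 * (1 / (2 : ℝ) ^ (K ^ 2)) ≤ dl K := by
      unfold dl
      rw [mul_one_div]
      gcongr
      norm_num
    rw [bv_true hlt]
    refine ⟨⟨by linarith, ?_⟩, ?_, hT.2⟩
    · rw [bv_true hlt]
      linarith [hT.1]
    · rw [norm_mul]
      have hx : ‖x‖ ≤ 1 := by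
        have h3 : ‖x‖ ≤ ‖seedA V k * x‖ := by
          rw [norm_mul]
          exact le_mul_of_one_le_left (norm_nonneg x) hA1
        linarith
      calc ‖x‖ * ‖thr (seedA V k) M x - 1‖ ≤ 1 * (2 * (1 / 2 ^ (K ^ 2))) := by
            gcongr
            exact hT.1
        _ ≤ dl K := by linarith

/-- counting of good triples -/
theorem count3 {V : ℕ} (hV : 0 < V) (B1 : ℕ → Prop) (B2 : ℕ → ℕ → Prop) (B3 : ℕ → Prop)
    [DecidablePred B1] [∀ k, DecidablePred (B2 k)] [DecidablePred B3]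
    (h1 : 100 * ((range V).filter B1).card ≤ V)
    (h2 : ∀ k, 100 * ((range V).filter (B2 k)).card ≤ V)
    (h3 : 100 * ((range V).filter B3).card ≤ V) (Q : ℕ × ℕ × ℕ → Prop) [DecidablePred Q]
    (hQ : ∀ k₁ < V, ∀ k₂ < V, ∀ k₃ < V, ¬B1 k₁ → ¬B2 k₁ k₂ → ¬B3 k₃ → Q (k₁, k₂, k₃)) :
    V ^ 3 < 2 * ((range V ×ˢ range V ×ˢ range V).filter Q).card := by
  classical
  set S := range V ×ˢ range V ×ˢ range V with hS
  have hc : S.card = V ^ 3 := by
    rw [hS, card_product, card_product, card_range]; ring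
  have hsub : S.filter (fun x => ¬Q x) ⊆
      ((range V).filter B1 ×ˢ range V ×ˢ range V) ∪
      ((range V).sigma (fun k => (range V).filter (B2 k) ×ˢ range V)).image
        (fun x => (x.1, x.2.1, x.2.2)) ∪
      (range V ×ˢ range V ×ˢ (range V).filter B3) := by
    rintro ⟨a, b, c⟩ hx
    simp only [hS, mem_filter, mem_product, mem_range] at hx
    obtain ⟨⟨ha, hb, hc⟩, hx⟩ := hx
    simp only [mem_union, mem_product, mem_filter, mem_range, mem_image, mem_sigma]
    by_cases p1 : B1 a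
    · exact Or.inl (Or.inl ⟨⟨ha, p1⟩, hb, hc⟩)
    by_cases p2 : B2 a b
    · exact Or.inl (Or.inr ⟨⟨a, b, c⟩, ⟨ha, ⟨hb, p2⟩, hc⟩, rfl⟩)
    by_cases p3 : B3 c
    · exact Or.inr ⟨ha, hb, hc, p3⟩
    exact absurd (hQ a ha b hb c hc p1 p2 p3) hx
  have hcard : 100 * (S.filter (fun x => ¬Q x)).card ≤ 3 * V ^ 3 := by
    have e1 := (card_le_card hsub).trans (card_union_le _ _)
    have e2 := card_union_le ((range V).filter B1 ×ˢ range V ×ˢ range V)
      (((range V).sigma (fun k => (range V).filter (B2 k) ×ˢ range V)).image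
        (fun x => ((x.1, x.2.1, x.2.2) : ℕ × ℕ × ℕ)))
    have e3 : ((range V).filter B1 ×ˢ range V ×ˢ range V).card =
        ((range V).filter B1).card * (V * V) := by
      rw [card_product, card_product, card_range]
    have e4 : (range V ×ˢ range V ×ˢ (range V).filter B3).card =
        V * (V * ((range V).filter B3).card) := by
      rw [card_product, card_product, card_range]
    have e5 : (((range V).sigma (fun k => (range V).filter (B2 k) ×ˢ range V)).image
        (fun x => ((x.1, x.2.1, x.2.2) : ℕ × ℕ × ℕ))).card ≤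
        ∑ k ∈ range V, ((range V).filter (B2 k)).card * V := by
      refine card_image_le.trans ?_
      rw [card_sigma]
      refine sum_le_sum fun k _ => ?_
      rw [card_product, card_range]
    have e6 : 100 * ∑ k ∈ range V, ((range V).filter (B2 k)).card * V ≤ V ^ 3 := by
      rw [mul_sum]
      calc ∑ k ∈ range V, 100 * (((range V).filter (B2 k)).card * V) ≤ ∑ _k ∈ range V, V * V :=
            sum_le_sum fun k _ => by
              rw [← mul_assoc]
              exact Nat.mul_le_mul_right _ (h2 k)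
        _ = V ^ 3 := by rw [sum_const, card_range, smul_eq_mul]; ring
    have e7 : 100 * (((range V).filter B1).card * (V * V)) ≤ V ^ 3 := by
      rw [← mul_assoc]
      calc 100 * ((range V).filter B1).card * (V * V) ≤ V * (V * V) := Nat.mul_le_mul_right _ h1
        _ = V ^ 3 := by ring
    have e8 : 100 * (V * (V * ((range V).filter B3).card)) ≤ V ^ 3 := by
      calc 100 * (V * (V * ((range V).filter B3).card)) =
            (V * V) * (100 * ((range V).filter B3).card) := by ring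
        _ ≤ (V * V) * V := Nat.mul_le_mul_left _ h3
        _ = V ^ 3 := by ring
    omega
  have htot := card_filter_add_card_filter_not (s := S) Q
  have hV3 : 0 < V ^ 3 := by positivity
  omega

end Crest.Agent.CHR
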