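import Crest.Agent.CHR.TqA

/-!
# Row 316, module M5: the reality test of one coordinate.
-/

set_option autoImplicit false

namespace Crest.Agent.CHR

open Finset

/-- real radii -/
noncomputable def Par.RR (p : Par) (t : ℕ) : ℝ :=
  32 * p.N * 2 ^ p.P / (1 + 1 / (64 * (p.N : ℝ))) ^ t

theorem Par.R_eqq (p : Par) (t : ℕ) : p.R t = ((p.RR t : ℝ) : ℂ) := by
  unfold Par.R Par.RR
  push_cast
  rfl

theorem Par.RR_pos {p : Par} (hN : 1 ≤ p.N) (t : ℕ) : 0 < p.RR t := by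
  unfold Par.RR
  have : (0 : ℝ) < p.N := by exact_mod_cast hN
  positivity

theorem Par.RR_zero (p : Par) : p.RR 0 = 32 * p.N * 2 ^ p.P := by
  unfold Par.RR
  rw [pow_zero, div_one]

theorem Par.RR_succ {p : Par} (hN : 1 ≤ p.N) (t : ℕ) :
    p.RR t = p.RR (t + 1) * (1 + 1 / (64 * (p.N : ℝ))) := by
  unfold Par.RR
  have : (0 : ℝ) < p.N := by exact_mod_cast hN
  have h1 : (0 : ℝ) < 1 + 1 / (64 * (p.N : ℝ)) := by positivity
  rw [pow_succ]
  field_simp

theorem two_mul_le_two_pow {n : ℕ} (hn : 1 ≤ n) : 2 * n ≤ 2 ^ n := by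
  induction n, hn using Nat.le_induction with
  | base => norm_num
  | succ n hn ih =>
    rw [pow_succ]
    omega

theorem Par.RR_T {p : Par} (hN : 1 ≤ p.N) : p.RR p.T ≤ (1 / 2) ^ p.P := by
  have hN0 : (0 : ℝ) < p.N := by exact_mod_cast hN
  unfold Par.RR Par.T
  have h2 : (2 : ℝ) ≤ (1 + 1 / (64 * (p.N : ℝ))) ^ (64 * p.N) := by
    have := one_add_mul_le_pow (a := 1 / (64 * (p.N : ℝ))) (by
      have : 0 < 1 / (64 * (p.N : ℝ)) := by positivity
      linarith) (64 * p.N)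
    have h3 : ((64 * p.N : ℕ) : ℝ) * (1 / (64 * (p.N : ℝ))) = 1 := by
      push_cast; field_simp
    linarith
  have h3 : (2 : ℝ) ^ (2 * p.P + p.N + 4) ≤
      (1 + 1 / (64 * (p.N : ℝ))) ^ (64 * p.N * (2 * p.P + p.N + 4)) := by
    rw [pow_mul]
    gcongr
  have h4 : (2 : ℝ) * p.N ≤ 2 ^ p.N := by exact_mod_cast two_mul_le_two_pow hN
  rw [div_le_iff₀ (by positivity)]
  calc 32 * (p.N : ℝ) * 2 ^ p.P = 16 * (2 * p.N) * 2 ^ p.P := by ring
    _ ≤ 16 * 2 ^ p.N * 2 ^ p.P := by gcongr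
    _ = (1 / 2) ^ p.P * 2 ^ (2 * p.P + p.N + 4) := by
        rw [pow_add, pow_add, two_mul, pow_add]
        have : (1 / 2 : ℝ) ^ p.P * 2 ^ p.P = 1 := by rw [← mul_pow]; norm_num
        calc (16 : ℝ) * 2 ^ p.N * 2 ^ p.P = 16 * 2 ^ p.N * 2 ^ p.P * 1 := by ring
          _ = 16 * 2 ^ p.N * 2 ^ p.P * ((1 / 2 : ℝ) ^ p.P * 2 ^ p.P) := by rw [this]
          _ = _ := by ring
    _ ≤ _ := by gcongr

/-- one coordinate -/
structure Coord (p : Par) (α : Fin p.N → ℂ) : Prop where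
  N1 : 1 ≤ p.N
  conj : ∃ c : Equiv.Perm (Fin p.N), ∀ i, α (c i) = (starRingEnd ℂ) (α i)
  bd : ∀ i, ‖α i‖ ≤ 2 ^ p.P
  gap : ∀ i j, α i = α j ∨ (1 / 2 : ℝ) ^ p.P ≤ ‖α i - α j‖

/-- the points at distance `< r` from `α i` -/
noncomputable def ins {p : Par} (α : Fin p.N → ℂ) (r : ℝ) (i : Fin p.N) : Finset (Fin p.N) :=
  univ.filter (fun j => ‖α j - α i‖ < r)

theorem mem_ins {p : Par} {α : Fin p.N → ℂ} {r : ℝ} {i j : Fin p.N} :
    j ∈ ins α r i ↔ ‖α j - α i‖ < r := by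
  unfold ins
  simp

theorem ins_card_pos {p : Par} {α : Fin p.N → ℂ} {r : ℝ} (hr : 0 < r) (i : Fin p.N) :
    1 ≤ (ins α r i).card :=
  card_pos.2 ⟨i, mem_ins.2 (by rw [sub_self, norm_zero]; exact hr)⟩

/-- the ideal value of `wT` -/
noncomputable def wIq {p : Par} (α : Fin p.N → ℂ) (R r : ℝ) (i : Fin p.N) : ℂ :=
  (∑ j ∈ ins α r i, (α i - α j)) / (R * ((ins α r i).card : ℝ))

theorem quot_close {R n e : ℝ} (hR : 0 < R) (hn : 1 ≤ n) (he : e ≤ 1 / 2) {D Z S : ℂ}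
    (hD : ‖D - n‖ ≤ e) (hZ : ‖Z - S‖ ≤ R * e) (hS : ‖S‖ ≤ n * R) :
    D ≠ 0 ∧ ‖Z / (R * D) - S / (R * n)‖ ≤ 4 * e := by
  have hn0 : 0 < n := by linarith
  have he0 : 0 ≤ e := (norm_nonneg _).trans hD
  have h1 : n / 2 ≤ ‖D‖ := by
    have h := norm_sub_norm_le (n : ℂ) ((n : ℂ) - D)
    rw [sub_sub_cancel, norm_sub_rev (n : ℂ) D, Complex.norm_real, Real.norm_eq_abs,
      abs_of_pos hn0] at h
    linarith
  have hD0 : 0 < ‖D‖ := by linarith
  have hDne : D ≠ 0 := norm_pos_iff.1 hD0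
  refine ⟨hDne, ?_⟩
  have hRc : (R : ℂ) ≠ 0 := by exact_mod_cast hR.ne'
  have hnc : (n : ℂ) ≠ 0 := by exact_mod_cast hn0.ne'
  have e1 : Z / (R * D) - S / (R * n) = ((Z - S) * n - S * (D - n)) / (R * D * n) := by
    field_simp
    ring
  rw [e1, norm_div, norm_mul, norm_mul, Complex.norm_real, Complex.norm_real, Real.norm_eq_abs,
    Real.norm_eq_abs, abs_of_pos hR, abs_of_pos hn0, div_le_iff₀ (by positivity)]
  calc ‖(Z - S) * n - S * (D - n)‖ ≤ ‖(Z - S) * n‖ + ‖S * (D - n)‖ := norm_sub_le _ _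
    _ = ‖Z - S‖ * n + ‖S‖ * ‖D - n‖ := by
        rw [norm_mul, norm_mul, Complex.norm_real, Real.norm_eq_abs, abs_of_pos hn0]
    _ ≤ (R * e) * n + (n * R) * e := by gcongr
    _ ≤ 4 * e * (R * (n / 2) * n) := by
        have : R * e * n * 1 ≤ R * e * n * n := by gcongr
        nlinarith
    _ ≤ 4 * e * (R * ‖D‖ * n) := by gcongr

theorem in_iff {p : Par} (hN : 1 ≤ p.N) (α : Fin p.N → ℂ) (V k t : ℕ) (i j : Fin p.N) :
    ‖seedA V k * ((α j - α i) / p.R t)‖ < 1 ↔ ‖α j - α i‖ < p.RR t / aR V k := by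
  have hR := p.RR_pos hN t
  have ha : 0 < aR V k := lt_of_lt_of_le one_pos aR_geq
  rw [norm_seedA_mul, p.R_eqq, norm_div, Complex.norm_real, Real.norm_eq_abs, abs_of_pos hR,
    lt_div_iff₀ ha, ← mul_div_assoc, div_lt_one hR, mul_comm]

theorem wT_close {p : Par} (hN : 1 ≤ p.N) {V K k : ℕ} (hV : 1 ≤ V) (hK : 2 ≤ K)
    (hM : 8 * V * K ^ 2 ≤ p.M) (hδ : p.N * dl K ≤ 1 / 2) (α : Fin p.N → ℂ) (t : ℕ) (i : Fin p.N)
    (hg : ∀ j, Gd V k ((α j - α i) / p.R t)) :
    ∑ j, thr (seedA V k) p.M ((α j - α i) / p.R t) ≠ 0 ∧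
      ‖wT p (seedA V k) α t i - wIq α (p.RR t) (p.RR t / aR V k) i‖ ≤ 4 * (p.N * dl K) := by
  classical
  have hR := p.RR_pos hN t
  have ha1 : 1 ≤ aR V k := aR_geq
  have ha : 0 < aR V k := lt_of_lt_of_le one_pos ha1
  have hd := dl_pos K
  set r := p.RR t / aR V k with hr
  have hr0 : 0 < r := div_pos hR ha
  have hrR : r ≤ p.RR t := div_le_self hR.le ha1
  have hT := fun j => thr_gd hV hK hM (hg j)
  have hcard : (ins α r i).card = (univ.filter (fun j =>
      ‖seedA V k * ((α j - α i) / p.R t)‖ < 1)).card := by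
    unfold ins
    congr 1
    ext j
    simp only [mem_filter, mem_univ, true_and]
    exact (in_iff hN α V k t i j).symm
  have hD : ‖∑ j, thr (seedA V k) p.M ((α j - α i) / p.R t) - (((ins α r i).card : ℝ) : ℂ)‖ ≤
      p.N * dl K := by
    have := Nb.sum (univ : Finset (Fin p.N)) (fun j _ => (hT j).1)
    rw [← hcard, card_univ, Fintype.card_fin] at this
    push_cast
    refine this.trans (le_of_eq ?_)
    ring
  have hRc : ((p.RR t : ℝ) : ℂ) ≠ 0 := by exact_mod_cast hR.ne'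
  have hZ : ‖∑ j, (α i - α j) * thr (seedA V k) p.M ((α j - α i) / p.R t) -
      ∑ j ∈ ins α r i, (α i - α j)‖ ≤ p.RR t * (p.N * dl K) := by
    have e1 : ∑ j ∈ ins α r i, (α i - α j) =
        ∑ j, (α i - α j) * bv (‖seedA V k * ((α j - α i) / p.R t)‖ < 1) := by
      unfold ins
      rw [sum_filter]
      refine sum_congr rfl fun j _ => ?_
      by_cases hj : ‖α j - α i‖ < r
      · rw [if_pos hj, bv_true ((in_iff hN α V k t i j).2 hj), mul_one]
      · rw [if_neg hj, bv_false (fun hh => hj ((in_iff hN α V k t i j).1 hh)), mul_zero]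
    rw [e1, ← sum_sub_distrib]
    calc ‖∑ j, ((α i - α j) * thr (seedA V k) p.M ((α j - α i) / p.R t) -
          (α i - α j) * bv (‖seedA V k * ((α j - α i) / p.R t)‖ < 1))‖
        ≤ ∑ j, ‖(α i - α j) * thr (seedA V k) p.M ((α j - α i) / p.R t) -
          (α i - α j) * bv (‖seedA V k * ((α j - α i) / p.R t)‖ < 1)‖ := norm_sum_le _ _
      _ ≤ ∑ _j : Fin p.N, p.RR t * dl K := by
          refine sum_le_sum fun j _ => ?_
          have e2 : (α i - α j) * thr (seedA V k) p.M ((α j - α i) / p.R t) -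
              (α i - α j) * bv (‖seedA V k * ((α j - α i) / p.R t)‖ < 1) =
              -((p.RR t : ℝ) : ℂ) * (((α j - α i) / p.R t) *
                (thr (seedA V k) p.M ((α j - α i) / p.R t) -
                bv (‖seedA V k * ((α j - α i) / p.R t)‖ < 1))) := by
            rw [p.R_eqq]
            field_simp
            ring
          rw [e2, norm_mul, norm_neg, Complex.norm_real, Real.norm_eq_abs, abs_of_pos hR]
          gcongr
          exact (hT j).2.1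
      _ = p.RR t * (p.N * dl K) := by
          rw [sum_const, card_univ, Fintype.card_fin, nsmul_eq_mul]
          ring
  have hS : ‖∑ j ∈ ins α r i, (α i - α j)‖ ≤ ((ins α r i).card : ℝ) * p.RR t := by
    calc ‖∑ j ∈ ins α r i, (α i - α j)‖ ≤ ∑ j ∈ ins α r i, ‖α i - α j‖ := norm_sum_le _ _
      _ ≤ ∑ _j ∈ ins α r i, p.RR t := by
          refine sum_le_sum fun j hj => ?_
          rw [norm_sub_rev]
          exact (mem_ins.1 hj).le.trans hrR
      _ = _ := by rw [sum_const, nsmul_eq_mul]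
  have hn : (1 : ℝ) ≤ ((ins α r i).card : ℝ) := by exact_mod_cast ins_card_pos hr0 i
  have hq := quot_close hR hn hδ hD hZ hS
  refine ⟨hq.1, ?_⟩
  have : wT p (seedA V k) α t i = (∑ j, (α i - α j) * thr (seedA V k) p.M ((α j - α i) / p.R t)) /
      ((p.RR t : ℝ) * ∑ j, thr (seedA V k) p.M ((α j - α i) / p.R t)) := by
    unfold wT
    rw [← p.R_eqq]
  rw [this]
  exact hq.2

/-- conjugation symmetric sets have real sums -/
theorem sum_real_of_closed {p : Par} {α : Fin p.N → ℂ} (c : Equiv.Perm (Fin p.N))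
    (hc : ∀ i, α (c i) = (starRingEnd ℂ) (α i)) (s : Finset (Fin p.N)) (hs : ∀ j ∈ s, c j ∈ s) :
    (∑ j ∈ s, α j).im = 0 := by
  have h1 : s.map c.toEmbedding = s := by
    refine eq_of_subset_of_card_le ?_ (by rw [card_map])
    intro x hx
    rw [mem_map] at hx
    obtain ⟨y, hy, rfl⟩ := hx
    exact hs y hy
  have h2 : ∑ j ∈ s, α j = ∑ j ∈ s, (starRingEnd ℂ) (α j) := by
    conv_lhs => rw [← h1]
    rw [sum_map]
    exact sum_congr rfl fun j _ => hc j
  rw [← map_sum] at h2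
  exact Complex.conj_eq_iff_im.1 h2.symm

theorem wI_im {p : Par} {α : Fin p.N → ℂ} (c : Equiv.Perm (Fin p.N))
    (hc : ∀ i, α (c i) = (starRingEnd ℂ) (α i)) {R r : ℝ} (hr : 0 < r) (hR : 0 < R) (i : Fin p.N)
    (hs : ∀ j ∈ ins α r i, c j ∈ ins α r i) :
    (wIq α R r i).im = (α i).im / R := by
  have hn : (1 : ℝ) ≤ ((ins α r i).card : ℝ) := by exact_mod_cast ins_card_pos hr i
  have h1 := sum_real_of_closed c hc _ hs
  unfold wIq
  have e1 : (R : ℂ) * (((ins α r i).card : ℝ) : ℂ) = ((R * ((ins α r i).card : ℝ) : ℝ) : ℂ) := by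
    push_cast; rfl
  rw [e1, Complex.div_ofReal_im, sum_sub_distrib, sum_const, Complex.sub_im, h1, sub_zero,
    nsmul_eq_mul, Complex.mul_im, Complex.natCast_re, Complex.natCast_im]
  field_simp
  ring

theorem wI_norm_le {p : Par} {α : Fin p.N → ℂ} {R r : ℝ} (hr : 0 < r) (hrR : r ≤ R) (i : Fin p.N) :
    ‖wIq α R r i‖ ≤ 1 := by
  have hn : (1 : ℝ) ≤ ((ins α r i).card : ℝ) := by exact_mod_cast ins_card_pos hr i
  have hR : 0 < R := by linarith
  unfold wIq
  rw [norm_div, norm_mul, Complex.norm_real, Complex.norm_real, Real.norm_eq_abs, Real.norm_eq_abs,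
    abs_of_pos hR, abs_of_pos (by linarith), div_le_one (by positivity)]
  calc ‖∑ j ∈ ins α r i, (α i - α j)‖ ≤ ∑ j ∈ ins α r i, ‖α i - α j‖ := norm_sum_le _ _
    _ ≤ ∑ _j ∈ ins α r i, R := by
        refine sum_le_sum fun j hj => ?_
        rw [norm_sub_rev]
        exact (mem_ins.1 hj).le.trans hrR
    _ = _ := by rw [sum_const, nsmul_eq_mul]; ring

theorem norm_conj_sub {z w : ℂ} : ‖(starRingEnd ℂ) z - w‖ = ‖z - (starRingEnd ℂ) w‖ := by
  rw [← Complex.norm_conj, map_sub, Complex.conj_conj]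

theorem norm_sub_conj (z : ℂ) : ‖z - (starRingEnd ℂ) z‖ = 2 * |z.im| := by
  have : z - (starRingEnd ℂ) z = ((2 * z.im : ℝ) : ℂ) * Complex.I := by
    apply Complex.ext <;> simp [two_mul]
  rw [this, norm_mul, Complex.norm_I, mul_one, Complex.norm_real, Real.norm_eq_abs, abs_mul]
  norm_num

/-- window free of points -/
theorem exists_windowq {p : Par} (α : Fin p.N → ℂ) (i : Fin p.N) {y : ℝ} (hy : 0 < y) :
    ∃ j₀ : ℕ, 1 ≤ j₀ ∧ j₀ ≤ p.N ∧ ∀ m, 4 * y ≤ |‖α m - α i‖ - 8 * j₀ * y| := by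
  classical
  by_contra hcon
  push Not at hcon
  -- every window contains a point
  have h1 : ∀ j : Fin p.N, ∃ m, |‖α m - α i‖ - 8 * ((j : ℕ) + 1 : ℕ) * y| < 4 * y := fun j =>
    hcon (j + 1) (by omega) (by omega)
  choose f hf using h1
  have hinj : Function.Injective f := by
    intro a b hab
    have ha := hf a
    have hb := hf b
    rw [hab] at ha
    rw [abs_lt] at ha hb
    by_contra hne
    rcases Nat.lt_or_gt_of_ne (fun h => hne (Fin.ext h) : (a : ℕ) ≠ b) with h | h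
    · have h' : ((a : ℕ) : ℝ) + 1 ≤ ((b : ℕ) : ℝ) := by exact_mod_cast h
      push_cast at ha hb
      nlinarith [ha.1, ha.2, hb.1, hb.2]
    · have h' : ((b : ℕ) : ℝ) + 1 ≤ ((a : ℕ) : ℝ) := by exact_mod_cast h
      push_cast at ha hb
      nlinarith [ha.1, ha.2, hb.1, hb.2]
  have hsurj := Finite.surjective_of_injective hinj
  obtain ⟨a, ha⟩ := hsurj i
  have := hf a
  rw [ha, sub_self, norm_zero, abs_lt] at this
  push_cast at this
  have h0 : (0 : ℝ) ≤ ((a : ℕ) : ℝ) := by positivity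
  nlinarith [this.1]

/-- first radius below a level -/
theorem exists_radiusq {p : Par} (hN : 1 ≤ p.N) {a y : ℝ} (ha1 : 1 ≤ a) (ha2 : a < 3 / 2)
    (hy1 : (1 / 2) ^ p.P ≤ 2 * y) (hy2 : y ≤ 2 ^ p.P) {j₀ : ℕ} (hj1 : 1 ≤ j₀) (hj2 : j₀ ≤ p.N) :
    ∃ t < p.T, 8 * j₀ * y < p.RR t / a ∧ p.RR t / a ≤ (8 * j₀ + 1) * y := by
  classical
  have hN0 : (0 : ℝ) < p.N := by exact_mod_cast hN
  have hN1 : (1 : ℝ) ≤ p.N := by exact_mod_cast hN
  have hj1' : (1 : ℝ) ≤ j₀ := by exact_mod_cast hj1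
  have hj2' : (j₀ : ℝ) ≤ p.N := by exact_mod_cast hj2
  have ha0 : 0 < a := by linarith
  have hP : (0 : ℝ) < (1 / 2) ^ p.P := by positivity
  have hy0 : 0 < y := by linarith
  have hex : ∃ t, p.RR t / a ≤ (8 * j₀ + 1) * y := by
    refine ⟨p.T, ?_⟩
    have h1 := p.RR_T hN
    calc p.RR p.T / a ≤ p.RR p.T := div_le_self (p.RR_pos hN _).le ha1
      _ ≤ (1 / 2) ^ p.P := h1
      _ ≤ 2 * y := hy1
      _ ≤ (8 * j₀ + 1) * y := by nlinarith
  have hT1 : 1 ≤ p.T := by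
    unfold Par.T
    have : 1 * 1 ≤ 64 * p.N * (2 * p.P + p.N + 4) := Nat.mul_le_mul (by omega) (by omega)
    omega
  have hlast : p.RR (p.T - 1) / a ≤ (8 * j₀ + 1) * y := by
    have h0 := p.RR_succ hN (p.T - 1)
    rw [Nat.sub_add_cancel hT1] at h0
    have h1 := p.RR_T hN
    have h2 : 1 / (64 * (p.N : ℝ)) ≤ 1 := by
      rw [div_le_one (by positivity)]
      linarith
    calc p.RR (p.T - 1) / a ≤ p.RR (p.T - 1) := div_le_self (p.RR_pos hN _).le ha1
      _ = p.RR p.T * (1 + 1 / (64 * (p.N : ℝ))) := h0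
      _ ≤ (1 / 2) ^ p.P * (1 + 1) := by
          have := p.RR_pos hN p.T
          gcongr
      _ ≤ (8 * j₀ + 1) * y := by nlinarith
  refine ⟨Nat.find hex, ?_, ?_, Nat.find_spec hex⟩
  · have := Nat.find_min' hex hlast
    omega
  · have hne : Nat.find hex ≠ 0 := by
      intro h0
      have h1 := Nat.find_spec hex
      rw [h0, p.RR_zero, div_le_iff₀ ha0] at h1
      have h2 : (8 * (j₀ : ℝ) + 1) * y * a ≤ (8 * p.N + 1) * 2 ^ p.P * (3 / 2) := by gcongr
      have h3 : (0 : ℝ) < 2 ^ p.P := by positivity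
      nlinarith [mul_le_mul_of_nonneg_right hN1 h3.le]
    obtain ⟨s, hs⟩ := Nat.exists_eq_succ_of_ne_zero hne
    have h1 := Nat.find_min hex (m := s) (by omega)
    push Not at h1
    have hs' : Nat.find hex = s + 1 := hs
    rw [hs']
    rw [p.RR_succ hN s] at h1
    have h4 : 0 < 1 + 1 / (64 * (p.N : ℝ)) := by positivity
    have h5 : (8 * (j₀ : ℝ)) * (1 + 1 / (64 * (p.N : ℝ))) ≤ 8 * j₀ + 1 := by
      have : 8 * (j₀ : ℝ) * (1 / (64 * (p.N : ℝ))) ≤ 1 := by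
        rw [mul_one_div, div_le_one (by positivity)]
        linarith
      linarith
    have h6 : (8 * (j₀ : ℝ)) * y * (1 + 1 / (64 * (p.N : ℝ))) <
        p.RR (s + 1) / a * (1 + 1 / (64 * (p.N : ℝ))) := by
      calc (8 * (j₀ : ℝ)) * y * (1 + 1 / (64 * (p.N : ℝ))) =
            ((8 * (j₀ : ℝ)) * (1 + 1 / (64 * (p.N : ℝ)))) * y := by ring
        _ ≤ (8 * j₀ + 1) * y := by gcongr
        _ < p.RR (s + 1) * (1 + 1 / (64 * (p.N : ℝ))) / a := h1
        _ = _ := by ring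
    exact lt_of_mul_lt_mul_right h6 h4.le

/-- a nonreal point is detected at some radius -/
theorem wI_nonreal {p : Par} {α : Fin p.N → ℂ} (h : Coord p α) {a : ℝ} (ha1 : 1 ≤ a)
    (ha2 : a < 3 / 2) (i : Fin p.N) (hi : (α i).im ≠ 0) :
    ∃ t < p.T, 2 / 27 ≤ p.N * |(wIq α (p.RR t) (p.RR t / a) i).im| := by
  obtain ⟨c, hc⟩ := h.conj
  have hN := h.N1
  set y := |(α i).im| with hy
  have hy0 : 0 < y := abs_pos.2 hi
  have hne : α i ≠ (starRingEnd ℂ) (α i) := by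
    intro hh
    exact hi (Complex.conj_eq_iff_im.1 hh.symm)
  have hy1 : (1 / 2) ^ p.P ≤ 2 * y := by
    rcases h.gap i (c i) with h1 | h1
    · rw [hc] at h1
      exact absurd h1 hne
    · rw [hc, norm_sub_conj] at h1
      exact h1
  have hy2 : y ≤ 2 ^ p.P := (Complex.abs_im_le_norm _).trans (h.bd i)
  obtain ⟨j₀, hj1, hj2, hw⟩ := exists_windowq α i hy0
  obtain ⟨t, ht, hr1, hr2⟩ := exists_radiusq hN ha1 ha2 hy1 hy2 hj1 hj2
  have hj1' : (1 : ℝ) ≤ j₀ := by exact_mod_cast hj1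
  have hj2' : (j₀ : ℝ) ≤ p.N := by exact_mod_cast hj2
  have hN1 : (1 : ℝ) ≤ p.N := by exact_mod_cast hN
  have ha0 : 0 < a := by linarith
  have hR := p.RR_pos hN t
  have hr0 : 0 < p.RR t / a := div_pos hR ha0
  refine ⟨t, ht, ?_⟩
  have hcl : ∀ j ∈ ins α (p.RR t / a) i, c j ∈ ins α (p.RR t / a) i := by
    intro j hj
    rw [mem_ins] at hj ⊢
    have h1 := hw j
    have h2 : ‖α j - α i‖ ≤ (8 * j₀ - 4) * y := by
      rcases le_abs.1 h1 with h3 | h3
      · linarith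
      · linarith
    rw [hc, norm_conj_sub]
    have h3 : ‖α j - (starRingEnd ℂ) (α i)‖ ≤ ‖α j - α i‖ + ‖α i - (starRingEnd ℂ) (α i)‖ :=
      norm_sub_le_norm_sub_add_norm_sub _ _ _
    rw [norm_sub_conj] at h3
    linarith
  rw [wI_im c hc hr0 hR i hcl, abs_div, abs_of_pos hR, ← hy]
  have h3 : p.RR t ≤ (8 * j₀ + 1) * y * a := by
    rwa [div_le_iff₀ ha0] at hr2
  have h4 : p.RR t ≤ 27 / 2 * (p.N * y) := by
    calc p.RR t ≤ (8 * j₀ + 1) * y * a := h3
      _ ≤ (8 * p.N + p.N) * y * (3 / 2) := by gcongr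
      _ = _ := by ring
  rw [← mul_div_assoc, le_div_iff₀ hR]
  linarith

theorem wI_isreal {p : Par} {α : Fin p.N → ℂ} (h : Coord p α) {R r : ℝ} (hr : 0 < r) (hR : 0 < R)
    (i : Fin p.N) (hi : (α i).im = 0) : (wIq α R r i).im = 0 := by
  obtain ⟨c, hc⟩ := h.conj
  rw [wI_im c hc hr hR i, hi, zero_div]
  intro j hj
  rw [mem_ins] at hj ⊢
  rwa [hc, norm_conj_sub, Complex.conj_eq_iff_im.2 hi]

/-- the reality test works -/
theorem realT_nb {p : Par} {α : Fin p.N → ℂ} (h : Coord p α) {V K k₁ k₂ : ℕ} (hV : 1 ≤ V)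
    (hK : 2 ≤ K) (hM : 8 * V * K ^ 2 ≤ p.M) (hδ : 80 * (p.N * (p.N * dl K)) ≤ 1 / 10)
    (hk₁ : k₁ < V) (hk₂ : k₂ < V)
    (hg1 : ∀ t < p.T, ∀ i j, Gd V k₁ ((α j - α i) / p.R t))
    (hg2 : ∀ t < p.T, ∀ i, ∀ l ≤ p.L,
      Gd V k₂ ((wT p (seedA V k₁) α t i - (-1 + l * p.th)) / p.th)) (i : Fin p.N) :
    Nb (((1 + dl K) ^ (p.L + 1)) ^ p.T) (realT p (seedA V k₁) (seedA V k₂) α i)
      ((α i).im = 0) := by
  have hN := h.N1
  have hN1 : (1 : ℝ) ≤ p.N := by exact_mod_cast hN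
  have hN0 : (0 : ℝ) < p.N := by linarith
  have hd := dl_pos K
  have hδ' : p.N * dl K ≤ 1 / 2 := by nlinarith
  have ha1 : 1 ≤ aR V k₁ := aR_geq
  have ha2 := aR_ltq hk₁
  have hb1 : 1 ≤ aR V k₂ := aR_geq
  have hb2 := aR_ltq hk₂
  set X : ℕ → ℕ → ℂ := fun t l => (wT p (seedA V k₁) α t i - (-1 + l * p.th)) / p.th with hX
  set W : ℕ → ℂ := fun t => wIq α (p.RR t) (p.RR t / aR V k₁) i with hW
  have hth : p.th = ((1 / (20 * (p.N : ℝ)) : ℝ) : ℂ) := by
    unfold Par.th; push_cast; rfl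
  have hth0 : p.th ≠ 0 := by
    rw [hth]
    exact_mod_cast (by positivity : (1 / (20 * (p.N : ℝ)) : ℝ) ≠ 0)
  have hinv : (p.th)⁻¹ = ((20 * (p.N : ℝ) : ℝ) : ℂ) := by
    rw [hth, ← Complex.ofReal_inv, one_div, inv_inv]
  -- X is close to its ideal value
  have hclose : ∀ t < p.T, ∀ l : ℕ,
      ‖X t l - (20 * (p.N : ℝ) : ℝ) * (W t + 1) + l‖ ≤ 1 / 10 := by
    intro t ht l
    have h1 := (wT_close hN hV hK hM hδ' α t i (hg1 t ht i)).2
    have e1 : X t l - (20 * (p.N : ℝ) : ℝ) * (W t + 1) + l =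
        (20 * (p.N : ℝ) : ℝ) * (wT p (seedA V k₁) α t i - W t) := by
      rw [← hinv]
      simp only [hX]
      field_simp
      ring
    rw [e1, norm_mul, Complex.norm_real, Real.norm_eq_abs, abs_of_pos (by positivity)]
    calc 20 * (p.N : ℝ) * ‖wT p (seedA V k₁) α t i - W t‖ ≤
          20 * (p.N : ℝ) * (4 * (p.N * dl K)) := by gcongr
      _ = 80 * (p.N * (p.N * dl K)) := by ring
      _ ≤ 1 / 10 := hδ
  have hnb : Nb (((1 + dl K) ^ (p.L + 1)) ^ p.T) (realT p (seedA V k₁) (seedA V k₂) α i)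
      (∀ t ∈ range p.T, ¬∀ l ∈ range (p.L + 1), ¬‖seedA V k₂ * X t l‖ < 1) := by
    unfold realT
    have := Nb.prod (E := (1 + dl K) ^ (p.L + 1)) (range p.T)
      (z := fun t => 1 - ∏ l ∈ range (p.L + 1), (1 - thr (seedA V k₂) p.M (X t l)))
      (b := fun t => ¬∀ l ∈ range (p.L + 1), ¬‖seedA V k₂ * X t l‖ < 1) (by
        intro t ht
        have h1 := Nb.prod (E := 1 + dl K) (range (p.L + 1))
          (z := fun l => 1 - thr (seedA V k₂) p.M (X t l))
          (b := fun l => ¬‖seedA V k₂ * X t l‖ < 1) (by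
            intro l hl
            exact (thr_gd hV hK hM (hg2 t (mem_range.1 ht) i l (by
              have := mem_range.1 hl
              omega))).1.not)
        rw [card_range] at h1
        exact h1.not)
    rw [card_range] at this
    exact this
  refine hnb.congr ?_
  constructor
  · intro hall
    by_contra him
    obtain ⟨t, ht, hdet⟩ := wI_nonreal h ha1 ha2 i him
    refine hall t (mem_range.2 ht) fun l _ hlt => ?_
    rw [norm_seedA_mul] at hlt
    have h1 := hclose t ht l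
    have h2 := (Complex.abs_im_le_norm _).trans h1
    have h3 : (X t l - (20 * (p.N : ℝ) : ℝ) * (W t + 1) + l).im =
        (X t l).im - 20 * p.N * (W t).im := by
      simp [Complex.add_im, Complex.sub_im, Complex.mul_im]
    rw [h3] at h2
    have h4 : ‖X t l‖ < 1 := by
      have : 1 * ‖X t l‖ ≤ aR V k₂ * ‖X t l‖ := by gcongr
      linarith
    have h5 := (Complex.abs_im_le_norm (X t l)).trans_lt h4
    have h6 : |20 * p.N * (W t).im| ≤ |(X t l).im| + 1 / 10 := by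
      have := abs_sub_abs_le_abs_sub (20 * p.N * (W t).im) ((X t l).im)
      rw [abs_sub_comm] at this
      linarith
    rw [abs_mul, abs_of_pos (by positivity : (0 : ℝ) < 20 * p.N)] at h6
    have h7 : 2 / 27 ≤ p.N * |(W t).im| := hdet
    linarith
  · intro him t ht hall
    have ht' := mem_range.1 ht
    have hR := p.RR_pos hN t
    have hr0 : 0 < p.RR t / aR V k₁ := div_pos hR (by linarith)
    have hWr : (W t).im = 0 := wI_isreal h hr0 hR i him
    have hWn : ‖W t‖ ≤ 1 := wI_norm_le hr0 (div_le_self hR.le ha1) i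
    have hre : |(W t).re| ≤ 1 := (Complex.abs_re_le_norm _).trans hWn
    rw [abs_le] at hre
    set x : ℝ := 20 * p.N * ((W t).re + 1) with hx
    have hx0 : 0 ≤ x := by
      have : 0 ≤ (W t).re + 1 := by linarith
      positivity
    have hx1 : x ≤ 40 * p.N := by
      have : (W t).re + 1 ≤ 2 := by linarith
      calc x ≤ 20 * p.N * 2 := by rw [hx]; gcongr
        _ = _ := by ring
    set l : ℕ := ⌊x + 1 / 2⌋₊ with hl
    have hl1 : (l : ℝ) ≤ x + 1 / 2 := Nat.floor_le (by linarith)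
    have hl2 : x + 1 / 2 < l + 1 := Nat.lt_floor_add_one _
    have hlL : l ≤ p.L := by
      unfold Par.L
      have : (l : ℝ) < ((40 * p.N + 1 : ℕ) : ℝ) := by
        push_cast; linarith
      have := Nat.cast_lt.1 this
      omega
    refine hall l (mem_range.2 (by omega)) ?_
    rw [norm_seedA_mul]
    have h1 := hclose t ht' l
    have hWx : ((20 * (p.N : ℝ) : ℝ) : ℂ) * (W t + 1) = ((x : ℝ) : ℂ) := by
      have : W t = (((W t).re : ℝ) : ℂ) := by
        apply Complex.ext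
        · simp
        · simp [hWr]
      rw [this, hx]
      push_cast
      simp
    rw [hWx] at h1
    have h2 : ‖X t l‖ ≤ 1 / 10 + 1 / 2 := by
      have e : X t l = (X t l - (x : ℝ) + l) + ((x - l : ℝ) : ℂ) := by push_cast; ring
      rw [e]
      refine (norm_add_le _ _).trans ?_
      refine add_le_add h1 ?_
      rw [Complex.norm_real, Real.norm_eq_abs, abs_le]
      constructor <;> linarith
    calc aR V k₂ * ‖X t l‖ ≤ 3 / 2 * (1 / 10 + 1 / 2) := by gcongr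
      _ < 1 := by norm_num

end Crest.Agent.CHR
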